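import Mathlib
import Crest.Prelude.Def_SyntheticRicci

/-!
Row 242 (S0375): basic definitions used by all modules.
Proof plan: see the blueprint notes (rid = 242).
-/

set_option autoImplicit false

open MeasureTheory Filter Set
open scoped ENNReal NNReal Topology
open Crest.GeometryTopology.SyntheticRicci

noncomputable section

namespace Crest.Agent.R242

/-- Standing hypotheses: curvature bound `-k` with `k > 0`, dimension `N > 1`. -/
structure Hyp {X : Type*} [MetricSpace X] [MeasurableSpace X] (m : Measure X) (k N : ℝ) :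
    Prop where
  fin : IsFiniteOnBalls m
  one_lt : 1 < N
  kpos : 0 < k
  cd : IsCD m (-k) N
  hilb : IsInfHilbertian m

section Curves

variable {X : Type*} [MetricSpace X]

/-- the affine map `t ↦ a + t (b - a)` of the unit interval (clamped). -/
def subI (a b : ℝ) : C(unitInterval, unitInterval) :=
  ⟨fun t => Set.projIcc (0 : ℝ) 1 zero_le_one (a + (t : ℝ) * (b - a)),
    continuous_projIcc.comp (by fun_prop)⟩

/-- restriction of a curve to `[a,b]`, reparametrised on `[0,1]`; `subCurve 1 0` is reversal. -/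
def subCurve (a b : ℝ) (γ : UCurve X) : UCurve X := ⟨γ.toMap.comp (subI a b)⟩

/-- the dyadic time `2^{-n}`. -/
def dy (n : ℕ) : unitInterval :=
  ⟨(1 / 2 : ℝ) ^ n, by positivity, pow_le_one₀ (by norm_num) (by norm_num)⟩

/-- the midpoint of the unit interval. -/
def half : unitInterval := ⟨1 / 2, by norm_num, by norm_num⟩

/-- ascending slope. -/
def ascSlope (f : X → ℝ) (x : X) : ℝ≥0∞ :=
  Filter.limsup (fun y => ENNReal.ofReal ((f y - f x) / dist y x)) (𝓝[≠] x)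

/-- descending slope. -/
def descSlope (f : X → ℝ) (x : X) : ℝ≥0∞ :=
  Filter.limsup (fun y => ENNReal.ofReal ((f x - f y) / dist y x)) (𝓝[≠] x)

/-- Hopf-Lax transform (`s = 0`: the function itself). -/
def hopfLax (φ : X → ℝ) (s : ℝ) (x : X) : ℝ :=
  if s ≤ 0 then φ x else ⨅ y, (φ y + dist x y ^ 2 / (2 * s))

end Curves

section Transport

variable {X : Type*} [MetricSpace X] [MeasurableSpace X]

/-- squared Wasserstein distance. -/
def w2sq (μ ν : Measure X) : ℝ≥0∞ :=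
  ⨅ (q : Measure (X × X)) (_ : IsCouplingOf q μ ν), quadCost q

/-- optimal geodesic plans. -/
structure IsOptGeo (P : Measure (UCurve X)) (μ₀ μ₁ : Measure X) : Prop where
  prob : IsProbabilityMeasure P
  geod : ∀ᵐ γ ∂P, IsCSGeodesic γ
  opt : IsOptCouplingOf (endpointLaw P) μ₀ μ₁

/-- `∫_B kl(ρ) dm`, `kl(r) = r log r + 1 - r`, `ρ` the density of `μ`. -/
def entB (m : Measure X) (B : Set X) (μ : Measure X) : ℝ≥0∞ :=
  ∫⁻ x in B, ENNReal.ofReal (InformationTheory.klFun (μ.rnDeriv m x).toReal) ∂m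

/-- Kantorovich potentials attached to the ball `closedBall o R`. -/
structure IsPot (o : X) (R : ℝ) (μ₀ μ₁ : Measure X) (φ ψ : X → ℝ) : Prop where
  le_left : ∀ x, ∀ y ∈ Metric.closedBall o R, φ x + ψ y ≤ dist x y ^ 2 / 2
  le_right : ∀ x ∈ Metric.closedBall o R, ∀ y, φ x + ψ y ≤ dist x y ^ 2 / 2
  contact : ∀ q : Measure (X × X), IsOptCouplingOf q μ₀ μ₁ →
    ∀ᵐ p ∂q, φ p.1 + ψ p.2 = dist p.1 p.2 ^ 2 / 2
  lipφ : ∀ x x', |φ x - φ x'| ≤ dist x x' * ((dist x o + dist x' o) / 2 + R)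
  lipψ : ∀ x x', |ψ x - ψ x'| ≤ dist x x' * ((dist x o + dist x' o) / 2 + R)
  zero : φ o = 0

/-- the measure with real density `ρ`. -/
def dens (m : Measure X) (ρ : X → ℝ) : Measure X := m.withDensity (fun x => ENNReal.ofReal (ρ x))

end Transport

section Sobolev

variable {X : Type*} [MetricSpace X] [MeasurableSpace X]

/-- bounded and globally Lipschitz. -/
def BddLip (f : X → ℝ) : Prop := (∃ B : ℝ, ∀ x, |f x| ≤ B) ∧ ∃ L : ℝ≥0, LipschitzWith L f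

/-- `f` is bounded on every ball. -/
def LocBdd (m : Measure X) (f : X → ℝ) : Prop :=
  ∀ (o : X) (R : ℝ), ∃ B : ℝ, ∀ᵐ x ∂(m.restrict (Metric.ball o R)), |f x| ≤ B

/-- `f` is absolutely continuous along `γ` with derivative bounded by `D(γ) |γ'|`, with the right
endpoint values. -/
def CurveAC (f D : X → ℝ) (γ : UCurve X) : Prop :=
  (∫⁻ t in Set.Icc (0 : ℝ) 1, ENNReal.ofReal (D (γ.ext t)) * upperSpeed γ t) < ⊤ ∧
  ∃ u : ℝ → ℝ, u 0 = f (γ.toMap 0) ∧ u 1 = f (γ.toMap 1) ∧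
    (∀ᵐ t ∂(volume.restrict (Set.Icc (0 : ℝ) 1)), u t = f (γ.ext t)) ∧
    ∀ a b : ℝ, 0 ≤ a → a ≤ b → b ≤ 1 →
      ENNReal.ofReal |u b - u a| ≤
        ∫⁻ t in Set.Icc a b, ENNReal.ofReal (D (γ.ext t)) * upperSpeed γ t

/-- the weighted measure `e^V m`. -/
def wm (m : Measure X) (V : X → ℝ) : Measure X :=
  m.withDensity (fun x => ENNReal.ofReal (Real.exp (V x)))

/-- `u = (1 - h L)⁻¹ f` in the variational sense, for the form `∫ ⟨∇u,∇v⟩ e^V dm`. -/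
def IsRes (m : Measure X) (V : X → ℝ) (h : ℝ) (f u : X → ℝ) : Prop :=
  IsSobolev m u ∧ ∀ v : X → ℝ, IsSobolev m v →
    h * (∫ x, gradPairing m u v x ∂(wm m V)) + ∫ x, u x * v x ∂(wm m V) =
      ∫ x, f x * v x ∂(wm m V)

open Classical in
/-- the resolvent. -/
def Jr (m : Measure X) (V : X → ℝ) (h : ℝ) (f : X → ℝ) : X → ℝ :=
  if H : ∃ u : X → ℝ, IsRes m V h f u then Classical.choose H else 0

/-- the resolvent of the unweighted Laplacian. -/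
def J (m : Measure X) (h : ℝ) (f : X → ℝ) : X → ℝ := Jr m (fun _ => 0) h f

/-- the weighted energy. -/
def En (m : Measure X) (V : X → ℝ) (u v : X → ℝ) : ℝ := ∫ x, gradPairing m u v x ∂(wm m V)

/-- bounded Lipschitz function in the domain of the Laplacian, with weak Laplacian `g ∈ W^{1,2}`. -/
structure Test2 (m : Measure X) (u g : X → ℝ) : Prop where
  lap : IsWeakLaplacian m u g
  sob : IsSobolev m g
  bl : BddLip u

/-- `g = L u` weakly, for the weighted form `∫ ⟨∇u,∇v⟩ e^V dm` (for `V = 0`: `IsWeakLaplacian`). -/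
def IsWLap (m : Measure X) (V u g : X → ℝ) : Prop :=
  IsSobolev m u ∧ MemLp g 2 m ∧ ∀ v : X → ℝ, IsSobolev m v →
    ∫ x, gradPairing m u v x ∂(wm m V) = -∫ x, g x * v x ∂(wm m V)

/-- `f` vanishes a.e. outside some ball. -/
def BddSupp (m : Measure X) (f : X → ℝ) : Prop :=
  ∃ (o : X) (R : ℝ), ∀ᵐ x ∂m, x ∉ Metric.closedBall o R → f x = 0

/-- facts about small resolvents used from part G on (Bakry-Emery in weak form and mass
conservation). -/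
structure GoodJ (m : Measure X) (k h₀ : ℝ) : Prop where
  pos : 0 < h₀
  small : 4 * h₀ * k ≤ 1
  be : ∀ h, 0 < h → h ≤ h₀ → ∀ f : X → ℝ, IsSobolev m f → ∀ q : X → ℝ, 0 ≤ᵐ[m] q →
    MemLp q 1 m → MemLp q ⊤ m →
    ∫ x, q x * minWeakGrad m (J m h f) x ^ 2 ∂m ≤
      (1 - 2 * h * k)⁻¹ * ∫ x, J m h q x * minWeakGrad m f x ^ 2 ∂m
  mass : ∀ h, 0 < h → h ≤ h₀ → ∀ f : X → ℝ, MemLp f 2 m → BddSupp m f →
    Integrable (J m h f) m ∧ ∫ x, J m h f x ∂m = ∫ x, f x ∂m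

open Classical in
/-- continuous representative of `J_h J_h f`. -/
def Jc (m : Measure X) (h : ℝ) (f : X → ℝ) : X → ℝ :=
  if H : ∃ g : X → ℝ, Continuous g ∧ g =ᵐ[m] J m h (J m h f) then Classical.choose H else 0

/-- what is needed from the semigroup `P_t = e^{tL}`, `L u = Δ u + ⟨∇V,∇u⟩`. -/
structure SemigroupSpec (m : Measure X) (V : X → ℝ) (P : ℝ → (X → ℝ) → (X → ℝ)) : Prop where
  memLp : ∀ t, 0 ≤ t → ∀ f, MemLp f 2 m → MemLp (P t f) 2 m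
  congr : ∀ t, 0 ≤ t → ∀ f g, MemLp f 2 m → f =ᵐ[m] g → P t f =ᵐ[m] P t g
  add : ∀ t, 0 ≤ t → ∀ f g, MemLp f 2 m → MemLp g 2 m →
    P t (fun x => f x + g x) =ᵐ[m] fun x => P t f x + P t g x
  smul : ∀ t, 0 ≤ t → ∀ (c : ℝ) f, MemLp f 2 m → P t (fun x => c * f x) =ᵐ[m] fun x => c * P t f x
  zero : ∀ f, MemLp f 2 m → P 0 f =ᵐ[m] f
  semig : ∀ s t, 0 ≤ s → 0 ≤ t → ∀ f, MemLp f 2 m → P (s + t) f =ᵐ[m] P s (P t f)
  nonneg : ∀ t, 0 ≤ t → ∀ f, MemLp f 2 m → 0 ≤ᵐ[m] f → 0 ≤ᵐ[m] P t f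
  le_const : ∀ t, 0 ≤ t → ∀ f, MemLp f 2 m → ∀ c : ℝ, 0 ≤ c → (∀ᵐ x ∂m, f x ≤ c) →
    ∀ᵐ x ∂m, P t f x ≤ c
  symm : ∀ t, 0 ≤ t → ∀ f g, MemLp f 2 m → MemLp g 2 m →
    ∫ x, P t f x * g x ∂(wm m V) = ∫ x, f x * P t g x ∂(wm m V)
  l2 : ∀ t, 0 ≤ t → ∀ f, MemLp f 2 m →
    ∫ x, P t f x ^ 2 ∂(wm m V) ≤ ∫ x, f x ^ 2 ∂(wm m V)
  l1 : ∀ t, 0 ≤ t → ∀ f, MemLp f 2 m → Integrable f m →
    Integrable (P t f) m ∧ ∫ x, |P t f x| ∂(wm m V) ≤ ∫ x, |f x| ∂(wm m V)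
  sob : ∀ t, 0 ≤ t → ∀ f, IsSobolev m f → IsSobolev m (P t f) ∧ En m V (P t f) (P t f) ≤ En m V f f
  cont_l2 : ∀ f, MemLp f 2 m → ∀ t, 0 ≤ t →
    Tendsto (fun s => ∫ x, (P s f x - P t f x) ^ 2 ∂m) (𝓝[Set.Ici (0 : ℝ)] t) (𝓝 0)
  cont_sob : ∀ f, IsSobolev m f → ∀ t, 0 ≤ t →
    Tendsto (fun s => ∫ x, minWeakGrad m (fun x => P s f x - P t f x) x ^ 2 ∂m)
      (𝓝[Set.Ici (0 : ℝ)] t) (𝓝 0)
  gen : ∀ u g, IsWLap m V u g → ∀ t, 0 ≤ t → IsWLap m V (P t u) (P t g)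
  gen_int : ∀ u g, IsWLap m V u g → ∀ t, 0 ≤ t → ∀ q, MemLp q 2 m →
    IntervalIntegrable (fun s => ∫ x, P s g x * q x ∂(wm m V)) volume 0 t ∧
    ∫ x, (P t u x - u x) * q x ∂(wm m V) = ∫ s in (0 : ℝ)..t, ∫ x, P s g x * q x ∂(wm m V)
  comm : ∀ t, 0 ≤ t → ∀ h, 0 < h → ∀ f, MemLp f 2 m →
    P t (Jr m V h f) =ᵐ[m] Jr m V h (P t f)

end Sobolev

end Crest.Agent.R242
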