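import Mathlib
import Crest.Agent.R242.Defs

/-!
Row 242: one-curve lemmas (absolutely continuous representatives along a curve).
No plans and no minimal gradients here.
-/

set_option autoImplicit false

open MeasureTheory Filter Set
open scoped ENNReal NNReal Topology
open Crest.GeometryTopology.SyntheticRicci

noncomputable section

namespace Crest.Agent.R242

/-! ### real-variable lemmas -/

theorem ac_of_dist_le {u v : ℝ → ℝ} {a b : ℝ} {C : ℝ}
    (hC : ∀ x ∈ uIcc a b, ∀ y ∈ uIcc a b, dist (v x) (v y) ≤ C * dist (u x) (u y))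
    (hu : AbsolutelyContinuousOnInterval u a b) : AbsolutelyContinuousOnInterval v a b := by
  unfold AbsolutelyContinuousOnInterval at hu ⊢
  have h1 := hu.const_mul C
  rw [mul_zero] at h1
  refine squeeze_zero' (Eventually.of_forall fun E => Finset.sum_nonneg fun _ _ => dist_nonneg)
    ?_ h1
  have : ∀ᶠ (E : ℕ × (ℕ → ℝ × ℝ)) in AbsolutelyContinuousOnInterval.totalLengthFilter ⊓
      𝓟 (AbsolutelyContinuousOnInterval.disjWithin a b),
      E ∈ AbsolutelyContinuousOnInterval.disjWithin a b :=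
    eventually_inf_principal.mpr (by simp)
  filter_upwards [this] with E hE
  rw [Finset.mul_sum]
  refine Finset.sum_le_sum fun i hi => hC _ (hE.1 i hi).1 _ (hE.1 i hi).2

/-- a function with finite lower integral has a measurable minorant with the same integral on all
measurable sets. -/
theorem exists_measurable_minorant {α : Type*} [MeasurableSpace α] {μ : Measure α} (g : α → ℝ≥0∞)
    (hfin : ∫⁻ x, g x ∂μ ≠ ⊤) : ∃ g' : α → ℝ≥0∞, Measurable g' ∧ (∀ x, g' x ≤ g x) ∧
      ∀ s, MeasurableSet s → ∫⁻ x in s, g x ∂μ = ∫⁻ x in s, g' x ∂μ := by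
  obtain ⟨g', hm, hle, heq⟩ := exists_measurable_le_lintegral_eq μ g
  refine ⟨g', hm, hle, fun s hs => ?_⟩
  refine le_antisymm ?_ (lintegral_mono hle)
  obtain ⟨g'', hm'', hle'', heq''⟩ := exists_measurable_le_lintegral_eq (μ.restrict s) g
  rw [heq'']
  -- the function g'' on s and g' outside
  have h1 : ∫⁻ x, (s.indicator g'' x + sᶜ.indicator g' x) ∂μ ≤
      ∫⁻ x in s, g' x ∂μ + ∫⁻ x in sᶜ, g' x ∂μ := by
    rw [lintegral_add_compl g' hs, ← heq]
    refine lintegral_mono fun x => ?_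
    by_cases hx : x ∈ s
    · simp [hx, hle'' x]
    · simp [hx, hle x]
  rw [lintegral_add_left (hm''.indicator hs), lintegral_indicator hs,
    lintegral_indicator hs.compl] at h1
  have h2 : ∫⁻ x in sᶜ, g' x ∂μ ≠ ⊤ := by
    refine ne_top_of_le_ne_top hfin ?_
    calc ∫⁻ x in sᶜ, g' x ∂μ ≤ ∫⁻ x, g' x ∂μ := setLIntegral_le_lintegral _ _
      _ ≤ ∫⁻ x, g x ∂μ := lintegral_mono hle
  exact (ENNReal.add_le_add_iff_right h2).1 h1

theorem ac_and_deriv_of_bound {u : ℝ → ℝ} {g : ℝ → ℝ≥0∞}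
    (hfin : (∫⁻ t in Icc (0 : ℝ) 1, g t) < ⊤)
    (hb : ∀ a b : ℝ, 0 ≤ a → a ≤ b → b ≤ 1 → ENNReal.ofReal |u b - u a| ≤ ∫⁻ t in Icc a b, g t) :
    AbsolutelyContinuousOnInterval u 0 1 ∧
      ∀ᵐ t ∂(volume.restrict (Icc (0 : ℝ) 1)), ENNReal.ofReal |deriv u t| ≤ g t := by
  obtain ⟨g', hm, hle, heq⟩ := exists_measurable_minorant g hfin.ne
  have hfin' : (∫⁻ t in Icc (0 : ℝ) 1, g' t) < ⊤ := lt_of_le_of_lt (lintegral_mono hle) hfin
  have hsub : ∀ a b : ℝ, 0 ≤ a → a ≤ b → b ≤ 1 → (∫⁻ t in Icc a b, g t) = ∫⁻ t in Icc a b, g' t := by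
    intro a b ha hab hb1
    have h := heq (Icc a b) measurableSet_Icc
    rwa [Measure.restrict_restrict measurableSet_Icc,
      inter_eq_left.2 (Icc_subset_Icc ha hb1)] at h
  set G : ℝ → ℝ := fun x => ∫ t in (0 : ℝ)..x, (g' t).toReal with hG
  have hint : IntervalIntegrable (fun t => (g' t).toReal) volume 0 1 := by
    rw [intervalIntegrable_iff_integrableOn_Icc_of_le zero_le_one]
    exact integrable_toReal_of_lintegral_ne_top hm.aemeasurable hfin'.ne
  have hGac : AbsolutelyContinuousOnInterval G 0 1 :=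
    hint.absolutelyContinuousOnInterval_intervalIntegral (by simp)
  have hint' : ∀ a b : ℝ, 0 ≤ a → a ≤ b → b ≤ 1 →
      IntervalIntegrable (fun t => (g' t).toReal) volume a b := by
    intro a b ha hab hb1
    refine hint.mono_set ?_
    rw [uIcc_of_le hab, uIcc_of_le zero_le_one]
    exact Icc_subset_Icc ha hb1
  have hGb : ∀ a b : ℝ, 0 ≤ a → a ≤ b → b ≤ 1 → |u b - u a| ≤ G b - G a := by
    intro a b ha hab hb1
    have h1 := hb a b ha hab hb1
    rw [hsub a b ha hab hb1] at h1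
    have hfinab : (∫⁻ t in Icc a b, g' t) < ⊤ :=
      lt_of_le_of_lt (lintegral_mono_set (Icc_subset_Icc ha hb1)) hfin'
    have h2 : G b - G a = (∫⁻ t in Icc a b, g' t).toReal := by
      have h3 : G b - G a = ∫ t in a..b, (g' t).toReal := by
        rw [hG]
        exact intervalIntegral.integral_interval_sub_left (hint' 0 b le_rfl (ha.trans hab) hb1)
          (hint' 0 a le_rfl ha (hab.trans hb1))
      rw [h3, intervalIntegral.integral_of_le hab, ← integral_Icc_eq_integral_Ioc,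
        integral_toReal hm.aemeasurable]
      exact ae_lt_top hm hfinab.ne
    rw [h2]
    exact (ENNReal.ofReal_le_iff_le_toReal hfinab.ne).1 h1
  refine ⟨?_, ?_⟩
  · refine ac_of_dist_le (C := 1) ?_ hGac
    intro x hx y hy
    rw [uIcc_of_le zero_le_one] at hx hy
    rw [one_mul, Real.dist_eq, Real.dist_eq]
    rcases le_total x y with h | h
    · rw [abs_sub_comm, abs_sub_comm (G x)]
      exact (hGb x y hx.1 h hy.2).trans (le_abs_self _)
    · exact (hGb y x hy.1 h hx.2).trans (le_abs_self _)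
  · have h1 := hint.ae_hasDerivAt_integral
    have h0 : ∀ᵐ x : ℝ, x ≠ 0 := by simp [ae_iff, measure_singleton]
    have h11 : ∀ᵐ x : ℝ, x ≠ 1 := by simp [ae_iff, measure_singleton]
    have hlt := ae_lt_top hm hfin'.ne
    filter_upwards [ae_restrict_of_ae h1, ae_restrict_of_ae h0, ae_restrict_of_ae h11,
      ae_restrict_mem measurableSet_Icc, hlt] with t ht ht0 ht1 htI htfin
    have hGd : HasDerivAt G (g' t).toReal t := by
      refine ht ?_ 0 (by simp)
      rw [uIcc_of_le zero_le_one]; exact htI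
    have htIoo : t ∈ Ioo (0 : ℝ) 1 :=
      ⟨lt_of_le_of_ne htI.1 (Ne.symm ht0), lt_of_le_of_ne htI.2 ht1⟩
    by_cases hd : DifferentiableAt ℝ u t
    · have hle2 : |deriv u t| ≤ (g' t).toReal := by
        have h3 : Tendsto (fun y => |slope u t y|) (𝓝[>] t) (𝓝 |deriv u t|) :=
          ((hasDerivAt_iff_tendsto_slope.1 hd.hasDerivAt).mono_left
            (nhdsWithin_mono _ (fun y hy => ne_of_gt hy))).abs
        have h4 : Tendsto (fun y => slope G t y) (𝓝[>] t) (𝓝 (g' t).toReal) :=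
          (hasDerivAt_iff_tendsto_slope.1 hGd).mono_left
            (nhdsWithin_mono _ (fun y hy => ne_of_gt hy))
        refine le_of_tendsto_of_tendsto h3 h4 ?_
        have h5 : ∀ᶠ y in 𝓝[>] t, y < 1 :=
          mem_nhdsWithin_of_mem_nhds (Iio_mem_nhds htIoo.2)
        filter_upwards [h5, self_mem_nhdsWithin] with y hy1 hy2
        have hy2' : t < y := hy2
        rw [slope_def_field, slope_def_field, abs_div, abs_of_pos (sub_pos.2 hy2')]
        exact div_le_div_of_nonneg_right (hGb t y htI.1 hy2'.le hy1.le) (sub_pos.2 hy2').le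
      calc ENNReal.ofReal |deriv u t| ≤ ENNReal.ofReal (g' t).toReal := ENNReal.ofReal_le_ofReal hle2
        _ = g' t := ENNReal.ofReal_toReal htfin.ne
        _ ≤ g t := hle t
    · rw [deriv_zero_of_not_differentiableAt hd]
      simp

theorem bound_of_ac_and_deriv {u : ℝ → ℝ} {g : ℝ → ℝ≥0∞}
    (hu : AbsolutelyContinuousOnInterval u 0 1)
    (hd : ∀ᵐ t ∂(volume.restrict (Icc (0 : ℝ) 1)), ENNReal.ofReal |deriv u t| ≤ g t)
    {a b : ℝ} (ha : 0 ≤ a) (hab : a ≤ b) (hb : b ≤ 1) :
    ENNReal.ofReal |u b - u a| ≤ ∫⁻ t in Icc a b, g t := by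
  have hu' : AbsolutelyContinuousOnInterval u a b := by
    refine hu.mono ?_
    rw [uIcc_of_le hab, uIcc_of_le zero_le_one]
    exact Icc_subset_Icc ha hb
  rw [← hu'.integral_deriv_eq_sub, intervalIntegral.integral_of_le hab,
    ← integral_Icc_eq_integral_Ioc]
  calc ENNReal.ofReal |∫ t in Icc a b, deriv u t|
      ≤ ∫⁻ t in Icc a b, ENNReal.ofReal |deriv u t| := by
        have h := enorm_integral_le_lintegral_enorm (μ := volume.restrict (Icc a b)) (deriv u)
        simpa only [Real.enorm_eq_ofReal_abs] using h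
    _ ≤ ∫⁻ t in Icc a b, g t := by
        refine lintegral_mono_ae ?_
        exact ae_mono (Measure.restrict_mono (Icc_subset_Icc ha hb) le_rfl) hd

/-- at almost every time at which `u` takes the value `c`, the derivative vanishes (where it
exists). -/
theorem countable_level_deriv_ne_zero (u : ℝ → ℝ) (c : ℝ) :
    {t : ℝ | u t = c ∧ deriv u t ≠ 0}.Countable := by
  set S := {t : ℝ | u t = c ∧ deriv u t ≠ 0} with hS
  have key : ∀ t ∈ S, ∃ p q : ℚ, (p : ℝ) < t ∧ t < (q : ℝ) ∧
      ∀ s, (p : ℝ) < s → s < (q : ℝ) → s ≠ t → u s ≠ c := by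
    intro t ht
    have hd : DifferentiableAt ℝ u t := by
      by_contra hnd
      exact ht.2 (deriv_zero_of_not_differentiableAt hnd)
    have h1 := hd.hasDerivAt.eventually_ne (c := c) ht.2
    rw [eventually_nhdsWithin_iff, Metric.eventually_nhds_iff] at h1
    obtain ⟨ε, hε, h2⟩ := h1
    obtain ⟨p, hp1, hp2⟩ := exists_rat_btwn (show t - ε < t by linarith)
    obtain ⟨q, hq1, hq2⟩ := exists_rat_btwn (show t < t + ε by linarith)
    refine ⟨p, q, hp2, hq1, fun s hs1 hs2 hst => h2 ?_ hst⟩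
    rw [Real.dist_eq, abs_lt]
    constructor <;> linarith
  choose! p q hp hq hpq using key
  refine Set.MapsTo.countable_of_injOn (f := fun t => (p t, q t)) (t := univ)
    (fun _ _ => mem_univ _) ?_ (Set.countable_univ)
  intro s hs t ht hst
  by_contra hne
  simp only [Prod.mk.injEq] at hst
  refine hpq t ht s ?_ ?_ hne hs.1
  · rw [← hst.1]; exact hp s hs
  · rw [← hst.2]; exact hq s hs

theorem ae_deriv_eq_zero_of_mem_countable (u : ℝ → ℝ) {Z : Set ℝ} (hZ : Z.Countable) :
    ∀ᵐ t : ℝ, u t ∈ Z → deriv u t = 0 := by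
  have h : {t : ℝ | ¬ (u t ∈ Z → deriv u t = 0)} ⊆ ⋃ c ∈ Z, {t : ℝ | u t = c ∧ deriv u t ≠ 0} := by
    intro t ht
    simp only [Set.mem_ofPred_eq, Classical.not_imp] at ht
    simp only [mem_iUnion]
    exact ⟨u t, ht.1, rfl, ht.2⟩
  rw [ae_iff]
  exact ((hZ.biUnion fun c _ => countable_level_deriv_ne_zero u c).mono h).measure_zero volume

end Crest.Agent.R242
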