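import Mathlib

/-!
# Closed nonnegative symmetric forms on a real Hilbert space, resolvents
(row 242, part R, layer 1)
-/

set_option autoImplicit false
open Filter Topology
open scoped RealInnerProductSpace

namespace Crest.Agent.R242

/-- A densely defined closed nonnegative symmetric form on a real inner product space. -/
structure CForm (H : Type*) [NormedAddCommGroup H] [InnerProductSpace ℝ H] where
  dom : Submodule ℝ H
  E : H → H → ℝ
  add_left' : ∀ {u v w : H}, u ∈ dom → v ∈ dom → w ∈ dom → E (u + v) w = E u w + E v w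
  smul_left' : ∀ (c : ℝ) {u v : H}, u ∈ dom → v ∈ dom → E (c • u) v = c * E u v
  symm' : ∀ {u v : H}, u ∈ dom → v ∈ dom → E u v = E v u
  nonneg' : ∀ {u : H}, u ∈ dom → 0 ≤ E u u
  closed' : ∀ (u : ℕ → H) (f : H) (C : ℝ), (∀ n, u n ∈ dom) → (∀ n, E (u n) (u n) ≤ C) →
    Tendsto u atTop (𝓝 f) → f ∈ dom ∧ E f f ≤ C
  dense' : Dense (dom : Set H)

namespace CForm

variable {H : Type*} [NormedAddCommGroup H] [InnerProductSpace ℝ H] (Q : CForm H)

lemma add_left {u v w : H} (hu : u ∈ Q.dom) (hv : v ∈ Q.dom) (hw : w ∈ Q.dom) :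
    Q.E (u + v) w = Q.E u w + Q.E v w := Q.add_left' hu hv hw

lemma symm {u v : H} (hu : u ∈ Q.dom) (hv : v ∈ Q.dom) : Q.E u v = Q.E v u := Q.symm' hu hv

lemma nonneg {u : H} (hu : u ∈ Q.dom) : 0 ≤ Q.E u u := Q.nonneg' hu

lemma smul_left (c : ℝ) {u v : H} (hu : u ∈ Q.dom) (hv : v ∈ Q.dom) :
    Q.E (c • u) v = c * Q.E u v := Q.smul_left' c hu hv

lemma add_right {u v w : H} (hu : u ∈ Q.dom) (hv : v ∈ Q.dom) (hw : w ∈ Q.dom) :
    Q.E u (v + w) = Q.E u v + Q.E u w := by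
  rw [Q.symm hu (Q.dom.add_mem hv hw), Q.add_left hv hw hu, Q.symm hv hu, Q.symm hw hu]

lemma smul_right (c : ℝ) {u v : H} (hu : u ∈ Q.dom) (hv : v ∈ Q.dom) :
    Q.E u (c • v) = c * Q.E u v := by
  rw [Q.symm hu (Q.dom.smul_mem c hv), Q.smul_left c hv hu, Q.symm hv hu]

lemma neg_left {u v : H} (hu : u ∈ Q.dom) (hv : v ∈ Q.dom) : Q.E (-u) v = -Q.E u v := by
  have := Q.smul_left (-1) hu hv
  simpa using this

lemma neg_right {u v : H} (hu : u ∈ Q.dom) (hv : v ∈ Q.dom) : Q.E u (-v) = -Q.E u v := by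
  have := Q.smul_right (-1) hu hv
  simpa using this

lemma sub_left {u v w : H} (hu : u ∈ Q.dom) (hv : v ∈ Q.dom) (hw : w ∈ Q.dom) :
    Q.E (u - v) w = Q.E u w - Q.E v w := by
  rw [sub_eq_add_neg, Q.add_left hu (Q.dom.neg_mem hv) hw, Q.neg_left hv hw, sub_eq_add_neg]

lemma sub_right {u v w : H} (hu : u ∈ Q.dom) (hv : v ∈ Q.dom) (hw : w ∈ Q.dom) :
    Q.E u (v - w) = Q.E u v - Q.E u w := by
  rw [sub_eq_add_neg, Q.add_right hu hv (Q.dom.neg_mem hw), Q.neg_right hu hw, sub_eq_add_neg]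

lemma zero_left {v : H} (hv : v ∈ Q.dom) : Q.E 0 v = 0 := by
  have := Q.smul_left 0 (Q.dom.zero_mem) hv
  simpa using this

lemma zero_right {v : H} (hv : v ∈ Q.dom) : Q.E v 0 = 0 := by
  have := Q.smul_right 0 hv (Q.dom.zero_mem)
  simpa using this

lemma expand {u v : H} (hu : u ∈ Q.dom) (hv : v ∈ Q.dom) (t : ℝ) :
    Q.E (u + t • v) (u + t • v) = Q.E u u + 2 * t * Q.E u v + t ^ 2 * Q.E v v := by
  have htv := Q.dom.smul_mem t hv
  rw [Q.add_left hu htv (Q.dom.add_mem hu htv), Q.add_right hu hu htv, Q.add_right htv hu htv,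
    Q.smul_right t hu hv, Q.smul_left t hv hu, Q.smul_left t hv htv, Q.smul_right t hv hv,
    Q.symm hv hu]
  ring

lemma expand_sub {u v : H} (hu : u ∈ Q.dom) (hv : v ∈ Q.dom) :
    Q.E (u - v) (u - v) = Q.E u u - 2 * Q.E u v + Q.E v v := by
  have := Q.expand hu hv (-1)
  have e : u + (-1 : ℝ) • v = u - v := by simp [sub_eq_add_neg]
  rw [e] at this
  rw [this]; ring

lemma expand_add {u v : H} (hu : u ∈ Q.dom) (hv : v ∈ Q.dom) :
    Q.E (u + v) (u + v) = Q.E u u + 2 * Q.E u v + Q.E v v := by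
  have := Q.expand hu hv 1
  have e : u + (1 : ℝ) • v = u + v := by simp
  rw [e] at this
  rw [this]; ring

/-- Cauchy-Schwarz. -/
lemma cs {u v : H} (hu : u ∈ Q.dom) (hv : v ∈ Q.dom) :
    (Q.E u v) ^ 2 ≤ Q.E u u * Q.E v v := by
  have h : ∀ t : ℝ, 0 ≤ Q.E v v * (t * t) + (2 * Q.E u v) * t + Q.E u u := by
    intro t
    have h1 := Q.nonneg (Q.dom.add_mem hu (Q.dom.smul_mem t hv))
    rw [Q.expand hu hv t] at h1
    nlinarith
  have h2 := discrim_le_zero h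
  unfold discrim at h2
  nlinarith

lemma abs_le_sqrt {u v : H} (hu : u ∈ Q.dom) (hv : v ∈ Q.dom) :
    |Q.E u v| ≤ Real.sqrt (Q.E u u) * Real.sqrt (Q.E v v) := by
  rw [← Real.sqrt_mul (Q.nonneg hu)]
  exact Real.abs_le_sqrt (Q.cs hu hv)

lemma two_mul_le {u v : H} (hu : u ∈ Q.dom) (hv : v ∈ Q.dom) :
    2 * Q.E u v ≤ Q.E u u + Q.E v v := by
  have := Q.nonneg (Q.dom.sub_mem hu hv)
  rw [Q.expand_sub hu hv] at this
  linarith

/-- Minkowski. -/
lemma sqrt_add_le {u v : H} (hu : u ∈ Q.dom) (hv : v ∈ Q.dom) :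
    Real.sqrt (Q.E (u + v) (u + v)) ≤ Real.sqrt (Q.E u u) + Real.sqrt (Q.E v v) := by
  have h1 := Q.abs_le_sqrt hu hv
  apply Real.sqrt_le_iff.mpr
  refine ⟨by positivity, ?_⟩
  rw [Q.expand_add hu hv]
  have e1 := Real.sq_sqrt (Q.nonneg hu)
  have e2 := Real.sq_sqrt (Q.nonneg hv)
  nlinarith [le_abs_self (Q.E u v)]

/-! ### existence of the resolvent -/

private lemma lin_eq_zero_of_forall {A B : ℝ} (h : ∀ t : ℝ, 0 ≤ 2 * t * A + t ^ 2 * B) : A = 0 := by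
  have h1 : ∀ t : ℝ, 0 ≤ B * (t * t) + (2 * A) * t + 0 := by
    intro t; have := h t; nlinarith
  have h2 := discrim_le_zero h1
  unfold discrim at h2
  nlinarith

variable [CompleteSpace H]

theorem exists_res {h : ℝ} (hh : 0 < h) (f : H) :
    ∃ u ∈ Q.dom, ∀ v ∈ Q.dom, h * Q.E u v + ⟪u, v⟫ = ⟪f, v⟫ := by
  classical
  set Φ : H → ℝ := fun u => h * Q.E u u + ‖u - f‖ ^ 2 with hΦ
  set S : Set ℝ := Φ '' (Q.dom : Set H) with hS
  have hSne : S.Nonempty := ⟨Φ 0, 0, Q.dom.zero_mem, rfl⟩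
  have hΦ0 : ∀ u ∈ Q.dom, 0 ≤ Φ u := fun u hu => by
    have := Q.nonneg hu
    simp only [hΦ]; positivity
  have hSb : BddBelow S := ⟨0, by rintro _ ⟨u, hu, rfl⟩; exact hΦ0 u hu⟩
  set I := sInf S with hI
  have hIle : ∀ u ∈ Q.dom, I ≤ Φ u := fun u hu => csInf_le hSb ⟨u, hu, rfl⟩
  have hex : ∀ n : ℕ, ∃ u ∈ Q.dom, Φ u < I + 1 / ((n : ℝ) + 1) := by
    intro n
    obtain ⟨_, ⟨u, hu, rfl⟩, hlt⟩ := exists_lt_of_csInf_lt hSne
      (show sInf S < I + 1 / ((n : ℝ) + 1) by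
        have : (0 : ℝ) < 1 / ((n : ℝ) + 1) := by positivity
        linarith)
    exact ⟨u, hu, hlt⟩
  choose u hu hlt using hex
  -- parallelogram
  have hpar : ∀ a ∈ Q.dom, ∀ b ∈ Q.dom, ‖a - b‖ ^ 2 ≤ 2 * (Φ a + Φ b - 2 * I) := by
    intro a ha b hb
    have hm : (1 / 2 : ℝ) • a + (1 / 2 : ℝ) • b ∈ Q.dom :=
      Q.dom.add_mem (Q.dom.smul_mem _ ha) (Q.dom.smul_mem _ hb)
    have h1 := hIle _ hm
    have hE : Q.E ((1 / 2 : ℝ) • a + (1 / 2 : ℝ) • b) ((1 / 2 : ℝ) • a + (1 / 2 : ℝ) • b) =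
        (1 / 4) * (Q.E a a + 2 * Q.E a b + Q.E b b) := by
      rw [Q.expand (Q.dom.smul_mem _ ha) hb, Q.smul_left _ ha hb, Q.smul_left _ ha (Q.dom.smul_mem _ ha),
        Q.smul_right _ ha ha]
      ring
    have hEs := Q.nonneg (Q.dom.sub_mem ha hb)
    rw [Q.expand_sub ha hb] at hEs
    have hn1 : (1 / 2 : ℝ) • a + (1 / 2 : ℝ) • b - f =
        (1 / 2 : ℝ) • ((a - f) + (b - f)) := by
      module
    have hn2 : a - b = (a - f) - (b - f) := by abel
    simp only [hΦ] at h1 ⊢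
    rw [hE, hn1, norm_smul, mul_pow, norm_add_sq_real] at h1
    rw [hn2, norm_sub_sq_real]
    have h12 : ‖(1 / 2 : ℝ)‖ ^ 2 = 1 / 4 := by norm_num
    rw [h12] at h1
    nlinarith
  -- Cauchy
  have hcau : CauchySeq u := by
    refine cauchySeq_of_le_tendsto_0 (fun N : ℕ => Real.sqrt (4 / ((N : ℝ) + 1))) ?_ ?_
    · intro n m N hn hm
      rw [dist_eq_norm]
      apply Real.le_sqrt_of_sq_le
      have h1 := hpar _ (hu n) _ (hu m)
      have h2 := hlt n
      have h3 := hlt m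
      have h4 : 1 / ((n : ℝ) + 1) ≤ 1 / ((N : ℝ) + 1) := by
        apply one_div_le_one_div_of_le (by positivity)
        have : (N : ℝ) ≤ n := by exact_mod_cast hn
        linarith
      have h5 : 1 / ((m : ℝ) + 1) ≤ 1 / ((N : ℝ) + 1) := by
        apply one_div_le_one_div_of_le (by positivity)
        have : (N : ℝ) ≤ m := by exact_mod_cast hm
        linarith
      have h6 : 4 / ((N : ℝ) + 1) = 4 * (1 / ((N : ℝ) + 1)) := by ring
      rw [h6]
      linarith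
    · have h1 : Tendsto (fun N : ℕ => 4 / ((N : ℝ) + 1)) atTop (𝓝 0) := by
        have := (tendsto_one_div_add_atTop_nhds_zero_nat (𝕜 := ℝ)).const_mul 4
        simpa [div_eq_mul_inv] using this
      have := h1.sqrt
      simpa using this
  obtain ⟨w, hw⟩ := cauchySeq_tendsto_of_complete hcau
  have hΦlim : Tendsto (fun n : ℕ => I + 1 / ((n : ℝ) + 1) - ‖u n - f‖ ^ 2) atTop (𝓝 (I + 0 - ‖w - f‖ ^ 2)) := by
    refine Tendsto.sub (Tendsto.const_add _ tendsto_one_div_add_atTop_nhds_zero_nat) ?_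
    exact ((hw.sub_const f).norm).pow 2
  have key : ∀ ε > 0, w ∈ Q.dom ∧ h * Q.E w w ≤ I + ε - ‖w - f‖ ^ 2 := by
    intro ε hε
    have hev : ∀ᶠ n : ℕ in atTop, I + 1 / ((n : ℝ) + 1) - ‖u n - f‖ ^ 2 < I + ε - ‖w - f‖ ^ 2 :=
      hΦlim.eventually_lt_const (by linarith)
    obtain ⟨N, hN⟩ := eventually_atTop.mp hev
    have := Q.closed' (fun n => u (n + N)) w ((I + ε - ‖w - f‖ ^ 2) / h) (fun n => hu _)
      (fun n => by
        rw [le_div_iff₀ hh]
        have h1 := hlt (n + N)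
        have h2 := hN (n + N) (by omega)
        simp only [hΦ] at h1
        linarith) (hw.comp (tendsto_add_atTop_nat N))
    refine ⟨this.1, ?_⟩
    have h3 := (le_div_iff₀ hh).mp this.2
    linarith
  have hwd : w ∈ Q.dom := (key 1 one_pos).1
  have hmin : Φ w ≤ I := by
    apply le_of_forall_pos_le_add
    intro ε hε
    have := (key ε hε).2
    simp only [hΦ]; linarith
  refine ⟨w, hwd, fun v hv => ?_⟩
  have hvar : h * Q.E w v + ⟪w - f, v⟫ = 0 := by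
    apply lin_eq_zero_of_forall (B := h * Q.E v v + ‖v‖ ^ 2)
    intro t
    have h1 := hIle _ (Q.dom.add_mem hwd (Q.dom.smul_mem t hv))
    have h2 : Φ (w + t • v) = Φ w + (2 * t * (h * Q.E w v + ⟪w - f, v⟫) +
        t ^ 2 * (h * Q.E v v + ‖v‖ ^ 2)) := by
      simp only [hΦ]
      rw [Q.expand hwd hv]
      have : w + t • v - f = (w - f) + t • v := by abel
      rw [this, norm_add_sq_real, norm_smul, real_inner_smul_right, mul_pow, Real.norm_eq_abs, sq_abs]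
      ring
    rw [h2] at h1
    linarith
  rw [inner_sub_left] at hvar
  linarith

/-- The resolvent `J_h f` as a function: the solution `u` of `h E(u,v) + ⟪u,v⟫ = ⟪f,v⟫`. -/
noncomputable def resFun (h : ℝ) (f : H) : H :=
  open Classical in
  if hh : 0 < h then Classical.choose (Q.exists_res hh f) else f

lemma resFun_mem {h : ℝ} (hh : 0 < h) (f : H) : Q.resFun h f ∈ Q.dom := by
  unfold resFun; rw [dif_pos hh]; exact (Classical.choose_spec (Q.exists_res hh f)).1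

lemma resFun_eq {h : ℝ} (hh : 0 < h) (f : H) {v : H} (hv : v ∈ Q.dom) :
    h * Q.E (Q.resFun h f) v + ⟪Q.resFun h f, v⟫ = ⟪f, v⟫ := by
  unfold resFun; rw [dif_pos hh]; exact (Classical.choose_spec (Q.exists_res hh f)).2 v hv

/-- uniqueness -/
lemma eq_resFun {h : ℝ} (hh : 0 < h) {f u : H} (hu : u ∈ Q.dom)
    (he : ∀ v ∈ Q.dom, h * Q.E u v + ⟪u, v⟫ = ⟪f, v⟫) : u = Q.resFun h f := by
  have hw := Q.resFun_mem hh f
  set w := Q.resFun h f with hwdef
  have h1 := he (u - w) (Q.dom.sub_mem hu hw)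
  have h2 := Q.resFun_eq hh f (Q.dom.sub_mem hu hw)
  rw [← hwdef] at h2
  have h3 : h * Q.E (u - w) (u - w) + ⟪u - w, u - w⟫ = 0 := by
    rw [Q.sub_left hu hw (Q.dom.sub_mem hu hw), inner_sub_left]
    linarith
  have h4 := Q.nonneg (Q.dom.sub_mem hu hw)
  rw [real_inner_self_eq_norm_sq] at h3
  have h5 : ‖u - w‖ ^ 2 = 0 := by nlinarith [sq_nonneg ‖u - w‖, mul_nonneg hh.le h4]
  have h6 : ‖u - w‖ = 0 := by simpa using h5
  exact sub_eq_zero.mp (norm_eq_zero.mp h6)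

lemma resFun_add {h : ℝ} (hh : 0 < h) (f g : H) :
    Q.resFun h (f + g) = Q.resFun h f + Q.resFun h g := by
  symm
  refine Q.eq_resFun hh (Q.dom.add_mem (Q.resFun_mem hh f) (Q.resFun_mem hh g)) fun v hv => ?_
  rw [Q.add_left (Q.resFun_mem hh f) (Q.resFun_mem hh g) hv, inner_add_left, inner_add_left,
    ← Q.resFun_eq hh f hv, ← Q.resFun_eq hh g hv]
  ring

lemma resFun_smul {h : ℝ} (hh : 0 < h) (c : ℝ) (f : H) :
    Q.resFun h (c • f) = c • Q.resFun h f := by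
  symm
  refine Q.eq_resFun hh (Q.dom.smul_mem c (Q.resFun_mem hh f)) fun v hv => ?_
  rw [Q.smul_left c (Q.resFun_mem hh f) hv, real_inner_smul_left, real_inner_smul_left,
    ← Q.resFun_eq hh f hv]
  ring

lemma norm_resFun_le {h : ℝ} (hh : 0 < h) (f : H) : ‖Q.resFun h f‖ ≤ ‖f‖ := by
  have hw := Q.resFun_mem hh f
  have h1 := Q.resFun_eq hh f hw
  rw [real_inner_self_eq_norm_sq] at h1
  have h2 := real_inner_le_norm f (Q.resFun h f)
  have h3 := mul_nonneg hh.le (Q.nonneg hw)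
  by_contra hcon
  push Not at hcon
  have h4 : 0 < ‖Q.resFun h f‖ := lt_of_le_of_lt (norm_nonneg _) hcon
  nlinarith

/-- The resolvent `J_h = (1 - h L)⁻¹` as a continuous linear map (identity for `h ≤ 0`). -/
noncomputable def res (h : ℝ) : H →L[ℝ] H :=
  open Classical in
  if hh : 0 < h then
    LinearMap.mkContinuous
      { toFun := Q.resFun h
        map_add' := Q.resFun_add hh
        map_smul' := fun c f => Q.resFun_smul hh c f } 1
      (fun f => by simpa using Q.norm_resFun_le hh f)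
  else ContinuousLinearMap.id ℝ H

lemma res_apply {h : ℝ} (hh : 0 < h) (f : H) : Q.res h f = Q.resFun h f := by
  unfold res; rw [dif_pos hh]; rfl

lemma res_of_nonpos {h : ℝ} (hh : h ≤ 0) : Q.res h = ContinuousLinearMap.id ℝ H := by
  unfold res; rw [dif_neg (not_lt.mpr hh)]

lemma res_mem {h : ℝ} (hh : 0 < h) (f : H) : Q.res h f ∈ Q.dom := by
  rw [Q.res_apply hh]; exact Q.resFun_mem hh f

/-- The weak equation. -/
lemma res_eq {h : ℝ} (hh : 0 < h) (f : H) {v : H} (hv : v ∈ Q.dom) :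
    h * Q.E (Q.res h f) v + ⟪Q.res h f, v⟫ = ⟪f, v⟫ := by
  rw [Q.res_apply hh]; exact Q.resFun_eq hh f hv

lemma E_res {h : ℝ} (hh : 0 < h) (f : H) {v : H} (hv : v ∈ Q.dom) :
    Q.E (Q.res h f) v = ⟪f - Q.res h f, v⟫ / h := by
  rw [eq_div_iff hh.ne', inner_sub_left]
  linarith [Q.res_eq hh f hv]

lemma eq_res {h : ℝ} (hh : 0 < h) {f u : H} (hu : u ∈ Q.dom)
    (he : ∀ v ∈ Q.dom, h * Q.E u v + ⟪u, v⟫ = ⟪f, v⟫) : u = Q.res h f := by
  rw [Q.res_apply hh]; exact Q.eq_resFun hh hu he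

lemma norm_res_le {h : ℝ} (f : H) : ‖Q.res h f‖ ≤ ‖f‖ := by
  by_cases hh : 0 < h
  · rw [Q.res_apply hh]; exact Q.norm_resFun_le hh f
  · rw [Q.res_of_nonpos (not_lt.mp hh)]; simp

lemma opNorm_res_le (h : ℝ) : ‖Q.res h‖ ≤ 1 :=
  ContinuousLinearMap.opNorm_le_bound _ zero_le_one (fun f => by simpa using Q.norm_res_le f)

lemma res_symm (h : ℝ) (f g : H) : ⟪Q.res h f, g⟫ = ⟪f, Q.res h g⟫ := by
  by_cases hh : 0 < h
  · have h1 := Q.res_eq hh f (Q.res_mem hh g)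
    have h2 := Q.res_eq hh g (Q.res_mem hh f)
    rw [Q.symm (Q.res_mem hh g) (Q.res_mem hh f)] at h2
    rw [real_inner_comm (Q.res h f) (Q.res h g)] at h2
    rw [← h1, real_inner_comm g (Q.res h f), ← h2]
  · rw [Q.res_of_nonpos (not_lt.mp hh)]; simp

lemma inner_res_self_eq {h : ℝ} (hh : 0 < h) (f : H) :
    ⟪Q.res h f, f⟫ = h * Q.E (Q.res h f) (Q.res h f) + ‖Q.res h f‖ ^ 2 := by
  have := Q.res_eq hh f (Q.res_mem hh f)
  rw [real_inner_self_eq_norm_sq] at this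
  rw [real_inner_comm]; linarith

lemma norm_sq_res_le_inner (h : ℝ) (f : H) : ‖Q.res h f‖ ^ 2 ≤ ⟪Q.res h f, f⟫ := by
  by_cases hh : 0 < h
  · rw [Q.inner_res_self_eq hh]
    have := mul_nonneg hh.le (Q.nonneg (Q.res_mem hh f))
    linarith
  · rw [Q.res_of_nonpos (not_lt.mp hh)]; simp

lemma inner_res_self_nonneg (h : ℝ) (f : H) : 0 ≤ ⟪Q.res h f, f⟫ :=
  le_trans (sq_nonneg _) (Q.norm_sq_res_le_inner h f)

lemma norm_sq_add_le {h : ℝ} (hh : 0 < h) (f : H) :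
    h * Q.E (Q.res h f) (Q.res h f) + ‖Q.res h f‖ ^ 2 ≤ ‖f‖ ^ 2 := by
  rw [← Q.inner_res_self_eq hh]
  have h1 := real_inner_le_norm (Q.res h f) f
  have h2 := Q.norm_res_le (h := h) f
  nlinarith [norm_nonneg f, norm_nonneg (Q.res h f)]

lemma two_mul_E_res_le {h : ℝ} (hh : 0 < h) (f : H) :
    2 * h * Q.E (Q.res h f) (Q.res h f) ≤ ‖f‖ ^ 2 - ‖Q.res h f‖ ^ 2 := by
  -- ⟪J f, f⟫ ≤ (‖Jf‖²+‖f‖²)/2
  have h0 := Q.inner_res_self_eq hh f
  have h1 : ⟪Q.res h f, f⟫ ≤ (‖Q.res h f‖ ^ 2 + ‖f‖ ^ 2) / 2 := by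
    have := sq_nonneg ‖Q.res h f - f‖
    rw [norm_sub_sq_real] at this
    linarith
  linarith

section dom

variable {h : ℝ} (hh : 0 < h) {f : H} (hf : f ∈ Q.dom)
include hh hf

lemma norm_sub_res_sq : ‖f - Q.res h f‖ ^ 2 = h * Q.E (Q.res h f) (f - Q.res h f) := by
  have h1 := Q.res_eq hh f (Q.dom.sub_mem hf (Q.res_mem hh f))
  rw [← real_inner_self_eq_norm_sq, inner_sub_left]
  linarith

lemma E_res_le_E_res_self : Q.E (Q.res h f) (Q.res h f) ≤ Q.E (Q.res h f) f := by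
  have h1 := Q.norm_sub_res_sq hh hf
  rw [Q.sub_right (Q.res_mem hh f) hf (Q.res_mem hh f)] at h1
  have h2 : 0 ≤ h * (Q.E (Q.res h f) f - Q.E (Q.res h f) (Q.res h f)) := by
    rw [← h1]; positivity
  have h3 := nonneg_of_mul_nonneg_right h2 hh
  linarith

/-- energy decreases -/
lemma E_res_le : Q.E (Q.res h f) (Q.res h f) ≤ Q.E f f := by
  have h1 := Q.E_res_le_E_res_self hh hf
  have h2 := Q.two_mul_le (Q.res_mem hh f) hf
  linarith

lemma E_res_self_le : Q.E (Q.res h f) f ≤ Q.E f f := by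
  have h1 := Q.E_res_le hh hf
  have h2 := Q.two_mul_le (Q.res_mem hh f) hf
  linarith

lemma E_sub_res_le : Q.E (f - Q.res h f) (f - Q.res h f) ≤ Q.E f f - Q.E (Q.res h f) (Q.res h f) := by
  rw [Q.expand_sub hf (Q.res_mem hh f), Q.symm hf (Q.res_mem hh f)]
  have := Q.E_res_le_E_res_self hh hf
  linarith

lemma norm_sub_res_sq_le : ‖f - Q.res h f‖ ^ 2 ≤ h * Q.E f f := by
  rw [Q.norm_sub_res_sq hh hf, Q.sub_right (Q.res_mem hh f) hf (Q.res_mem hh f)]
  have h1 := Q.E_res_self_le hh hf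
  have h2 := Q.nonneg (Q.res_mem hh f)
  apply mul_le_mul_of_nonneg_left _ hh.le
  linarith

end dom

/-- resolvent identity -/
lemma res_res {g h : ℝ} (hg : 0 < g) (hh : 0 < h) (f : H) :
    Q.res h f = Q.res g ((g / h) • f + (1 - g / h) • Q.res h f) := by
  refine Q.eq_res hg (Q.res_mem hh f) fun v hv => ?_
  have h1 := Q.res_eq hh f hv
  rw [inner_add_left, real_inner_smul_left, real_inner_smul_left, ← h1]
  field_simp
  ring

lemma sub_res_mem_iff {h : ℝ} (hh : 0 < h) (f : H) : f - Q.res h f ∈ Q.dom ↔ f ∈ Q.dom := by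
  constructor
  · intro h1
    have := Q.dom.add_mem h1 (Q.res_mem hh f)
    simpa using this
  · intro h1; exact Q.dom.sub_mem h1 (Q.res_mem hh f)

/-- The resolvents commute with each other. -/
lemma res_comm (g h : ℝ) (f : H) : Q.res g (Q.res h f) = Q.res h (Q.res g f) := by
  by_cases hg : 0 < g
  swap
  · rw [Q.res_of_nonpos (not_lt.mp hg)]; simp
  by_cases hh : 0 < h
  swap
  · rw [Q.res_of_nonpos (not_lt.mp hh)]; simp
  -- h J_g E-equation: test both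
  symm
  refine Q.eq_res hg (Q.res_mem hh _) fun v hv => ?_
  -- u = J_h J_g f; want g E(u,v)+⟪u,v⟫ = ⟪J_h f, v⟫
  have e1 : ∀ x : H, Q.E (Q.res h x) v = ⟪x - Q.res h x, v⟫ / h := fun x => Q.E_res hh x hv
  rw [e1, inner_sub_left]
  -- ⟪J_h J_g f, v⟫ = ⟪J_g f, J_h v⟫ ; use E(J_g f, J_h v)
  have e2 : Q.E (Q.res g f) (Q.res h v) = ⟪f - Q.res g f, Q.res h v⟫ / g := Q.E_res hg f (Q.res_mem hh v)
  have e3 : Q.E (Q.res h v) (Q.res g f) = ⟪v - Q.res h v, Q.res g f⟫ / h := Q.E_res hh v (Q.res_mem hg f)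
  rw [Q.symm (Q.res_mem hh v) (Q.res_mem hg f)] at e3
  rw [e2] at e3
  rw [inner_sub_left, inner_sub_left, real_inner_comm (Q.res g f) v,
    real_inner_comm (Q.res g f) (Q.res h v), ← Q.res_symm h f v, ← Q.res_symm h (Q.res g f) v] at e3
  field_simp at e3 ⊢
  linarith

end CForm

end Crest.Agent.R242
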