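import Mathlib
import Crest.Agent.R242.Form

/-!
# Resolvents of closed forms: strong convergence as `h → 0` (row 242, part R, layer 1)
-/

set_option autoImplicit false
open Filter Topology
open scoped RealInnerProductSpace

namespace Crest.Agent.R242

namespace CForm

variable {H : Type*} [NormedAddCommGroup H] [InnerProductSpace ℝ H] (Q : CForm H)

variable [CompleteSpace H]

lemma norm_sub_res_le {h : ℝ} (hh : 0 < h) {f : H} (hf : f ∈ Q.dom) :
    ‖Q.res h f - f‖ ≤ Real.sqrt (h * Q.E f f) := by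
  apply Real.le_sqrt_of_sq_le
  rw [norm_sub_rev]
  exact Q.norm_sub_res_sq_le hh hf

/-- strong convergence on `H`. -/
theorem res_tendsto (f : H) : Tendsto (fun h => Q.res h f) (𝓝[>] 0) (𝓝 f) := by
  rw [Metric.tendsto_nhds]
  intro ε hε
  obtain ⟨g, hg, hfg⟩ := Metric.dense_iff.1 Q.dense' f (ε / 4) (by positivity)
  have h1 : Tendsto (fun h : ℝ => Real.sqrt (h * Q.E g g)) (𝓝[>] 0) (𝓝 0) := by
    have h2 : Tendsto (fun h : ℝ => Real.sqrt (h * Q.E g g)) (𝓝 0) (𝓝 (Real.sqrt (0 * Q.E g g))) :=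
      (continuous_id.mul continuous_const).sqrt.tendsto 0
    simp only [zero_mul, Real.sqrt_zero] at h2
    exact h2.mono_left nhdsWithin_le_nhds
  have h3 : ∀ᶠ h in 𝓝[>] (0 : ℝ), Real.sqrt (h * Q.E g g) < ε / 4 :=
    h1.eventually_lt_const (by positivity)
  have h4 : ∀ᶠ h in 𝓝[>] (0 : ℝ), 0 < h := self_mem_nhdsWithin
  filter_upwards [h3, h4] with h h5 h6
  have h7 := Q.norm_sub_res_le h6 hfg
  rw [dist_eq_norm]
  have h8 : ‖f - g‖ < ε / 4 := by
    rw [← dist_eq_norm, dist_comm]; exact hg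
  have h9 : Q.res h f - f = Q.res h (f - g) + (Q.res h g - g) + (g - f) := by
    rw [map_sub]; abel
  have h10 := Q.norm_res_le (h := h) (f - g)
  rw [h9]
  calc ‖Q.res h (f - g) + (Q.res h g - g) + (g - f)‖
      ≤ ‖Q.res h (f - g)‖ + ‖Q.res h g - g‖ + ‖g - f‖ := norm_add₃_le
    _ < ε := by
      rw [norm_sub_rev g f]
      linarith

/-- convergence of energies. -/
theorem E_res_tendsto {f : H} (hf : f ∈ Q.dom) :
    Tendsto (fun h => Q.E (Q.res h f) (Q.res h f)) (𝓝[>] 0) (𝓝 (Q.E f f)) := by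
  rw [tendsto_order]
  constructor
  · intro a ha
    by_contra hcon
    have h1 : ∃ᶠ h in 𝓝[>] (0 : ℝ), ¬ a < Q.E (Q.res h f) (Q.res h f) := by
      exact Filter.not_eventually.1 hcon
    have h2 : ∃ᶠ h in 𝓝[>] (0 : ℝ), (¬ a < Q.E (Q.res h f) (Q.res h f)) ∧ 0 < h :=
      h1.and_eventually self_mem_nhdsWithin
    obtain ⟨ns, hns, hp⟩ := Filter.exists_seq_forall_of_frequently h2
    have h3 := Q.closed' (fun n => Q.res (ns n) f) f a (fun n => Q.res_mem (hp n).2 f)
      (fun n => not_lt.1 (hp n).1) ((Q.res_tendsto f).comp hns)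
    linarith [h3.2]
  · intro a ha
    have h4 : ∀ᶠ h in 𝓝[>] (0 : ℝ), 0 < h := self_mem_nhdsWithin
    filter_upwards [h4] with h h5
    exact lt_of_le_of_lt (Q.E_res_le h5 hf) ha

theorem E_sub_res_tendsto {f : H} (hf : f ∈ Q.dom) :
    Tendsto (fun h => Q.E (f - Q.res h f) (f - Q.res h f)) (𝓝[>] 0) (𝓝 0) := by
  have h1 : Tendsto (fun h => Q.E f f - Q.E (Q.res h f) (Q.res h f)) (𝓝[>] 0) (𝓝 0) := by
    have := (tendsto_const_nhds (x := Q.E f f)).sub (Q.E_res_tendsto hf)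
    simpa using this
  have h4 : ∀ᶠ h in 𝓝[>] (0 : ℝ), 0 < h := self_mem_nhdsWithin
  refine tendsto_of_tendsto_of_tendsto_of_le_of_le' tendsto_const_nhds h1 ?_ ?_
  · filter_upwards [h4] with h h5
    exact Q.nonneg (Q.dom.sub_mem hf (Q.res_mem h5 f))
  · filter_upwards [h4] with h h5
    exact Q.E_sub_res_le h5 hf

end CForm

end Crest.Agent.R242
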