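import Crest.Agent.R242.BECore
import Crest.Agent.R242.ResCore

/-!
# Row 242, PART B, [BE]: assembly (helper216)
-/

set_option autoImplicit false
open MeasureTheory Filter Set
open scoped ENNReal NNReal Topology
open Crest.GeometryTopology.SyntheticRicci

noncomputable section
namespace Crest.Agent.R242

variable {X : Type*} [MetricSpace X] [ProperSpace X] [MeasurableSpace X] [BorelSpace X]
  {m : Measure X} [IsLocallyFiniteMeasure m]

/-- all the properties of small resolvents from the calculus, mass conservation (R3) and the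
contraction (C1). -/
theorem goodJ_assembly (hB : BECalc m) (C : Calc m) {k : ℝ} (hk : 0 < k)
    (hmass : ∃ h₀ : ℝ, 0 < h₀ ∧ ∀ h, 0 < h → h ≤ h₀ → ∀ f : X → ℝ, MemLp f 2 m → BddSupp m f →
      ∀ o : X, Integrable (fun x => (1 + dist x o ^ 2) * |J m h f x|) m ∧
        ∫ x, J m h f x ∂m = ∫ x, f x ∂m)
    (hcontr : ∃ h₀ : ℝ, 0 < h₀ ∧ ∀ h, 0 < h → h ≤ h₀ → 2 * h * k < 1 →
      ∀ ρ ρ' : X → ℝ, BEDens m ρ → BEDens m ρ' →
        ENNReal.ofReal (1 - 2 * h * k) * w2sq (dens m (J m h ρ)) (dens m (J m h ρ')) ≤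
          w2sq (dens m ρ) (dens m ρ')) :
    ∃ h₀ : ℝ, GoodJ m k h₀ ∧ ∀ h, 0 < h → h ≤ h₀ → JFacts m (1 - 2 * h * k)⁻¹ (J m h) := by
  obtain ⟨h₁, hp1, hm1⟩ := hmass
  obtain ⟨h₂, hp2, hm2⟩ := hcontr
  have hV : BddM (fun _ : X => (0 : ℝ)) := ⟨measurable_const, 0, fun _ => by simp⟩
  set h₀ := min (min h₁ h₂) (1 / (4 * k)) with hh₀
  have hp : 0 < h₀ := lt_min (lt_min hp1 hp2) (by positivity)
  have hs : 4 * h₀ * k ≤ 1 := by
    have h3 : h₀ ≤ 1 / (4 * k) := min_le_right _ _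
    rw [le_div_iff₀ (by positivity)] at h3
    linarith
  have hJ : ∀ h, 0 < h → h ≤ h₀ → JFacts m (1 - 2 * h * k)⁻¹ (J m h) := by
    intro h hh hh0
    have hle1 : h ≤ h₁ := hh0.trans ((min_le_left _ _).trans (min_le_left _ _))
    have hle2 : h ≤ h₂ := hh0.trans ((min_le_left _ _).trans (min_le_right _ _))
    have hk1 : h * k ≤ h₀ * k := mul_le_mul_of_nonneg_right hh0 hk.le
    have hlt : 2 * h * k < 1 := by nlinarith
    refine ⟨fun f hf => C.Jr_sob hV hh hf, fun f hf h0 => C.Jr_nonneg hV hh hf h0,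
      fun f g hf hg hfg => C.Jr_mono hV hh hf hg hfg,
      fun f hf b hb hfb => C.Jr_le_const hV hh hf hb hfb, fun f g hf hg => ?_, fun f hf hf1 => ?_,
      ?_, fun f hf hfs o => (hm1 h hh hle1 f hf hfs o).1, fun ρ ρ' hρ hρ' =>
        be_contr_swap (by linarith) (hm2 h hh hle2 hlt ρ ρ' hρ hρ')⟩
    · have h3 := C.Jr_symm hV hh hf hg
      rwa [wm_zero] at h3
    · have h3 := C.Jr_l1 hV hh hf hf1
      rwa [wm_zero] at h3
    · intro f hf hfs
      obtain ⟨o, R, h⟩ := id hfs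
      exact (hm1 _ hh hle1 f hf hfs o).2
  exact ⟨h₀, goodJ_of_jfacts hB hp hs hk hJ, hJ⟩

end Crest.Agent.R242
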