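import Crest.Agent.R242.Sob2Lip

/-!
# Row 242, PART B, [BE]: Bakry-Emery inequality for the resolvent (helper216)

Everything is deduced from the list `JFacts` of facts on the resolvent `J_h` (for one `h`) and the
list `BECalc` of facts on weak upper gradients and on curves of measures.
-/

set_option autoImplicit false
set_option linter.unusedSectionVars false
open MeasureTheory Filter Set
open scoped ENNReal NNReal Topology
open Crest.GeometryTopology.SyntheticRicci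

noncomputable section
namespace Crest.Agent.R242

section Defs

variable {X : Type*} [MetricSpace X] [MeasurableSpace X]

/-- bounded probability density with bounded support. -/
structure BEDens (m : Measure X) (ρ : X → ℝ) : Prop where
  meas : Measurable ρ
  nonneg : ∀ x, 0 ≤ ρ x
  bdd : ∃ C : ℝ, ∀ x, ρ x ≤ C
  supp : ∃ (o : X) (R : ℝ), ∀ x, x ∉ Metric.closedBall o R → ρ x = 0
  int : ∫ x, ρ x ∂m = 1

/-- facts on the operator `T = J_h` used in this file. -/
structure JFacts (m : Measure X) (c : ℝ) (T : (X → ℝ) → (X → ℝ)) : Prop where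
  sob : ∀ f, MemLp f 2 m → IsSobolev m (T f)
  nonneg : ∀ f, MemLp f 2 m → 0 ≤ᵐ[m] f → 0 ≤ᵐ[m] T f
  mono : ∀ f g, MemLp f 2 m → MemLp g 2 m → f ≤ᵐ[m] g → T f ≤ᵐ[m] T g
  le_const : ∀ f, MemLp f 2 m → ∀ b : ℝ, 0 ≤ b → (∀ᵐ x ∂m, f x ≤ b) → ∀ᵐ x ∂m, T f x ≤ b
  symm : ∀ f g, MemLp f 2 m → MemLp g 2 m → ∫ x, T f x * g x ∂m = ∫ x, f x * T g x ∂m
  l1 : ∀ f, MemLp f 2 m → Integrable f m → Integrable (T f) m ∧ ∫ x, |T f x| ∂m ≤ ∫ x, |f x| ∂m
  mass : ∀ f, MemLp f 2 m → BddSupp m f → ∫ x, T f x ∂m = ∫ x, f x ∂m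
  mom : ∀ f, MemLp f 2 m → BddSupp m f → ∀ o : X,
    Integrable (fun x => (1 + dist x o ^ 2) * |T f x|) m
  contr : ∀ ρ ρ', BEDens m ρ → BEDens m ρ' →
    w2sq (dens m (T ρ)) (dens m (T ρ')) ≤ ENNReal.ofReal c * w2sq (dens m ρ) (dens m ρ')

theorem JFacts.memLp {m : Measure X} {c : ℝ} {T : (X → ℝ) → (X → ℝ)} (hT : JFacts m c T)
    (f : X → ℝ) (hf : MemLp f 2 m) : MemLp (T f) 2 m := (hT.sob f hf).1

/-- facts on weak upper gradients and test plans used in this file. -/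
structure BECalc (m : Measure X) : Prop where
  young : ∀ f D : X → ℝ, IsL2OnBalls m f → IsWUGLoc m f D → ∀ P : Measure (UCurve X),
    IsTestPlan2 m P → ∀ a : ℝ, 0 < a →
    (∫⁻ γ, ENNReal.ofReal |f (γ.toMap 1) - f (γ.toMap 0)| ∂P) ≤
      ENNReal.ofReal (a / 2) *
        (∫⁻ γ, (∫⁻ t in Set.Icc (0 : ℝ) 1, ENNReal.ofReal (D (γ.ext t) ^ 2)) ∂P) +
      ENNReal.ofReal (1 / (2 * a)) *
        (∫⁻ γ, (∫⁻ t in Set.Icc (0 : ℝ) 1, upperSpeed γ t ^ 2) ∂P)
  quad : ∀ g D : X → ℝ, IsL2OnBalls m g → IsL2OnBalls m D → (∀ᵐ x ∂m, 0 ≤ D x) →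
    (∀ P : Measure (UCurve X), IsTestPlan2 m P → HasBoundedTracks P → ∀ a : ℝ, 0 < a →
      (∫ γ, (g (γ.toMap 1) - g (γ.toMap 0)) ∂P) ≤
        (a / 2) * (∫⁻ γ, (∫⁻ t in Set.Icc (0 : ℝ) 1, ENNReal.ofReal (D (γ.ext t) ^ 2)) ∂P).toReal +
        (1 / (2 * a)) *
          (∫⁻ γ, (∫⁻ t in Set.Icc (0 : ℝ) 1, upperSpeed γ t ^ 2) ∂P).toReal) →
    IsWUGLoc m g D
  marg : ∀ P : Measure (UCurve X), (∀ᵐ γ ∂P, HasL2Speed γ) → ∀ s t : unitInterval,
    (s : ℝ) ≤ t → w2sq (timeMarginal P s) (timeMarginal P t) ≤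
      ENNReal.ofReal ((t : ℝ) - s) *
        ∫⁻ γ, (∫⁻ r in Set.Icc (s : ℝ) (t : ℝ), upperSpeed γ r ^ 2) ∂P
  sup : ∀ ν : unitInterval → Measure X, (∀ t, IsProbabilityMeasure (ν t)) → ∀ C : ℝ≥0,
    (∀ t, ν t ≤ (C : ℝ≥0∞) • m) → (∀ t, HasFiniteSecondMoment (ν t)) →
    ∀ A : ℝ → ℝ, MonotoneOn A (Icc 0 1) →
    (∀ s t : unitInterval, (s : ℝ) ≤ (t : ℝ) →
      w2sq (ν s) (ν t) ≤ ENNReal.ofReal (((t : ℝ) - s) * (A t - A s))) →
    ∃ P : Measure (UCurve X), IsTestPlan2 m P ∧ (∀ t, timeMarginal P t = ν t) ∧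
      (∫⁻ γ, (∫⁻ t in Icc (0 : ℝ) 1, upperSpeed γ t ^ 2) ∂P) ≤ ENNReal.ofReal (A 1 - A 0)
  meas : Measurable (fun p : UCurve X × ℝ => upperSpeed p.1 p.2)

end Defs

section Dens

variable {X : Type*} [MetricSpace X] [ProperSpace X] [MeasurableSpace X] [BorelSpace X]
  {m : Measure X} [IsLocallyFiniteMeasure m]

theorem be_lintegral_dens {ρ : X → ℝ} (hρ : AEMeasurable ρ m) (g : X → ℝ≥0∞) :
    ∫⁻ x, g x ∂(dens m ρ) = ∫⁻ x, ENNReal.ofReal (ρ x) * g x ∂m := by
  unfold dens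
  rw [lintegral_withDensity_eq_lintegral_mul_non_measurable₀ m hρ.ennreal_ofReal
    (Filter.Eventually.of_forall fun x => ENNReal.ofReal_lt_top)]
  rfl

theorem be_integral_dens {ρ : X → ℝ} (hρ : AEMeasurable ρ m) (h0 : 0 ≤ᵐ[m] ρ) (g : X → ℝ) :
    ∫ x, g x ∂(dens m ρ) = ∫ x, g x * ρ x ∂m := by
  unfold dens
  rw [integral_withDensity_eq_integral_toReal_smul₀ hρ.ennreal_ofReal
    (Filter.Eventually.of_forall fun x => ENNReal.ofReal_lt_top)]
  refine integral_congr_ae ?_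
  filter_upwards [h0] with x hx
  rw [ENNReal.toReal_ofReal hx, smul_eq_mul, mul_comm]

theorem be_dens_le {ρ : X → ℝ} {C : ℝ≥0} (hC : ∀ᵐ x ∂m, ρ x ≤ C) :
    dens m ρ ≤ (C : ℝ≥0∞) • m := by
  unfold dens
  rw [← withDensity_const]
  refine withDensity_mono ?_
  filter_upwards [hC] with x hx
  exact (ENNReal.ofReal_le_ofReal hx).trans (by rw [ENNReal.ofReal_coe_nnreal])

theorem be_dens_prob {ρ : X → ℝ} (hρ : Integrable ρ m) (h0 : 0 ≤ᵐ[m] ρ) (h1 : ∫ x, ρ x ∂m = 1) :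
    IsProbabilityMeasure (dens m ρ) := by
  constructor
  unfold dens
  rw [withDensity_apply _ MeasurableSet.univ, Measure.restrict_univ,
    ← ofReal_integral_eq_lintegral_ofReal hρ h0, h1, ENNReal.ofReal_one]

/-- a measure `≤ C m` living in a ball has a density as required. -/
theorem exists_beDens {μ : Measure X} [IsProbabilityMeasure μ] {C : ℝ≥0}
    (hC : μ ≤ (C : ℝ≥0∞) • m) {o : X} {R : ℝ} (hs : μ (Metric.closedBall o R)ᶜ = 0) :
    ∃ ρ : X → ℝ, BEDens m ρ ∧ (∀ x, ρ x ≤ C) ∧ (∀ x, x ∉ Metric.closedBall o R → ρ x = 0) ∧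
      dens m ρ = μ := by
  have hac : μ ≪ m := Measure.absolutelyContinuous_of_le_smul hC
  have hm := Measure.measurable_rnDeriv μ m
  have hle : ∀ᵐ x ∂m, μ.rnDeriv m x ≤ C := by
    refine ae_le_of_forall_setLIntegral_le_of_sigmaFinite hm fun s hs _ => ?_
    rw [Measure.setLIntegral_rnDeriv hac, setLIntegral_const]
    exact (hC s).trans (by simp)
  have hz : ∀ᵐ x ∂m, x ∈ (Metric.closedBall o R)ᶜ → μ.rnDeriv m x = 0 := by
    have h1 : ∫⁻ x in (Metric.closedBall o R)ᶜ, μ.rnDeriv m x ∂m = 0 := by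
      rw [Measure.setLIntegral_rnDeriv hac, hs]
    have h2 := (lintegral_eq_zero_iff hm).1 h1
    exact (ae_restrict_iff' Metric.isClosed_closedBall.measurableSet.compl).1 h2
  set ρ : X → ℝ := (Metric.closedBall o R).indicator fun x => (min (μ.rnDeriv m x) C).toReal
    with hρdef
  have hρm : Measurable ρ :=
    (Measurable.indicator (hm.min measurable_const).ennreal_toReal
      Metric.isClosed_closedBall.measurableSet)
  have hρ0 : ∀ x, 0 ≤ ρ x := fun x => Set.indicator_nonneg (fun _ _ => ENNReal.toReal_nonneg) x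
  have hρC : ∀ x, ρ x ≤ C := by
    intro x
    refine Set.indicator_le' (fun x _ => ?_) (fun x _ => C.2) x
    exact ENNReal.toReal_le_coe_of_le_coe (min_le_right _ _)
  have hρs : ∀ x, x ∉ Metric.closedBall o R → ρ x = 0 := fun x hx => Set.indicator_of_notMem hx _
  have hρe : ∀ᵐ x ∂m, ENNReal.ofReal (ρ x) = μ.rnDeriv m x := by
    filter_upwards [hle, hz] with x h1 h2
    by_cases hx : x ∈ Metric.closedBall o R
    · rw [hρdef, Set.indicator_of_mem hx, min_eq_left h1, ENNReal.ofReal_toReal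
        (ne_top_of_le_ne_top ENNReal.coe_ne_top h1)]
    · rw [hρs x hx, h2 hx, ENNReal.ofReal_zero]
  have hd : dens m ρ = μ := by
    unfold dens
    rw [withDensity_congr_ae hρe, Measure.withDensity_rnDeriv_eq _ _ hac]
  refine ⟨ρ, ⟨hρm, hρ0, ⟨C, hρC⟩, ⟨o, R, hρs⟩, ?_⟩, hρC, hρs, hd⟩
  have h3 : (∫⁻ x, ENNReal.ofReal (ρ x) ∂m) = 1 := by
    have h4 : dens m ρ univ = 1 := by rw [hd]; exact measure_univ
    unfold dens at h4
    rwa [withDensity_apply _ MeasurableSet.univ, Measure.restrict_univ] at h4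
  rw [integral_eq_lintegral_of_nonneg_ae (Filter.Eventually.of_forall hρ0)
    hρm.aestronglyMeasurable, h3, ENNReal.toReal_one]

theorem BEDens.memLp {ρ : X → ℝ} (h : BEDens m ρ) (p : ℝ≥0∞) : MemLp ρ p m := by
  obtain ⟨C, hC⟩ := h.bdd
  obtain ⟨o, R, hs⟩ := h.supp
  have hind : ρ = (Metric.closedBall o R).indicator ρ := by
    funext x
    by_cases hx : x ∈ Metric.closedBall o R
    · rw [Set.indicator_of_mem hx]
    · rw [Set.indicator_of_notMem hx, hs x hx]
  rw [hind, memLp_indicator_iff_restrict Metric.isClosed_closedBall.measurableSet]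
  have : IsFiniteMeasure (m.restrict (Metric.closedBall o R)) :=
    ⟨by rw [Measure.restrict_apply_univ]; exact (isCompact_closedBall o R).measure_lt_top⟩
  refine MemLp.of_bound h.meas.aestronglyMeasurable C (Filter.Eventually.of_forall fun x => ?_)
  rw [Real.norm_of_nonneg (h.nonneg x)]
  exact hC x

theorem BEDens.bddSupp {ρ : X → ℝ} (h : BEDens m ρ) : BddSupp m ρ := by
  obtain ⟨o, R, hs⟩ := h.supp
  exact ⟨o, R, Filter.Eventually.of_forall hs⟩

/-- the image of a density under `T`. -/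
theorem be_T_prob {c : ℝ} {T : (X → ℝ) → (X → ℝ)} (hT : JFacts m c T) {ρ : X → ℝ}
    (h : BEDens m ρ) : IsProbabilityMeasure (dens m (T ρ)) := by
  have h2 := h.memLp 2
  refine be_dens_prob (hT.l1 ρ h2 (memLp_one_iff_integrable.1 (h.memLp 1))).1
    (hT.nonneg ρ h2 (Filter.Eventually.of_forall h.nonneg)) ?_
  rw [hT.mass ρ h2 h.bddSupp, h.int]

theorem be_T_le {c : ℝ} {T : (X → ℝ) → (X → ℝ)} (hT : JFacts m c T) {ρ : X → ℝ}
    (h : BEDens m ρ) {C : ℝ≥0} (hC : ∀ x, ρ x ≤ C) : dens m (T ρ) ≤ (C : ℝ≥0∞) • m :=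
  be_dens_le (hT.le_const ρ (h.memLp 2) C C.2 (Filter.Eventually.of_forall hC))

theorem be_T_mom {c : ℝ} {T : (X → ℝ) → (X → ℝ)} (hT : JFacts m c T) {ρ : X → ℝ}
    (h : BEDens m ρ) : HasFiniteSecondMoment (dens m (T ρ)) := by
  obtain ⟨o, R, hs⟩ := h.supp
  have h2 := h.memLp 2
  have hmeas : AEMeasurable (T ρ) m := (hT.memLp ρ h2).aestronglyMeasurable.aemeasurable
  refine ⟨o, ?_⟩
  rw [be_lintegral_dens hmeas]
  have h3 := hT.mom ρ h2 h.bddSupp o
  refine lt_of_le_of_lt ?_ h3.lintegral_lt_top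
  refine lintegral_mono fun x => ?_
  rw [edist_dist, ← ENNReal.ofReal_pow dist_nonneg, mul_comm, ← ENNReal.ofReal_mul (sq_nonneg _)]
  refine ENNReal.ofReal_le_ofReal ?_
  calc dist x o ^ 2 * T ρ x ≤ dist x o ^ 2 * |T ρ x| :=
        mul_le_mul_of_nonneg_left (le_abs_self _) (sq_nonneg _)
    _ ≤ (1 + dist x o ^ 2) * |T ρ x| :=
        mul_le_mul_of_nonneg_right (by linarith) (abs_nonneg _)

/-- energy of a plan on a time interval -/
def beEn (P : Measure (UCurve X)) (a b : ℝ) : ℝ≥0∞ :=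
  ∫⁻ γ, (∫⁻ r in Icc a b, upperSpeed γ r ^ 2) ∂P

theorem beEn_mono {P : Measure (UCurve X)} {a b a' b' : ℝ} (h : Icc a b ⊆ Icc a' b') :
    beEn P a b ≤ beEn P a' b' :=
  lintegral_mono fun _ => lintegral_mono_set h

theorem beEn_add (hB : BECalc m) {P : Measure (UCurve X)} {s t : ℝ} (hs : 0 ≤ s) (hst : s ≤ t) :
    beEn P 0 t = beEn P 0 s + beEn P s t := by
  unfold beEn
  have hm : ∀ a b : ℝ, Measurable fun γ : UCurve X => ∫⁻ r in Icc a b, upperSpeed γ r ^ 2 :=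
    fun a b => Measurable.lintegral_prod_right' (hB.meas.pow_const 2)
  rw [← lintegral_add_left (hm _ _)]
  refine lintegral_congr fun γ => ?_
  have h1 : (∫⁻ r in Icc s t, upperSpeed γ r ^ 2) = ∫⁻ r in Ioc s t, upperSpeed γ r ^ 2 :=
    setLIntegral_congr Ioc_ae_eq_Icc.symm
  rw [h1, ← lintegral_union measurableSet_Ioc]
  · congr 2
    exact (Icc_union_Ioc_eq_Icc hs hst).symm
  · exact Set.disjoint_left.2 fun x hx hx' => absurd hx'.1 (not_lt.2 hx.2)

/-- the lift of a test plan. -/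
theorem be_lift (hB : BECalc m) {c : ℝ} (hc : 0 ≤ c) {T : (X → ℝ) → (X → ℝ)}
    (hT : JFacts m c T) {P : Measure (UCurve X)} (hP : IsTestPlan2 m P)
    (hb : HasBoundedTracks P) :
    ∃ (ρ : unitInterval → X → ℝ) (Q : Measure (UCurve X)), (∀ t, BEDens m (ρ t)) ∧
      (∀ t, dens m (ρ t) = timeMarginal P t) ∧ IsTestPlan2 m Q ∧
      (∀ t, timeMarginal Q t = dens m (T (ρ t))) ∧
      beEn Q 0 1 ≤ ENNReal.ofReal c * beEn P 0 1 := by
  obtain ⟨hP1, ⟨C, hC⟩, hsp, hen⟩ := hP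
  obtain ⟨o, R, hoR⟩ := hb
  have hprob : ∀ t, IsProbabilityMeasure (timeMarginal P t) := fun t =>
    Measure.isProbabilityMeasure_map (measurable_ucurve_eval t).aemeasurable
  have hsupp : ∀ t, timeMarginal P t (Metric.closedBall o R)ᶜ = 0 := by
    intro t
    unfold timeMarginal
    rw [Measure.map_apply (measurable_ucurve_eval t)
      Metric.isClosed_closedBall.measurableSet.compl]
    refine measure_mono_null (fun γ hγ => ?_) (ae_iff.1 hoR)
    exact fun h => hγ (h t)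
  have hex : ∀ t, ∃ ρ : X → ℝ, BEDens m ρ ∧ (∀ x, ρ x ≤ C) ∧
      (∀ x, x ∉ Metric.closedBall o R → ρ x = 0) ∧ dens m ρ = timeMarginal P t := fun t => by
    have := hprob t
    exact exists_beDens (hC t) (hsupp t)
  choose ρ hρ hρC hρs hρd using hex
  set A : ℝ → ℝ := fun t => c * (beEn P 0 t).toReal with hA
  have hfin : ∀ t : ℝ, t ≤ 1 → beEn P 0 t ≠ ⊤ := fun t ht =>
    ne_top_of_le_ne_top hen.ne (beEn_mono (Icc_subset_Icc le_rfl ht))
  have hAdiff : ∀ s t : ℝ, 0 ≤ s → s ≤ t → t ≤ 1 →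
      A t - A s = c * (beEn P s t).toReal := by
    intro s t hs hst ht
    have h1 := beEn_add hB (P := P) hs hst
    have h2 : beEn P s t ≠ ⊤ := fun h => hfin t ht (by rw [h1, h, add_top])
    simp only [hA]
    rw [h1, ENNReal.toReal_add (hfin s (hst.trans ht)) h2]
    ring
  have hAm : MonotoneOn A (Icc 0 1) := by
    intro s hs t ht hst
    have := hAdiff s t hs.1 hst ht.2
    have h2 : 0 ≤ c * (beEn P s t).toReal := mul_nonneg hc ENNReal.toReal_nonneg
    linarith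
  obtain ⟨Q, hQ, hQm, hQe⟩ := hB.sup (fun t => dens m (T (ρ t))) (fun t => be_T_prob hT (hρ t)) C
    (fun t => be_T_le hT (hρ t) (hρC t)) (fun t => be_T_mom hT (hρ t)) A hAm (by
      intro s t hst
      refine (hT.contr _ _ (hρ s) (hρ t)).trans ?_
      rw [hρd s, hρd t, hAdiff s t s.2.1 hst t.2.2]
      refine (mul_le_mul_right (hB.marg P hsp s t hst) _).trans ?_
      rw [ENNReal.ofReal_mul (sub_nonneg.2 hst), ENNReal.ofReal_mul hc, ENNReal.ofReal_toReal]
      · unfold beEn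
        rw [← mul_assoc, ← mul_assoc, mul_comm (ENNReal.ofReal c)]
      · exact ne_top_of_le_ne_top hen.ne (beEn_mono (Icc_subset_Icc s.2.1 t.2.2)))
  refine ⟨ρ, Q, hρ, hρd, hQ, hQm, ?_⟩
  unfold beEn at *
  refine hQe.trans ?_
  rw [hAdiff 0 1 le_rfl zero_le_one le_rfl, ENNReal.ofReal_mul hc, ENNReal.ofReal_toReal hen.ne]

/-! ### `T` of an integrable function -/

/-- truncations of a measurable `[0,∞]`-valued function. -/
def beTr (o : X) (w : X → ℝ≥0∞) (n : ℕ) : X → ℝ :=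
  (Metric.closedBall o n).indicator fun x => (min (w x) n).toReal

theorem beTr_meas (o : X) {w : X → ℝ≥0∞} (hw : Measurable w) (n : ℕ) :
    Measurable (beTr o w n) :=
  Measurable.indicator (hw.min measurable_const).ennreal_toReal
    Metric.isClosed_closedBall.measurableSet

theorem beTr_nonneg (o : X) (w : X → ℝ≥0∞) (n : ℕ) (x : X) : 0 ≤ beTr o w n x :=
  Set.indicator_nonneg (fun _ _ => ENNReal.toReal_nonneg) x

theorem beTr_le (o : X) (w : X → ℝ≥0∞) (n : ℕ) (x : X) : beTr o w n x ≤ n := by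
  refine Set.indicator_le' (fun x _ => ?_) (fun x _ => Nat.cast_nonneg n) x
  have h := ENNReal.toReal_mono (ENNReal.natCast_ne_top n) (min_le_right (w x) (n : ℝ≥0∞))
  simpa using h

theorem beTr_ofReal_le (o : X) (w : X → ℝ≥0∞) (n : ℕ) (x : X) :
    ENNReal.ofReal (beTr o w n x) ≤ w x := by
  unfold beTr
  by_cases hx : x ∈ Metric.closedBall o n
  · rw [Set.indicator_of_mem hx, ENNReal.ofReal_toReal
      (ne_top_of_le_ne_top (ENNReal.natCast_ne_top n) (min_le_right _ _))]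
    exact min_le_left _ _
  · rw [Set.indicator_of_notMem hx, ENNReal.ofReal_zero]
    exact bot_le

theorem beTr_mono (o : X) (w : X → ℝ≥0∞) (x : X) : Monotone fun n => beTr o w n x := by
  intro i j hij
  have hij' : (i : ℝ) ≤ j := Nat.cast_le.2 hij
  simp only
  by_cases hx : x ∈ Metric.closedBall o i
  · have hx' : x ∈ Metric.closedBall o j := Metric.closedBall_subset_closedBall hij' hx
    unfold beTr
    rw [Set.indicator_of_mem hx, Set.indicator_of_mem hx']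
    refine ENNReal.toReal_mono
      (ne_top_of_le_ne_top (ENNReal.natCast_ne_top j) (min_le_right _ _)) ?_
    exact min_le_min le_rfl (Nat.cast_le.2 hij)
  · have h0 : beTr o w i x = 0 := Set.indicator_of_notMem hx _
    rw [h0]
    exact beTr_nonneg o w j x

theorem beTr_sup (o : X) (w : X → ℝ≥0∞) (x : X) :
    ⨆ n, ENNReal.ofReal (beTr o w n x) = w x := by
  refine le_antisymm (iSup_le fun n => beTr_ofReal_le o w n x) ?_
  refine le_of_forall_lt fun a ha => ?_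
  obtain ⟨N, hN⟩ := exists_nat_ge (dist x o)
  have ha' : a ≠ ⊤ := ne_top_of_lt ha
  obtain ⟨N', hN'⟩ := ENNReal.exists_nat_gt ha'
  have hx : x ∈ Metric.closedBall o ((max N N' : ℕ) : ℝ) := by
    rw [Metric.mem_closedBall]
    exact hN.trans (Nat.cast_le.2 (le_max_left _ _))
  refine lt_of_lt_of_le ?_ (le_iSup _ (max N N'))
  unfold beTr
  rw [Set.indicator_of_mem hx, ENNReal.ofReal_toReal
      (ne_top_of_le_ne_top (ENNReal.natCast_ne_top _) (min_le_right _ _))]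
  exact lt_min ha (hN'.trans_le (Nat.cast_le.2 (le_max_right _ _)))

theorem beTr_memLp (o : X) {w : X → ℝ≥0∞} (hw : Measurable w) (n : ℕ) (p : ℝ≥0∞) :
    MemLp (beTr o w n) p m := by
  unfold beTr
  rw [memLp_indicator_iff_restrict Metric.isClosed_closedBall.measurableSet]
  have : IsFiniteMeasure (m.restrict (Metric.closedBall o n)) :=
    ⟨by rw [Measure.restrict_apply_univ]; exact (isCompact_closedBall o n).measure_lt_top⟩
  refine MemLp.of_bound (hw.min measurable_const).ennreal_toReal.aestronglyMeasurable n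
    (Filter.Eventually.of_forall fun x => ?_)
  rw [Real.norm_of_nonneg ENNReal.toReal_nonneg]
  have h := ENNReal.toReal_mono (ENNReal.natCast_ne_top n) (min_le_right (w x) (n : ℝ≥0∞))
  simpa using h

theorem be_lintegral_mul {f g : X → ℝ} (hf : MemLp f 2 m) (hg : MemLp g 2 m)
    (hf0 : 0 ≤ᵐ[m] f) (hg0 : 0 ≤ᵐ[m] g) :
    ∫⁻ x, ENNReal.ofReal (f x) * ENNReal.ofReal (g x) ∂m = ENNReal.ofReal (∫ x, f x * g x ∂m) := by
  have hi : Integrable (fun x => f x * g x) m := hf.integrable_mul hg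
  rw [ofReal_integral_eq_lintegral_ofReal hi]
  · refine lintegral_congr_ae ?_
    filter_upwards [hf0] with x hx
    exact (ENNReal.ofReal_mul hx).symm
  · filter_upwards [hf0, hg0] with x hx hx'
    exact mul_nonneg hx hx'

/-- `T w` for `w` measurable with values in `[0,∞]` and finite integral. -/
theorem exists_beExt {c : ℝ} {T : (X → ℝ) → (X → ℝ)} (hT : JFacts m c T) {w : X → ℝ≥0∞}
    (hw : Measurable w) [Nonempty X] :
    ∃ G : X → ℝ≥0∞, Measurable G ∧ (∫⁻ x, G x ∂m ≤ ∫⁻ x, w x ∂m) ∧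
      ∀ q : X → ℝ, MemLp q 2 m → 0 ≤ᵐ[m] q →
        ∫⁻ x, G x * ENNReal.ofReal (q x) ∂m = ∫⁻ x, w x * ENNReal.ofReal (T q x) ∂m := by
  obtain ⟨o⟩ := ‹Nonempty X›
  have hu2 : ∀ n, MemLp (beTr o w n) 2 m := fun n => beTr_memLp o hw n 2
  have hu1 : ∀ n, Integrable (beTr o w n) m := fun n => memLp_one_iff_integrable.1 (beTr_memLp o hw n 1)
  have hu0 : ∀ n, 0 ≤ᵐ[m] beTr o w n := fun n => Filter.Eventually.of_forall (beTr_nonneg o w n)
  have hT2 : ∀ n, MemLp (T (beTr o w n)) 2 m := fun n => hT.memLp _ (hu2 n)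
  have hT0 : ∀ n, 0 ≤ᵐ[m] T (beTr o w n) := fun n => hT.nonneg _ (hu2 n) (hu0 n)
  set g : ℕ → X → ℝ := fun n => (hT2 n).aestronglyMeasurable.mk _ with hg
  have hgm : ∀ n, Measurable (g n) := fun n =>
    (hT2 n).aestronglyMeasurable.stronglyMeasurable_mk.measurable
  have hge : ∀ n, T (beTr o w n) =ᵐ[m] g n := fun n => (hT2 n).aestronglyMeasurable.ae_eq_mk
  have hgmono : ∀ᵐ x ∂m, Monotone fun n => ENNReal.ofReal (g n x) := by
    have h1 : ∀ n, ∀ᵐ x ∂m, T (beTr o w n) x ≤ T (beTr o w (n + 1)) x := fun n =>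
      hT.mono _ _ (hu2 n) (hu2 (n + 1))
        (Filter.Eventually.of_forall fun x => beTr_mono o w x (Nat.le_succ n))
    filter_upwards [ae_all_iff.2 h1, ae_all_iff.2 hge] with x h2 h3
    refine monotone_nat_of_le_succ fun n => ENNReal.ofReal_le_ofReal ?_
    rw [← h3 n, ← h3 (n + 1)]
    exact h2 n
  have hGi : ∀ φ : X → ℝ≥0∞, Measurable φ →
      ∫⁻ x, (⨆ n, ENNReal.ofReal (g n x)) * φ x ∂m = ⨆ n, ∫⁻ x, ENNReal.ofReal (g n x) * φ x ∂m := by
    intro φ hφ
    rw [← lintegral_iSup']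
    · refine lintegral_congr fun x => ?_
      rw [ENNReal.iSup_mul]
    · exact fun n => ((hgm n).ennreal_ofReal.mul hφ).aemeasurable
    · filter_upwards [hgmono] with x hx
      exact fun i j hij => mul_le_mul_left (hx hij) _
  refine ⟨fun x => ⨆ n, ENNReal.ofReal (g n x), Measurable.iSup fun n => (hgm n).ennreal_ofReal,
    ?_, ?_⟩
  · have h1 := hGi (fun _ => 1) measurable_const
    simp only [mul_one] at h1
    rw [h1]
    refine iSup_le fun n => ?_
    have h2 := (hT.l1 _ (hu2 n) (hu1 n))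
    have h3 : ∫⁻ x, ENNReal.ofReal (g n x) ∂m = ENNReal.ofReal (∫ x, T (beTr o w n) x ∂m) := by
      rw [ofReal_integral_eq_lintegral_ofReal h2.1 (hT0 n)]
      refine lintegral_congr_ae ?_
      filter_upwards [hge n] with x hx
      rw [hx]
    rw [h3]
    calc ENNReal.ofReal (∫ x, T (beTr o w n) x ∂m) ≤ ENNReal.ofReal (∫ x, |beTr o w n x| ∂m) := by
          refine ENNReal.ofReal_le_ofReal ?_
          refine le_trans ?_ h2.2
          exact integral_mono h2.1 h2.1.abs fun x => le_abs_self _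
      _ = ENNReal.ofReal (∫ x, beTr o w n x ∂m) := by
          congr 1
          exact integral_congr_ae (Filter.Eventually.of_forall fun x =>
            abs_of_nonneg (beTr_nonneg o w n x))
      _ = ∫⁻ x, ENNReal.ofReal (beTr o w n x) ∂m :=
          ofReal_integral_eq_lintegral_ofReal (hu1 n) (hu0 n)
      _ ≤ ∫⁻ x, w x ∂m := lintegral_mono fun x => beTr_ofReal_le o w n x
  · intro q hq hq0
    have hTq := hT.memLp q hq
    have hTq0 := hT.nonneg q hq hq0
    set q' := hq.aestronglyMeasurable.mk q with hq'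
    have hqe : q =ᵐ[m] q' := hq.aestronglyMeasurable.ae_eq_mk
    have hqm : Measurable q' := hq.aestronglyMeasurable.stronglyMeasurable_mk.measurable
    set r := hTq.aestronglyMeasurable.mk (T q) with hr
    have hre : T q =ᵐ[m] r := hTq.aestronglyMeasurable.ae_eq_mk
    have hrm : Measurable r := hTq.aestronglyMeasurable.stronglyMeasurable_mk.measurable
    have h1 : ∫⁻ x, (⨆ n, ENNReal.ofReal (g n x)) * ENNReal.ofReal (q x) ∂m =
        ∫⁻ x, (⨆ n, ENNReal.ofReal (g n x)) * ENNReal.ofReal (q' x) ∂m := by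
      refine lintegral_congr_ae ?_
      filter_upwards [hqe] with x hx
      rw [hx]
    have h2 : ∫⁻ x, w x * ENNReal.ofReal (T q x) ∂m =
        ∫⁻ x, (⨆ n, ENNReal.ofReal (beTr o w n x)) * ENNReal.ofReal (r x) ∂m := by
      refine lintegral_congr_ae ?_
      filter_upwards [hre] with x hx
      rw [hx, beTr_sup]
    have h3 : ∫⁻ x, (⨆ n, ENNReal.ofReal (beTr o w n x)) * ENNReal.ofReal (r x) ∂m =
        ⨆ n, ∫⁻ x, ENNReal.ofReal (beTr o w n x) * ENNReal.ofReal (r x) ∂m := by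
      rw [← lintegral_iSup']
      · refine lintegral_congr fun x => ?_
        rw [ENNReal.iSup_mul]
      · exact fun n => ((beTr_meas o hw n).ennreal_ofReal.mul hrm.ennreal_ofReal).aemeasurable
      · refine Filter.Eventually.of_forall fun x i j hij => mul_le_mul_left ?_ _
        exact ENNReal.ofReal_le_ofReal (beTr_mono o w x hij)
    rw [h1, h2, h3, hGi _ hqm.ennreal_ofReal]
    congr 1
    funext n
    have h4 : ∫⁻ x, ENNReal.ofReal (g n x) * ENNReal.ofReal (q' x) ∂m =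
        ∫⁻ x, ENNReal.ofReal (T (beTr o w n) x) * ENNReal.ofReal (q x) ∂m := by
      refine lintegral_congr_ae ?_
      filter_upwards [hqe, hge n] with x hx hx'
      rw [hx, hx']
    have h5 : ∫⁻ x, ENNReal.ofReal (beTr o w n x) * ENNReal.ofReal (r x) ∂m =
        ∫⁻ x, ENNReal.ofReal (beTr o w n x) * ENNReal.ofReal (T q x) ∂m := by
      refine lintegral_congr_ae ?_
      filter_upwards [hre] with x hx
      rw [hx]
    rw [h4, h5, be_lintegral_mul (hT2 n) hq (hT0 n) hq0, be_lintegral_mul (hu2 n) hTq (hu0 n) hTq0,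
      hT.symm _ _ (hu2 n) hq]

theorem be_isMin {f : X → ℝ} (hf : IsSobolevLoc m f) : IsMinWUGLoc m f (minWeakGrad m f) := by
  have h := hf.2
  unfold minWeakGrad
  rw [dif_pos h]
  exact Classical.choose_spec h

theorem be_isL2OnBalls {f : X → ℝ} (hf : MemLp f 2 m) : IsL2OnBalls m f :=
  fun _ _ => hf.restrict _

/-- time integrals along a plan. -/
theorem be_lintegral_plan {P : Measure (UCurve X)} [IsProbabilityMeasure P] {g : X → ℝ≥0∞}
    (hg : Measurable g) :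
    ∫⁻ γ, (∫⁻ t in Set.Icc (0 : ℝ) 1, g (γ.ext t)) ∂P =
      ∫⁻ t in Set.Icc (0 : ℝ) 1,
        (∫⁻ x, g x ∂(timeMarginal P (Set.projIcc (0 : ℝ) 1 zero_le_one t))) := by
  rw [lintegral_lintegral_swap]
  · refine lintegral_congr fun t => ?_
    unfold timeMarginal
    rw [lintegral_map hg (measurable_ucurve_eval _)]
    rfl
  · exact (hg.comp measurable_ext_prod).aemeasurable

theorem be_eval {Q : Measure (UCurve X)} [IsProbabilityMeasure Q] {C : ℝ≥0}
    (hC : ∀ t, timeMarginal Q t ≤ (C : ℝ≥0∞) • m) {u : X → ℝ} (hu : MemLp u 2 m)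
    (t : unitInterval) :
    Integrable (fun γ : UCurve X => u (γ.toMap t)) Q ∧
      ∫ γ, u (γ.toMap t) ∂Q = ∫ x, u x ∂(timeMarginal Q t) := by
  have hprob : IsProbabilityMeasure (timeMarginal Q t) :=
    Measure.isProbabilityMeasure_map (measurable_ucurve_eval t).aemeasurable
  have h1 : MemLp u 2 (timeMarginal Q t) := hu.of_measure_le_smul ENNReal.coe_ne_top (hC t)
  have h2 : Integrable u (timeMarginal Q t) := h1.integrable one_le_two
  unfold timeMarginal at *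
  refine ⟨(integrable_map_measure h2.aestronglyMeasurable
    (measurable_ucurve_eval t).aemeasurable).1 h2, ?_⟩
  rw [integral_map (measurable_ucurve_eval t).aemeasurable h2.aestronglyMeasurable]

theorem be_wug (hB : BECalc m) {c : ℝ} (hc : 0 < c) {T : (X → ℝ) → (X → ℝ)}
    (hT : JFacts m c T) {f : X → ℝ} (hf : IsSobolev m f) [Nonempty X] :
    ∃ G : X → ℝ≥0∞, Measurable G ∧
      (∫⁻ x, G x ∂m ≤ ∫⁻ x, ENNReal.ofReal (minWeakGrad m f x ^ 2) ∂m) ∧
      (∀ q : X → ℝ, MemLp q 2 m → 0 ≤ᵐ[m] q → ∫⁻ x, G x * ENNReal.ofReal (q x) ∂m =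
        ∫⁻ x, ENNReal.ofReal (minWeakGrad m f x ^ 2) * ENNReal.ofReal (T q x) ∂m) ∧
      IsWUGLoc m (T f) (fun x => Real.sqrt (c * (G x).toReal)) := by
  obtain ⟨hf2, hfl, hD2⟩ := hf
  have hmin := be_isMin hfl
  set D := minWeakGrad m f with hD
  have hwa : AEMeasurable (fun x => ENNReal.ofReal (D x ^ 2)) m :=
    (hD2.aestronglyMeasurable.aemeasurable.pow_const 2).ennreal_ofReal
  set w := hwa.mk _ with hw
  have hwm : Measurable w := hwa.measurable_mk
  have hwe : ∀ᵐ x ∂m, ENNReal.ofReal (D x ^ 2) = w x := hwa.ae_eq_mk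
  obtain ⟨G, hGm, hGi, hG⟩ := exists_beExt hT hwm
  have hwfin : ∫⁻ x, ENNReal.ofReal (D x ^ 2) ∂m < ⊤ := hD2.integrable_sq.lintegral_lt_top
  have hGi' : ∫⁻ x, G x ∂m ≤ ∫⁻ x, ENNReal.ofReal (D x ^ 2) ∂m := by
    rw [lintegral_congr_ae hwe]; exact hGi
  have hGfin : ∀ᵐ x ∂m, G x < ⊤ := ae_lt_top hGm (hGi'.trans_lt hwfin).ne
  have hGq : ∀ q : X → ℝ, MemLp q 2 m → 0 ≤ᵐ[m] q → ∫⁻ x, G x * ENNReal.ofReal (q x) ∂m =
        ∫⁻ x, ENNReal.ofReal (D x ^ 2) * ENNReal.ofReal (T q x) ∂m := by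
    intro q hq hq0
    rw [hG q hq hq0]
    refine lintegral_congr_ae ?_
    filter_upwards [hwe] with x hx
    rw [hx]
  refine ⟨G, hGm, hGi', hGq, ?_⟩
  set D0 : X → ℝ := fun x => Real.sqrt (c * (G x).toReal) with hD0
  have hD0m : Measurable D0 := (hGm.ennreal_toReal.const_mul c).sqrt
  have hD0sq : ∀ x, D0 x ^ 2 = c * (G x).toReal := fun x =>
    Real.sq_sqrt (mul_nonneg hc.le ENNReal.toReal_nonneg)
  have hD0e : ∀ᵐ x ∂m, ENNReal.ofReal (D0 x ^ 2) = ENNReal.ofReal c * G x := by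
    filter_upwards [hGfin] with x hx
    rw [hD0sq, ENNReal.ofReal_mul hc.le, ENNReal.ofReal_toReal hx.ne]
  have hD0fin : ∫⁻ x, ENNReal.ofReal (D0 x ^ 2) ∂m < ⊤ := by
    rw [lintegral_congr_ae hD0e, lintegral_const_mul _ hGm]
    exact ENNReal.mul_lt_top ENNReal.ofReal_lt_top (hGi'.trans_lt hwfin)
  have hD0L : MemLp D0 2 m := by
    rw [memLp_two_iff_integrable_sq hD0m.aestronglyMeasurable]
    refine ⟨(hD0m.pow_const 2).aestronglyMeasurable, ?_⟩
    rw [hasFiniteIntegral_iff_ofReal (Filter.Eventually.of_forall fun x => sq_nonneg _)]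
    exact hD0fin
  refine hB.quad (T f) D0 (be_isL2OnBalls (hT.memLp f hf2)) (be_isL2OnBalls hD0L)
    (Filter.Eventually.of_forall fun x => Real.sqrt_nonneg _) ?_
  intro P hP hPb a ha
  obtain ⟨ρ, Q, hρ, hρd, hQ, hQm, hQe⟩ := be_lift hB hc.le hT hP hPb
  have hP1 := hP.1
  have hQ1 := hQ.1
  obtain ⟨C, hC⟩ := hP.2.1
  obtain ⟨C', hC'⟩ := hQ.2.1
  have hTρ : ∀ t, MemLp (T (ρ t)) 2 m := fun t => hT.memLp _ ((hρ t).memLp 2)
  have hTρ0 : ∀ t, 0 ≤ᵐ[m] T (ρ t) := fun t =>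
    hT.nonneg _ ((hρ t).memLp 2) (Filter.Eventually.of_forall (hρ t).nonneg)
  have hTf := hT.memLp f hf2
  -- the left side
  have hmarg : ∀ t, ∫ γ, T f (γ.toMap t) ∂P = ∫ γ, f (γ.toMap t) ∂Q := by
    intro t
    rw [(be_eval hC hTf t).2, (be_eval hC' hf2 t).2, ← hρd t, hQm t,
      be_integral_dens (hρ t).meas.aemeasurable (Filter.Eventually.of_forall (hρ t).nonneg),
      be_integral_dens (hTρ t).aestronglyMeasurable.aemeasurable (hTρ0 t),
      hT.symm _ _ hf2 ((hρ t).memLp 2)]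
  have hleft : ∫ γ, (T f (γ.toMap 1) - T f (γ.toMap 0)) ∂P =
      ∫ γ, (f (γ.toMap 1) - f (γ.toMap 0)) ∂Q := by
    rw [integral_sub (be_eval hC hTf 1).1 (be_eval hC hTf 0).1,
      integral_sub (be_eval hC' hf2 1).1 (be_eval hC' hf2 0).1, hmarg 1, hmarg 0]
  -- the first term on the right side
  have hG1 : ∀ t, ∫⁻ x, w x ∂(timeMarginal Q t) = ∫⁻ x, G x ∂(timeMarginal P t) := by
    intro t
    rw [hQm t, ← hρd t, be_lintegral_dens (hTρ t).aestronglyMeasurable.aemeasurable,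
      be_lintegral_dens (hρ t).meas.aemeasurable]
    have h1 := hG (ρ t) ((hρ t).memLp 2) (Filter.Eventually.of_forall (hρ t).nonneg)
    simp only [mul_comm (ENNReal.ofReal _)]
    exact h1.symm
  have hDw : ∫⁻ γ, (∫⁻ t in Set.Icc (0 : ℝ) 1, ENNReal.ofReal (D (γ.ext t) ^ 2)) ∂Q =
      ∫⁻ γ, (∫⁻ t in Set.Icc (0 : ℝ) 1, w (γ.ext t)) ∂Q := by
    have h1 := ae_ae_notMem_of_null hC' (ae_iff.1 hwe)
    refine lintegral_congr_ae ?_
    filter_upwards [h1] with γ hγ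
    refine lintegral_congr_ae ?_
    filter_upwards [hγ] with t ht
    exact not_not.1 ht
  have hDG : ∫⁻ γ, (∫⁻ t in Set.Icc (0 : ℝ) 1, ENNReal.ofReal (D0 (γ.ext t) ^ 2)) ∂P =
      ENNReal.ofReal c * ∫⁻ γ, (∫⁻ t in Set.Icc (0 : ℝ) 1, G (γ.ext t)) ∂P := by
    have h1 := ae_ae_notMem_of_null hC (ae_iff.1 hD0e)
    rw [← lintegral_const_mul]
    · refine lintegral_congr_ae ?_
      filter_upwards [h1] with γ hγ
      have hmγ : Measurable fun t : ℝ => G (γ.ext t) :=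
        hGm.comp (s2l_continuous_ext γ).measurable
      rw [← lintegral_const_mul _ hmγ]
      refine lintegral_congr_ae ?_
      filter_upwards [hγ] with t ht
      exact not_not.1 ht
    · exact Measurable.lintegral_prod_right' (hGm.comp measurable_ext_prod)
  have hmain : ENNReal.ofReal c *
      ∫⁻ γ, (∫⁻ t in Set.Icc (0 : ℝ) 1, ENNReal.ofReal (D (γ.ext t) ^ 2)) ∂Q =
      ∫⁻ γ, (∫⁻ t in Set.Icc (0 : ℝ) 1, ENNReal.ofReal (D0 (γ.ext t) ^ 2)) ∂P := by
    rw [hDG, hDw, be_lintegral_plan hwm, be_lintegral_plan hGm]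
    congr 1
    exact lintegral_congr fun t => hG1 _
  have hfin : ∫⁻ γ, (∫⁻ t in Set.Icc (0 : ℝ) 1, ENNReal.ofReal (D0 (γ.ext t) ^ 2)) ∂P ≠ ⊤ := by
    rw [be_lintegral_plan (hD0m.pow_const 2).ennreal_ofReal]
    have h1 : ∀ t, ∫⁻ x, ENNReal.ofReal (D0 x ^ 2) ∂(timeMarginal P t) ≤
        C * ∫⁻ x, ENNReal.ofReal (D0 x ^ 2) ∂m := by
      intro t
      refine (lintegral_mono' (hC t) le_rfl).trans ?_
      rw [lintegral_smul_measure]
      rfl
    refine ((lintegral_mono fun t => h1 _).trans_lt ?_).ne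
    rw [lintegral_const, Measure.restrict_apply_univ, Real.volume_Icc]
    exact ENNReal.mul_lt_top (ENNReal.mul_lt_top ENNReal.coe_lt_top hD0fin) ENNReal.ofReal_lt_top
  have hen := hP.2.2.2
  have hy := hB.young f D (be_isL2OnBalls hf2) hmin.1 Q hQ (c * a) (mul_pos hc ha)
  have h1 : ENNReal.ofReal (c * a / 2) *
      ∫⁻ γ, (∫⁻ t in Set.Icc (0 : ℝ) 1, ENNReal.ofReal (D (γ.ext t) ^ 2)) ∂Q =
      ENNReal.ofReal (a / 2) *
        ∫⁻ γ, (∫⁻ t in Set.Icc (0 : ℝ) 1, ENNReal.ofReal (D0 (γ.ext t) ^ 2)) ∂P := by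
    rw [← hmain, ← mul_assoc, ← ENNReal.ofReal_mul (by positivity)]
    congr 2
    ring
  have h2 : ENNReal.ofReal (1 / (2 * (c * a))) * beEn Q 0 1 ≤
      ENNReal.ofReal (1 / (2 * a)) * beEn P 0 1 := by
    refine (mul_le_mul_right hQe _).trans ?_
    rw [← mul_assoc, ← ENNReal.ofReal_mul (by positivity)]
    refine le_of_eq ?_
    congr 2
    field_simp
  have hbound : (∫⁻ γ, ENNReal.ofReal |f (γ.toMap 1) - f (γ.toMap 0)| ∂Q) ≤
      ENNReal.ofReal (a / 2) *
        ∫⁻ γ, (∫⁻ t in Set.Icc (0 : ℝ) 1, ENNReal.ofReal (D0 (γ.ext t) ^ 2)) ∂P +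
      ENNReal.ofReal (1 / (2 * a)) * beEn P 0 1 := by
    refine hy.trans ?_
    rw [h1]
    exact add_le_add le_rfl h2
  have hen' : beEn P 0 1 ≠ ⊤ := hen.ne
  have hi : Integrable (fun γ : UCurve X => f (γ.toMap 1) - f (γ.toMap 0)) Q :=
    (be_eval hC' hf2 1).1.sub (be_eval hC' hf2 0).1
  rw [hleft]
  calc ∫ γ, (f (γ.toMap 1) - f (γ.toMap 0)) ∂Q ≤ ∫ γ, |f (γ.toMap 1) - f (γ.toMap 0)| ∂Q :=
        integral_mono hi hi.abs fun γ => le_abs_self _
    _ = (∫⁻ γ, ENNReal.ofReal |f (γ.toMap 1) - f (γ.toMap 0)| ∂Q).toReal := by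
        rw [integral_eq_lintegral_of_nonneg_ae (Filter.Eventually.of_forall fun γ => abs_nonneg _)
          hi.abs.aestronglyMeasurable]
    _ ≤ (ENNReal.ofReal (a / 2) *
        ∫⁻ γ, (∫⁻ t in Set.Icc (0 : ℝ) 1, ENNReal.ofReal (D0 (γ.ext t) ^ 2)) ∂P +
      ENNReal.ofReal (1 / (2 * a)) * beEn P 0 1).toReal := by
        refine ENNReal.toReal_mono ?_ hbound
        exact ENNReal.add_ne_top.2 ⟨ENNReal.mul_ne_top ENNReal.ofReal_ne_top hfin,
          ENNReal.mul_ne_top ENNReal.ofReal_ne_top hen'⟩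
    _ = _ := by
        rw [ENNReal.toReal_add (ENNReal.mul_ne_top ENNReal.ofReal_ne_top hfin)
          (ENNReal.mul_ne_top ENNReal.ofReal_ne_top hen'), ENNReal.toReal_mul, ENNReal.toReal_mul,
          ENNReal.toReal_ofReal (by positivity), ENNReal.toReal_ofReal (by positivity)]
        rfl

theorem be_memLp_two {q : X → ℝ} (h1 : MemLp q 1 m) (h2 : MemLp q ⊤ m) : MemLp q 2 m := by
  rw [memLp_two_iff_integrable_sq h1.aestronglyMeasurable]
  have hi := (memLp_one_iff_integrable.1 h1).abs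
  have hb : ∀ᵐ x ∂m, |q x| ≤ (eLpNormEssSup q m).toReal := by
    filter_upwards [ae_le_eLpNormEssSup (f := q) (μ := m)] with x hx
    have h3 : eLpNormEssSup q m ≠ ⊤ := by
      have := h2.eLpNorm_ne_top
      rwa [eLpNorm_exponent_top] at this
    have h4 := ENNReal.toReal_mono h3 hx
    simpa using h4
  refine Integrable.mono' (hi.const_mul (eLpNormEssSup q m).toReal)
    (h1.aestronglyMeasurable.pow 2) ?_
  filter_upwards [hb] with x hx
  rw [Real.norm_of_nonneg (sq_nonneg _), ← sq_abs, sq]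
  exact mul_le_mul_of_nonneg_right hx (abs_nonneg _)

/-- [BEw] -/
theorem be_weak (hB : BECalc m) {c : ℝ} (hc : 0 < c) {T : (X → ℝ) → (X → ℝ)}
    (hT : JFacts m c T) {f : X → ℝ} (hf : IsSobolev m f) {q : X → ℝ} (hq0 : 0 ≤ᵐ[m] q)
    (hq1 : MemLp q 1 m) (hqt : MemLp q ⊤ m) :
    ∫ x, q x * minWeakGrad m (T f) x ^ 2 ∂m ≤ c * ∫ x, T q x * minWeakGrad m f x ^ 2 ∂m := by
  rcases isEmpty_or_nonempty X with hX | hX
  · simp [integral_of_isEmpty]
  obtain ⟨G, hGm, hGi, hGq, hwug⟩ := be_wug hB hc hT hf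
  have hq2 := be_memLp_two hq1 hqt
  have hTf := hT.sob f hf.1
  have hle : ∀ᵐ x ∂m, minWeakGrad m (T f) x ≤ Real.sqrt (c * (G x).toReal) :=
    (be_isMin hTf.2.1).2 _ hwug
  have h0 : ∀ᵐ x ∂m, 0 ≤ minWeakGrad m (T f) x := (be_isMin hTf.2.1).1.2.1
  have hTq := hT.memLp q hq2
  have hTq0 := hT.nonneg q hq2 hq0
  have hGfin : ∀ᵐ x ∂m, G x < ⊤ :=
    ae_lt_top hGm (hGi.trans_lt hf.2.2.integrable_sq.lintegral_lt_top).ne
  obtain ⟨B, hB0, hBq⟩ : ∃ B : ℝ, 0 ≤ B ∧ ∀ᵐ x ∂m, q x ≤ B := by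
    refine ⟨(eLpNormEssSup q m).toReal, ENNReal.toReal_nonneg, ?_⟩
    filter_upwards [ae_le_eLpNormEssSup (f := q) (μ := m)] with x hx
    have h3 : eLpNormEssSup q m ≠ ⊤ := by
      have := hqt.eLpNorm_ne_top
      rwa [eLpNorm_exponent_top] at this
    have h4 := ENNReal.toReal_mono h3 hx
    refine (le_abs_self _).trans ?_
    simpa using h4
  have hTqB := hT.le_const q hq2 B hB0 hBq
  have hD1 : Integrable (fun x => minWeakGrad m f x ^ 2) m := hf.2.2.integrable_sq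
  have hint : Integrable (fun x => T q x * minWeakGrad m f x ^ 2) m := by
    refine Integrable.mono' (hD1.const_mul B)
      (hTq.aestronglyMeasurable.mul hD1.aestronglyMeasurable) ?_
    filter_upwards [hTqB, hTq0] with x h1 h2
    rw [Real.norm_of_nonneg (mul_nonneg h2 (sq_nonneg _))]
    exact mul_le_mul_of_nonneg_right h1 (sq_nonneg _)
  have hr0 : 0 ≤ c * ∫ x, T q x * minWeakGrad m f x ^ 2 ∂m := by
    refine mul_nonneg hc.le (integral_nonneg_of_ae ?_)
    filter_upwards [hTq0] with x h2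
    exact mul_nonneg h2 (sq_nonneg _)
  rw [integral_eq_lintegral_of_nonneg_ae]
  · refine ENNReal.toReal_le_of_le_ofReal hr0 ?_
    calc ∫⁻ x, ENNReal.ofReal (q x * minWeakGrad m (T f) x ^ 2) ∂m
        ≤ ∫⁻ x, ENNReal.ofReal c * (G x * ENNReal.ofReal (q x)) ∂m := by
          refine lintegral_mono_ae ?_
          filter_upwards [hle, h0, hq0, hGfin] with x h1 h2 h3 h4
          have h5 : minWeakGrad m (T f) x ^ 2 ≤ c * (G x).toReal := by
            refine (pow_le_pow_left₀ h2 h1 2).trans ?_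
            rw [Real.sq_sqrt (mul_nonneg hc.le ENNReal.toReal_nonneg)]
          calc ENNReal.ofReal (q x * minWeakGrad m (T f) x ^ 2)
              ≤ ENNReal.ofReal (q x * (c * (G x).toReal)) :=
                ENNReal.ofReal_le_ofReal (mul_le_mul_of_nonneg_left h5 h3)
            _ = _ := by
                rw [ENNReal.ofReal_mul h3, ENNReal.ofReal_mul hc.le, ENNReal.ofReal_toReal h4.ne]
                ring
      _ = ENNReal.ofReal c * ∫⁻ x, G x * ENNReal.ofReal (q x) ∂m :=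
          lintegral_const_mul' _ _ ENNReal.ofReal_ne_top
      _ = ENNReal.ofReal c * ∫⁻ x, ENNReal.ofReal (minWeakGrad m f x ^ 2) *
            ENNReal.ofReal (T q x) ∂m := by rw [hGq q hq2 hq0]
      _ = ENNReal.ofReal c * ∫⁻ x, ENNReal.ofReal (T q x * minWeakGrad m f x ^ 2) ∂m := by
          congr 1
          refine lintegral_congr_ae ?_
          filter_upwards [hTq0] with x h2
          rw [ENNReal.ofReal_mul h2, mul_comm]
      _ = ENNReal.ofReal (c * ∫ x, T q x * minWeakGrad m f x ^ 2 ∂m) := by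
          rw [ENNReal.ofReal_mul hc.le, ofReal_integral_eq_lintegral_ofReal hint]
          filter_upwards [hTq0] with x h2
          exact mul_nonneg h2 (sq_nonneg _)
  · filter_upwards [hq0] with x h2
    exact mul_nonneg h2 (sq_nonneg _)
  · exact hq1.aestronglyMeasurable.mul (hTf.2.2.aestronglyMeasurable.pow 2)

/-- [BE], pointwise form. -/
theorem be_pointwise (hB : BECalc m) {c : ℝ} (hc : 0 < c) {T : (X → ℝ) → (X → ℝ)}
    (hT : JFacts m c T) {f : X → ℝ} (hf : IsSobolev m f)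
    (hf4 : MemLp (fun x => minWeakGrad m f x ^ 2) 2 m) :
    ∀ᵐ x ∂m, minWeakGrad m (T f) x ^ 2 ≤ c * T (fun y => minWeakGrad m f y ^ 2) x := by
  rcases isEmpty_or_nonempty X with hX | hX
  · exact Filter.Eventually.of_forall fun x => (hX.false x).elim
  obtain ⟨G, hGm, hGi, hGq, hwug⟩ := be_wug hB hc hT hf
  have hTf := hT.sob f hf.1
  have hle : ∀ᵐ x ∂m, minWeakGrad m (T f) x ≤ Real.sqrt (c * (G x).toReal) :=
    (be_isMin hTf.2.1).2 _ hwug
  have h0 : ∀ᵐ x ∂m, 0 ≤ minWeakGrad m (T f) x := (be_isMin hTf.2.1).1.2.1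
  have hT2 := hT.memLp _ hf4
  have hT0 : 0 ≤ᵐ[m] T (fun y => minWeakGrad m f y ^ 2) :=
    hT.nonneg _ hf4 (Filter.Eventually.of_forall fun x => sq_nonneg _)
  have hGle : ∀ᵐ x ∂m, G x ≤ ENNReal.ofReal (T (fun y => minWeakGrad m f y ^ 2) x) := by
    refine ae_le_of_forall_setLIntegral_le_of_sigmaFinite hGm fun s hs hms => ?_
    have hq : MemLp (s.indicator fun _ => (1 : ℝ)) 2 m :=
      memLp_indicator_const 2 hs 1 (Or.inr hms.ne)
    have hq0 : 0 ≤ᵐ[m] (s.indicator fun _ => (1 : ℝ)) :=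
      Filter.Eventually.of_forall fun x => Set.indicator_nonneg (fun _ _ => zero_le_one) x
    have hind : ∀ φ : X → ℝ≥0∞, ∫⁻ x, φ x * ENNReal.ofReal (s.indicator (fun _ => (1 : ℝ)) x) ∂m =
        ∫⁻ x in s, φ x ∂m := by
      intro φ
      rw [← lintegral_indicator hs]
      refine lintegral_congr fun x => ?_
      by_cases hx : x ∈ s
      · simp [hx]
      · simp [hx]
    have h1 := hGq _ hq hq0
    rw [hind G, be_lintegral_mul hf4 (hT.memLp _ hq)
      (Filter.Eventually.of_forall fun x => sq_nonneg _) (hT.nonneg _ hq hq0),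
      ← hT.symm _ _ hf4 hq, ← be_lintegral_mul hT2 hq hT0 hq0, hind] at h1
    exact h1.le
  filter_upwards [hle, h0, hGle, hT0] with x h1 h2 h3 h4
  refine (pow_le_pow_left₀ h2 h1 2).trans ?_
  rw [Real.sq_sqrt (mul_nonneg hc.le ENNReal.toReal_nonneg)]
  refine mul_le_mul_of_nonneg_left ?_ hc.le
  exact ENNReal.toReal_le_of_le_ofReal h4 h3

/-- [BE] for the resolvents, with the constants of `GoodJ`. -/
theorem goodJ_of_jfacts (hB : BECalc m) {k h₀ : ℝ} (hpos : 0 < h₀) (hsmall : 4 * h₀ * k ≤ 1)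
    (hk : 0 < k) (hT : ∀ h, 0 < h → h ≤ h₀ → JFacts m (1 - 2 * h * k)⁻¹ (J m h)) :
    GoodJ m k h₀ where
  pos := hpos
  small := hsmall
  be := by
    intro h hh hh0 f hf q hq0 hq1 hqt
    have h1 : h * k ≤ h₀ * k := mul_le_mul_of_nonneg_right hh0 hk.le
    have hc : 0 < (1 - 2 * h * k)⁻¹ := inv_pos.2 (by nlinarith)
    exact be_weak hB hc (hT h hh hh0) hf hq0 hq1 hqt
  mass := by
    intro h hh hh0 f hf hs
    refine ⟨?_, (hT h hh hh0).mass f hf hs⟩
    have hs' := hs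
    obtain ⟨o, R, -⟩ := hs
    have h1 := (hT h hh hh0).mom f hf hs' o
    have h2 := (hT h hh hh0).memLp f hf
    refine Integrable.mono' h1 h2.aestronglyMeasurable (Filter.Eventually.of_forall fun x => ?_)
    rw [Real.norm_eq_abs]
    nlinarith [abs_nonneg (J m h f x), sq_nonneg (dist x o),
      mul_nonneg (sq_nonneg (dist x o)) (abs_nonneg (J m h f x))]

/-- from the constant `1 - 2hk` on the left to its inverse on the right. -/
theorem be_contr_swap {a : ℝ} (ha : 0 < a) {x y : ℝ≥0∞} (h : ENNReal.ofReal a * x ≤ y) :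
    x ≤ ENNReal.ofReal a⁻¹ * y := by
  calc x = ENNReal.ofReal a⁻¹ * (ENNReal.ofReal a * x) := by
        rw [← mul_assoc, ← ENNReal.ofReal_mul (inv_nonneg.2 ha.le), inv_mul_cancel₀ ha.ne',
          ENNReal.ofReal_one, one_mul]
    _ ≤ _ := mul_le_mul_right h _

end Dens

end Crest.Agent.R242
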