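import Mathlib
set_option autoImplicit false

open MeasureTheory Filter Set
open scoped ENNReal NNReal Topology

namespace Crest.Agent.R242

/-- A decreasing sequence of nonempty closed convex bounded subsets of a real Hilbert space has
nonempty intersection. -/
theorem nonempty_iInter_of_convex {H : Type*} [NormedAddCommGroup H] [InnerProductSpace ℝ H]
    [CompleteSpace H] (K : ℕ → Set H) (hne : ∀ n, (K n).Nonempty) (hcl : ∀ n, IsClosed (K n))
    (hcv : ∀ n, Convex ℝ (K n)) (hdec : ∀ n, K (n + 1) ⊆ K n) {C : ℝ}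
    (hb : ∀ n, ∃ x ∈ K n, ‖x‖ ≤ C) : ∃ p, (∀ n, p ∈ K n) ∧ ‖p‖ ≤ C := by
  have hanti : Antitone K := antitone_nat_of_succ_le hdec
  have hex : ∀ n, ∃ v ∈ K n, ‖(0:H) - v‖ = ⨅ w : K n, ‖(0:H) - w‖ := fun n =>
    exists_norm_eq_iInf_of_complete_convex (hne n) (hcl n).isComplete (hcv n) 0
  choose p hpK hp using hex
  have hmin : ∀ n, ∀ w ∈ K n, ‖p n‖ ≤ ‖w‖ := by
    intro n w hw
    have h1 : ⨅ w : K n, ‖(0:H) - w‖ ≤ ‖(0:H) - w‖ :=
      ciInf_le ⟨0, by rintro _ ⟨y, rfl⟩; exact norm_nonneg _⟩ (⟨w, hw⟩ : K n)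
    rw [← hp n, zero_sub, zero_sub, norm_neg, norm_neg] at h1
    exact h1
  have hbound : ∀ n, ‖p n‖ ≤ C := by
    intro n
    obtain ⟨x, hx, hxC⟩ := hb n
    exact (hmin n x hx).trans hxC
  have hmono : Monotone (fun n => ‖p n‖) := by
    intro n m hnm
    exact hmin n _ (hanti hnm (hpK m))
  have hC : 0 ≤ C := (norm_nonneg _).trans (hbound 0)
  have hmono2 : Monotone (fun n => ‖p n‖ ^ 2) := by
    intro n m hnm
    exact pow_le_pow_left₀ (norm_nonneg _) (hmono hnm) 2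
  have hbdd : BddAbove (Set.range fun n => ‖p n‖ ^ 2) := by
    refine ⟨C ^ 2, ?_⟩
    rintro _ ⟨n, rfl⟩
    exact pow_le_pow_left₀ (norm_nonneg _) (hbound n) 2
  have hlim := tendsto_atTop_ciSup hmono2 hbdd
  have hcauchy := hlim.cauchySeq
  have key : ∀ n m, n ≤ m → ‖p m - p n‖ ^ 2 ≤ 2 * (‖p m‖ ^ 2 - ‖p n‖ ^ 2) := by
    intro n m hnm
    have h1 : (1/2:ℝ) • p n + (1/2:ℝ) • p m ∈ K n :=
      hcv n (hpK n) (hanti hnm (hpK m)) (by norm_num) (by norm_num) (by norm_num)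
    have h2 := hmin n _ h1
    rw [← smul_add, norm_smul] at h2
    have h3 := parallelogram_law_with_norm ℝ (p m) (p n)
    have h4 : ‖p m + p n‖ = ‖p n + p m‖ := by rw [add_comm]
    rw [Real.norm_of_nonneg (by norm_num : (0:ℝ) ≤ 1/2)] at h2
    have h5 : 0 ≤ ‖p n‖ := norm_nonneg _
    have h6 : 2 * ‖p n‖ ≤ ‖p m + p n‖ := by rw [h4]; linarith
    nlinarith [norm_nonneg (p m + p n)]
  have hc : CauchySeq p := by
    rw [Metric.cauchySeq_iff'] at hcauchy ⊢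
    intro ε hε
    obtain ⟨N, hN⟩ := hcauchy (ε ^ 2 / 2) (by positivity)
    refine ⟨N, fun n hn => ?_⟩
    have h1 := hN n hn
    have h2 := key N n hn
    rw [Real.dist_eq] at h1
    have h3 : ‖p n‖ ^ 2 - ‖p N‖ ^ 2 < ε ^ 2 / 2 := (le_abs_self _).trans_lt h1
    rw [dist_eq_norm]
    have h4 : ‖p n - p N‖ ^ 2 < ε ^ 2 := by linarith
    exact lt_of_pow_lt_pow_left₀ 2 hε.le h4
  obtain ⟨q, hq⟩ := cauchySeq_tendsto_of_complete hc
  refine ⟨q, fun n => ?_, ?_⟩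
  · refine (hcl n).mem_of_tendsto hq ?_
    filter_upwards [eventually_ge_atTop n] with m hm
    exact hanti hm (hpK m)
  · exact le_of_tendsto hq.norm (Eventually.of_forall hbound)

end Crest.Agent.R242
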