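import Crest.Agent.R242.Defs

/-!
# Ascending and descending slopes (row 242)
-/

set_option autoImplicit false
open MeasureTheory Filter Set
open scoped ENNReal NNReal Topology

namespace Crest.Agent.R242

variable {X : Type*} [MetricSpace X]

theorem descSlope_def (f : X → ℝ) (x : X) : descSlope f x =
    Filter.limsup (fun y => ENNReal.ofReal ((f x - f y) / dist x y)) (𝓝[≠] x) := by
  unfold descSlope
  simp_rw [dist_comm]

theorem ascSlope_def (f : X → ℝ) (x : X) : ascSlope f x =
    Filter.limsup (fun y => ENNReal.ofReal ((f y - f x) / dist x y)) (𝓝[≠] x) := by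
  unfold ascSlope
  simp_rw [dist_comm]

theorem ascSlope_eq_neg (f : X → ℝ) (x : X) : ascSlope f x = descSlope (fun y => - f y) x := by
  unfold ascSlope descSlope
  congr 1
  funext y
  congr 2
  ring

theorem descSlope_eq_neg (f : X → ℝ) (x : X) : descSlope f x = ascSlope (fun y => - f y) x := by
  unfold ascSlope descSlope
  congr 1
  funext y
  congr 2
  ring

/-- If `f x - f y ≤ c * dist x y` near `x` then the descending slope is at most `c`. -/
theorem descSlope_le_of_eventually {f : X → ℝ} {x : X} {c : ℝ}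
    (h : ∀ᶠ y in 𝓝[≠] x, f x - f y ≤ c * dist x y) : descSlope f x ≤ ENNReal.ofReal c := by
  rw [descSlope_def]
  refine Filter.limsup_le_of_le (by isBoundedDefault) ?_
  filter_upwards [h, self_mem_nhdsWithin] with y hy hne
  apply ENNReal.ofReal_le_ofReal
  have : 0 < dist x y := dist_pos.mpr (Ne.symm hne)
  rw [div_le_iff₀ this]
  exact hy

theorem ascSlope_le_of_eventually {f : X → ℝ} {x : X} {c : ℝ}
    (h : ∀ᶠ y in 𝓝[≠] x, f y - f x ≤ c * dist x y) : ascSlope f x ≤ ENNReal.ofReal c := by
  rw [ascSlope_eq_neg]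
  apply descSlope_le_of_eventually
  filter_upwards [h] with y hy
  linarith

theorem descSlope_le_of_lipschitz {f : X → ℝ} {L : ℝ≥0} (hf : LipschitzWith L f) (x : X) :
    descSlope f x ≤ L := by
  have h := descSlope_le_of_eventually (f := f) (x := x) (c := (L : ℝ))
    (Filter.Eventually.of_forall fun y => by
      have h1 := hf.dist_le_mul x y
      rw [Real.dist_eq] at h1
      exact (le_abs_self _).trans h1)
  simpa using h

theorem ascSlope_le_of_lipschitz {f : X → ℝ} {L : ℝ≥0} (hf : LipschitzWith L f) (x : X) :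
    ascSlope f x ≤ L := by
  have h := ascSlope_le_of_eventually (f := f) (x := x) (c := (L : ℝ))
    (Filter.Eventually.of_forall fun y => by
      have h1 := hf.dist_le_mul y x
      rw [Real.dist_eq, dist_comm] at h1
      exact (le_abs_self _).trans h1)
  simpa using h

/-- Above the descending slope the difference quotient bound holds near the point. -/
theorem eventually_le_of_descSlope_lt {f : X → ℝ} {x : X} {c : ℝ}
    (h : descSlope f x < ENNReal.ofReal c) : ∀ᶠ y in 𝓝[≠] x, f x - f y ≤ c * dist x y := by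
  rw [descSlope_def] at h
  have h1 := Filter.eventually_lt_of_limsup_lt h (by isBoundedDefault)
  filter_upwards [h1, self_mem_nhdsWithin] with y hy hne
  have hpos : 0 < dist x y := dist_pos.mpr (Ne.symm hne)
  have hc : 0 < c := by
    by_contra hcon
    rw [ENNReal.ofReal_of_nonpos (not_lt.mp hcon)] at h
    exact not_lt_zero h
  have h2 := (ENNReal.ofReal_lt_ofReal_iff hc).1 hy
  rw [div_lt_iff₀ hpos] at h2
  exact h2.le

/-- Above the descending slope the difference quotient bound holds near the point (full nhds). -/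
theorem eventually_le_of_descSlope_lt' {f : X → ℝ} {x : X} {c : ℝ}
    (h : descSlope f x < ENNReal.ofReal c) : ∀ᶠ y in 𝓝 x, f x - f y ≤ c * dist x y := by
  have h1 := eventually_le_of_descSlope_lt h
  rw [eventually_nhdsWithin_iff] at h1
  filter_upwards [h1] with y hy
  by_cases hyx : y = x
  · subst hyx; simp
  · exact hy hyx

theorem eventually_le_of_ascSlope_lt' {f : X → ℝ} {x : X} {c : ℝ}
    (h : ascSlope f x < ENNReal.ofReal c) : ∀ᶠ y in 𝓝 x, f y - f x ≤ c * dist x y := by
  rw [ascSlope_eq_neg] at h
  filter_upwards [eventually_le_of_descSlope_lt' h] with y hy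
  linarith

/-- Below the descending slope there are points, arbitrarily near, with large quotient. -/
theorem frequently_of_lt_descSlope {f : X → ℝ} {x : X} {c : ℝ} (hc : 0 ≤ c)
    (h : ENNReal.ofReal c < descSlope f x) : ∃ᶠ y in 𝓝[≠] x, c * dist x y < f x - f y := by
  rw [descSlope_def] at h
  have h1 := Filter.frequently_lt_of_lt_limsup (by isBoundedDefault) h
  refine (h1.and_eventually (self_mem_nhdsWithin)).mono ?_
  rintro y ⟨hy, hne⟩
  have hpos : 0 < dist x y := dist_pos.mpr (Ne.symm hne)
  have h2 := (ENNReal.ofReal_lt_ofReal_iff_of_nonneg hc).1 hy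
  rwa [lt_div_iff₀ hpos] at h2

/-- Sup of difference quotients over a punctured ball. -/
noncomputable def quotSup (f : X → ℝ) (r : ℝ) (x : X) : ℝ≥0∞ :=
  ⨆ y : X, ⨆ _ : 0 < dist x y ∧ dist x y < r, ENNReal.ofReal ((f x - f y) / dist x y)

theorem lowerSemicontinuous_quotSup {f : X → ℝ} (hf : Continuous f) (r : ℝ) :
    LowerSemicontinuous (quotSup f r) := by
  intro x a ha
  unfold quotSup at ha
  rw [gt_iff_lt, lt_iSup_iff] at ha
  obtain ⟨y, hy⟩ := ha
  rw [lt_iSup_iff] at hy
  obtain ⟨⟨h0, h1⟩, hy⟩ := hy
  have hc : ContinuousAt (fun z => ENNReal.ofReal ((f z - f y) / dist z y)) x := by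
    refine (ENNReal.continuous_ofReal.continuousAt).comp ?_
    refine ContinuousAt.div ?_ ?_ h0.ne'
    · exact (hf.continuousAt).sub continuousAt_const
    · exact (continuous_id.dist continuous_const).continuousAt
  have e1 : ∀ᶠ z in 𝓝 x, a < ENNReal.ofReal ((f z - f y) / dist z y) :=
    hc.eventually (lt_mem_nhds hy)
  have hd : ContinuousAt (fun z => dist z y) x := (continuous_id.dist continuous_const).continuousAt
  have e2 : ∀ᶠ z in 𝓝 x, 0 < dist z y := hd.eventually (lt_mem_nhds h0)
  have e3 : ∀ᶠ z in 𝓝 x, dist z y < r := hd.eventually (gt_mem_nhds h1)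
  filter_upwards [e1, e2, e3] with z h1 h2 h3
  refine lt_of_lt_of_le h1 ?_
  unfold quotSup
  exact le_iSup_of_le y (le_iSup_of_le ⟨h2, h3⟩ le_rfl)

theorem descSlope_eq_iInf (f : X → ℝ) (x : X) :
    descSlope f x = ⨅ n : ℕ, quotSup f (1 / ((n : ℝ) + 1)) x := by
  rw [descSlope_def]
  apply le_antisymm
  · refine le_iInf fun n => ?_
    refine Filter.limsup_le_of_le (by isBoundedDefault) ?_
    have hb : ∀ᶠ y in 𝓝 x, dist y x < 1 / ((n : ℝ) + 1) :=
      Metric.ball_mem_nhds x (by positivity)
    filter_upwards [self_mem_nhdsWithin, mem_nhdsWithin_of_mem_nhds hb] with y hne hy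
    have hy' : dist x y < 1 / ((n : ℝ) + 1) := by rw [dist_comm]; exact hy
    unfold quotSup
    exact le_iSup_of_le y (le_iSup_of_le ⟨dist_pos.mpr (Ne.symm hne), hy'⟩ le_rfl)
  · rw [Filter.limsup_eq]
    refine le_sInf fun a ha => ?_
    rw [Set.mem_ofPred_eq, eventually_nhdsWithin_iff, Metric.eventually_nhds_iff] at ha
    obtain ⟨ε, hε, ha⟩ := ha
    obtain ⟨n, hn⟩ := exists_nat_one_div_lt hε
    refine (iInf_le _ n).trans ?_
    unfold quotSup
    refine iSup_le fun y => iSup_le fun hy => ?_
    refine ha ?_ ?_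
    · rw [dist_comm]; exact hy.2.trans hn
    · intro hyx
      rw [mem_singleton_iff] at hyx
      subst hyx
      simp at hy

theorem measurable_descSlope [MeasurableSpace X] [BorelSpace X] {f : X → ℝ} (hf : Continuous f) :
    Measurable (descSlope f) := by
  have : descSlope f = fun x => ⨅ n : ℕ, quotSup f (1 / ((n : ℝ) + 1)) x := by
    funext x; exact descSlope_eq_iInf f x
  rw [this]
  exact Measurable.iInf fun n => (lowerSemicontinuous_quotSup hf _).measurable

theorem measurable_ascSlope [MeasurableSpace X] [BorelSpace X] {f : X → ℝ} (hf : Continuous f) :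
    Measurable (ascSlope f) := by
  have : ascSlope f = descSlope (fun y => - f y) := by
    funext x; exact ascSlope_eq_neg f x
  rw [this]
  exact measurable_descSlope hf.neg

end Crest.Agent.R242
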