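import Mathlib
import Crest.Prelude.Def_SyntheticRicci
import Crest.Agent.R242.Defs

/-!
Row 242, part S: definitions for the Sobolev calculus (shared by all parts).
-/

set_option autoImplicit false

open MeasureTheory Filter Set
open Crest.GeometryTopology.SyntheticRicci
open scoped ENNReal NNReal Topology

namespace Crest.Agent.R242

section Defs

variable {X : Type*} [MetricSpace X] [MeasurableSpace X]

/-- `f` has, along the curve `γ`, an absolutely continuous representative with the same end values,
whose derivative is bounded almost everywhere by `D (γ t)` times the metric speed. -/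
def CurveUG (f D : X → ℝ) (γ : UCurve X) : Prop :=
  ∃ u : ℝ → ℝ, AbsolutelyContinuousOnInterval u 0 1 ∧
    u 0 = f (γ.toMap 0) ∧ u 1 = f (γ.toMap 1) ∧
    (∀ᵐ t ∂(volume.restrict (Icc (0 : ℝ) 1)), u t = f (γ.ext t)) ∧
    (∀ᵐ t ∂(volume.restrict (Icc (0 : ℝ) 1)),
      ENNReal.ofReal |deriv u t| ≤ ENNReal.ofReal (D (γ.ext t)) * upperSpeed γ t)

/-- Lipschitz on every ball. -/
def LipOnBalls (f : X → ℝ) : Prop :=
  ∀ (o : X) (R : ℝ), ∃ L : ℝ≥0, LipschitzOnWith L f (Metric.ball o R)

end Defs

end Crest.Agent.R242
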