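import Crest.Agent.R242.SobBase

/-!
Row 242, part S: S2 (existence of the minimal weak upper gradient) and its consequences.
-/

set_option autoImplicit false

open MeasureTheory Filter Set
open Crest.GeometryTopology.SyntheticRicci
open scoped ENNReal NNReal Topology

namespace Crest.Agent.R242

section Curve

variable {X : Type*} [MetricSpace X]

theorem CurveUG.min {f D D' : X → ℝ} {γ : UCurve X} (h : CurveUG f D γ) (h' : CurveUG f D' γ) :
    CurveUG f (fun x => min (D x) (D' x)) γ := by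
  obtain ⟨u, hu, hu0, hu1, hu2, hu3⟩ := h
  obtain ⟨v, hv, hv0, hv1, hv2, hv3⟩ := h'
  have heq : ∀ᵐ t ∂(volume.restrict (Icc (0 : ℝ) 1)), u t = v t := by
    filter_upwards [hu2, hv2] with t h1 h2
    rw [h1, h2]
  obtain ⟨_, hd⟩ := AC_eqOn_of_ae_eq hu hv heq
  refine ⟨u, hu, hu0, hu1, hu2, ?_⟩
  filter_upwards [hd, hu3, hv3] with t h1 h2 h3
  rcases le_total (D (γ.ext t)) (D' (γ.ext t)) with h | h
  · rw [min_eq_left h]; exact h2
  · rw [min_eq_right h, h1]; exact h3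

theorem CurveUG.of_tendsto {f E : X → ℝ} {D : ℕ → X → ℝ} {γ : UCurve X}
    (h : ∀ n, CurveUG f (D n) γ)
    (hlim : ∀ᵐ t ∂(volume.restrict (Icc (0 : ℝ) 1)),
      Tendsto (fun n => D n (γ.ext t)) atTop (𝓝 (E (γ.ext t))))
    (hsp : HasL2Speed γ) : CurveUG f E γ := by
  choose u hu hu0 hu1 hu2 hu3 using h
  have hsp' : ∀ᵐ t ∂(volume.restrict (Icc (0 : ℝ) 1)), upperSpeed γ t < ⊤ :=
    ae_lt_top (measurable_upperSpeed_right γ) (lintegral_upperSpeed_lt_top hsp).ne
  have hd : ∀ᵐ t ∂(volume.restrict (Icc (0 : ℝ) 1)), ∀ n, deriv (u 0) t = deriv (u n) t := by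
    rw [ae_all_iff]
    intro n
    have heq : ∀ᵐ t ∂(volume.restrict (Icc (0 : ℝ) 1)), u 0 t = u n t := by
      filter_upwards [hu2 0, hu2 n] with t h1 h2
      rw [h1, h2]
    exact (AC_eqOn_of_ae_eq (hu 0) (hu n) heq).2
  have hu3' : ∀ᵐ t ∂(volume.restrict (Icc (0 : ℝ) 1)), ∀ n,
      ENNReal.ofReal |deriv (u n) t| ≤ ENNReal.ofReal (D n (γ.ext t)) * upperSpeed γ t :=
    ae_all_iff.mpr hu3
  refine ⟨u 0, hu 0, hu0 0, hu1 0, hu2 0, ?_⟩
  filter_upwards [hd, hu3', hsp', hlim] with t h1 h2 h3 h4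
  have h5 : Tendsto (fun n => ENNReal.ofReal (D n (γ.ext t)) * upperSpeed γ t) atTop
      (𝓝 (ENNReal.ofReal (E (γ.ext t)) * upperSpeed γ t)) :=
    ENNReal.Tendsto.mul_const ((ENNReal.continuous_ofReal.tendsto _).comp h4) (Or.inr h3.ne)
  refine ge_of_tendsto h5 (Eventually.of_forall fun n => ?_)
  rw [h1 n]
  exact h2 n

theorem CurveUG.mono {f D D' : X → ℝ} {γ : UCurve X} (h : CurveUG f D γ)
    (hle : ∀ᵐ t ∂(volume.restrict (Icc (0 : ℝ) 1)), D (γ.ext t) ≤ D' (γ.ext t)) :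
    CurveUG f D' γ := by
  obtain ⟨u, hu, hu0, hu1, hu2, hu3⟩ := h
  refine ⟨u, hu, hu0, hu1, hu2, ?_⟩
  filter_upwards [hu3, hle] with t h1 h2
  exact h1.trans (mul_le_mul_left (ENNReal.ofReal_le_ofReal h2) _)

end Curve

section Main

variable {X : Type*} [MetricSpace X] [SecondCountableTopology X] [MeasurableSpace X] [BorelSpace X]
variable {m : Measure X}

theorem IsWUGLoc.min (_hfin : IsFiniteOnBalls m) {f D D' : X → ℝ} (hf : IsL2OnBalls m f)
    (h : IsWUGLoc m f D) (h' : IsWUGLoc m f D') : IsWUGLoc m f (fun x => min (D x) (D' x)) := by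
  have hfm := isL2OnBalls_aestronglyMeasurable hf
  rw [isWUGLoc_iff_curveUG' hfm] at h h' ⊢
  refine ⟨fun o R => (h.1 o R).inf (h'.1 o R), ?_, ?_⟩
  · filter_upwards [h.2.1, h'.2.1] with x h1 h2
    exact le_min h1 h2
  · intro P hP hb
    filter_upwards [h.2.2 P hP hb, h'.2.2 P hP hb] with γ h1 h2
    exact h1.min h2

/-- a decreasing limit of weak upper gradients is a weak upper gradient -/
theorem isWUGLoc_of_antitone {f E : X → ℝ} {D : ℕ → X → ℝ} (hf : IsL2OnBalls m f)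
    (hD : ∀ n, IsWUGLoc m f (D n)) (hanti : ∀ x, Antitone (fun n => D n x))
    (hE0 : ∀ x, 0 ≤ E x) (hlim : ∀ x, Tendsto (fun n => D n x) atTop (𝓝 (E x))) :
    IsWUGLoc m f E := by
  have hfm := isL2OnBalls_aestronglyMeasurable hf
  have hEm : AEStronglyMeasurable E m := by
    refine aestronglyMeasurable_of_tendsto_ae atTop
      (fun n => isL2OnBalls_aestronglyMeasurable (hD n).1) (Eventually.of_forall hlim)
  rw [isWUGLoc_iff_curveUG' hfm]
  refine ⟨?_, Eventually.of_forall hE0, ?_⟩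
  · intro o R
    refine ((hD 0).1 o R).mono hEm.restrict ?_
    refine Eventually.of_forall fun x => ?_
    rw [Real.norm_eq_abs, Real.norm_eq_abs, abs_of_nonneg (hE0 x)]
    have h1 : E x ≤ D 0 x := (hanti x).le_of_tendsto (hlim x) 0
    exact h1.trans (le_abs_self _)
  · intro P hP hb
    have h1 : ∀ᵐ γ ∂P, ∀ n, CurveUG f (D n) γ :=
      ae_all_iff.mpr fun n => ae_curveUG_of_boundedTracks hfm (hD n) hP hb
    filter_upwards [h1, hP.2.2.1] with γ h1 h2
    exact CurveUG.of_tendsto h1 (Eventually.of_forall fun t => hlim _) h2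

theorem exists_isMinWUGLoc (hfin : IsFiniteOnBalls m) {f D : X → ℝ} (hf : IsL2OnBalls m f)
    (hD : IsWUGLoc m f D) : ∃ D₀ : X → ℝ, IsMinWUGLoc m f D₀ := by
  have : SigmaFinite m := sigmaFinite_of_isFiniteOnBalls hfin
  set ν := m.toFinite with hν
  set I : (X → ℝ) → ℝ≥0∞ := fun D => ∫⁻ x, ENNReal.ofReal (Real.arctan (D x)) ∂ν with hI
  set S : Set ℝ≥0∞ := {a | ∃ D : X → ℝ, IsWUGLoc m f D ∧ I D = a} with hS
  have hSne : S.Nonempty := ⟨I D, D, hD, rfl⟩
  obtain ⟨a, -, ha, haS⟩ := exists_seq_tendsto_sInf hSne (OrderBot.bddBelow S)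
  choose D₁ hD₁ hID₁ using haS
  -- nonnegative versions
  set D₂ : ℕ → X → ℝ := fun n x => max (D₁ n x) 0 with hD₂
  have hD₂eq : ∀ n, D₁ n =ᵐ[m] D₂ n := by
    intro n
    filter_upwards [(hD₁ n).2.1] with x hx
    simp [hD₂, hx]
  have hD₂w : ∀ n, IsWUGLoc m f (D₂ n) := fun n =>
    IsWUGLoc.congr (Filter.EventuallyEq.refl _ f) (hD₂eq n) (hD₁ n)
  have hν1 : ν ≪ m := toFinite_absolutelyContinuous m
  have hν2 : m ≪ ν := absolutelyContinuous_toFinite m
  have hID₂ : ∀ n, I (D₂ n) = a n := by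
    intro n
    rw [← hID₁ n, hI]
    apply lintegral_congr_ae
    filter_upwards [hν1.ae_le (hD₂eq n)] with x hx
    rw [hx]
  -- decreasing sequence of minima
  let E : ℕ → X → ℝ := fun n => Nat.rec (D₂ 0) (fun k F x => min (F x) (D₂ (k + 1) x)) n
  have hE0 : E 0 = D₂ 0 := rfl
  have hEs : ∀ n, E (n + 1) = fun x => min (E n x) (D₂ (n + 1) x) := fun n => rfl
  have hEw : ∀ n, IsWUGLoc m f (E n) := by
    intro n
    induction n with
    | zero => rw [hE0]; exact hD₂w 0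
    | succ k ih => rw [hEs]; exact IsWUGLoc.min hfin hf ih (hD₂w (k + 1))
  have hEnn : ∀ n x, 0 ≤ E n x := by
    intro n x
    induction n with
    | zero => rw [hE0]; exact le_max_right _ _
    | succ k ih => rw [hEs]; exact le_min ih (le_max_right _ _)
  have hEanti : ∀ x, Antitone (fun n => E n x) := by
    intro x
    apply antitone_nat_of_succ_le
    intro n
    rw [hEs]
    exact min_le_left _ _
  have hEle : ∀ n x, E n x ≤ D₂ n x := by
    intro n x
    cases n with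
    | zero => rw [hE0]
    | succ k => rw [hEs]; exact min_le_right _ _
  set F : X → ℝ := fun x => ⨅ n, E n x with hF
  have hbdd : ∀ x, BddBelow (range fun n => E n x) := fun x => ⟨0, by
    rintro _ ⟨n, rfl⟩; exact hEnn n x⟩
  have hFlim : ∀ x, Tendsto (fun n => E n x) atTop (𝓝 (F x)) := fun x =>
    tendsto_atTop_ciInf (hEanti x) (hbdd x)
  have hFnn : ∀ x, 0 ≤ F x := fun x => le_ciInf fun n => hEnn n x
  have hFw : IsWUGLoc m f F := isWUGLoc_of_antitone hf hEw hEanti hFnn hFlim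
  have hFle : ∀ n x, F x ≤ D₂ n x := fun n x => (ciInf_le (hbdd x) n).trans (hEle n x)
  have hIF : I F ≤ sInf S := by
    refine ge_of_tendsto ha (Eventually.of_forall fun n => ?_)
    rw [← hID₂ n]
    apply lintegral_mono
    intro x
    exact ENNReal.ofReal_le_ofReal (Real.arctan_mono (hFle n x))
  refine ⟨F, hFw, ?_⟩
  intro D' hD'
  have hM := IsWUGLoc.min hfin hf hFw hD'
  have h1 : I F ≤ I (fun x => Min.min (F x) (D' x)) := hIF.trans (sInf_le ⟨_, hM, rfl⟩)
  have hle : (fun x => ENNReal.ofReal (Real.arctan (Min.min (F x) (D' x)))) ≤ᵐ[ν]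
      fun x => ENNReal.ofReal (Real.arctan (F x)) :=
    Eventually.of_forall fun x =>
      ENNReal.ofReal_le_ofReal (Real.arctan_mono (min_le_left _ _))
  have hfinI : (∫⁻ x, ENNReal.ofReal (Real.arctan (Min.min (F x) (D' x))) ∂ν) ≠ ⊤ := by
    have h2 : (∫⁻ x, ENNReal.ofReal (Real.arctan (Min.min (F x) (D' x))) ∂ν) ≤
        ∫⁻ _x, ENNReal.ofReal (Real.pi / 2) ∂ν := by
      apply lintegral_mono
      intro x
      exact ENNReal.ofReal_le_ofReal (Real.arctan_lt_pi_div_two _).le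
    rw [lintegral_const] at h2
    refine (h2.trans_lt ?_).ne
    exact ENNReal.mul_lt_top ENNReal.ofReal_lt_top (measure_lt_top ν _)
  have hFm : AEMeasurable (fun x => ENNReal.ofReal (Real.arctan (F x))) ν := by
    have h3 : AEMeasurable F ν :=
      (isL2OnBalls_aestronglyMeasurable hFw.1).aemeasurable.mono_ac hν1
    exact (Real.measurable_arctan.comp_aemeasurable h3).ennreal_ofReal
  have heq := ae_eq_of_ae_le_of_lintegral_le hle hfinI hFm h1
  have heq' := hν2.ae_le heq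
  filter_upwards [heq', hD'.2.1] with x hx hx'
  have h4 : 0 ≤ Real.arctan (Min.min (F x) (D' x)) :=
    Real.arctan_nonneg.mpr (le_min (hFnn x) hx')
  have h5 : 0 ≤ Real.arctan (F x) := Real.arctan_nonneg.mpr (hFnn x)
  rw [ENNReal.ofReal_eq_ofReal_iff h4 h5] at hx
  have h6 := Real.arctan_injective hx
  rw [← h6]
  exact min_le_right _ _

theorem IsSobolevLoc.isMin {f : X → ℝ} (hf : IsSobolevLoc m f) :
    IsMinWUGLoc m f (minWeakGrad m f) := by
  obtain ⟨_, h⟩ := hf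
  unfold minWeakGrad
  rw [dif_pos h]
  exact Classical.choose_spec h

theorem IsSobolevLoc.isWUG {f : X → ℝ} (hf : IsSobolevLoc m f) :
    IsWUGLoc m f (minWeakGrad m f) := (IsSobolevLoc.isMin hf).1

theorem isSobolevLoc_iff (hfin : IsFiniteOnBalls m) {f : X → ℝ} :
    IsSobolevLoc m f ↔ IsL2OnBalls m f ∧ ∃ D : X → ℝ, IsWUGLoc m f D := by
  constructor
  · rintro ⟨h1, D, hD⟩
    exact ⟨h1, D, hD.1⟩
  · rintro ⟨h1, D, hD⟩
    exact ⟨h1, exists_isMinWUGLoc hfin h1 hD⟩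

/-- either a minimal weak upper gradient, or the zero function. -/
theorem minWeakGrad_cases (f : X → ℝ) :
    IsMinWUGLoc m f (minWeakGrad m f) ∨
      ((¬ ∃ D : X → ℝ, IsMinWUGLoc m f D) ∧ minWeakGrad m f = 0) := by
  by_cases h : ∃ D : X → ℝ, IsMinWUGLoc m f D
  · left
    unfold minWeakGrad
    rw [dif_pos h]
    exact Classical.choose_spec h
  · right
    refine ⟨h, ?_⟩
    unfold minWeakGrad
    rw [dif_neg h]

theorem minWeakGrad_nonneg (f : X → ℝ) : ∀ᵐ x ∂m, 0 ≤ minWeakGrad m f x := by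
  rcases minWeakGrad_cases (m := m) f with h | ⟨-, h⟩
  · exact h.1.2.1
  · rw [h]; exact Eventually.of_forall fun _ => le_rfl

theorem minWeakGrad_isL2OnBalls (f : X → ℝ) : IsL2OnBalls m (minWeakGrad m f) := by
  rcases minWeakGrad_cases (m := m) f with h | ⟨-, h⟩
  · exact h.1.1
  · rw [h]; exact fun o R => MemLp.zero

theorem minWeakGrad_aestronglyMeasurable (_hfin : IsFiniteOnBalls m) (f : X → ℝ) :
    AEStronglyMeasurable (minWeakGrad m f) m :=
  isL2OnBalls_aestronglyMeasurable (minWeakGrad_isL2OnBalls f)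

theorem minWeakGrad_le_of_isWUGLoc (hfin : IsFiniteOnBalls m) {f D : X → ℝ}
    (hf : IsL2OnBalls m f) (hD : IsWUGLoc m f D) : ∀ᵐ x ∂m, minWeakGrad m f x ≤ D x :=
  (IsSobolevLoc.isMin ((isSobolevLoc_iff hfin).mpr ⟨hf, D, hD⟩)).2 D hD

theorem isL2OnBalls_of_memLp {f : X → ℝ} (hf : MemLp f 2 m) : IsL2OnBalls m f :=
  fun _ _ => hf.restrict _

theorem isSobolev_iff (hfin : IsFiniteOnBalls m) {f : X → ℝ} :
    IsSobolev m f ↔ MemLp f 2 m ∧ ∃ D : X → ℝ, IsWUGLoc m f D ∧ MemLp D 2 m := by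
  constructor
  · rintro ⟨h1, h2, h3⟩
    exact ⟨h1, minWeakGrad m f, IsSobolevLoc.isWUG h2, h3⟩
  · rintro ⟨h1, D, hD, hD2⟩
    have hl2 := isL2OnBalls_of_memLp h1
    refine ⟨h1, (isSobolevLoc_iff hfin).mpr ⟨hl2, D, hD⟩, ?_⟩
    refine hD2.mono (minWeakGrad_aestronglyMeasurable hfin f) ?_
    filter_upwards [minWeakGrad_nonneg (m := m) f, minWeakGrad_le_of_isWUGLoc hfin hl2 hD]
      with x h3 h4
    rw [Real.norm_eq_abs, Real.norm_eq_abs, abs_of_nonneg h3]
    exact h4.trans (le_abs_self _)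

end Main

end Crest.Agent.R242
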