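import Mathlib
import Crest.Agent.R242.ACCurve
import Crest.Agent.R242.SDefs
import Crest.Agent.R242.SobMin

/-!
Row 242, PART S5, S6: chain rule and Leibniz rule for the minimal weak upper gradient.
-/

set_option autoImplicit false
set_option linter.unusedSectionVars false

open MeasureTheory Filter Set
open Crest.GeometryTopology.SyntheticRicci
open scoped ENNReal NNReal Topology

namespace Crest.Agent.R242

/-! ### one-curve operations -/

section OneCurve

variable {X : Type*} [MetricSpace X]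

theorem ae_restrict_Ioo_mem :
    ∀ᵐ t ∂(volume.restrict (Icc (0 : ℝ) 1)), t ∈ Ioo (0 : ℝ) 1 := by
  have h0 : ∀ᵐ x : ℝ, x ≠ 0 := by simp [ae_iff, measure_singleton]
  have h11 : ∀ᵐ x : ℝ, x ≠ 1 := by simp [ae_iff, measure_singleton]
  filter_upwards [ae_restrict_of_ae h0, ae_restrict_of_ae h11,
    ae_restrict_mem measurableSet_Icc] with t ht0 ht1 htI
  exact ⟨lt_of_le_of_ne htI.1 (Ne.symm ht0), lt_of_le_of_ne htI.2 ht1⟩

theorem ac_ae_differentiableAt {u : ℝ → ℝ} (hu : AbsolutelyContinuousOnInterval u 0 1) :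
    ∀ᵐ t ∂(volume.restrict (Icc (0 : ℝ) 1)), DifferentiableAt ℝ u t := by
  have h := hu.ae_differentiableAt
  rw [uIcc_of_le zero_le_one] at h
  exact (ae_restrict_iff' measurableSet_Icc).2 h

/-- two continuous representatives along the same curve agree. -/
theorem rep_unique {f : X → ℝ} {γ : UCurve X} {u v : ℝ → ℝ}
    (hu : AbsolutelyContinuousOnInterval u 0 1) (hv : AbsolutelyContinuousOnInterval v 0 1)
    (hu2 : ∀ᵐ t ∂(volume.restrict (Icc (0 : ℝ) 1)), u t = f (γ.ext t))
    (hv2 : ∀ᵐ t ∂(volume.restrict (Icc (0 : ℝ) 1)), v t = f (γ.ext t)) :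
    EqOn u v (Icc 0 1) := by
  have hcu := hu.continuousOn
  have hcv := hv.continuousOn
  rw [uIcc_of_le zero_le_one] at hcu hcv
  have h : u =ᵐ[volume.restrict (Icc (0 : ℝ) 1)] v := by
    filter_upwards [hu2, hv2] with t h1 h2
    rw [h1, h2]
  exact Measure.eqOn_Icc_of_ae_eq volume (by norm_num) h hcu hcv

theorem rep_deriv_eq {u v : ℝ → ℝ} (h : EqOn u v (Icc 0 1)) :
    ∀ᵐ t ∂(volume.restrict (Icc (0 : ℝ) 1)), deriv u t = deriv v t := by
  filter_upwards [ae_restrict_Ioo_mem] with t ht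
  refine Filter.EventuallyEq.deriv_eq ?_
  filter_upwards [Icc_mem_nhds ht.1 ht.2] with s hs using h hs

theorem CurveUG.mono_ae {f D D' : X → ℝ} {γ : UCurve X} (h : CurveUG f D γ)
    (hD : ∀ᵐ t ∂(volume.restrict (Icc (0 : ℝ) 1)), D (γ.ext t) ≤ D' (γ.ext t)) :
    CurveUG f D' γ := by
  obtain ⟨u, h1, h2, h3, h4, h5⟩ := h
  refine ⟨u, h1, h2, h3, h4, ?_⟩
  filter_upwards [h5, hD] with t ht hDt
  exact ht.trans (by gcongr)

/-- locally Lipschitz function on the line, in the form used here. -/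
def LipLine (φ : ℝ → ℝ) : Prop := ∀ R : ℝ, ∃ L : ℝ≥0, LipschitzOnWith L φ (Icc (-R) R)

theorem LipLine.of_lipschitz {φ : ℝ → ℝ} {L : ℝ≥0} (h : LipschitzWith L φ) : LipLine φ :=
  fun _ => ⟨L, h.lipschitzOnWith⟩

theorem LipLine.of_contDiff {φ : ℝ → ℝ} (h : ContDiff ℝ 1 φ) : LipLine φ := by
  intro R
  exact h.locallyLipschitz.locallyLipschitzOn.exists_lipschitzOnWith_of_compact isCompact_Icc

theorem LipLine.ac_comp {φ u : ℝ → ℝ} (hφ : LipLine φ)
    (hu : AbsolutelyContinuousOnInterval u 0 1) :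
    AbsolutelyContinuousOnInterval (fun t => φ (u t)) 0 1 := by
  obtain ⟨C, hC⟩ := hu.exists_bound
  obtain ⟨L, hL⟩ := hφ C
  refine ac_of_dist_le (C := L) ?_ hu
  intro x hx y hy
  have h1 := hC x hx
  have h2 := hC y hy
  rw [Real.norm_eq_abs] at h1 h2
  exact hL.dist_le_mul _ (abs_le.1 h1) _ (abs_le.1 h2)

/-- derivative of `φ ∘ u` at almost every time -/
theorem LipLine.deriv_comp {φ u : ℝ → ℝ} (hφ : LipLine φ)
    (hu : AbsolutelyContinuousOnInterval u 0 1) {N : Set ℝ} (hN : N.Countable)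
    (hd : ∀ t ∉ N, DifferentiableAt ℝ φ t) :
    ∀ᵐ t ∂(volume.restrict (Icc (0 : ℝ) 1)),
      (u t ∈ N → deriv u t = 0 ∧ deriv (fun t => φ (u t)) t = 0) ∧
      (u t ∉ N → deriv (fun t => φ (u t)) t = deriv φ (u t) * deriv u t) := by
  obtain ⟨C, hC⟩ := hu.exists_bound
  obtain ⟨L, hL⟩ := hφ C
  filter_upwards [ae_restrict_Ioo_mem, ac_ae_differentiableAt hu,
    ae_restrict_of_ae (ae_deriv_eq_zero_of_mem_countable u hN)] with t htI htd ht0
  refine ⟨fun h => ⟨ht0 h, ?_⟩, fun h => ?_⟩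
  · have h0 := ht0 h
    have hdu : HasDerivAt u 0 t := by rw [← h0]; exact htd.hasDerivAt
    have hbd : ∀ s ∈ Icc (0 : ℝ) 1, |u s| ≤ C := by
      intro s hs
      have := hC s (by rw [uIcc_of_le zero_le_one]; exact hs)
      rwa [Real.norm_eq_abs] at this
    have hdv : HasDerivAt (fun t => φ (u t)) 0 t := by
      rw [hasDerivAt_iff_isLittleO] at hdu ⊢
      simp only [smul_zero, sub_zero] at hdu ⊢
      refine Asymptotics.IsBigO.trans_isLittleO ?_ hdu
      refine Asymptotics.IsBigO.of_bound L ?_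
      filter_upwards [Icc_mem_nhds htI.1 htI.2] with s hs
      have := hL.dist_le_mul _ (abs_le.1 (hbd s hs)) _ (abs_le.1 (hbd t (Ioo_subset_Icc_self htI)))
      simpa [Real.dist_eq, Real.norm_eq_abs] using this
    exact hdv.deriv
  · exact ((hd _ h).hasDerivAt.comp t htd.hasDerivAt).deriv

theorem CurveUG.comp {f D : X → ℝ} {γ : UCurve X} (h : CurveUG f D γ) {φ : ℝ → ℝ}
    (hφ : LipLine φ) {N : Set ℝ} (hN : N.Countable) (hd : ∀ t ∉ N, DifferentiableAt ℝ φ t) :
    CurveUG (fun x => φ (f x)) (fun x => |deriv φ (f x)| * D x) γ := by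
  obtain ⟨u, h1, h2, h3, h4, h5⟩ := h
  refine ⟨fun t => φ (u t), hφ.ac_comp h1, by simp only [h2], by simp only [h3], ?_, ?_⟩
  · filter_upwards [h4] with t ht
    rw [ht]
  · filter_upwards [h4, h5, hφ.deriv_comp h1 hN hd] with t ht4 ht5 htd
    by_cases hu : u t ∈ N
    · rw [(htd.1 hu).2]; simp
    · rw [htd.2 hu, abs_mul, ENNReal.ofReal_mul (abs_nonneg _), ← ht4,
        ENNReal.ofReal_mul (abs_nonneg _), mul_assoc, ht4]
      gcongr

/-- lower bound in the chain rule, on one curve -/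
theorem CurveUG.of_comp {f D D' : X → ℝ} {γ : UCurve X} (h : CurveUG f D γ) {φ : ℝ → ℝ}
    (hφ : LipLine φ) {N : Set ℝ} (hN : N.Countable) (hd : ∀ t ∉ N, DifferentiableAt ℝ φ t)
    (h' : CurveUG (fun x => φ (f x)) D' γ) {D'' : X → ℝ}
    (h1 : ∀ x, f x ∉ N → deriv φ (f x) ≠ 0 → D'' x = Min.min (D x) (D' x / |deriv φ (f x)|))
    (h2 : ∀ x, f x ∉ N → deriv φ (f x) = 0 → D'' x = D x) :
    CurveUG f D'' γ := by
  obtain ⟨u, hu1, hu2, hu3, hu4, hu5⟩ := h
  obtain ⟨w, hw1, hw2, hw3, hw4, hw5⟩ := h'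
  refine ⟨u, hu1, hu2, hu3, hu4, ?_⟩
  have heq : EqOn w (fun t => φ (u t)) (Icc 0 1) := by
    refine rep_unique (f := fun x => φ (f x)) (γ := γ) hw1 (hφ.ac_comp hu1) hw4 ?_
    filter_upwards [hu4] with t ht
    rw [ht]
  filter_upwards [hu4, hu5, hw5, hφ.deriv_comp hu1 hN hd, rep_deriv_eq heq] with t ht4 ht5 htw htd hte
  by_cases hu : u t ∈ N
  · rw [(htd.1 hu).1]; simp
  · rw [hte, htd.2 hu, abs_mul] at htw
    rw [ht4] at hu
    by_cases h0 : deriv φ (f (γ.ext t)) = 0
    · rw [h2 _ hu h0]; exact ht5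
    · rw [h1 _ hu h0]
      have hpos : 0 < |deriv φ (f (γ.ext t))| := abs_pos.2 h0
      rw [ht4] at htw
      rcases le_total (D (γ.ext t)) (D' (γ.ext t) / |deriv φ (f (γ.ext t))|) with hle | hle
      · rw [min_eq_left hle]; exact ht5
      · rw [min_eq_right hle]
        rw [div_eq_inv_mul, ENNReal.ofReal_mul (inv_nonneg.2 hpos.le), mul_assoc]
        calc ENNReal.ofReal |deriv u t|
            = ENNReal.ofReal (|deriv φ (f (γ.ext t))|)⁻¹ *
              ENNReal.ofReal (|deriv φ (f (γ.ext t))| * |deriv u t|) := by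
              rw [← ENNReal.ofReal_mul (inv_nonneg.2 hpos.le)]
              congr 1
              field_simp
          _ ≤ _ := by gcongr

theorem CurveUG.mul {f g D D' : X → ℝ} {γ : UCurve X} (h : CurveUG f D γ) (h' : CurveUG g D' γ) :
    CurveUG (fun x => f x * g x) (fun x => |f x| * max (D' x) 0 + |g x| * max (D x) 0) γ := by
  obtain ⟨u, hu1, hu2, hu3, hu4, hu5⟩ := h
  obtain ⟨w, hw1, hw2, hw3, hw4, hw5⟩ := h'
  refine ⟨fun t => u t * w t, hu1.fun_mul hw1, by simp only [hu2, hw2], by simp only [hu3, hw3],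
    ?_, ?_⟩
  · filter_upwards [hu4, hw4] with t h1 h2
    rw [h1, h2]
  · filter_upwards [hu4, hw4, hu5, hw5, ac_ae_differentiableAt hu1, ac_ae_differentiableAt hw1]
      with t h1 h2 h3 h4 h5 h6
    have hder : deriv (fun t => u t * w t) t = deriv u t * w t + u t * deriv w t :=
      (h5.hasDerivAt.fun_mul h6.hasDerivAt).deriv
    rw [hder]
    rw [ENNReal.ofReal_add (mul_nonneg (abs_nonneg _) (le_max_right _ _))
      (mul_nonneg (abs_nonneg _) (le_max_right _ _)), add_mul, ENNReal.ofReal_mul (abs_nonneg _),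
      ENNReal.ofReal_mul (abs_nonneg _), mul_assoc, mul_assoc, ← h1, ← h2]
    calc ENNReal.ofReal |deriv u t * w t + u t * deriv w t|
        ≤ ENNReal.ofReal (|deriv u t| * |w t| + |u t| * |deriv w t|) := by
          apply ENNReal.ofReal_le_ofReal
          calc |deriv u t * w t + u t * deriv w t| ≤ |deriv u t * w t| + |u t * deriv w t| :=
                abs_add_le _ _
            _ = _ := by rw [abs_mul, abs_mul]
      _ = ENNReal.ofReal |u t| * ENNReal.ofReal |deriv w t| +
          ENNReal.ofReal |w t| * ENNReal.ofReal |deriv u t| := by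
          rw [ENNReal.ofReal_add (by positivity) (by positivity),
            ENNReal.ofReal_mul (abs_nonneg _), ENNReal.ofReal_mul (abs_nonneg _), add_comm,
            mul_comm (ENNReal.ofReal |deriv u t|)]
      _ ≤ _ := by
          gcongr
          · exact h4.trans (by gcongr; exact le_max_left _ _)
          · exact h3.trans (by gcongr; exact le_max_left _ _)

theorem ac_comp₂ {u v : ℝ → ℝ} {Φ : ℝ → ℝ → ℝ}
    (hΦ : ∀ a b c d, |Φ a b - Φ c d| ≤ |a - c| + |b - d|)
    (hu : AbsolutelyContinuousOnInterval u 0 1) (hv : AbsolutelyContinuousOnInterval v 0 1) :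
    AbsolutelyContinuousOnInterval (fun t => Φ (u t) (v t)) 0 1 := by
  unfold AbsolutelyContinuousOnInterval at hu hv ⊢
  have h1 := hu.add hv
  rw [add_zero] at h1
  refine squeeze_zero' (Eventually.of_forall fun E => Finset.sum_nonneg fun _ _ => dist_nonneg)
    (Eventually.of_forall fun E => ?_) h1
  rw [← Finset.sum_add_distrib]
  refine Finset.sum_le_sum fun i _ => ?_
  rw [Real.dist_eq, Real.dist_eq, Real.dist_eq]
  exact hΦ _ _ _ _

theorem CurveUG.comp₂ {f g D D' : X → ℝ} {γ : UCurve X} (h : CurveUG f D γ) (h' : CurveUG g D' γ)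
    {Φ : ℝ → ℝ → ℝ} (hΦ : ∀ a b c d, |Φ a b - Φ c d| ≤ |a - c| + |b - d|) :
    CurveUG (fun x => Φ (f x) (g x)) (fun x => max (D x) 0 + max (D' x) 0) γ := by
  obtain ⟨u, hu1, hu2, hu3, hu4, hu5⟩ := h
  obtain ⟨w, hw1, hw2, hw3, hw4, hw5⟩ := h'
  refine ⟨fun t => Φ (u t) (w t), ac_comp₂ hΦ hu1 hw1, by simp only [hu2, hw2],
    by simp only [hu3, hw3], ?_, ?_⟩
  · filter_upwards [hu4, hw4] with t h1 h2
    rw [h1, h2]
  · filter_upwards [hu5, hw5, ac_ae_differentiableAt hu1, ac_ae_differentiableAt hw1]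
      with t h3 h4 h5 h6
    have hle : |deriv (fun t => Φ (u t) (w t)) t| ≤ |deriv u t| + |deriv w t| := by
      by_cases hd : DifferentiableAt ℝ (fun t => Φ (u t) (w t)) t
      · have h7 : Tendsto (fun y => |slope (fun t => Φ (u t) (w t)) t y|) (𝓝[≠] t)
            (𝓝 |deriv (fun t => Φ (u t) (w t)) t|) :=
          (hasDerivAt_iff_tendsto_slope.1 hd.hasDerivAt).abs
        have h8 : Tendsto (fun y => |slope u t y| + |slope w t y|) (𝓝[≠] t)
            (𝓝 (|deriv u t| + |deriv w t|)) :=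
          ((hasDerivAt_iff_tendsto_slope.1 h5.hasDerivAt).abs).add
            ((hasDerivAt_iff_tendsto_slope.1 h6.hasDerivAt).abs)
        refine le_of_tendsto_of_tendsto' h7 h8 fun y => ?_
        rw [slope_def_field, slope_def_field, slope_def_field, abs_div, abs_div, abs_div,
          ← add_div]
        exact div_le_div_of_nonneg_right (hΦ _ _ _ _) (abs_nonneg _)
      · rw [deriv_zero_of_not_differentiableAt hd, abs_zero]; positivity
    rw [ENNReal.ofReal_add (le_max_right _ _) (le_max_right _ _), add_mul]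
    calc ENNReal.ofReal |deriv (fun t => Φ (u t) (w t)) t|
        ≤ ENNReal.ofReal (|deriv u t| + |deriv w t|) := ENNReal.ofReal_le_ofReal hle
      _ = ENNReal.ofReal |deriv u t| + ENNReal.ofReal |deriv w t| :=
          ENNReal.ofReal_add (abs_nonneg _) (abs_nonneg _)
      _ ≤ _ := by
          refine add_le_add (h3.trans ?_) (h4.trans ?_)
          · gcongr; exact le_max_left _ _
          · gcongr; exact le_max_left _ _

/-- the derivative vanishes where the value lies in a countable set: `D` may be put to zero there. -/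
theorem CurveUG.zero_on {f D D' : X → ℝ} {γ : UCurve X} (h : CurveUG f D γ) {N : Set ℝ}
    (hN : N.Countable) (h' : ∀ x, f x ∉ N → D' x = D x) : CurveUG f D' γ := by
  obtain ⟨u, hu1, hu2, hu3, hu4, hu5⟩ := h
  refine ⟨u, hu1, hu2, hu3, hu4, ?_⟩
  filter_upwards [hu4, hu5, ae_restrict_of_ae (ae_deriv_eq_zero_of_mem_countable u hN)]
    with t h4 h5 h0
  by_cases hu : u t ∈ N
  · rw [h0 hu]; simp
  · rw [h' _ (by rw [← h4]; exact hu)]; exact h5

end OneCurve

/-! ### chain rule -/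

section Chain

variable {X : Type*} [MetricSpace X] [ProperSpace X] [MeasurableSpace X] [BorelSpace X]
variable {m : Measure X}

theorem isL2OnBalls_of_le_mul {f g : X → ℝ} (hg : IsL2OnBalls m g)
    (hf : ∀ (o : X) (R : ℝ), AEStronglyMeasurable f (m.restrict (Metric.ball o R)))
    (h : ∀ (o : X) (R : ℝ), ∃ c : ℝ, ∀ᵐ x ∂(m.restrict (Metric.ball o R)), |f x| ≤ c * |g x|) :
    IsL2OnBalls m f := by
  intro o R
  obtain ⟨c, hc⟩ := h o R
  exact (hg o R).of_le_mul (hf o R) hc

/-- The chain rule in its general form: `φ` locally Lipschitz, differentiable outside a countable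
set, provided the functions that occur are locally square integrable. -/
theorem isWUGLoc_comp (hfin : IsFiniteOnBalls m) {f D : X → ℝ} (hf : IsL2OnBalls m f)
    (hD : IsWUGLoc m f D) {φ : ℝ → ℝ} (hφ : LipLine φ)
    {N : Set ℝ} (hN : N.Countable) (hd : ∀ t ∉ N, DifferentiableAt ℝ φ t)
    (h1 : IsL2OnBalls m (fun x => φ (f x))) (h2 : IsL2OnBalls m (fun x => |deriv φ (f x)| * D x)) :
    IsWUGLoc m (fun x => φ (f x)) (fun x => |deriv φ (f x)| * D x) := by
  rw [isWUGLoc_iff_curveUG hfin hf] at hD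
  rw [isWUGLoc_iff_curveUG hfin h1]
  refine ⟨h2, ?_, ?_⟩
  · filter_upwards [hD.2.1] with x hx
    positivity
  · intro P hP hPb
    filter_upwards [hD.2.2 P hP hPb] with γ hγ
    exact hγ.comp hφ hN hd

theorem minWeakGrad_ae_zero_of_mem_countable (hfin : IsFiniteOnBalls m) {f : X → ℝ}
    (hf : IsSobolevLoc m f) {N : Set ℝ} (hN : N.Countable) :
    ∀ᵐ x ∂m, f x ∈ N → minWeakGrad m f x = 0 := by
  classical
  have hW := (IsSobolevLoc.isWUG hf)
  have hfm : ∀ (o : X) (R : ℝ), AEMeasurable f (m.restrict (Metric.ball o R)) :=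
    fun o R => (hf.1 o R).aestronglyMeasurable.aemeasurable
  set D' : X → ℝ := fun x => if f x ∈ N then 0 else minWeakGrad m f x with hD'
  have hL2 : IsL2OnBalls m D' := by
    refine isL2OnBalls_of_le_mul hW.1 ?_ (fun o R => ⟨1, ?_⟩)
    · intro o R
      have hmeas : NullMeasurableSet {x | f x ∈ N} (m.restrict (Metric.ball o R)) :=
        (hfm o R).nullMeasurable hN.measurableSet
      have h1 : AEStronglyMeasurable (fun x => minWeakGrad m f x)
        (m.restrict (Metric.ball o R)) := (hW.1 o R).aestronglyMeasurable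
      have h2 : D' = {x | f x ∈ N}ᶜ.indicator (fun x => minWeakGrad m f x) := by
        ext x
        by_cases hx : f x ∈ N
        · simp [hD', hx]
        · simp [hD', hx]
      rw [h2]
      exact (aestronglyMeasurable_indicator_iff₀ hmeas.compl).2 h1.restrict
    · refine Eventually.of_forall fun x => ?_
      simp only [hD', one_mul]
      split_ifs
      · simp
      · exact le_rfl
  have hWUG : IsWUGLoc m f D' := by
    have h0 := (isWUGLoc_iff_curveUG hfin hf.1).1 hW
    refine (isWUGLoc_iff_curveUG hfin hf.1).2 ⟨hL2, ?_, ?_⟩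
    · filter_upwards [h0.2.1] with x hx
      simp only [hD']
      split_ifs
      · exact le_rfl
      · exact hx
    · intro P hP hPb
      filter_upwards [h0.2.2 P hP hPb] with γ hγ
      exact hγ.zero_on hN (fun x hx => by simp [hD', hx])
  filter_upwards [minWeakGrad_le_of_isWUGLoc hfin hf.1 hWUG, minWeakGrad_nonneg (m := m) f]
    with x h1 h2 hx
  simp only [hD', hx, if_true] at h1
  exact le_antisymm h1 h2

theorem minWeakGrad_comp_general (hfin : IsFiniteOnBalls m) {f : X → ℝ} (hf : IsSobolevLoc m f)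
    {φ : ℝ → ℝ} (hφ : LipLine φ)
    {N : Set ℝ} (hN : N.Countable) (hd : ∀ t ∉ N, DifferentiableAt ℝ φ t)
    (h1 : IsL2OnBalls m (fun x => φ (f x)))
    (h2 : IsL2OnBalls m (fun x => |deriv φ (f x)| * minWeakGrad m f x)) :
    IsSobolevLoc m (fun x => φ (f x)) ∧
    ∀ᵐ x ∂m, minWeakGrad m (fun y => φ (f y)) x = |deriv φ (f x)| * minWeakGrad m f x := by
  classical
  have hW := (IsSobolevLoc.isWUG hf)
  have hWc := isWUGLoc_comp hfin hf.1 hW hφ hN hd h1 h2
  have hS : IsSobolevLoc m (fun x => φ (f x)) := (isSobolevLoc_iff hfin).2 ⟨h1, _, hWc⟩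
  refine ⟨hS, ?_⟩
  have hWφ := (IsSobolevLoc.isWUG hS)
  set D := minWeakGrad m f with hDdef
  set Dφ := minWeakGrad m (fun y => φ (f y)) with hDφ
  set D'' : X → ℝ := fun x => if f x ∉ N ∧ deriv φ (f x) ≠ 0 then
    min (D x) (Dφ x / |deriv φ (f x)|) else D x with hD''
  have hfm : ∀ (o : X) (R : ℝ), AEMeasurable f (m.restrict (Metric.ball o R)) :=
    fun o R => (hf.1 o R).aestronglyMeasurable.aemeasurable
  have hL2 : IsL2OnBalls m D'' := by
    refine isL2OnBalls_of_le_mul hW.1 ?_ (fun o R => ⟨1, ?_⟩)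
    · intro o R
      have hmeas : NullMeasurableSet {x | f x ∉ N ∧ deriv φ (f x) ≠ 0}
          (m.restrict (Metric.ball o R)) := by
        have : MeasurableSet {t : ℝ | t ∉ N ∧ deriv φ t ≠ 0} :=
          hN.measurableSet.compl.inter
            ((measurable_deriv φ) (measurableSet_singleton (0 : ℝ)).compl)
        exact (hfm o R).nullMeasurable this
      have hm1 : AEMeasurable D (m.restrict (Metric.ball o R)) :=
        (hW.1 o R).aestronglyMeasurable.aemeasurable
      have hm2 : AEMeasurable Dφ (m.restrict (Metric.ball o R)) :=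
        (hWφ.1 o R).aestronglyMeasurable.aemeasurable
      have hm3 : AEMeasurable (fun x => |deriv φ (f x)|) (m.restrict (Metric.ball o R)) :=
        ((measurable_deriv φ).comp_aemeasurable (hfm o R)).abs
      have hm4 : AEMeasurable (fun x => min (D x) (Dφ x / |deriv φ (f x)|))
          (m.restrict (Metric.ball o R)) := hm1.min (hm2.div hm3)
      have : D'' = {x | f x ∉ N ∧ deriv φ (f x) ≠ 0}.indicator
          (fun x => min (D x) (Dφ x / |deriv φ (f x)|)) +
          {x | f x ∉ N ∧ deriv φ (f x) ≠ 0}ᶜ.indicator D := by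
        ext x
        by_cases hx : f x ∉ N ∧ deriv φ (f x) ≠ 0
        · have hx' : x ∈ {x | f x ∉ N ∧ deriv φ (f x) ≠ 0} := hx
          rw [hD'']
          simp only [if_pos hx, Pi.add_apply, Set.indicator_of_mem hx',
            Set.indicator_of_notMem (fun h : x ∈ {x | f x ∉ N ∧ deriv φ (f x) ≠ 0}ᶜ => h hx'),
            add_zero]
        · have hx' : x ∈ {x | f x ∉ N ∧ deriv φ (f x) ≠ 0}ᶜ := hx
          rw [hD'']
          simp only [if_neg hx, Pi.add_apply, Set.indicator_of_mem hx',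
            Set.indicator_of_notMem (show x ∉ {x | f x ∉ N ∧ deriv φ (f x) ≠ 0} from hx),
            zero_add]
      rw [this]
      refine AEStronglyMeasurable.add ?_ ?_
      · exact (aestronglyMeasurable_indicator_iff₀ hmeas).2 hm4.aestronglyMeasurable.restrict
      · exact (aestronglyMeasurable_indicator_iff₀ hmeas.compl).2
          hm1.aestronglyMeasurable.restrict
    · have hn1 : ∀ᵐ x ∂(m.restrict (Metric.ball o R)), 0 ≤ D x := ae_restrict_of_ae hW.2.1
      have hn2 : ∀ᵐ x ∂(m.restrict (Metric.ball o R)), 0 ≤ Dφ x := ae_restrict_of_ae hWφ.2.1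
      filter_upwards [hn1, hn2] with x hx1 hx2
      simp only [hD'', one_mul]
      split_ifs with hx
      · rw [abs_of_nonneg hx1, abs_of_nonneg (le_min hx1 (by positivity))]
        exact min_le_left _ _
      · exact le_rfl
  have hWUG : IsWUGLoc m f D'' := by
    have h0 := (isWUGLoc_iff_curveUG hfin hf.1).1 hW
    have h0' := (isWUGLoc_iff_curveUG hfin h1).1 hWφ
    refine (isWUGLoc_iff_curveUG hfin hf.1).2 ⟨hL2, ?_, ?_⟩
    · filter_upwards [h0.2.1, h0'.2.1] with x hx hx'
      simp only [hD'']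
      split_ifs
      · exact le_min hx (by positivity)
      · exact hx
    · intro P hP hPb
      filter_upwards [h0.2.2 P hP hPb, h0'.2.2 P hP hPb] with γ hγ hγ'
      refine hγ.of_comp hφ hN hd hγ' (fun x hx1 hx2 => ?_) (fun x hx1 hx2 => ?_)
      · simp only [hD'', hx1, hx2, not_false_eq_true, ne_eq, and_self, if_true]
      · simp only [hD'', hx1, hx2, not_false_eq_true, ne_eq, not_true_eq_false, and_false,
          if_false]
  filter_upwards [minWeakGrad_le_of_isWUGLoc hfin hf.1 hWUG,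
    minWeakGrad_le_of_isWUGLoc hfin h1 hWc, minWeakGrad_ae_zero_of_mem_countable hfin hf hN,
    hWφ.2.1] with x hx1 hx2 hx3 hx4
  refine le_antisymm hx2 ?_
  by_cases hxN : f x ∈ N
  · rw [hDdef, hx3 hxN, mul_zero]; exact hx4
  · by_cases h0 : deriv φ (f x) = 0
    · rw [h0, abs_zero, zero_mul]; exact hx4
    · have hle : D x ≤ D'' x := hx1
      rw [hD''] at hle
      simp only [hxN, h0, not_false_eq_true, ne_eq, and_self, if_true] at hle
      have hle' := hle.trans (min_le_right _ _)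
      rw [le_div_iff₀ (abs_pos.2 h0)] at hle'
      rw [mul_comm]; exact hle'

theorem isL2OnBalls_const (hfin : IsFiniteOnBalls m) (c : ℝ) :
    IsL2OnBalls m (fun _ => c) := by
  intro o R
  have : IsFiniteMeasure (m.restrict (Metric.ball o R)) :=
    ⟨by rw [Measure.restrict_apply_univ]; exact hfin o R⟩
  exact memLp_const c

theorem isL2OnBalls_add {f g : X → ℝ} (hf : IsL2OnBalls m f) (hg : IsL2OnBalls m g) :
    IsL2OnBalls m (fun x => f x + g x) := fun o R => (hf o R).add (hg o R)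

theorem isL2OnBalls_comp_lipschitz (hfin : IsFiniteOnBalls m) {f : X → ℝ} (hf : IsL2OnBalls m f)
    {φ : ℝ → ℝ} {L : ℝ≥0} (hφ : LipschitzWith L φ) : IsL2OnBalls m (fun x => φ (f x)) := by
  have h1 : IsL2OnBalls m (fun x => |φ 0| + L * |f x|) := by
    refine isL2OnBalls_add (isL2OnBalls_const hfin _) ?_
    intro o R
    exact (hf o R).abs.const_mul _
  refine isL2OnBalls_of_le_mul h1 (fun o R => ?_) (fun o R => ⟨1, Eventually.of_forall fun x => ?_⟩)
  · exact hφ.continuous.comp_aestronglyMeasurable (hf o R).aestronglyMeasurable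
  · rw [one_mul, abs_of_nonneg (a := |φ 0| + L * |f x|) (by positivity)]
    have h2 := hφ.dist_le_mul (f x) 0
    rw [Real.dist_eq, Real.dist_eq, sub_zero] at h2
    calc |φ (f x)| = |φ 0 + (φ (f x) - φ 0)| := by ring_nf
      _ ≤ |φ 0| + |φ (f x) - φ 0| := abs_add_le _ _
      _ ≤ _ := by linarith

theorem abs_deriv_le_of_lipschitz {φ : ℝ → ℝ} {L : ℝ≥0} (hφ : LipschitzWith L φ) (t : ℝ) :
    |deriv φ t| ≤ L := by
  have h := norm_deriv_le_of_lipschitz (x₀ := t) hφ
  rwa [Real.norm_eq_abs] at h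

/-- a Lipschitz function on the line composed with a local Sobolev function: upper bound. Here no
differentiability is needed. -/
theorem CurveUG.comp_lipschitz {X : Type*} [MetricSpace X] {f D : X → ℝ} {γ : UCurve X}
    (h : CurveUG f D γ) {φ : ℝ → ℝ} {L : ℝ≥0} (hφ : LipschitzWith L φ) :
    CurveUG (fun x => φ (f x)) (fun x => L * D x) γ := by
  obtain ⟨u, h1, h2, h3, h4, h5⟩ := h
  refine ⟨fun t => φ (u t), (LipLine.of_lipschitz hφ).ac_comp h1, by simp only [h2],
    by simp only [h3], ?_, ?_⟩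
  · filter_upwards [h4] with t ht
    rw [ht]
  · filter_upwards [h5, ac_ae_differentiableAt h1] with t ht5 htd
    rw [ENNReal.ofReal_mul (NNReal.coe_nonneg L), mul_assoc]
    have hle : |deriv (fun t => φ (u t)) t| ≤ L * |deriv u t| := by
      by_cases hd : DifferentiableAt ℝ (fun t => φ (u t)) t
      · have h6 : Tendsto (fun y => |slope (fun t => φ (u t)) t y|) (𝓝[≠] t)
            (𝓝 |deriv (fun t => φ (u t)) t|) := (hasDerivAt_iff_tendsto_slope.1 hd.hasDerivAt).abs
        have h7 : Tendsto (fun y => L * |slope u t y|) (𝓝[≠] t) (𝓝 (L * |deriv u t|)) :=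
          ((hasDerivAt_iff_tendsto_slope.1 htd.hasDerivAt).abs).const_mul _
        refine le_of_tendsto_of_tendsto' h6 h7 fun y => ?_
        rw [slope_def_field, slope_def_field, abs_div, abs_div, ← mul_div_assoc]
        refine div_le_div_of_nonneg_right ?_ (abs_nonneg _)
        have := hφ.dist_le_mul (u y) (u t)
        rwa [Real.dist_eq, Real.dist_eq] at this
      · rw [deriv_zero_of_not_differentiableAt hd, abs_zero]; positivity
    calc ENNReal.ofReal |deriv (fun t => φ (u t)) t| ≤ ENNReal.ofReal (L * |deriv u t|) :=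
          ENNReal.ofReal_le_ofReal hle
      _ = ENNReal.ofReal L * ENNReal.ofReal |deriv u t| := ENNReal.ofReal_mul (NNReal.coe_nonneg L)
      _ ≤ _ := by gcongr

theorem IsSobolevLoc.comp_lipschitz_aux (hfin : IsFiniteOnBalls m) {f : X → ℝ}
    (hf : IsSobolevLoc m f) {φ : ℝ → ℝ} {L : ℝ≥0} (hφ : LipschitzWith L φ) :
    IsSobolevLoc m (fun x => φ (f x)) ∧
      ∀ᵐ x ∂m, minWeakGrad m (fun y => φ (f y)) x ≤ L * minWeakGrad m f x := by
  have h1 := isL2OnBalls_comp_lipschitz hfin hf.1 hφ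
  have hW := (IsSobolevLoc.isWUG hf)
  have h0 := (isWUGLoc_iff_curveUG hfin hf.1).1 hW
  have hWφ : IsWUGLoc m (fun x => φ (f x)) (fun x => L * minWeakGrad m f x) := by
    refine (isWUGLoc_iff_curveUG hfin h1).2 ⟨fun o R => (h0.1 o R).const_mul _, ?_, ?_⟩
    · filter_upwards [h0.2.1] with x hx
      positivity
    · intro P hP hPb
      filter_upwards [h0.2.2 P hP hPb] with γ hγ
      exact hγ.comp_lipschitz hφ
  exact ⟨(isSobolevLoc_iff hfin).2 ⟨h1, _, hWφ⟩, minWeakGrad_le_of_isWUGLoc hfin h1 hWφ⟩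

theorem IsSobolevLoc.comp_lipschitz (hfin : IsFiniteOnBalls m) {f : X → ℝ}
    (hf : IsSobolevLoc m f) {φ : ℝ → ℝ} {L : ℝ≥0} (hφ : LipschitzWith L φ) :
    IsSobolevLoc m (fun x => φ (f x)) := (IsSobolevLoc.comp_lipschitz_aux hfin hf hφ).1

theorem minWeakGrad_comp_le (hfin : IsFiniteOnBalls m) {f : X → ℝ}
    (hf : IsSobolevLoc m f) {φ : ℝ → ℝ} {L : ℝ≥0} (hφ : LipschitzWith L φ) :
    ∀ᵐ x ∂m, minWeakGrad m (fun y => φ (f y)) x ≤ L * minWeakGrad m f x :=
  (IsSobolevLoc.comp_lipschitz_aux hfin hf hφ).2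

/-- chain rule for a Lipschitz `φ` differentiable outside a countable set -/
theorem minWeakGrad_comp (hfin : IsFiniteOnBalls m) {f : X → ℝ}
    (hf : IsSobolevLoc m f) {φ ψ : ℝ → ℝ} {L : ℝ≥0} (hφ : LipschitzWith L φ)
    {N : Set ℝ} (hN : N.Countable) (hd : ∀ t ∉ N, HasDerivAt φ (ψ t) t) :
    ∀ᵐ x ∂m, minWeakGrad m (fun y => φ (f y)) x = |ψ (f x)| * minWeakGrad m f x := by
  have h2 : IsL2OnBalls m (fun x => |deriv φ (f x)| * minWeakGrad m f x) := by
    refine isL2OnBalls_of_le_mul (IsSobolevLoc.isWUG hf).1 (fun o R => ?_)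
      (fun o R => ⟨L, Eventually.of_forall fun x => ?_⟩)
    · exact (((measurable_deriv φ).comp_aemeasurable
        (hf.1 o R).aestronglyMeasurable.aemeasurable).abs.aestronglyMeasurable).mul
        ((IsSobolevLoc.isWUG hf).1 o R).aestronglyMeasurable
    · rw [abs_mul, abs_abs]
      exact mul_le_mul_of_nonneg_right (abs_deriv_le_of_lipschitz hφ _) (abs_nonneg _)
  filter_upwards [(minWeakGrad_comp_general hfin hf (LipLine.of_lipschitz hφ) hN
    (fun t ht => (hd t ht).differentiableAt) (isL2OnBalls_comp_lipschitz hfin hf.1 hφ) h2).2,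
    minWeakGrad_ae_zero_of_mem_countable hfin hf hN] with x hx h0
  rw [hx]
  by_cases hxN : f x ∈ N
  · rw [h0 hxN, mul_zero, mul_zero]
  · rw [(hd _ hxN).deriv]

theorem isL2OnBalls_of_locBdd (hfin : IsFiniteOnBalls m) {f : X → ℝ}
    (hm : ∀ (o : X) (R : ℝ), AEStronglyMeasurable f (m.restrict (Metric.ball o R)))
    (hb : LocBdd m f) : IsL2OnBalls m f := by
  refine isL2OnBalls_of_le_mul (isL2OnBalls_const hfin 1) hm (fun o R => ?_)
  obtain ⟨B, hB⟩ := hb o R
  exact ⟨B, by filter_upwards [hB] with x hx; simpa using hx⟩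

theorem LocBdd.comp_continuous {f : X → ℝ} (hb : LocBdd m f) {φ : ℝ → ℝ} (hφ : Continuous φ) :
    LocBdd m (fun x => φ (f x)) := by
  intro o R
  obtain ⟨B, hB⟩ := hb o R
  obtain ⟨C, hC⟩ := (isCompact_Icc (a := -B) (b := B)).exists_bound_of_continuousOn
    (f := φ) hφ.continuousOn
  refine ⟨C, ?_⟩
  filter_upwards [hB] with x hx
  have := hC (f x) (abs_le.1 hx)
  rwa [Real.norm_eq_abs] at this

theorem comp_contDiff_aux (hfin : IsFiniteOnBalls m) {f : X → ℝ}
    (hf : IsSobolevLoc m f) (hb : LocBdd m f) {φ : ℝ → ℝ} (hφ : ContDiff ℝ 1 φ) :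
    IsSobolevLoc m (fun x => φ (f x)) ∧
    ∀ᵐ x ∂m, minWeakGrad m (fun y => φ (f y)) x = |deriv φ (f x)| * minWeakGrad m f x := by
  have hcd : Continuous (deriv φ) := hφ.continuous_deriv le_rfl
  have h1 : IsL2OnBalls m (fun x => φ (f x)) :=
    isL2OnBalls_of_locBdd hfin
      (fun o R => hφ.continuous.comp_aestronglyMeasurable (hf.1 o R).aestronglyMeasurable)
      (hb.comp_continuous hφ.continuous)
  have h2 : IsL2OnBalls m (fun x => |deriv φ (f x)| * minWeakGrad m f x) := by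
    refine isL2OnBalls_of_le_mul (IsSobolevLoc.isWUG hf).1 (fun o R => ?_) (fun o R => ?_)
    · exact (hcd.abs.comp_aestronglyMeasurable (hf.1 o R).aestronglyMeasurable).mul
        ((IsSobolevLoc.isWUG hf).1 o R).aestronglyMeasurable
    · obtain ⟨B, hB⟩ := hb.comp_continuous hcd o R
      refine ⟨B, ?_⟩
      filter_upwards [hB] with x hx
      rw [abs_mul, abs_abs]
      exact mul_le_mul_of_nonneg_right hx (abs_nonneg _)
  exact minWeakGrad_comp_general hfin hf (LipLine.of_contDiff hφ) countable_empty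
    (fun t _ => hφ.differentiable one_ne_zero t) h1 h2

/-- chain rule for a `C¹` function of a locally bounded local Sobolev function -/
theorem IsSobolevLoc.comp_contDiff (hfin : IsFiniteOnBalls m) {f : X → ℝ}
    (hf : IsSobolevLoc m f) (hb : LocBdd m f) {φ : ℝ → ℝ} (hφ : ContDiff ℝ 1 φ) :
    IsSobolevLoc m (fun x => φ (f x)) := (comp_contDiff_aux hfin hf hb hφ).1

theorem minWeakGrad_comp_contDiff (hfin : IsFiniteOnBalls m) {f : X → ℝ}
    (hf : IsSobolevLoc m f) (hb : LocBdd m f) {φ : ℝ → ℝ} (hφ : ContDiff ℝ 1 φ) :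
    ∀ᵐ x ∂m, minWeakGrad m (fun y => φ (f y)) x = |deriv φ (f x)| * minWeakGrad m f x :=
  (comp_contDiff_aux hfin hf hb hφ).2

/-! ### S6: Leibniz rule -/

/-- general form: only the products need to be locally square integrable -/
theorem IsSobolevLoc.mul_of_isL2OnBalls (hfin : IsFiniteOnBalls m) {f g : X → ℝ}
    (hf : IsSobolevLoc m f) (hg : IsSobolevLoc m g) (hfg : IsL2OnBalls m (fun x => f x * g x))
    (hD : IsL2OnBalls m (fun x => |f x| * minWeakGrad m g x + |g x| * minWeakGrad m f x)) :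
    IsSobolevLoc m (fun x => f x * g x) ∧
      ∀ᵐ x ∂m, minWeakGrad m (fun y => f y * g y) x ≤
        |f x| * minWeakGrad m g x + |g x| * minWeakGrad m f x := by
  have h0f := (isWUGLoc_iff_curveUG hfin hf.1).1 (IsSobolevLoc.isWUG hf)
  have h0g := (isWUGLoc_iff_curveUG hfin hg.1).1 (IsSobolevLoc.isWUG hg)
  have hae : (fun x => |f x| * minWeakGrad m g x + |g x| * minWeakGrad m f x) =ᵐ[m]
      (fun x => |f x| * max (minWeakGrad m g x) 0 + |g x| * max (minWeakGrad m f x) 0) := by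
    filter_upwards [h0f.2.1, h0g.2.1] with x h1 h2
    rw [max_eq_left h1, max_eq_left h2]
  have hW : IsWUGLoc m (fun x => f x * g x)
      (fun x => |f x| * max (minWeakGrad m g x) 0 + |g x| * max (minWeakGrad m f x) 0) := by
    refine (isWUGLoc_iff_curveUG hfin hfg).2 ⟨?_, ?_, ?_⟩
    · intro o R
      exact (memLp_congr_ae (ae_restrict_of_ae hae)).1 (hD o R)
    · exact Eventually.of_forall fun x => by positivity
    · intro P hP hPb
      filter_upwards [h0f.2.2 P hP hPb, h0g.2.2 P hP hPb] with γ h1 h2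
      exact h1.mul h2
  refine ⟨(isSobolevLoc_iff hfin).2 ⟨hfg, _, hW⟩, ?_⟩
  filter_upwards [minWeakGrad_le_of_isWUGLoc hfin hfg hW, hae] with x h1 h2
  rw [h2]; exact h1

theorem mul_locBdd_aux (hfin : IsFiniteOnBalls m) {f g : X → ℝ} (hf : IsSobolevLoc m f)
    (hg : IsSobolevLoc m g) (hfb : LocBdd m f)
    (hgb : ∀ (o : X) (R : ℝ), ∃ B : ℝ, ∀ᵐ x ∂(m.restrict (Metric.ball o R)), |g x| ≤ B) :
    IsSobolevLoc m (fun x => f x * g x) ∧
      ∀ᵐ x ∂m, minWeakGrad m (fun y => f y * g y) x ≤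
        |f x| * minWeakGrad m g x + |g x| * minWeakGrad m f x := by
  refine IsSobolevLoc.mul_of_isL2OnBalls hfin hf hg ?_ ?_
  · refine isL2OnBalls_of_le_mul hg.1 (fun o R => (hf.1 o R).aestronglyMeasurable.mul
      (hg.1 o R).aestronglyMeasurable) (fun o R => ?_)
    obtain ⟨B, hB⟩ := hfb o R
    refine ⟨B, ?_⟩
    filter_upwards [hB] with x hx
    rw [abs_mul]
    exact mul_le_mul_of_nonneg_right hx (abs_nonneg _)
  · refine isL2OnBalls_add ?_ ?_
    · refine isL2OnBalls_of_le_mul (IsSobolevLoc.isWUG hg).1 (fun o R =>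
        (hf.1 o R).aestronglyMeasurable.aemeasurable.abs.aestronglyMeasurable.mul
        ((IsSobolevLoc.isWUG hg).1 o R).aestronglyMeasurable) (fun o R => ?_)
      obtain ⟨B, hB⟩ := hfb o R
      refine ⟨B, ?_⟩
      filter_upwards [hB] with x hx
      rw [abs_mul, abs_abs]
      exact mul_le_mul_of_nonneg_right hx (abs_nonneg _)
    · refine isL2OnBalls_of_le_mul (IsSobolevLoc.isWUG hf).1 (fun o R =>
        (hg.1 o R).aestronglyMeasurable.aemeasurable.abs.aestronglyMeasurable.mul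
        ((IsSobolevLoc.isWUG hf).1 o R).aestronglyMeasurable) (fun o R => ?_)
      obtain ⟨B, hB⟩ := hgb o R
      refine ⟨B, ?_⟩
      filter_upwards [hB] with x hx
      rw [abs_mul, abs_abs]
      exact mul_le_mul_of_nonneg_right hx (abs_nonneg _)

theorem IsSobolevLoc.mul (hfin : IsFiniteOnBalls m) {f g : X → ℝ} (hf : IsSobolevLoc m f)
    (hg : IsSobolevLoc m g) (hfb : LocBdd m f) (hgb : LocBdd m g) :
    IsSobolevLoc m (fun x => f x * g x) := (mul_locBdd_aux hfin hf hg hfb hgb).1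

theorem minWeakGrad_mul_le (hfin : IsFiniteOnBalls m) {f g : X → ℝ} (hf : IsSobolevLoc m f)
    (hg : IsSobolevLoc m g) (hfb : LocBdd m f) (hgb : LocBdd m g) :
    ∀ᵐ x ∂m, minWeakGrad m (fun y => f y * g y) x ≤
      |f x| * minWeakGrad m g x + |g x| * minWeakGrad m f x :=
  (mul_locBdd_aux hfin hf hg hfb hgb).2

/-! ### functions of two Sobolev functions -/

theorem isSobolevLoc_comp₂ (hfin : IsFiniteOnBalls m) {f g : X → ℝ} (hf : IsSobolevLoc m f)
    (hg : IsSobolevLoc m g) {Φ : ℝ → ℝ → ℝ}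
    (hΦ : ∀ a b c d, |Φ a b - Φ c d| ≤ |a - c| + |b - d|) :
    IsSobolevLoc m (fun x => Φ (f x) (g x)) ∧
      ∀ᵐ x ∂m, minWeakGrad m (fun y => Φ (f y) (g y)) x ≤
        minWeakGrad m f x + minWeakGrad m g x := by
  have h0f := (isWUGLoc_iff_curveUG hfin hf.1).1 (IsSobolevLoc.isWUG hf)
  have h0g := (isWUGLoc_iff_curveUG hfin hg.1).1 (IsSobolevLoc.isWUG hg)
  have hcont : Continuous (fun p : ℝ × ℝ => Φ p.1 p.2) := by
    refine (LipschitzWith.of_dist_le_mul (K := 2) fun p q => ?_).continuous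
    rw [Real.dist_eq, Prod.dist_eq, Real.dist_eq, Real.dist_eq]
    refine (hΦ _ _ _ _).trans ?_
    have h1 := le_max_left |p.1 - q.1| |p.2 - q.2|
    have h2 := le_max_right |p.1 - q.1| |p.2 - q.2|
    push_cast
    linarith
  have hL2 : IsL2OnBalls m (fun x => Φ (f x) (g x)) := by
    have h1 : IsL2OnBalls m (fun x => |Φ 0 0| + (|f x| + |g x|)) :=
      isL2OnBalls_add (isL2OnBalls_const hfin _)
        (isL2OnBalls_add (fun o R => (hf.1 o R).abs) (fun o R => (hg.1 o R).abs))
    refine isL2OnBalls_of_le_mul h1 (fun o R => ?_)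
      (fun o R => ⟨1, Eventually.of_forall fun x => ?_⟩)
    · exact hcont.comp_aestronglyMeasurable
        ((hf.1 o R).aestronglyMeasurable.prodMk (hg.1 o R).aestronglyMeasurable)
    · rw [one_mul, abs_of_nonneg (a := |Φ 0 0| + (|f x| + |g x|)) (by positivity)]
      have h2 := hΦ (f x) (g x) 0 0
      rw [sub_zero, sub_zero] at h2
      calc |Φ (f x) (g x)| = |Φ 0 0 + (Φ (f x) (g x) - Φ 0 0)| := by ring_nf
        _ ≤ |Φ 0 0| + |Φ (f x) (g x) - Φ 0 0| := abs_add_le _ _
        _ ≤ _ := by linarith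
  have hae : (fun x => minWeakGrad m f x + minWeakGrad m g x) =ᵐ[m]
      (fun x => max (minWeakGrad m f x) 0 + max (minWeakGrad m g x) 0) := by
    filter_upwards [h0f.2.1, h0g.2.1] with x h1 h2
    rw [max_eq_left h1, max_eq_left h2]
  have hW : IsWUGLoc m (fun x => Φ (f x) (g x))
      (fun x => max (minWeakGrad m f x) 0 + max (minWeakGrad m g x) 0) := by
    refine (isWUGLoc_iff_curveUG hfin hL2).2 ⟨?_, ?_, ?_⟩
    · intro o R
      exact (memLp_congr_ae (ae_restrict_of_ae hae)).1 (isL2OnBalls_add h0f.1 h0g.1 o R)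
    · exact Eventually.of_forall fun x => by positivity
    · intro P hP hPb
      filter_upwards [h0f.2.2 P hP hPb, h0g.2.2 P hP hPb] with γ h1 h2
      exact h1.comp₂ h2 hΦ
  refine ⟨(isSobolevLoc_iff hfin).2 ⟨hL2, _, hW⟩, ?_⟩
  filter_upwards [minWeakGrad_le_of_isWUGLoc hfin hL2 hW, hae] with x h1 h2
  rw [h2]; exact h1

theorem abs_max_sub_max_le' (a b c d : ℝ) : |max a b - max c d| ≤ |a - c| + |b - d| :=
  (abs_max_sub_max_le_max a b c d).trans
    (max_le (le_add_of_nonneg_right (abs_nonneg _)) (le_add_of_nonneg_left (abs_nonneg _)))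

theorem abs_min_sub_min_le' (a b c d : ℝ) : |min a b - min c d| ≤ |a - c| + |b - d| :=
  (abs_min_sub_min_le_max a b c d).trans
    (max_le (le_add_of_nonneg_right (abs_nonneg _)) (le_add_of_nonneg_left (abs_nonneg _)))

/-- lattice operations -/
theorem IsSobolevLoc.max (hfin : IsFiniteOnBalls m) {f g : X → ℝ} (hf : IsSobolevLoc m f)
    (hg : IsSobolevLoc m g) : IsSobolevLoc m (fun x => max (f x) (g x)) :=
  (isSobolevLoc_comp₂ hfin hf hg (Φ := fun a b => Max.max a b) abs_max_sub_max_le').1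

theorem IsSobolevLoc.min (hfin : IsFiniteOnBalls m) {f g : X → ℝ} (hf : IsSobolevLoc m f)
    (hg : IsSobolevLoc m g) : IsSobolevLoc m (fun x => min (f x) (g x)) :=
  (isSobolevLoc_comp₂ hfin hf hg (Φ := fun a b => Min.min a b) abs_min_sub_min_le').1

end Chain

end Crest.Agent.R242
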