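import Mathlib
import Crest.Agent.R242.SobChain
import Crest.Agent.R242.Slope
import Crest.Agent.R242.Curve

/-!
Row 242, PART S7: Lipschitz functions, slopes, cut-offs, lattice operations.
-/

set_option autoImplicit false
set_option linter.unusedSectionVars false

open MeasureTheory Filter Set
open Crest.GeometryTopology.SyntheticRicci
open scoped ENNReal NNReal Topology

namespace Crest.Agent.R242

section OneCurve

variable {X : Type*} [MetricSpace X]

/-- at a time of differentiability, the derivative of `f ∘ γ` is bounded by slope times speed. -/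
theorem ofReal_abs_deriv_le_ascSlope {f : X → ℝ} {γ : UCurve X} {t : ℝ}
    (hd : DifferentiableAt ℝ (fun s => f (γ.ext s)) t)
    (hs : upperSpeed γ t ≠ ⊤) (ha : ascSlope f (γ.ext t) ≠ ⊤) :
    ENNReal.ofReal |deriv (fun s => f (γ.ext s)) t| ≤
      ascSlope f (γ.ext t) * upperSpeed γ t := by
  set u : ℝ → ℝ := fun s => f (γ.ext s) with hu
  set a : ℝ := (ascSlope f (γ.ext t)).toReal with hadef
  set s : ℝ := (upperSpeed γ t).toReal with hsdef
  have ha0 : 0 ≤ a := ENNReal.toReal_nonneg
  have hs0 : 0 ≤ s := ENNReal.toReal_nonneg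
  have hcont : Continuous γ.ext := cu_continuous_ext γ
  have key : ∀ ε : ℝ, 0 < ε → |deriv u t| ≤ (a + ε) * (s + ε) := by
    intro ε hε
    have h1 : ascSlope f (γ.ext t) < ENNReal.ofReal (a + ε) := by
      rw [hadef, ENNReal.ofReal_add ENNReal.toReal_nonneg hε.le, ENNReal.ofReal_toReal ha]
      exact ENNReal.lt_add_right ha (by simpa using hε)
    have h2 : upperSpeed γ t < ENNReal.ofReal (s + ε) := by
      rw [hsdef, ENNReal.ofReal_add ENNReal.toReal_nonneg hε.le, ENNReal.ofReal_toReal hs]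
      exact ENNReal.lt_add_right hs (by simpa using hε)
    have h3 : ∀ᶠ r in 𝓝 t, f (γ.ext r) - f (γ.ext t) ≤ (a + ε) * dist (γ.ext t) (γ.ext r) :=
      hcont.continuousAt.eventually (eventually_le_of_ascSlope_lt' h1)
    have h4 : ∀ᶠ r in 𝓝[≠] t, dist (γ.ext r) (γ.ext t) ≤ (s + ε) * |r - t| := by
      have h5 := Filter.eventually_lt_of_limsup_lt (f := 𝓝[≠] t)
        (u := fun r : ℝ => ENNReal.ofReal (dist (γ.ext r) (γ.ext t) / |r - t|)) h2
      filter_upwards [h5, self_mem_nhdsWithin] with r hr hne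
      have hpos : 0 < |r - t| := abs_pos.2 (sub_ne_zero.2 hne)
      have h6 := (ENNReal.ofReal_lt_ofReal_iff (by positivity)).1 hr
      rw [div_lt_iff₀ hpos] at h6
      exact h6.le
    have h5 : ∀ᶠ r in 𝓝[≠] t, u r - u t ≤ (a + ε) * (s + ε) * |r - t| := by
      filter_upwards [h3.filter_mono nhdsWithin_le_nhds, h4] with r hr3 hr4
      calc u r - u t ≤ (a + ε) * dist (γ.ext t) (γ.ext r) := hr3
        _ ≤ (a + ε) * ((s + ε) * |r - t|) := by
            rw [dist_comm]; gcongr
        _ = _ := by ring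
    have hslope := hasDerivAt_iff_tendsto_slope.1 hd.hasDerivAt
    rw [abs_le]
    constructor
    · have h6 : Tendsto (slope u t) (𝓝[<] t) (𝓝 (deriv u t)) :=
        hslope.mono_left (nhdsWithin_mono _ (fun y hy => ne_of_lt hy))
      refine ge_of_tendsto h6 ?_
      filter_upwards [nhdsWithin_mono t (fun y (hy : y ∈ Iio t) => (ne_of_lt hy : y ≠ t)) h5,
        self_mem_nhdsWithin] with r hr hrt
      have hrt' : r < t := hrt
      rw [slope_def_field]
      rw [abs_of_neg (by linarith : r - t < 0)] at hr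
      rw [le_div_iff_of_neg (by linarith)]
      linarith
    · have h6 : Tendsto (slope u t) (𝓝[>] t) (𝓝 (deriv u t)) :=
        hslope.mono_left (nhdsWithin_mono _ (fun y hy => ne_of_gt hy))
      refine le_of_tendsto h6 ?_
      filter_upwards [nhdsWithin_mono t (fun y (hy : y ∈ Ioi t) => (ne_of_gt hy : y ≠ t)) h5,
        self_mem_nhdsWithin] with r hr hrt
      have hrt' : t < r := hrt
      rw [slope_def_field]
      rw [abs_of_pos (by linarith : 0 < r - t)] at hr
      rw [div_le_iff₀ (by linarith)]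
      exact hr
  have hlim : |deriv u t| ≤ a * s := by
    have h1 : Tendsto (fun ε : ℝ => (a + ε) * (s + ε)) (𝓝[>] 0) (𝓝 ((a + 0) * (s + 0))) := by
      refine Tendsto.mono_left ?_ nhdsWithin_le_nhds
      exact ((continuous_const.add continuous_id).mul (continuous_const.add continuous_id)).tendsto 0
    rw [add_zero, add_zero] at h1
    refine ge_of_tendsto h1 ?_
    filter_upwards [self_mem_nhdsWithin] with ε hε using key ε hε
  calc ENNReal.ofReal |deriv u t| ≤ ENNReal.ofReal (a * s) := ENNReal.ofReal_le_ofReal hlim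
    _ = ascSlope f (γ.ext t) * upperSpeed γ t := by
      rw [ENNReal.ofReal_mul ha0, hadef, hsdef, ENNReal.ofReal_toReal ha, ENNReal.ofReal_toReal hs]

theorem upperSpeed_lt_top_ae {γ : UCurve X} (h : HasL2Speed γ) :
    ∀ᵐ t ∂(volume.restrict (Icc (0 : ℝ) 1)), upperSpeed γ t < ⊤ :=
  ae_lt_top (measurable_upperSpeed_right γ) (lintegral_upperSpeed_lt_top h).ne

theorem ascSlope_le_of_lipschitzOnWith {f : X → ℝ} {U : Set X} (hU : IsOpen U) {L : ℝ≥0}
    (hL : LipschitzOnWith L f U) {x : X} (hx : x ∈ U) : ascSlope f x ≤ L := by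
  have h := ascSlope_le_of_eventually (f := f) (x := x) (c := (L : ℝ)) (by
    filter_upwards [mem_nhdsWithin_of_mem_nhds (hU.mem_nhds hx)] with y hy
    have h1 := hL.dist_le_mul y hy x hx
    rw [Real.dist_eq, dist_comm] at h1
    exact (le_abs_self _).trans h1)
  simpa using h

theorem LipOnBalls.continuous {f : X → ℝ} (hf : LipOnBalls f) : Continuous f := by
  rw [continuous_iff_continuousAt]
  intro x
  obtain ⟨L, hL⟩ := hf x 1
  exact hL.continuousOn.continuousAt (Metric.ball_mem_nhds x one_pos)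

theorem LipOnBalls.ascSlope_ne_top {f : X → ℝ} (hf : LipOnBalls f) (x : X) :
    ascSlope f x ≠ ⊤ := by
  obtain ⟨L, hL⟩ := hf x 1
  exact ne_top_of_le_ne_top ENNReal.coe_ne_top
    (ascSlope_le_of_lipschitzOnWith Metric.isOpen_ball hL (Metric.mem_ball_self one_pos))

theorem LipschitzWith.lipOnBalls {f : X → ℝ} {L : ℝ≥0} (hf : LipschitzWith L f) :
    LipOnBalls f := fun _ _ => ⟨L, hf.lipschitzOnWith⟩

theorem LipOnBalls.neg {f : X → ℝ} (hf : LipOnBalls f) : LipOnBalls (fun x => - f x) := by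
  intro o R
  obtain ⟨L, hL⟩ := hf o R
  refine ⟨L, LipschitzOnWith.of_dist_le_mul fun x hx y hy => ?_⟩
  have := hL.dist_le_mul x hx y hy
  rwa [dist_neg_neg]

/-- `f ∘ γ` is absolutely continuous with derivative bounded by slope times speed. -/
theorem LipOnBalls.curveUG {f : X → ℝ} (hf : LipOnBalls f) {γ : UCurve X} (hγ : HasL2Speed γ) :
    CurveUG f (fun x => (ascSlope f x).toReal) γ := by
  -- all points of the curve are in one ball
  have hcont : Continuous γ.ext := cu_continuous_ext γ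
  obtain ⟨R, hR⟩ : ∃ R : ℝ, ∀ t ∈ Icc (0 : ℝ) 1, γ.ext t ∈ Metric.ball (γ.toMap 0) R := by
    have hcomp : IsCompact (γ.ext '' Icc (0 : ℝ) 1) := isCompact_Icc.image hcont
    obtain ⟨R, hR⟩ := hcomp.isBounded.subset_ball (γ.toMap 0)
    exact ⟨R, fun t ht => hR ⟨t, ht, rfl⟩⟩
  obtain ⟨L, hL⟩ := hf (γ.toMap 0) R
  have hb : ∀ a b : ℝ, 0 ≤ a → a ≤ b → b ≤ 1 →
      ENNReal.ofReal |f (γ.ext b) - f (γ.ext a)| ≤
        ∫⁻ t in Icc a b, (L : ℝ≥0∞) * upperSpeed γ t := by
    intro a b ha hab hb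
    have h1 := edist_le_lintegral_upperSpeed hγ ha hab hb
    have h2 := hL.dist_le_mul _ (hR b ⟨ha.trans hab, hb⟩) _ (hR a ⟨ha, hab.trans hb⟩)
    rw [Real.dist_eq] at h2
    rw [lintegral_const_mul _ (measurable_upperSpeed_right γ)]
    calc ENNReal.ofReal |f (γ.ext b) - f (γ.ext a)|
        ≤ ENNReal.ofReal (L * dist (γ.ext b) (γ.ext a)) := ENNReal.ofReal_le_ofReal h2
      _ = (L : ℝ≥0∞) * edist (γ.ext a) (γ.ext b) := by
        rw [ENNReal.ofReal_mul (NNReal.coe_nonneg L), ENNReal.ofReal_coe_nnreal,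
          edist_dist, dist_comm]
      _ ≤ _ := by gcongr
  have hfin : (∫⁻ t in Icc (0 : ℝ) 1, (L : ℝ≥0∞) * upperSpeed γ t) < ⊤ := by
    rw [lintegral_const_mul _ (measurable_upperSpeed_right γ)]
    exact ENNReal.mul_lt_top ENNReal.coe_lt_top (lintegral_upperSpeed_lt_top hγ)
  obtain ⟨hac, -⟩ := ac_and_deriv_of_bound (u := fun t => f (γ.ext t)) hfin hb
  refine ⟨fun t => f (γ.ext t), hac, by simp only [ext_zero], by simp only [ext_one],
    Eventually.of_forall fun t => rfl, ?_⟩
  filter_upwards [ac_ae_differentiableAt hac, upperSpeed_lt_top_ae hγ] with t hd hs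
  have ha := hf.ascSlope_ne_top (γ.ext t)
  rw [ENNReal.ofReal_toReal ha]
  exact ofReal_abs_deriv_le_ascSlope hd hs.ne ha

end OneCurve

section Lip

variable {X : Type*} [MetricSpace X] [ProperSpace X] [MeasurableSpace X] [BorelSpace X]
variable {m : Measure X}

theorem LipOnBalls.abs_le {f : X → ℝ} (hf : LipOnBalls f) (o : X) (R : ℝ) :
    ∃ B : ℝ, ∀ x ∈ Metric.ball o R, |f x| ≤ B := by
  obtain ⟨C, hC⟩ := (isCompact_closedBall o R).exists_bound_of_continuousOn
    (f := f) hf.continuous.continuousOn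
  exact ⟨C, fun x hx => by
    have := hC x (Metric.ball_subset_closedBall hx)
    rwa [Real.norm_eq_abs] at this⟩

theorem LipOnBalls.locBdd {f : X → ℝ} (hf : LipOnBalls f) : LocBdd m f := by
  intro o R
  obtain ⟨B, hB⟩ := hf.abs_le o R
  exact ⟨B, ae_restrict_of_forall_mem measurableSet_ball hB⟩

theorem LipOnBalls.isL2OnBalls (hfin : IsFiniteOnBalls m) {f : X → ℝ} (hf : LipOnBalls f) :
    IsL2OnBalls m f :=
  isL2OnBalls_of_locBdd hfin (fun _ _ => hf.continuous.aestronglyMeasurable) hf.locBdd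

theorem LipOnBalls.isL2OnBalls_ascSlope (hfin : IsFiniteOnBalls m) {f : X → ℝ}
    (hf : LipOnBalls f) : IsL2OnBalls m (fun x => (ascSlope f x).toReal) := by
  refine isL2OnBalls_of_locBdd hfin
    (fun _ _ => (measurable_ascSlope hf.continuous).ennreal_toReal.aestronglyMeasurable)
    (fun o R => ?_)
  obtain ⟨L, hL⟩ := hf o R
  refine ⟨L, ae_restrict_of_forall_mem measurableSet_ball fun x hx => ?_⟩
  rw [abs_of_nonneg ENNReal.toReal_nonneg]
  have h1 := ascSlope_le_of_lipschitzOnWith Metric.isOpen_ball hL hx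
  exact ENNReal.toReal_le_coe_of_le_coe h1

theorem LipOnBalls.isWUGLoc_ascSlope (hfin : IsFiniteOnBalls m) {f : X → ℝ}
    (hf : LipOnBalls f) : IsWUGLoc m f (fun x => (ascSlope f x).toReal) := by
  refine (isWUGLoc_iff_curveUG hfin (hf.isL2OnBalls hfin)).2
    ⟨hf.isL2OnBalls_ascSlope hfin, Eventually.of_forall fun x => ENNReal.toReal_nonneg, ?_⟩
  intro P hP _
  filter_upwards [hP.2.2.1] with γ hγ
  exact hf.curveUG hγ

theorem LipOnBalls.isSobolevLoc (hfin : IsFiniteOnBalls m) {f : X → ℝ} (hf : LipOnBalls f) :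
    IsSobolevLoc m f :=
  (isSobolevLoc_iff hfin).2 ⟨hf.isL2OnBalls hfin, _, hf.isWUGLoc_ascSlope hfin⟩

/-- S7: the minimal weak upper gradient is at most the ascending slope -/
theorem ofReal_minWeakGrad_le_ascSlope (hfin : IsFiniteOnBalls m) {f : X → ℝ}
    (hf : LipOnBalls f) : ∀ᵐ x ∂m, ENNReal.ofReal (minWeakGrad m f x) ≤ ascSlope f x := by
  filter_upwards [minWeakGrad_le_of_isWUGLoc hfin (hf.isL2OnBalls hfin)
    (hf.isWUGLoc_ascSlope hfin)] with x hx
  exact ENNReal.ofReal_le_of_le_toReal hx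

theorem isWUGLoc_neg {f D : X → ℝ} (h : IsWUGLoc m f D) : IsWUGLoc m (fun x => - f x) D := by
  refine ⟨h.1, h.2.1, fun P hP hPb => ?_⟩
  have := h.2.2 P hP hPb
  refine le_trans (le_of_eq ?_) this
  refine lintegral_congr fun γ => ?_
  congr 1
  rw [← abs_neg]
  congr 1
  ring

/-- S7: the minimal weak upper gradient is at most the descending slope -/
theorem ofReal_minWeakGrad_le_descSlope (hfin : IsFiniteOnBalls m) {f : X → ℝ}
    (hf : LipOnBalls f) : ∀ᵐ x ∂m, ENNReal.ofReal (minWeakGrad m f x) ≤ descSlope f x := by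
  have h1 := isWUGLoc_neg (hf.neg.isWUGLoc_ascSlope hfin)
  simp only [neg_neg] at h1
  filter_upwards [minWeakGrad_le_of_isWUGLoc hfin (hf.isL2OnBalls hfin) h1] with x hx
  rw [descSlope_eq_neg]
  exact ENNReal.ofReal_le_of_le_toReal hx

theorem minWeakGrad_le_of_lipschitzOnWith (hfin : IsFiniteOnBalls m) {f : X → ℝ}
    (hf : LipOnBalls f) {U : Set X} (hU : IsOpen U) {L : ℝ≥0} (hL : LipschitzOnWith L f U) :
    ∀ᵐ x ∂m, x ∈ U → minWeakGrad m f x ≤ L := by
  filter_upwards [minWeakGrad_le_of_isWUGLoc hfin (hf.isL2OnBalls hfin)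
    (hf.isWUGLoc_ascSlope hfin)] with x hx hxU
  exact hx.trans (ENNReal.toReal_le_coe_of_le_coe (ascSlope_le_of_lipschitzOnWith hU hL hxU))

/-- locally Lipschitz functions on a proper space are Lipschitz on balls -/
theorem LocallyLipschitz.lipOnBalls {f : X → ℝ} (hf : LocallyLipschitz f) : LipOnBalls f := by
  intro o R
  obtain ⟨L, hL⟩ := (hf.locallyLipschitzOn (s := Metric.closedBall o R)).exists_lipschitzOnWith_of_compact
    (isCompact_closedBall o R)
  exact ⟨L, hL.mono Metric.ball_subset_closedBall⟩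

theorem isFiniteMeasureOnCompacts_of_isFiniteOnBalls (hfin : IsFiniteOnBalls m) :
    IsFiniteMeasureOnCompacts m := by
  refine ⟨fun K hK => ?_⟩
  rcases K.eq_empty_or_nonempty with rfl | ⟨o, _⟩
  · simp
  · obtain ⟨R, hR⟩ := hK.isBounded.subset_ball o
    exact (measure_mono hR).trans_lt (hfin o R)

theorem isSobolev_of_lipschitz_hasCompactSupport (hfin : IsFiniteOnBalls m) {f : X → ℝ}
    {L : ℝ≥0} (hf : LipschitzWith L f) (hc : HasCompactSupport f) : IsSobolev m f := by
  have hfl : LipOnBalls f := LipschitzWith.lipOnBalls hf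
  have hfc := isFiniteMeasureOnCompacts_of_isFiniteOnBalls hfin
  refine (isSobolev_iff hfin).2 ⟨hf.continuous.memLp_of_hasCompactSupport hc, _,
    hfl.isWUGLoc_ascSlope hfin, ?_⟩
  have hm : Measurable (fun x => (ascSlope f x).toReal) :=
    (measurable_ascSlope hf.continuous).ennreal_toReal
  have hzero : ∀ x, x ∉ tsupport f → (ascSlope f x).toReal = 0 := by
    intro x hx
    have h0 : ascSlope f x ≤ ENNReal.ofReal 0 := by
      refine ascSlope_le_of_eventually ?_
      have hopen : (tsupport f)ᶜ ∈ 𝓝 x := (isClosed_tsupport f).isOpen_compl.mem_nhds hx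
      filter_upwards [mem_nhdsWithin_of_mem_nhds hopen] with y hy
      rw [image_eq_zero_of_notMem_tsupport hx, image_eq_zero_of_notMem_tsupport hy]
      simp
    rw [ENNReal.ofReal_zero, nonpos_iff_eq_zero] at h0
    rw [h0]; rfl
  have hind : (fun x => (ascSlope f x).toReal) =
      (tsupport f).indicator (fun x => (ascSlope f x).toReal) := by
    ext x
    by_cases hx : x ∈ tsupport f
    · rw [Set.indicator_of_mem hx]
    · rw [Set.indicator_of_notMem hx, hzero x hx]
  rw [hind, memLp_indicator_iff_restrict (isClosed_tsupport f).measurableSet]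
  have : IsFiniteMeasure (m.restrict (tsupport f)) :=
    ⟨by rw [Measure.restrict_apply_univ]; exact hc.measure_lt_top⟩
  refine MemLp.of_bound hm.aestronglyMeasurable L (Eventually.of_forall fun x => ?_)
  rw [Real.norm_eq_abs, abs_of_nonneg ENNReal.toReal_nonneg]
  exact ENNReal.toReal_le_coe_of_le_coe (ascSlope_le_of_lipschitz hf x)

/-- Lipschitz cut-off: `1` on `closedBall o R`, supported in `closedBall o (R + r)` -/
theorem exists_cutoff (o : X) {R r : ℝ} (_hR : 0 ≤ R) (hr : 0 < r) :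
    ∃ χ : X → ℝ, LipschitzWith (Real.toNNReal (1 / r)) χ ∧ HasCompactSupport χ ∧
      (∀ x, 0 ≤ χ x ∧ χ x ≤ 1) ∧ (∀ x ∈ Metric.closedBall o R, χ x = 1) ∧
      (∀ x, x ∉ Metric.closedBall o (R + r) → χ x = 0) := by
  set χ : X → ℝ := fun x => max 0 (min 1 ((R + r - dist x o) / r)) with hχ
  have hz : ∀ x, x ∉ Metric.closedBall o (R + r) → χ x = 0 := by
    intro x hx
    rw [Metric.mem_closedBall, not_le] at hx
    have h1 : (R + r - dist x o) / r ≤ 0 := div_nonpos_of_nonpos_of_nonneg (by linarith) hr.le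
    simp only [hχ]
    exact max_eq_left ((min_le_right _ _).trans h1)
  refine ⟨χ, ?_, ?_, ?_, ?_, hz⟩
  · have h1 : LipschitzWith (Real.toNNReal (1 / r)) (fun x : X => (R + r - dist x o) / r) := by
      refine LipschitzWith.of_dist_le_mul fun x y => ?_
      rw [Real.coe_toNNReal _ (by positivity), Real.dist_eq]
      have : (R + r - dist x o) / r - (R + r - dist y o) / r = (1 / r) * (dist y o - dist x o) := by
        field_simp; ring
      rw [this, abs_mul, abs_of_pos (by positivity : 0 < 1 / r)]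
      gcongr
      rw [abs_sub_comm]
      exact abs_dist_sub_le x y o
    exact (h1.const_min 1).const_max 0
  · exact HasCompactSupport.intro (isCompact_closedBall o (R + r)) hz
  · exact fun x => ⟨le_max_left _ _, max_le zero_le_one (min_le_left _ _)⟩
  · intro x hx
    rw [Metric.mem_closedBall] at hx
    have h1 : 1 ≤ (R + r - dist x o) / r := by rw [le_div_iff₀ hr]; linarith
    simp only [hχ]
    rw [min_eq_left h1]
    exact max_eq_right zero_le_one

/-- `f` local Sobolev (maybe unbounded), `g` Lipschitz on balls -/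
theorem IsSobolevLoc.mul_lipOnBalls (hfin : IsFiniteOnBalls m) {f g : X → ℝ}
    (hf : IsSobolevLoc m f) (hg : LipOnBalls g) :
    IsSobolevLoc m (fun x => f x * g x) ∧
      ∀ᵐ x ∂m, minWeakGrad m (fun y => f y * g y) x ≤
        |f x| * minWeakGrad m g x + |g x| * minWeakGrad m f x := by
  have hgS := hg.isSobolevLoc hfin
  refine IsSobolevLoc.mul_of_isL2OnBalls hfin hf hgS ?_ ?_
  · refine isL2OnBalls_of_le_mul hf.1 (fun o R => (hf.1 o R).aestronglyMeasurable.mul
      (hgS.1 o R).aestronglyMeasurable) (fun o R => ?_)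
    obtain ⟨B, hB⟩ := hg.locBdd (m := m) o R
    refine ⟨B, ?_⟩
    filter_upwards [hB] with x hx
    rw [abs_mul, mul_comm]
    exact mul_le_mul_of_nonneg_right hx (abs_nonneg _)
  · refine isL2OnBalls_add ?_ ?_
    · refine isL2OnBalls_of_le_mul hf.1 (fun o R =>
        (hf.1 o R).aestronglyMeasurable.aemeasurable.abs.aestronglyMeasurable.mul
        ((IsSobolevLoc.isWUG hgS).1 o R).aestronglyMeasurable) (fun o R => ?_)
      obtain ⟨L, hL⟩ := hg o R
      refine ⟨L, ?_⟩
      have h1 := minWeakGrad_le_of_lipschitzOnWith hfin hg Metric.isOpen_ball hL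
      filter_upwards [ae_restrict_of_ae h1, ae_restrict_mem measurableSet_ball,
        ae_restrict_of_ae (minWeakGrad_nonneg (m := m) g)] with x hx hxb hx0
      rw [abs_mul, abs_abs, abs_of_nonneg hx0, mul_comm]
      exact mul_le_mul_of_nonneg_right (hx hxb) (abs_nonneg _)
    · refine isL2OnBalls_of_le_mul (IsSobolevLoc.isWUG hf).1 (fun o R =>
        (hgS.1 o R).aestronglyMeasurable.aemeasurable.abs.aestronglyMeasurable.mul
        ((IsSobolevLoc.isWUG hf).1 o R).aestronglyMeasurable) (fun o R => ?_)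
      obtain ⟨B, hB⟩ := hg.locBdd (m := m) o R
      refine ⟨B, ?_⟩
      filter_upwards [hB] with x hx
      rw [abs_mul, abs_abs]
      exact mul_le_mul_of_nonneg_right hx (abs_nonneg _)

end Lip

end Crest.Agent.R242
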