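import Crest.Agent.R242.Defs

/-!
# Row 242: the calculus facts on `minWeakGrad` used for the pointwise parallelogram law

`WgCalc m` collects exactly the statements of S2-S6 used by `Par.lean` and `Pair.lean`
(functions `X → ℝ`, almost everywhere statements). It is instantiated from part S.
-/

set_option autoImplicit false

open MeasureTheory Filter Set
open scoped ENNReal NNReal Topology
open Crest.GeometryTopology.SyntheticRicci

namespace Crest.Agent.R242

/-- Facts about the minimal weak upper gradient (part S, blocks S2-S7), with no reference to test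
plans. -/
structure WgCalc {X : Type*} [MetricSpace X] [MeasurableSpace X] (m : Measure X) : Prop where
  /-- S3: dependence on the function only up to null sets. -/
  congr : ∀ f g : X → ℝ, IsSobolevLoc m f → f =ᵐ[m] g →
    IsSobolevLoc m g ∧ minWeakGrad m f =ᵐ[m] minWeakGrad m g
  /-- S3: sums. -/
  add : ∀ f g : X → ℝ, IsSobolevLoc m f → IsSobolevLoc m g →
    IsSobolevLoc m (fun x => f x + g x) ∧
      ∀ᵐ x ∂m, minWeakGrad m (fun x => f x + g x) x ≤ minWeakGrad m f x + minWeakGrad m g x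
  /-- S3: scalar multiples. -/
  smul : ∀ (c : ℝ) (f : X → ℝ), IsSobolevLoc m f →
    IsSobolevLoc m (fun x => c * f x) ∧
      ∀ᵐ x ∂m, minWeakGrad m (fun x => c * f x) x = |c| * minWeakGrad m f x
  /-- constants. -/
  const : ∀ c : ℝ, IsSobolevLoc m (fun _ : X => c) ∧
    ∀ᵐ x ∂m, minWeakGrad m (fun _ : X => c) x = 0
  /-- S4: locality. -/
  loc : ∀ f g : X → ℝ, IsSobolevLoc m f → IsSobolevLoc m g →
    ∀ᵐ x ∂m, f x = g x → minWeakGrad m f x = minWeakGrad m g x
  /-- S5 (inequality): composition with a Lipschitz function. -/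
  comp : ∀ (φ : ℝ → ℝ) (L : ℝ≥0) (f : X → ℝ), LipschitzWith L φ → IsSobolevLoc m f →
    IsSobolevLoc m (fun x => φ (f x)) ∧
      ∀ᵐ x ∂m, minWeakGrad m (fun x => φ (f x)) x ≤ L * minWeakGrad m f x
  /-- S6: Leibniz inequality for bounded functions. -/
  mul : ∀ f g : X → ℝ, IsSobolevLoc m f → IsSobolevLoc m g →
    (∃ B : ℝ, ∀ᵐ x ∂m, |f x| ≤ B) → (∃ B : ℝ, ∀ᵐ x ∂m, |g x| ≤ B) →
    IsSobolevLoc m (fun x => f x * g x) ∧
      ∀ᵐ x ∂m, minWeakGrad m (fun x => f x * g x) x ≤
        |f x| * minWeakGrad m g x + |g x| * minWeakGrad m f x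
  /-- S7: Lipschitz functions. -/
  lip : ∀ (L : ℝ≥0) (f : X → ℝ), LipschitzWith L f →
    IsSobolevLoc m f ∧ ∀ᵐ x ∂m, minWeakGrad m f x ≤ L
  /-- being locally Sobolev is a local property. -/
  glue : ∀ u : X → ℝ, (∀ (o : X) (R : ℝ), ∃ u' : X → ℝ, IsSobolevLoc m u' ∧
    ∀ᵐ x ∂(m.restrict (Metric.ball o R)), u x = u' x) → IsSobolevLoc m u

end Crest.Agent.R242
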