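import Mathlib
import Crest.Agent.R242.SobLip
import Crest.Agent.R242.WgCalc

/-!
Row 242, PART S3, S4: almost everywhere invariance, vector space structure, locality; `wgCalc`.
-/

set_option autoImplicit false
set_option linter.unusedSectionVars false

open MeasureTheory Filter Set
open Crest.GeometryTopology.SyntheticRicci
open scoped ENNReal NNReal Topology

namespace Crest.Agent.R242

variable {X : Type*} [MetricSpace X] [ProperSpace X] [MeasurableSpace X] [BorelSpace X]
variable {m : Measure X}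

/-! ### S3 -/

/-- the minimal weak upper gradient depends only on the class of weak upper gradients -/
theorem minWeakGrad_eq_of_iff {f g : X → ℝ} (h : ∀ D, IsWUGLoc m f D ↔ IsWUGLoc m g D) :
    minWeakGrad m f = minWeakGrad m g := by
  have h1 : (fun D => IsMinWUGLoc m f D) = fun D => IsMinWUGLoc m g D := by
    funext D
    apply propext
    unfold IsMinWUGLoc
    simp only [h]
  have key : ∀ p q : (X → ℝ) → Prop, p = q →
      (open Classical in if h : ∃ D, p D then Classical.choose h else (0 : X → ℝ)) =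
      (open Classical in if h : ∃ D, q D then Classical.choose h else (0 : X → ℝ)) := by
    rintro p q rfl
    rfl
  exact key _ _ h1

theorem isSobolevLoc_of_iff {f g : X → ℝ} (h : ∀ D, IsWUGLoc m f D ↔ IsWUGLoc m g D)
    (hg : IsL2OnBalls m g) (hf : IsSobolevLoc m f) : IsSobolevLoc m g := by
  refine ⟨hg, ?_⟩
  obtain ⟨D, hD, hmin⟩ := hf.2
  exact ⟨D, (h D).1 hD, fun D' hD' => hmin D' ((h D').2 hD')⟩

theorem isWUGLoc_congr_iff {f g : X → ℝ} (hfg : f =ᵐ[m] g) (D : X → ℝ) :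
    IsWUGLoc m f D ↔ IsWUGLoc m g D :=
  ⟨fun h => IsWUGLoc.congr hfg (ae_eq_refl D) h, fun h => IsWUGLoc.congr hfg.symm (ae_eq_refl D) h⟩

/-- honest equality of the minimal weak upper gradients of a.e. equal functions -/
theorem minWeakGrad_congr_eq {f g : X → ℝ} (hfg : f =ᵐ[m] g) :
    minWeakGrad m f = minWeakGrad m g := minWeakGrad_eq_of_iff (isWUGLoc_congr_iff hfg)

theorem minWeakGrad_congr {f g : X → ℝ} (hfg : f =ᵐ[m] g) :
    minWeakGrad m f =ᵐ[m] minWeakGrad m g := by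
  rw [minWeakGrad_congr_eq hfg]

theorem IsSobolevLoc.congr {f g : X → ℝ} (hfg : f =ᵐ[m] g) (hf : IsSobolevLoc m f) :
    IsSobolevLoc m g :=
  isSobolevLoc_of_iff (isWUGLoc_congr_iff hfg)
    (fun o R => (memLp_congr_ae (ae_restrict_of_ae hfg)).1 (hf.1 o R)) hf

theorem IsSobolev.congr {f g : X → ℝ} (hfg : f =ᵐ[m] g) (hf : IsSobolev m f) :
    IsSobolev m g :=
  ⟨(memLp_congr_ae hfg).1 hf.1, IsSobolevLoc.congr hfg hf.2.1, by
    rw [← minWeakGrad_congr_eq hfg]; exact hf.2.2⟩

theorem minWeakGrad_add_le' (hfin : IsFiniteOnBalls m) {f g : X → ℝ} (hf : IsSobolevLoc m f)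
    (hg : IsSobolevLoc m g) :
    IsSobolevLoc m (fun x => f x + g x) ∧
    ∀ᵐ x ∂m, minWeakGrad m (fun y => f y + g y) x ≤ minWeakGrad m f x + minWeakGrad m g x :=
  isSobolevLoc_comp₂ hfin hf hg (Φ := fun a b => a + b) (fun a b c d => by
    have : a + b - (c + d) = (a - c) + (b - d) := by ring
    rw [this]; exact abs_add_le _ _)

theorem minWeakGrad_sub_le' (hfin : IsFiniteOnBalls m) {f g : X → ℝ} (hf : IsSobolevLoc m f)
    (hg : IsSobolevLoc m g) :
    IsSobolevLoc m (fun x => f x - g x) ∧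
    ∀ᵐ x ∂m, minWeakGrad m (fun y => f y - g y) x ≤ minWeakGrad m f x + minWeakGrad m g x :=
  isSobolevLoc_comp₂ hfin hf hg (Φ := fun a b => a - b) (fun a b c d => by
    have : a - b - (c - d) = (a - c) - (b - d) := by ring
    rw [this]; exact abs_sub _ _)

theorem IsSobolevLoc.add (hfin : IsFiniteOnBalls m) {f g : X → ℝ} (hf : IsSobolevLoc m f)
    (hg : IsSobolevLoc m g) : IsSobolevLoc m (fun x => f x + g x) :=
  (minWeakGrad_add_le' hfin hf hg).1

theorem IsSobolevLoc.sub (hfin : IsFiniteOnBalls m) {f g : X → ℝ} (hf : IsSobolevLoc m f)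
    (hg : IsSobolevLoc m g) : IsSobolevLoc m (fun x => f x - g x) :=
  (minWeakGrad_sub_le' hfin hf hg).1

theorem minWeakGrad_add_le (hfin : IsFiniteOnBalls m) {f g : X → ℝ} (hf : IsSobolevLoc m f)
    (hg : IsSobolevLoc m g) :
    ∀ᵐ x ∂m, minWeakGrad m (fun y => f y + g y) x ≤ minWeakGrad m f x + minWeakGrad m g x :=
  (minWeakGrad_add_le' hfin hf hg).2

theorem minWeakGrad_sub_le (hfin : IsFiniteOnBalls m) {f g : X → ℝ} (hf : IsSobolevLoc m f)
    (hg : IsSobolevLoc m g) :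
    ∀ᵐ x ∂m, minWeakGrad m (fun y => f y - g y) x ≤ minWeakGrad m f x + minWeakGrad m g x :=
  (minWeakGrad_sub_le' hfin hf hg).2

theorem lipschitzWith_const_mul (c : ℝ) : LipschitzWith ‖c‖₊ (fun t : ℝ => c * t) := by
  refine LipschitzWith.of_dist_le_mul fun x y => ?_
  rw [Real.dist_eq, Real.dist_eq, ← mul_sub, abs_mul, coe_nnnorm, Real.norm_eq_abs]

theorem IsSobolevLoc.const_mul (hfin : IsFiniteOnBalls m) (c : ℝ) {f : X → ℝ}
    (hf : IsSobolevLoc m f) : IsSobolevLoc m (fun x => c * f x) :=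
  IsSobolevLoc.comp_lipschitz hfin hf (lipschitzWith_const_mul c)

theorem minWeakGrad_const_mul (hfin : IsFiniteOnBalls m) (c : ℝ) {f : X → ℝ}
    (hf : IsSobolevLoc m f) :
    ∀ᵐ x ∂m, minWeakGrad m (fun y => c * f y) x = |c| * minWeakGrad m f x :=
  minWeakGrad_comp hfin hf (φ := fun t => c * t) (ψ := fun _ => c) (lipschitzWith_const_mul c)
    countable_empty (fun t _ => by simpa using (hasDerivAt_id t).const_mul c)

theorem isWUGLoc_neg_iff (f : X → ℝ) (D : X → ℝ) :
    IsWUGLoc m f D ↔ IsWUGLoc m (fun x => - f x) D := by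
  refine ⟨isWUGLoc_neg, fun h => ?_⟩
  have := isWUGLoc_neg h
  simpa only [neg_neg] using this

theorem minWeakGrad_neg_eq (f : X → ℝ) : minWeakGrad m (fun y => - f y) = minWeakGrad m f :=
  (minWeakGrad_eq_of_iff (isWUGLoc_neg_iff f)).symm

theorem minWeakGrad_neg (f : X → ℝ) :
    ∀ᵐ x ∂m, minWeakGrad m (fun y => - f y) x = minWeakGrad m f x := by
  rw [minWeakGrad_neg_eq]
  exact Eventually.of_forall fun _ => rfl

theorem IsSobolevLoc.neg (_hfin : IsFiniteOnBalls m) {f : X → ℝ} (hf : IsSobolevLoc m f) :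
    IsSobolevLoc m (fun x => - f x) :=
  isSobolevLoc_of_iff (isWUGLoc_neg_iff f) (fun o R => (hf.1 o R).neg) hf

theorem isSobolevLoc_const (hfin : IsFiniteOnBalls m) (c : ℝ) :
    IsSobolevLoc m (fun _ => c) :=
  (LipschitzWith.lipOnBalls (LipschitzWith.const c)).isSobolevLoc hfin

theorem minWeakGrad_const (hfin : IsFiniteOnBalls m) (c : ℝ) :
    ∀ᵐ x ∂m, minWeakGrad m (fun _ => c) x = 0 := by
  filter_upwards [minWeakGrad_le_of_lipschitzOnWith hfin (f := fun _ : X => c)
    (LipschitzWith.lipOnBalls (LipschitzWith.const c)) isOpen_univ (L := 0)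
    (LipschitzWith.const c).lipschitzOnWith, minWeakGrad_nonneg (m := m) (fun _ : X => c)]
    with x h1 h2
  exact le_antisymm (by simpa using h1 (mem_univ x)) h2

theorem isWUGLoc_add_const_iff (f : X → ℝ) (c : ℝ) (D : X → ℝ) :
    IsWUGLoc m f D ↔ IsWUGLoc m (fun x => f x + c) D := by
  unfold IsWUGLoc
  simp only [add_sub_add_right_eq_sub]

theorem minWeakGrad_add_const_eq (c : ℝ) (f : X → ℝ) :
    minWeakGrad m (fun y => f y + c) = minWeakGrad m f :=
  (minWeakGrad_eq_of_iff (isWUGLoc_add_const_iff f c)).symm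

theorem minWeakGrad_add_const (c : ℝ) (f : X → ℝ) (_hfin : IsFiniteOnBalls m) :
    ∀ᵐ x ∂m, minWeakGrad m (fun y => f y + c) x = minWeakGrad m f x := by
  rw [minWeakGrad_add_const_eq]
  exact Eventually.of_forall fun _ => rfl

theorem memLp_minWeakGrad_of_le {f D : X → ℝ} (hm : AEStronglyMeasurable (minWeakGrad m f) m)
    (hD : MemLp D 2 m) (h : ∀ᵐ x ∂m, minWeakGrad m f x ≤ D x) : MemLp (minWeakGrad m f) 2 m := by
  refine hD.of_le hm ?_
  filter_upwards [h, minWeakGrad_nonneg (m := m) f] with x h1 h2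
  rw [Real.norm_eq_abs, Real.norm_eq_abs, abs_of_nonneg h2]
  exact h1.trans (le_abs_self _)

theorem IsSobolev.add (hfin : IsFiniteOnBalls m) {f g : X → ℝ} (hf : IsSobolev m f)
    (hg : IsSobolev m g) : IsSobolev m (fun x => f x + g x) :=
  ⟨hf.1.add hg.1, IsSobolevLoc.add hfin hf.2.1 hg.2.1,
    memLp_minWeakGrad_of_le (minWeakGrad_aestronglyMeasurable hfin _) (hf.2.2.add hg.2.2)
      (minWeakGrad_add_le hfin hf.2.1 hg.2.1)⟩

theorem IsSobolev.sub (hfin : IsFiniteOnBalls m) {f g : X → ℝ} (hf : IsSobolev m f)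
    (hg : IsSobolev m g) : IsSobolev m (fun x => f x - g x) :=
  ⟨hf.1.sub hg.1, IsSobolevLoc.sub hfin hf.2.1 hg.2.1,
    memLp_minWeakGrad_of_le (minWeakGrad_aestronglyMeasurable hfin _) (hf.2.2.add hg.2.2)
      (minWeakGrad_sub_le hfin hf.2.1 hg.2.1)⟩

theorem IsSobolev.const_mul (hfin : IsFiniteOnBalls m) (c : ℝ) {f : X → ℝ}
    (hf : IsSobolev m f) : IsSobolev m (fun x => c * f x) :=
  ⟨hf.1.const_mul c, IsSobolevLoc.const_mul hfin c hf.2.1,
    memLp_minWeakGrad_of_le (minWeakGrad_aestronglyMeasurable hfin _) (hf.2.2.const_mul |c|)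
      (by filter_upwards [minWeakGrad_const_mul hfin c hf.2.1] with x hx using hx.le)⟩

theorem IsSobolev.neg (_hfin : IsFiniteOnBalls m) {f : X → ℝ}
    (hf : IsSobolev m f) : IsSobolev m (fun x => - f x) :=
  ⟨hf.1.neg, IsSobolevLoc.neg _hfin hf.2.1, by rw [minWeakGrad_neg_eq]; exact hf.2.2⟩

/-! ### S4: locality -/

theorem minWeakGrad_ae_eq_zero_of_mem (hfin : IsFiniteOnBalls m) {f : X → ℝ}
    (hf : IsSobolevLoc m f) {N : Set ℝ} (hN : N.Countable) :
    ∀ᵐ x ∂m, f x ∈ N → minWeakGrad m f x = 0 := minWeakGrad_ae_zero_of_mem_countable hfin hf hN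

theorem minWeakGrad_ae_eq_of_eq (hfin : IsFiniteOnBalls m) {f g : X → ℝ}
    (hf : IsSobolevLoc m f) (hg : IsSobolevLoc m g) :
    ∀ᵐ x ∂m, f x = g x → minWeakGrad m f x = minWeakGrad m g x := by
  have hd := IsSobolevLoc.sub hfin hf hg
  have hd' := IsSobolevLoc.sub hfin hg hf
  have e1 : (fun x => (f x - g x) + g x) = f := by funext x; ring
  have e2 : (fun x => (g x - f x) + f x) = g := by funext x; ring
  have h1 := minWeakGrad_add_le hfin hd hg
  have h2 := minWeakGrad_add_le hfin hd' hf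
  rw [e1] at h1
  rw [e2] at h2
  filter_upwards [h1, h2, minWeakGrad_ae_eq_zero_of_mem hfin hd (countable_singleton (0 : ℝ)),
    minWeakGrad_ae_eq_zero_of_mem hfin hd' (countable_singleton (0 : ℝ))] with x h1 h2 h3 h4 hx
  have e3 := h3 (by rw [mem_singleton_iff, hx, sub_self])
  have e4 := h4 (by rw [mem_singleton_iff, hx, sub_self])
  rw [e3] at h1
  rw [e4] at h2
  linarith

/-- A function that coincides on every ball with some local Sobolev function is local Sobolev. -/
theorem isSobolevLoc_of_forall_ball (hfin : IsFiniteOnBalls m) {f : X → ℝ}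
    (h : ∀ (o : X) (R : ℝ), ∃ g : X → ℝ, IsSobolevLoc m g ∧
      ∀ᵐ x ∂(m.restrict (Metric.ball o R)), f x = g x) : IsSobolevLoc m f := by
  classical
  rcases isEmpty_or_nonempty X with hX | ⟨⟨o⟩⟩
  · have : f = fun _ => 0 := by funext x; exact (hX.false x).elim
    rw [this]; exact isSobolevLoc_const hfin 0
  have hL2 : IsL2OnBalls m f := by
    intro o' R
    obtain ⟨g, hg, hfg⟩ := h o' R
    exact (memLp_congr_ae hfg).2 (hg.1 o' R)
  choose g hg hfg using fun n : ℕ => h o n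
  -- the gradients are compatible
  have hcomp : ∀ i j : ℕ, i ≤ j → ∀ᵐ x ∂m, x ∈ Metric.ball o (i : ℝ) →
      minWeakGrad m (g i) x = minWeakGrad m (g j) x := by
    intro i j hij
    have h1 := (ae_restrict_iff' measurableSet_ball).1 (hfg i)
    have h2 := (ae_restrict_iff' measurableSet_ball).1 (hfg j)
    filter_upwards [h1, h2, minWeakGrad_ae_eq_of_eq hfin (hg i) (hg j)] with x h1 h2 h3 hx
    have hx' : x ∈ Metric.ball o (j : ℝ) :=
      Metric.ball_subset_ball (by exact_mod_cast hij) hx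
    exact h3 (by rw [← h1 hx, ← h2 hx'])
  have hex : ∀ x : X, ∃ n : ℕ, x ∈ Metric.ball o (n : ℝ) := by
    intro x
    obtain ⟨n, hn⟩ := exists_nat_gt (dist x o)
    exact ⟨n, hn⟩
  set D : X → ℝ := fun x => minWeakGrad m (g (Nat.find (hex x))) x with hD
  have hDj : ∀ j : ℕ, ∀ᵐ x ∂m, x ∈ Metric.ball o (j : ℝ) → D x = minWeakGrad m (g j) x := by
    intro j
    have h1 : ∀ᵐ x ∂m, ∀ i : ℕ, i ≤ j → x ∈ Metric.ball o (i : ℝ) →
        minWeakGrad m (g i) x = minWeakGrad m (g j) x := by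
      rw [ae_all_iff]
      intro i
      by_cases hij : i ≤ j
      · filter_upwards [hcomp i j hij] with x hx _ using hx
      · exact Eventually.of_forall fun x hij' => absurd hij' hij
    filter_upwards [h1] with x hx hxj
    exact hx _ (Nat.find_min' (hex x) hxj) (Nat.find_spec (hex x))
  have hDL2 : IsL2OnBalls m D := by
    intro o' R
    obtain ⟨j, hj⟩ := exists_nat_gt (dist o' o + R)
    have hsub : Metric.ball o' R ⊆ Metric.ball o (j : ℝ) := by
      intro x hx
      rw [Metric.mem_ball] at hx ⊢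
      calc dist x o ≤ dist x o' + dist o' o := dist_triangle _ _ _
        _ < j := by linarith
    have h1 : ∀ᵐ x ∂(m.restrict (Metric.ball o' R)), D x = minWeakGrad m (g j) x := by
      rw [ae_restrict_iff' measurableSet_ball]
      filter_upwards [hDj j] with x hx hxb using hx (hsub hxb)
    exact (memLp_congr_ae h1).2 (minWeakGrad_isL2OnBalls (g j) o' R)
  refine (isSobolevLoc_iff hfin).2 ⟨hL2, D, (isWUGLoc_iff_curveUG hfin hL2).2 ⟨hDL2, ?_, ?_⟩⟩
  · have h1 : ∀ᵐ x ∂m, ∀ n : ℕ, 0 ≤ minWeakGrad m (g n) x :=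
      ae_all_iff.2 fun n => minWeakGrad_nonneg (g n)
    filter_upwards [h1] with x hx
    exact hx _
  · intro P hP hPb
    obtain ⟨o', R, hR⟩ := hPb
    have hprob : IsProbabilityMeasure P := hP.1
    obtain ⟨C, hC⟩ := hP.2.1
    obtain ⟨j, hj⟩ := exists_nat_gt (dist o' o + R)
    have hsub : Metric.closedBall o' R ⊆ Metric.ball o (j : ℝ) := by
      intro x hx
      rw [Metric.mem_closedBall] at hx
      rw [Metric.mem_ball]
      calc dist x o ≤ dist x o' + dist o' o := dist_triangle _ _ _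
        _ < j := by linarith
    have h1 : ∀ᵐ x ∂m, x ∈ Metric.closedBall o' R →
        (f x = g j x ∧ D x = minWeakGrad m (g j) x) := by
      have h2 := (ae_restrict_iff' measurableSet_ball).1 (hfg j)
      filter_upwards [h2, hDj j] with x hx1 hx2 hx
      exact ⟨hx1 (hsub hx), hx2 (hsub hx)⟩
    have h2 := ((isWUGLoc_iff_curveUG hfin (hg j).1).1 (IsSobolevLoc.isWUG (hg j))).2.2 P hP
      ⟨o', R, hR⟩
    filter_upwards [h2, hR, ae_toMap_of_ae hC h1 0, ae_toMap_of_ae hC h1 1,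
      ae_ae_ext_of_ae hC h1] with γ hγ hγR e0 e1 e2
    obtain ⟨u, hu1, hu2, hu3, hu4, hu5⟩ := hγ
    refine ⟨u, hu1, ?_, ?_, ?_, ?_⟩
    · rw [hu2, (e0 (hγR 0)).1]
    · rw [hu3, (e1 (hγR 1)).1]
    · filter_upwards [hu4, e2] with t ht1 ht2
      rw [ht1, (ht2 (hγR _)).1]
    · filter_upwards [hu5, e2] with t ht1 ht2
      rw [(ht2 (hγR _)).2]; exact ht1

/-! ### the package used by `Pair.lean` -/

theorem wgCalc (hfin : IsFiniteOnBalls m) : WgCalc m where
  congr := fun f g hf hfg => ⟨IsSobolevLoc.congr hfg hf, minWeakGrad_congr hfg⟩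
  add := fun f g hf hg => minWeakGrad_add_le' hfin hf hg
  smul := fun c f hf => ⟨IsSobolevLoc.const_mul hfin c hf, minWeakGrad_const_mul hfin c hf⟩
  const := fun c => ⟨isSobolevLoc_const hfin c, minWeakGrad_const hfin c⟩
  loc := fun f g hf hg => minWeakGrad_ae_eq_of_eq hfin hf hg
  comp := fun φ L f hφ hf => IsSobolevLoc.comp_lipschitz_aux hfin hf hφ
  mul := fun f g hf hg hfb hgb => by
    obtain ⟨B, hB⟩ := hfb
    obtain ⟨B', hB'⟩ := hgb
    exact mul_locBdd_aux hfin hf hg (fun o R => ⟨B, ae_restrict_of_ae hB⟩)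
      (fun o R => ⟨B', ae_restrict_of_ae hB'⟩)
  lip := fun L f hf => ⟨(LipschitzWith.lipOnBalls hf).isSobolevLoc hfin, by
    filter_upwards [minWeakGrad_le_of_lipschitzOnWith hfin (LipschitzWith.lipOnBalls hf)
      isOpen_univ hf.lipschitzOnWith] with x hx using hx (mem_univ x)⟩
  glue := fun u hu => isSobolevLoc_of_forall_ball hfin hu

end Crest.Agent.R242
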