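import Crest.Agent.R242.PairCalc
import Crest.Agent.R242.SobLin

/-!
# Row 242, blocks S11 and S12: pointwise parallelogram law and the calculus of `gradPairing`

Everything is stated for genuine functions, almost everywhere.
-/

set_option autoImplicit false
set_option linter.unusedSectionVars false

open MeasureTheory Filter Set
open scoped ENNReal NNReal Topology
open Crest.GeometryTopology.SyntheticRicci

namespace Crest.Agent.R242

variable {X : Type*} [MetricSpace X] [ProperSpace X] [MeasurableSpace X] [BorelSpace X]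
  {m : Measure X} [IsLocallyFiniteMeasure m] [m.IsOpenPosMeasure] {k N : ℝ}

/-! ## S11 -/

/-- S11: pointwise parallelogram law. -/
theorem wg_parallelogram (H : Hyp m k N) {f g : X → ℝ} (hf : IsSobolevLoc m f)
    (hg : IsSobolevLoc m g) :
    ∀ᵐ x ∂m, minWeakGrad m (fun y => f y + g y) x ^ 2 + minWeakGrad m (fun y => f y - g y) x ^ 2 =
      2 * minWeakGrad m f x ^ 2 + 2 * minWeakGrad m g x ^ 2 :=
  (wgCalc H.fin).parallelogram H.hilb hf hg

/-! ## The classes -/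

theorem sobLoc_add (H : Hyp m k N) {f g : X → ℝ} (hf : IsSobolevLoc m f)
    (hg : IsSobolevLoc m g) : IsSobolevLoc m (fun x => f x + g x) :=
  ((wgCalc H.fin).add f g hf hg).1

theorem sobLoc_sub (H : Hyp m k N) {f g : X → ℝ} (hf : IsSobolevLoc m f)
    (hg : IsSobolevLoc m g) : IsSobolevLoc m (fun x => f x - g x) :=
  (wgCalc H.fin).sub hf hg

theorem sobLoc_smul (H : Hyp m k N) (c : ℝ) {f : X → ℝ} (hf : IsSobolevLoc m f) :
    IsSobolevLoc m (fun x => c * f x) :=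
  ((wgCalc H.fin).smul c f hf).1

theorem sobLoc_neg (H : Hyp m k N) {f : X → ℝ} (hf : IsSobolevLoc m f) :
    IsSobolevLoc m (fun x => - f x) :=
  (wgCalc H.fin).neg hf

theorem sobLoc_const (H : Hyp m k N) (c : ℝ) : IsSobolevLoc m (fun _ : X => c) :=
  ((wgCalc H.fin).const c).1

theorem sobLoc_congr (H : Hyp m k N) {f g : X → ℝ} (hf : IsSobolevLoc m f) (h : f =ᵐ[m] g) :
    IsSobolevLoc m g :=
  ((wgCalc H.fin).congr f g hf h).1

/-- products of locally bounded functions. -/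
theorem sobLoc_mul (H : Hyp m k N) {f g : X → ℝ} (hf : IsSobolevLoc m f)
    (hg : IsSobolevLoc m g) (hfb : LocBdd m f) (hgb : LocBdd m g) :
    IsSobolevLoc m (fun x => f x * g x) :=
  IsSobolevLoc.mul H.fin hf hg hfb hgb

theorem sobLoc_of_lipschitz (H : Hyp m k N) {f : X → ℝ} {L : ℝ≥0} (hf : LipschitzWith L f) :
    IsSobolevLoc m f :=
  ((wgCalc H.fin).lip L f hf).1

theorem sob_congr (H : Hyp m k N) {f g : X → ℝ} (hf : IsSobolev m f) (h : f =ᵐ[m] g) :
    IsSobolev m g :=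
  (wgCalc H.fin).sob_congr hf h

theorem sob_add (H : Hyp m k N) {f g : X → ℝ} (hf : IsSobolev m f) (hg : IsSobolev m g) :
    IsSobolev m (fun x => f x + g x) :=
  (wgCalc H.fin).sob_add hf hg

theorem sob_sub (H : Hyp m k N) {f g : X → ℝ} (hf : IsSobolev m f) (hg : IsSobolev m g) :
    IsSobolev m (fun x => f x - g x) :=
  (wgCalc H.fin).sob_sub hf hg

theorem sob_smul (H : Hyp m k N) (c : ℝ) {f : X → ℝ} (hf : IsSobolev m f) :
    IsSobolev m (fun x => c * f x) :=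
  (wgCalc H.fin).sob_smul c hf

theorem sob_neg (H : Hyp m k N) {f : X → ℝ} (hf : IsSobolev m f) :
    IsSobolev m (fun x => - f x) := by
  have h := sob_smul H (-1) hf
  have e : (fun x => -1 * f x) = fun x => - f x := by funext x; ring
  rwa [e] at h

theorem sob_zero (H : Hyp m k N) : IsSobolev m (fun _ : X => (0 : ℝ)) :=
  (wgCalc H.fin).sob_zero

/-- bounded functions of `W^{1,2}` form an algebra. -/
theorem sob_mul (H : Hyp m k N) {f g : X → ℝ} (hf : IsSobolev m f) (hg : IsSobolev m g)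
    (hfb : ∃ B : ℝ, ∀ᵐ x ∂m, |f x| ≤ B) (hgb : ∃ B : ℝ, ∀ᵐ x ∂m, |g x| ≤ B) :
    IsSobolev m (fun x => f x * g x) :=
  (wgCalc H.fin).sob_mul hf hg hfb hgb

/-- product of `f ∈ W^{1,2}` (bounded) with a bounded Lipschitz function. -/
theorem sob_mul_lip (H : Hyp m k N) {f g : X → ℝ} (hf : IsSobolev m f) (hg : BddLip g)
    (hfb : ∃ B : ℝ, ∀ᵐ x ∂m, |f x| ≤ B) : IsSobolev m (fun x => f x * g x) := by
  obtain ⟨⟨B', hB'⟩, L, hL⟩ := hg
  obtain ⟨B, hB⟩ := hfb
  have hgl := (wgCalc H.fin).lip L g hL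
  have hm := (wgCalc H.fin).mul f g hf.2.1 hgl.1 ⟨B, hB⟩ ⟨B', Eventually.of_forall hB'⟩
  refine isSobolev_of_le (w := fun x => (L : ℝ) * |f x| + B' * minWeakGrad m f x) ?_ hm.1
    ((hf.1.norm.const_mul (L : ℝ)).add (hf.2.2.const_mul B')) ?_
  · refine (hf.1.const_mul B').mono (hf.1.1.mul hL.continuous.aestronglyMeasurable) ?_
    refine Eventually.of_forall fun x => ?_
    rw [norm_mul, norm_mul, mul_comm]
    refine mul_le_mul_of_nonneg_right ?_ (norm_nonneg _)
    exact (hB' x).trans (le_abs_self _)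
  · filter_upwards [hm.2, hgl.2, wg_nonneg_ae hf.2.1] with x a1 a2 a3
    refine a1.trans (add_le_add ?_ (mul_le_mul_of_nonneg_right (hB' x) a3))
    rw [mul_comm (L : ℝ)]
    exact mul_le_mul_of_nonneg_left a2 (abs_nonneg _)

/-- composition with a Lipschitz function vanishing at `0`. -/
theorem sob_comp (H : Hyp m k N) {φ : ℝ → ℝ} {L : ℝ≥0} (hφ : LipschitzWith L φ) (h0 : φ 0 = 0)
    {f : X → ℝ} (hf : IsSobolev m f) : IsSobolev m (fun x => φ (f x)) :=
  (wgCalc H.fin).sob_comp hφ h0 hf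

/-- a locally Sobolev function vanishing outside a ball is in `W^{1,2}`. -/
theorem sob_of_sobLoc_bddSupp (H : Hyp m k N) {f : X → ℝ} (hf : IsSobolevLoc m f)
    (hs : BddSupp m f) : IsSobolev m f :=
  (wgCalc H.fin).sob_of_bddSupp hf hs

/-- the weak gradient vanishes where the function is constant. -/
theorem wg_eq_zero_of_eq (H : Hyp m k N) {f : X → ℝ} (hf : IsSobolevLoc m f) (c : ℝ) :
    ∀ᵐ x ∂m, f x = c → minWeakGrad m f x = 0 :=
  (wgCalc H.fin).wg_zero_of_eq hf c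

/-! ## S12: calculus of the pairing -/

theorem gp_congr (H : Hyp m k N) {f f' g g' : X → ℝ} (hf : IsSobolevLoc m f)
    (hg : IsSobolevLoc m g) (hff : f =ᵐ[m] f') (hgg : g =ᵐ[m] g') :
    gradPairing m f g =ᵐ[m] gradPairing m f' g' :=
  (wgCalc H.fin).gp_congr hf hg hff hgg

theorem gp_comm (H : Hyp m k N) {f g : X → ℝ} (hf : IsSobolevLoc m f) (hg : IsSobolevLoc m g) :
    gradPairing m f g =ᵐ[m] gradPairing m g f :=
  (wgCalc H.fin).gp_comm hf hg

theorem gp_self (H : Hyp m k N) {f : X → ℝ} (hf : IsSobolevLoc m f) :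
    gradPairing m f f =ᵐ[m] fun x => minWeakGrad m f x ^ 2 :=
  (wgCalc H.fin).gp_self hf

theorem gp_add_left (H : Hyp m k N) {f f' g : X → ℝ} (hf : IsSobolevLoc m f)
    (hf' : IsSobolevLoc m f') (hg : IsSobolevLoc m g) :
    gradPairing m (fun x => f x + f' x) g =ᵐ[m]
      fun x => gradPairing m f g x + gradPairing m f' g x :=
  (wgCalc H.fin).gp_add_left H.hilb hf hf' hg

theorem gp_add_right (H : Hyp m k N) {f g g' : X → ℝ} (hf : IsSobolevLoc m f)
    (hg : IsSobolevLoc m g) (hg' : IsSobolevLoc m g') :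
    gradPairing m f (fun x => g x + g' x) =ᵐ[m]
      fun x => gradPairing m f g x + gradPairing m f g' x :=
  (wgCalc H.fin).gp_add_right H.hilb hf hg hg'

theorem gp_sub_left (H : Hyp m k N) {f f' g : X → ℝ} (hf : IsSobolevLoc m f)
    (hf' : IsSobolevLoc m f') (hg : IsSobolevLoc m g) :
    gradPairing m (fun x => f x - f' x) g =ᵐ[m]
      fun x => gradPairing m f g x - gradPairing m f' g x :=
  (wgCalc H.fin).gp_sub_left H.hilb hf hf' hg

theorem gp_sub_right (H : Hyp m k N) {f g g' : X → ℝ} (hf : IsSobolevLoc m f)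
    (hg : IsSobolevLoc m g) (hg' : IsSobolevLoc m g') :
    gradPairing m f (fun x => g x - g' x) =ᵐ[m]
      fun x => gradPairing m f g x - gradPairing m f g' x :=
  (wgCalc H.fin).gp_sub_right H.hilb hf hg hg'

theorem gp_smul_left (H : Hyp m k N) (c : ℝ) {f g : X → ℝ} (hf : IsSobolevLoc m f)
    (hg : IsSobolevLoc m g) :
    gradPairing m (fun x => c * f x) g =ᵐ[m] fun x => c * gradPairing m f g x :=
  (wgCalc H.fin).gp_smul_left H.hilb c hf hg

theorem gp_smul_right (H : Hyp m k N) (c : ℝ) {f g : X → ℝ} (hf : IsSobolevLoc m f)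
    (hg : IsSobolevLoc m g) :
    gradPairing m f (fun x => c * g x) =ᵐ[m] fun x => c * gradPairing m f g x :=
  (wgCalc H.fin).gp_smul_right H.hilb c hf hg

theorem gp_neg_left (H : Hyp m k N) {f g : X → ℝ} (hf : IsSobolevLoc m f)
    (hg : IsSobolevLoc m g) :
    gradPairing m (fun x => - f x) g =ᵐ[m] fun x => - gradPairing m f g x :=
  (wgCalc H.fin).gp_neg_left H.hilb hf hg

theorem gp_neg_right (H : Hyp m k N) {f g : X → ℝ} (hf : IsSobolevLoc m f)
    (hg : IsSobolevLoc m g) :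
    gradPairing m f (fun x => - g x) =ᵐ[m] fun x => - gradPairing m f g x :=
  (wgCalc H.fin).gp_neg_right H.hilb hf hg

theorem gp_const_left (H : Hyp m k N) (c : ℝ) {g : X → ℝ} (hg : IsSobolevLoc m g) :
    gradPairing m (fun _ => c) g =ᵐ[m] fun _ => 0 :=
  (wgCalc H.fin).gp_const_left c hg

theorem gp_const_right (H : Hyp m k N) (c : ℝ) {f : X → ℝ} (hf : IsSobolevLoc m f) :
    gradPairing m f (fun _ => c) =ᵐ[m] fun _ => 0 :=
  (wgCalc H.fin).gp_const_right c hf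

/-- `wg (f+g)² = wg f² + 2⟨f,g⟩ + wg g²`. -/
theorem wg_add_sq (H : Hyp m k N) {f g : X → ℝ} (hf : IsSobolevLoc m f) (hg : IsSobolevLoc m g) :
    ∀ᵐ x ∂m, minWeakGrad m (fun y => f y + g y) x ^ 2 =
      minWeakGrad m f x ^ 2 + 2 * gradPairing m f g x + minWeakGrad m g x ^ 2 :=
  (wgCalc H.fin).wg_add_sq H.hilb hf hg

theorem wg_sub_sq (H : Hyp m k N) {f g : X → ℝ} (hf : IsSobolevLoc m f) (hg : IsSobolevLoc m g) :
    ∀ᵐ x ∂m, minWeakGrad m (fun y => f y - g y) x ^ 2 =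
      minWeakGrad m f x ^ 2 - 2 * gradPairing m f g x + minWeakGrad m g x ^ 2 :=
  (wgCalc H.fin).wg_sub_sq H.hilb hf hg

/-- Cauchy-Schwarz. -/
theorem gp_abs_le (H : Hyp m k N) {f g : X → ℝ} (hf : IsSobolevLoc m f) (hg : IsSobolevLoc m g) :
    ∀ᵐ x ∂m, |gradPairing m f g x| ≤ minWeakGrad m f x * minWeakGrad m g x :=
  (wgCalc H.fin).gp_abs_le H.hilb hf hg

theorem gp_le (H : Hyp m k N) {f g : X → ℝ} (hf : IsSobolevLoc m f) (hg : IsSobolevLoc m g) :
    ∀ᵐ x ∂m, gradPairing m f g x ≤ (minWeakGrad m f x ^ 2 + minWeakGrad m g x ^ 2) / 2 :=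
  (wgCalc H.fin).gp_le H.hilb hf hg

/-- Cauchy-Schwarz with real coefficients chosen at the point. -/
theorem gp_lin_sq_le (H : Hyp m k N) {f f' g : X → ℝ} (hf : IsSobolevLoc m f)
    (hf' : IsSobolevLoc m f') (hg : IsSobolevLoc m g) :
    ∀ᵐ x ∂m, ∀ a b : ℝ, (a * gradPairing m f g x + b * gradPairing m f' g x) ^ 2 ≤
      (a ^ 2 * minWeakGrad m f x ^ 2 + 2 * a * b * gradPairing m f f' x +
        b ^ 2 * minWeakGrad m f' x ^ 2) * minWeakGrad m g x ^ 2 :=
  (wgCalc H.fin).gp_lin_sq_le H.hilb hf hf' hg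

/-- locality. -/
theorem gp_local_left (H : Hyp m k N) {f f' g : X → ℝ} (hf : IsSobolevLoc m f)
    (hf' : IsSobolevLoc m f') (hg : IsSobolevLoc m g) :
    ∀ᵐ x ∂m, f x = f' x → gradPairing m f g x = gradPairing m f' g x :=
  (wgCalc H.fin).gp_local_left hf hf' hg

theorem gp_local_right (H : Hyp m k N) {f g g' : X → ℝ} (hf : IsSobolevLoc m f)
    (hg : IsSobolevLoc m g) (hg' : IsSobolevLoc m g') :
    ∀ᵐ x ∂m, g x = g' x → gradPairing m f g x = gradPairing m f g' x :=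
  (wgCalc H.fin).gp_local_right hf hg hg'

theorem gp_eq_zero_of_eq_left (H : Hyp m k N) {f g : X → ℝ} (hf : IsSobolevLoc m f)
    (hg : IsSobolevLoc m g) (c : ℝ) : ∀ᵐ x ∂m, f x = c → gradPairing m f g x = 0 :=
  (wgCalc H.fin).gp_zero_of_eq_left hf hg c

theorem gp_eq_zero_of_eq_right (H : Hyp m k N) {f g : X → ℝ} (hf : IsSobolevLoc m f)
    (hg : IsSobolevLoc m g) (c : ℝ) : ∀ᵐ x ∂m, g x = c → gradPairing m f g x = 0 :=
  (wgCalc H.fin).gp_zero_of_eq_right hf hg c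

/-- Leibniz rule. -/
theorem gp_mul_left (H : Hyp m k N) {f f' g : X → ℝ} (hf : IsSobolevLoc m f)
    (hf' : IsSobolevLoc m f') (hg : IsSobolevLoc m g) (hfb : LocBdd m f) (hfb' : LocBdd m f') :
    gradPairing m (fun x => f x * f' x) g =ᵐ[m]
      fun x => f x * gradPairing m f' g x + f' x * gradPairing m f g x :=
  (wgCalc H.fin).gp_mul_left H.hilb hf hf' hg (sobLoc_mul H hf hf' hfb hfb')

theorem gp_mul_right (H : Hyp m k N) {f g g' : X → ℝ} (hf : IsSobolevLoc m f)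
    (hg : IsSobolevLoc m g) (hg' : IsSobolevLoc m g') (hgb : LocBdd m g) (hgb' : LocBdd m g') :
    gradPairing m f (fun x => g x * g' x) =ᵐ[m]
      fun x => g x * gradPairing m f g' x + g' x * gradPairing m f g x :=
  (wgCalc H.fin).gp_mul_right H.hilb hf hg hg' (sobLoc_mul H hg hg' hgb hgb')

/-- `sobLoc` for a `C¹` function of a locally bounded function. -/
theorem sobLoc_comp_of_locBdd (H : Hyp m k N) {φ : ℝ → ℝ} (hφ : ContDiff ℝ 1 φ) {f : X → ℝ}
    (hf : IsSobolevLoc m f) (hfb : LocBdd m f) : IsSobolevLoc m (fun x => φ (f x)) :=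
  IsSobolevLoc.comp_contDiff H.fin hf hfb hφ

/-- chain rule, `φ` of class `C¹`, `f` locally bounded. -/
theorem gp_comp_left (H : Hyp m k N) {φ : ℝ → ℝ} (hφ : ContDiff ℝ 1 φ) {f g : X → ℝ}
    (hf : IsSobolevLoc m f) (hfb : LocBdd m f) (hg : IsSobolevLoc m g) :
    gradPairing m (fun x => φ (f x)) g =ᵐ[m] fun x => deriv φ (f x) * gradPairing m f g x :=
  (wgCalc H.fin).gp_comp_C1 H.hilb hφ hf (sobLoc_comp_of_locBdd H hφ hf hfb) hg

theorem gp_comp_right (H : Hyp m k N) {φ : ℝ → ℝ} (hφ : ContDiff ℝ 1 φ) {f g : X → ℝ}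
    (hf : IsSobolevLoc m f) (hg : IsSobolevLoc m g) (hgb : LocBdd m g) :
    gradPairing m f (fun x => φ (g x)) =ᵐ[m] fun x => deriv φ (g x) * gradPairing m f g x := by
  filter_upwards [gp_comm H hf (sobLoc_comp_of_locBdd H hφ hg hgb), gp_comp_left H hφ hg hgb hf,
    gp_comm H hf hg] with x h1 h2 h3
  rw [h1, h2, h3]

/-- chain rule for the weak gradient, `φ` of class `C¹`, `f` locally bounded. -/
theorem wg_comp (H : Hyp m k N) {φ : ℝ → ℝ} (hφ : ContDiff ℝ 1 φ) {f : X → ℝ}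
    (hf : IsSobolevLoc m f) (hfb : LocBdd m f) :
    ∀ᵐ x ∂m, minWeakGrad m (fun x => φ (f x)) x = |deriv φ (f x)| * minWeakGrad m f x :=
  (wgCalc H.fin).wg_comp_C1 H.hilb hφ hf (sobLoc_comp_of_locBdd H hφ hf hfb)

/-- chain rule, `φ` Lipschitz and differentiable outside a countable set (no bound on `f`). -/
theorem gp_comp_left_lip (H : Hyp m k N) {φ : ℝ → ℝ} {L : ℝ≥0} (hφ : LipschitzWith L φ)
    {S : Set ℝ} (hS : S.Countable) (hd : ∀ r ∉ S, DifferentiableAt ℝ φ r) {f g : X → ℝ}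
    (hf : IsSobolevLoc m f) (hg : IsSobolevLoc m g) :
    gradPairing m (fun x => φ (f x)) g =ᵐ[m] fun x => deriv φ (f x) * gradPairing m f g x := by
  have h1 := minWeakGrad_comp H.fin hf hφ hS (ψ := deriv φ) fun t ht => (hd t ht).hasDerivAt
  have hφ2 : LipschitzWith (L + 1) (fun t => φ t + t) := hφ.add LipschitzWith.id
  have h2 := minWeakGrad_comp H.fin hf hφ2 hS (ψ := fun t => deriv φ t + 1)
    fun t ht => (hd t ht).hasDerivAt.add (hasDerivAt_id t)
  exact (wgCalc H.fin).gp_comp_of_wg H.hilb hf ((wgCalc H.fin).comp φ L f hφ hf).1 hg h1 h2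

/-! ## Integrability -/

theorem aesm_of_sobLoc (H : Hyp m k N) {f : X → ℝ} (hf : IsSobolevLoc m f) :
    AEStronglyMeasurable f m :=
  aesm_of_l2OnBalls hf.1

theorem aesm_wg (H : Hyp m k N) {f : X → ℝ} (hf : IsSobolevLoc m f) :
    AEStronglyMeasurable (minWeakGrad m f) m :=
  aesm_wg_ae hf

theorem wg_nonneg (H : Hyp m k N) {f : X → ℝ} (hf : IsSobolevLoc m f) :
    ∀ᵐ x ∂m, 0 ≤ minWeakGrad m f x :=
  wg_nonneg_ae hf

theorem aesm_gp (H : Hyp m k N) {f g : X → ℝ} (hf : IsSobolevLoc m f) (hg : IsSobolevLoc m g) :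
    AEStronglyMeasurable (gradPairing m f g) m :=
  (wgCalc H.fin).aesm_gp hf hg

theorem integrable_gp (H : Hyp m k N) {f g : X → ℝ} (hf : IsSobolev m f) (hg : IsSobolev m g) :
    Integrable (gradPairing m f g) m :=
  (wgCalc H.fin).integrable_gp H.hilb hf hg

theorem integrableOn_gp (H : Hyp m k N) {f g : X → ℝ} (hf : IsSobolevLoc m f)
    (hg : IsSobolevLoc m g) (o : X) (R : ℝ) :
    IntegrableOn (gradPairing m f g) (Metric.ball o R) m :=
  (wgCalc H.fin).integrableOn_gp H.hilb hf hg o R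

theorem integrable_wg_sq (H : Hyp m k N) {f : X → ℝ} (hf : IsSobolev m f) :
    Integrable (fun x => minWeakGrad m f x ^ 2) m :=
  sob_int_sq hf

end Crest.Agent.R242
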