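import Mathlib
import Crest.Agent.R242.ResCore
import Crest.Agent.R242.Pair

/-!
# Row 242: `Calc m` from `Hyp m k N` (Pair.lean + closure S8)
-/

set_option autoImplicit false
set_option linter.unusedSectionVars false

open MeasureTheory Filter Set
open scoped ENNReal NNReal Topology
open Crest.GeometryTopology.SyntheticRicci

noncomputable section

namespace Crest.Agent.R242

variable {X : Type*} [MetricSpace X] [ProperSpace X] [MeasurableSpace X] [BorelSpace X]
  {m : Measure X} [IsLocallyFiniteMeasure m] [m.IsOpenPosMeasure] {k N : ℝ}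

/-- closure statements of S8 (same form as in `SIface.lean`). -/
structure S8 (m : Measure X) : Prop where
  wg_congr : ∀ {f g : X → ℝ}, f =ᵐ[m] g → minWeakGrad m f =ᵐ[m] minWeakGrad m g
  closed : ∀ {f : X → ℝ} {fn : ℕ → X → ℝ}, (∀ n, IsSobolevLoc m (fn n)) → IsL2OnBalls m f →
    (∀ (o : X) (R : ℝ), Tendsto
      (fun n => ∫⁻ x in Metric.ball o R, ENNReal.ofReal ((fn n x - f x) ^ 2) ∂m) atTop (𝓝 0)) →
    (∀ (o : X) (R : ℝ), ∃ C : ℝ≥0, ∀ n,
      ∫⁻ x in Metric.ball o R, ENNReal.ofReal (minWeakGrad m (fn n) x ^ 2) ∂m ≤ C) →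
    IsSobolevLoc m f
  lsc : ∀ {f : X → ℝ} {fn : ℕ → X → ℝ}, (∀ n, IsSobolevLoc m (fn n)) → IsL2OnBalls m f →
    (∀ (o : X) (R : ℝ), Tendsto
      (fun n => ∫⁻ x in Metric.ball o R, ENNReal.ofReal ((fn n x - f x) ^ 2) ∂m) atTop (𝓝 0)) →
    (∀ (o : X) (R : ℝ), ∃ C : ℝ≥0, ∀ n,
      ∫⁻ x in Metric.ball o R, ENNReal.ofReal (minWeakGrad m (fn n) x ^ 2) ∂m ≤ C) →
    ∀ {w : X → ℝ≥0∞}, Measurable w →
    ∫⁻ x, w x * ENNReal.ofReal (minWeakGrad m f x ^ 2) ∂m ≤
      liminf (fun n => ∫⁻ x, w x * ENNReal.ofReal (minWeakGrad m (fn n) x ^ 2) ∂m) atTop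

theorem S8.gp_congr {f f' g g' : X → ℝ} (S : S8 m) (hf : f =ᵐ[m] f') (hg : g =ᵐ[m] g') :
    gradPairing m f g =ᵐ[m] gradPairing m f' g' := by
  have h1 : (fun y => f y + g y) =ᵐ[m] fun y => f' y + g' y := by
    filter_upwards [hf, hg] with x hx hy
    rw [hx, hy]
  have h2 : (fun y => f y - g y) =ᵐ[m] fun y => f' y - g' y := by
    filter_upwards [hf, hg] with x hx hy
    rw [hx, hy]
  filter_upwards [S.wg_congr h1, S.wg_congr h2] with x e1 e2
  simp only [gradPairing, e1, e2]

lemma res_max_lip (c : ℝ) : LipschitzWith 1 (fun t : ℝ => max (t - c) 0) := by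
  have h1 : LipschitzWith 1 (fun t : ℝ => t - c) := by
    refine LipschitzWith.of_dist_le_mul fun x y => ?_
    simp [Real.dist_eq]
  exact h1.max_const 0

lemma res_deriv_max_sq (c t : ℝ) :
    deriv (fun t : ℝ => max (t - c) 0) t * deriv (fun t : ℝ => max (t - c) 0) t =
      deriv (fun t : ℝ => max (t - c) 0) t := by
  rcases lt_trichotomy t c with h | h | h
  · have : deriv (fun t : ℝ => max (t - c) 0) t = 0 := by
      have h1 : (fun t : ℝ => max (t - c) 0) =ᶠ[𝓝 t] fun _ => 0 := by
        filter_upwards [Iio_mem_nhds h] with s hs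
        exact max_eq_right (by simp only [mem_Iio] at hs; linarith)
      rw [h1.deriv_eq]; simp
    rw [this]; ring
  · subst h
    have : ¬ DifferentiableAt ℝ (fun s : ℝ => max (s - t) 0) t := by
      intro hd
      -- right derivative 1, left derivative 0
      have h1 := hd.hasDerivAt
      have hl : HasDerivWithinAt (fun s : ℝ => max (s - t) 0) 0 (Iic t) t := by
        refine (hasDerivWithinAt_const t (Iic t) (0 : ℝ)).congr (fun s hs => ?_) ?_
        · exact max_eq_right (by simp only [mem_Iic] at hs; linarith)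
        · simp
      have hr : HasDerivWithinAt (fun s : ℝ => max (s - t) 0) 1 (Ici t) t := by
        refine ((hasDerivWithinAt_id t (Ici t)).sub_const t).congr (fun s hs => ?_) ?_
        · simp only [mem_Ici] at hs
          simp only [id]
          exact max_eq_left (by linarith)
        · simp
      have e1 := (uniqueDiffWithinAt_Iic t).eq_deriv _ h1.hasDerivWithinAt hl
      have e2 := (uniqueDiffWithinAt_Ici t).eq_deriv _ h1.hasDerivWithinAt hr
      rw [e1] at e2
      norm_num at e2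
    rw [deriv_zero_of_not_differentiableAt this]; ring
  · have : deriv (fun t : ℝ => max (t - c) 0) t = 1 := by
      have h1 : (fun t : ℝ => max (t - c) 0) =ᶠ[𝓝 t] fun s => s - c := by
        filter_upwards [Ioi_mem_nhds h] with s hs
        exact max_eq_left (by simp only [mem_Ioi] at hs; linarith)
      rw [h1.deriv_eq]; simp
    rw [this]; ring

lemma res_diff_max (c : ℝ) : ∀ r ∉ ({c} : Set ℝ), DifferentiableAt ℝ (fun t : ℝ => max (t - c) 0) r := by
  intro r hr
  rcases lt_trichotomy r c with h | h | h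
  · have h1 : (fun t : ℝ => max (t - c) 0) =ᶠ[𝓝 r] fun _ => 0 := by
      filter_upwards [Iio_mem_nhds h] with s hs
      exact max_eq_right (by simp only [mem_Iio] at hs; linarith)
    exact (differentiableAt_const (0 : ℝ)).congr_of_eventuallyEq h1
  · exact absurd h hr
  · have h1 : (fun t : ℝ => max (t - c) 0) =ᶠ[𝓝 r] fun s => s - c := by
      filter_upwards [Ioi_mem_nhds h] with s hs
      exact max_eq_left (by simp only [mem_Ioi] at hs; linarith)
    exact (differentiableAt_id.sub_const c).congr_of_eventuallyEq h1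

theorem calc_of_s8 (H : Hyp m k N) (S : S8 m) : Calc m where
  sob_congr := fun hf h => sob_congr H hf h
  sob_add := fun hf hg => sob_add H hf hg
  sob_smul := fun c _ hf => sob_smul H c hf
  sob_lip := by
    rintro f ⟨L, hL⟩ hc
    rcases isEmpty_or_nonempty X with hX | ⟨⟨o⟩⟩
    · have : f = fun _ => (0 : ℝ) := funext fun x => (hX.false x).elim
      rw [this]; exact sob_zero H
    · refine sob_of_sobLoc_bddSupp H (sobLoc_of_lipschitz H hL) ?_
      obtain ⟨R, hR⟩ := hc.isCompact.isBounded.subset_closedBall o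
      refine ⟨o, R, ae_of_all _ fun x hx => ?_⟩
      by_contra hne
      exact hx (hR (subset_tsupport f hne))
  gp_congr := fun hf hg => S.gp_congr hf hg
  gp_int := fun hf hg => integrable_gp H hf hg
  gp_symm := fun hf hg => gp_comm H hf.2.1 hg.2.1
  gp_add := fun hf hg hv => gp_add_left H hf.2.1 hg.2.1 hv.2.1
  gp_smul := fun c _ _ hf hv => gp_smul_left H c hf.2.1 hv.2.1
  gp_self := fun hf => gp_self H hf.2.1
  sob_pos := by
    intro c hc u hu
    exact sob_comp H (φ := fun t : ℝ => max (t - c) 0) (res_max_lip c) (by simp [hc]) hu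
  gp_pos := by
    intro c hc u hu
    have hv : IsSobolev m (fun x => max (u x - c) 0) :=
      sob_comp H (φ := fun t : ℝ => max (t - c) 0) (res_max_lip c) (by simp [hc]) hu
    have h1 := gp_comp_left_lip H (res_max_lip c) (S := {c}) (by simp) (res_diff_max c) hu.2.1 hv.2.1
    have h2 := gp_comp_left_lip H (res_max_lip c) (S := {c}) (by simp) (res_diff_max c) hu.2.1 hu.2.1
    have h3 := gp_comm H hu.2.1 hv.2.1
    filter_upwards [h1, h2, h3] with x e1 e2 e3
    rw [e1, e3, e2, ← mul_assoc, res_deriv_max_sq]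
  closed := by
    intro u f w A C hu hf hlim hA hw hw0 hwB hC
    have hsq : ∀ a : ℝ, ENNReal.ofReal (a ^ 2) = ‖a‖ₑ ^ (2 : ℝ) := by
      intro a
      rw [Real.enorm_eq_ofReal_abs, ← sq_abs, ENNReal.ofReal_pow (abs_nonneg _)]
      norm_cast
    have hpow : ∀ g : X → ℝ, ∫⁻ x, ENNReal.ofReal (g x ^ 2) ∂m = eLpNorm g 2 m ^ (2 : ℝ) := by
      intro g
      have h1 := eLpNorm_nnreal_pow_eq_lintegral (f := g) (μ := m) (p := 2) (by norm_num)
      simp only [NNReal.coe_ofNat] at h1
      have h2 : eLpNorm g 2 m = eLpNorm g ((2 : ℝ≥0) : ℝ≥0∞) m := by norm_num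
      rw [h2, h1]
      exact lintegral_congr fun x => hsq _
    have hfb : IsL2OnBalls m f := fun o R => hf.restrict _
    have hlim' : ∀ (o : X) (R : ℝ), Tendsto
        (fun n => ∫⁻ x in Metric.ball o R, ENNReal.ofReal ((u n x - f x) ^ 2) ∂m) atTop (𝓝 0) := by
      intro o R
      have h1 : Tendsto (fun n => eLpNorm (fun x => u n x - f x) 2 m ^ (2 : ℝ)) atTop (𝓝 0) := by
        have h2 := (ENNReal.continuous_rpow_const (y := 2)).tendsto (0 : ℝ≥0∞) |>.comp hlim
        rw [ENNReal.zero_rpow_of_pos (by norm_num)] at h2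
        exact h2
      refine tendsto_of_tendsto_of_tendsto_of_le_of_le tendsto_const_nhds h1
        (fun n => zero_le) fun n => ?_
      simp only
      rw [← hpow]
      exact setLIntegral_le_lintegral _ _
    have hlint : ∀ n, ∫⁻ x, ENNReal.ofReal (minWeakGrad m (u n) x ^ 2) ∂m ≤ ENNReal.ofReal A := by
      intro n
      rw [← ofReal_integral_eq_lintegral_ofReal (integrable_wg_sq H (hu n))
        (ae_of_all _ fun x => sq_nonneg _)]
      exact ENNReal.ofReal_le_ofReal (hA n)
    have hbd : ∀ (o : X) (R : ℝ), ∃ C : ℝ≥0, ∀ n,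
        ∫⁻ x in Metric.ball o R, ENNReal.ofReal (minWeakGrad m (u n) x ^ 2) ∂m ≤ C :=
      fun o R => ⟨A.toNNReal, fun n => (setLIntegral_le_lintegral _ _).trans (hlint n)⟩
    have hloc := S.closed (fun n => (hu n).2.1) hfb hlim' hbd
    have hlsc := fun {w : X → ℝ≥0∞} (hw : Measurable w) =>
      S.lsc (fun n => (hu n).2.1) hfb hlim' hbd hw
    have h1 : ∫⁻ x, ENNReal.ofReal (minWeakGrad m f x ^ 2) ∂m ≤ ENNReal.ofReal A := by
      have h2 := hlsc (w := fun _ => 1) measurable_const
      simp only [one_mul] at h2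
      refine h2.trans ?_
      refine (liminf_le_liminf (Eventually.of_forall hlint)).trans ?_
      simp
    have hsob : IsSobolev m f := by
      refine ⟨hf, hloc, aesm_wg H hloc, ?_⟩
      rw [hpow] at h1
      have h3 : eLpNorm (minWeakGrad m f) 2 m ^ (2 : ℝ) < ⊤ :=
        lt_of_le_of_lt h1 ENNReal.ofReal_lt_top
      by_contra hcon
      rw [not_lt, top_le_iff] at hcon
      rw [hcon] at h3
      simp at h3
    refine ⟨hsob, ?_⟩
    obtain ⟨B, hB⟩ := hwB
    have hint : ∀ g : X → ℝ, IsSobolev m g → Integrable (fun x => w x * minWeakGrad m g x ^ 2) m := by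
      intro g hg
      refine (integrable_wg_sq H hg).bdd_mul (c := B) hw.aestronglyMeasurable
        (ae_of_all _ fun x => ?_)
      rw [Real.norm_eq_abs, abs_of_nonneg (hw0 x)]
      exact hB x
    have h4 := hlsc (w := fun x => ENNReal.ofReal (w x)) (by fun_prop)
    have h5 : ∀ g : X → ℝ, IsSobolev m g →
        ∫⁻ x, ENNReal.ofReal (w x) * ENNReal.ofReal (minWeakGrad m g x ^ 2) ∂m =
          ENNReal.ofReal (∫ x, w x * minWeakGrad m g x ^ 2 ∂m) := by
      intro g hg
      rw [ofReal_integral_eq_lintegral_ofReal (hint g hg)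
        (ae_of_all _ fun x => mul_nonneg (hw0 x) (sq_nonneg _))]
      refine lintegral_congr fun x => ?_
      rw [ENNReal.ofReal_mul (hw0 x)]
    rw [h5 f hsob] at h4
    have h6 : ENNReal.ofReal (∫ x, w x * minWeakGrad m f x ^ 2 ∂m) ≤ ENNReal.ofReal C := by
      refine h4.trans ?_
      have h7 : ∀ n, ∫⁻ x, ENNReal.ofReal (w x) * ENNReal.ofReal (minWeakGrad m (u n) x ^ 2) ∂m ≤
          ENNReal.ofReal C := fun n => by
        rw [h5 _ (hu n)]
        exact ENNReal.ofReal_le_ofReal (hC n)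
      refine (liminf_le_liminf (Eventually.of_forall h7)).trans ?_
      simp
    have hC0 : 0 ≤ C := le_trans (integral_nonneg fun x => mul_nonneg (hw0 x) (sq_nonneg _)) (hC 0)
    exact (ENNReal.ofReal_le_ofReal_iff hC0).1 h6

end Crest.Agent.R242
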