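import Crest.Agent.R242.PlanDens
import Crest.Agent.R242.SobMin

/-!
# S8: closure and lower semicontinuity of weak gradients (row 242)
-/

set_option autoImplicit false

open MeasureTheory Filter Set
open scoped ENNReal NNReal Topology
open Crest.GeometryTopology.SyntheticRicci

namespace Crest.Agent.R242

variable {X : Type*} [MetricSpace X] [ProperSpace X] [MeasurableSpace X] [BorelSpace X]
  {m : Measure X} {P : Measure (UCurve X)}

omit [ProperSpace X] in
theorem aemeasurable_comp_toMap {β : Type*} [MeasurableSpace β] {C : ℝ≥0}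
    (hC : ∀ t : unitInterval, timeMarginal P t ≤ (C : ℝ≥0∞) • m) {g : X → β}
    (hg : AEMeasurable g m) (t : unitInterval) : AEMeasurable (fun γ : UCurve X => g (γ.toMap t)) P := by
  have h1 : AEMeasurable g (timeMarginal P t) := by
    have h2 : timeMarginal P t ≪ m :=
      (Measure.absolutelyContinuous_of_le (hC t)).trans Measure.smul_absolutelyContinuous
    exact hg.mono_ac h2
  exact h1.comp_measurable (measurable_eval t)

omit [MetricSpace X] [ProperSpace X] [BorelSpace X] in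
/-- lintegral of an absolute value on a set of finite measure. -/
theorem lintegral_abs_le_sqrt {μ : Measure X} {f : X → ℝ} (hf : AEStronglyMeasurable f μ) :
    ∫⁻ x, ENNReal.ofReal |f x| ∂μ ≤
      (∫⁻ x, ENNReal.ofReal (f x ^ 2) ∂μ) ^ (1 / 2 : ℝ) * (μ univ) ^ (1 / 2 : ℝ) := by
  have h := ENNReal.lintegral_mul_le_Lp_mul_Lq μ (p := 2) (q := 2)
    (by constructor <;> norm_num) (f := fun x => ENNReal.ofReal |f x|) (g := fun _ => 1)
    (hf.aemeasurable.abs.ennreal_ofReal) aemeasurable_const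
  simp only [Pi.mul_apply, mul_one, ENNReal.one_rpow, lintegral_const, one_mul] at h
  refine h.trans ?_
  gcongr ?_ ^ (1 / 2 : ℝ) * _
  refine lintegral_mono fun x => ?_
  rw [ENNReal.rpow_two, ← ENNReal.ofReal_pow (abs_nonneg _), sq_abs]

/-- A weak limit of weak upper gradients is a weak upper gradient of the limit. -/
theorem isWUGLoc_of_weak_limit (hfin : IsFiniteOnBalls m) {f : X → ℝ} {fn D : ℕ → X → ℝ}
    {D' : X → ℝ} (hD : ∀ n, IsWUGLoc m (fn n) (D n)) (hf : IsL2OnBalls m f)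
    (hfn : ∀ n, IsL2OnBalls m (fn n))
    (hlim : ∀ (o : X) (R : ℝ), Tendsto
      (fun n => ∫⁻ x in Metric.ball o R, ENNReal.ofReal ((fn n x - f x) ^ 2) ∂m) atTop (𝓝 0))
    (hD' : IsL2OnBalls m D') (hD'0 : ∀ᵐ x ∂m, 0 ≤ D' x)
    (hweak : ∀ (h : X → ℝ) (o : X) (R : ℝ), MemLp h 2 m → (∀ x, x ∉ Metric.ball o R → h x = 0) →
        Tendsto (fun n => ∫ x, D n x * h x ∂m) atTop (𝓝 (∫ x, D' x * h x ∂m))) :
    IsWUGLoc m f D' := by
  have hlf := locallyFinite_of_finiteOnBalls hfin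
  refine ⟨hD', hD'0, fun P hP hb => ?_⟩
  obtain ⟨h, o₁, R₁, hhm, hh0, hhL, hhs, hhint⟩ := exists_plan_density hfin hP hb
  have hb' := hb
  have hP0 := hP
  obtain ⟨hprob, ⟨C, hC⟩, -, -⟩ := hP
  obtain ⟨o, R, hR⟩ := hb'
  set K : Set X := Metric.closedBall o R with hK
  have hKsub : K ⊆ Metric.ball o (R + 1) := by
    intro x hx
    rw [hK, Metric.mem_closedBall] at hx
    rw [Metric.mem_ball]; linarith
  have hKfin : m K < ⊤ := lt_of_le_of_lt (measure_mono hKsub) (hfin o (R + 1))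
  -- the product `D n * h` is integrable
  have hprod : ∀ g : X → ℝ, IsL2OnBalls m g → (∀ᵐ x ∂m, 0 ≤ g x) →
      ∫⁻ x, ENNReal.ofReal (g x) * ENNReal.ofReal (h x) ∂m =
        ENNReal.ofReal (∫ x, g x * h x ∂m) := by
    intro g hg hg0
    have hint : Integrable (fun x => g x * h x) m := by
      have h1 : MemLp h 2 (m.restrict (Metric.ball o₁ R₁)) := hhL.restrict _
      have h2 : IntegrableOn (fun x => g x * h x) (Metric.ball o₁ R₁) m :=
        MemLp.integrable_mul (hg o₁ R₁) h1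
      rw [← integrable_indicator_iff Metric.isOpen_ball.measurableSet] at h2
      refine h2.congr (Eventually.of_forall fun x => ?_)
      by_cases hx : x ∈ Metric.ball o₁ R₁
      · rw [indicator_of_mem hx]
      · rw [indicator_of_notMem hx]; simp [hhs x hx]
    rw [ofReal_integral_eq_lintegral_ofReal hint]
    · refine lintegral_congr_ae ?_
      filter_upwards [hg0] with x hx
      rw [ENNReal.ofReal_mul hx]
    · filter_upwards [hg0] with x hx
      exact mul_nonneg hx (hh0 x)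
  -- the error term
  set err : ℕ → ℝ≥0∞ := fun n => ∫⁻ x in K, ENNReal.ofReal |fn n x - f x| ∂m with herr
  have herr0 : Tendsto err atTop (𝓝 0) := by
    have h1 : ∀ n, err n ≤ (∫⁻ x in Metric.ball o (R + 1), ENNReal.ofReal ((fn n x - f x) ^ 2) ∂m) ^
        (1 / 2 : ℝ) * (m K) ^ (1 / 2 : ℝ) := by
      intro n
      have hms : AEStronglyMeasurable (fun x => fn n x - f x) (m.restrict K) :=
        ((aesm_of_isL2OnBalls (hfn n)).sub (aesm_of_isL2OnBalls hf)).restrict
      refine (lintegral_abs_le_sqrt hms).trans ?_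
      rw [Measure.restrict_apply_univ]
      gcongr ?_ ^ (1 / 2 : ℝ) * _
      exact lintegral_mono_set hKsub
    have h2 : Tendsto (fun n => (∫⁻ x in Metric.ball o (R + 1),
        ENNReal.ofReal ((fn n x - f x) ^ 2) ∂m) ^ (1 / 2 : ℝ) * (m K) ^ (1 / 2 : ℝ)) atTop
        (𝓝 (0 ^ (1 / 2 : ℝ) * (m K) ^ (1 / 2 : ℝ))) := by
      refine ENNReal.Tendsto.mul_const ?_ (Or.inr ?_)
      · exact (ENNReal.continuous_rpow_const.tendsto _).comp (hlim o (R + 1))
      · exact (ENNReal.rpow_lt_top_of_nonneg (by norm_num) hKfin.ne).ne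
    rw [ENNReal.zero_rpow_of_pos (by norm_num), zero_mul] at h2
    exact tendsto_of_tendsto_of_tendsto_of_le_of_le tendsto_const_nhds h2 (fun _ => zero_le) h1
  -- the inequality at level `n`
  have hn : ∀ n, (∫⁻ γ, ENNReal.ofReal |f (γ.toMap 1) - f (γ.toMap 0)| ∂P) ≤
      ENNReal.ofReal (∫ x, D n x * h x ∂m) + (C * err n + C * err n) := by
    intro n
    have h1 := (hD n).2.2 P hP0 hb
    rw [hhint (fun x => ENNReal.ofReal (D n x))
      ((aesm_of_isL2OnBalls (hD n).1).aemeasurable.ennreal_ofReal),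
      hprod _ (hD n).1 (hD n).2.1] at h1
    have hmeas : AEMeasurable (fun x => ENNReal.ofReal |fn n x - f x|) m :=
      ((aesm_of_isL2OnBalls (hfn n)).aemeasurable.sub
        (aesm_of_isL2OnBalls hf).aemeasurable).abs.ennreal_ofReal
    have h2 : ∀ t : unitInterval, ∫⁻ γ, ENNReal.ofReal |fn n (γ.toMap t) - f (γ.toMap t)| ∂P ≤
        C * err n := fun t => lintegral_toMap_le_ball hC hR hmeas.restrict t
    calc (∫⁻ γ, ENNReal.ofReal |f (γ.toMap 1) - f (γ.toMap 0)| ∂P)
        ≤ ∫⁻ γ, (ENNReal.ofReal |fn n (γ.toMap 1) - fn n (γ.toMap 0)| +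
          (ENNReal.ofReal |fn n (γ.toMap 1) - f (γ.toMap 1)| +
            ENNReal.ofReal |fn n (γ.toMap 0) - f (γ.toMap 0)|)) ∂P := by
          refine lintegral_mono fun γ => ?_
          rw [← ENNReal.ofReal_add (abs_nonneg _) (abs_nonneg _),
            ← ENNReal.ofReal_add (abs_nonneg _) (by positivity)]
          apply ENNReal.ofReal_le_ofReal
          have e : f (γ.toMap 1) - f (γ.toMap 0) = (fn n (γ.toMap 1) - fn n (γ.toMap 0)) +
            (-(fn n (γ.toMap 1) - f (γ.toMap 1)) + (fn n (γ.toMap 0) - f (γ.toMap 0))) := by ring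
          rw [e]
          refine (abs_add_le _ _).trans ?_
          gcongr
          refine (abs_add_le _ _).trans ?_
          rw [abs_neg]
      _ = (∫⁻ γ, ENNReal.ofReal |fn n (γ.toMap 1) - fn n (γ.toMap 0)| ∂P) +
          ((∫⁻ γ, ENNReal.ofReal |fn n (γ.toMap 1) - f (γ.toMap 1)| ∂P) +
            (∫⁻ γ, ENNReal.ofReal |fn n (γ.toMap 0) - f (γ.toMap 0)| ∂P)) := by
          rw [lintegral_add_right', lintegral_add_right']
          · exact aemeasurable_comp_toMap hC hmeas 0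
          · exact (aemeasurable_comp_toMap hC hmeas 1).add (aemeasurable_comp_toMap hC hmeas 0)
      _ ≤ _ := by
          gcongr
          · exact h2 1
          · exact h2 0
  rw [hhint (fun x => ENNReal.ofReal (D' x))
      ((aesm_of_isL2OnBalls hD').aemeasurable.ennreal_ofReal), hprod _ hD' hD'0]
  refine ge_of_tendsto' (x := atTop) ?_ hn
  have h3 := ENNReal.tendsto_ofReal (hweak h o₁ R₁ hhL hhs)
  have h4 : Tendsto (fun n => (C : ℝ≥0∞) * err n + C * err n) atTop (𝓝 0) := by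
    have h5 : Tendsto (fun n => (C : ℝ≥0∞) * err n) atTop (𝓝 0) := by
      have := ENNReal.Tendsto.const_mul (a := (C : ℝ≥0∞)) herr0 (Or.inr ENNReal.coe_ne_top)
      rwa [mul_zero] at this
    have := h5.add h5
    rwa [add_zero] at this
  have := h3.add h4
  rwa [add_zero] at this

/-- weak lower semicontinuity of weighted `L²` integrals. -/
theorem lintegral_sq_le_of_weak_limit (hfin : IsFiniteOnBalls m) {D : ℕ → X → ℝ} {D' : X → ℝ}
    (hD : ∀ n, IsL2OnBalls m (D n)) (hD' : IsL2OnBalls m D')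
    (hweak : ∀ (h : X → ℝ) (o : X) (R : ℝ), MemLp h 2 m → (∀ x, x ∉ Metric.ball o R → h x = 0) →
        Tendsto (fun n => ∫ x, D n x * h x ∂m) atTop (𝓝 (∫ x, D' x * h x ∂m)))
    {w : X → ℝ≥0∞} (hw : Measurable w) {c : ℝ≥0∞}
    (hc : ∀ n, ∫⁻ x, w x * ENNReal.ofReal (D n x ^ 2) ∂m ≤ c) :
    ∫⁻ x, w x * ENNReal.ofReal (D' x ^ 2) ∂m ≤ c := by
  have hlf := locallyFinite_of_finiteOnBalls hfin
  rcases eq_or_ne c ⊤ with hct | hct
  · rw [hct]; exact le_top
  rcases isEmpty_or_nonempty X with hX | ⟨⟨o⟩⟩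
  · have : m = 0 := Measure.eq_zero_of_isEmpty m
    rw [this]; simp
  have hDm := fun n => aesm_of_isL2OnBalls (hD n)
  have hDm' := aesm_of_isL2OnBalls hD'
  -- truncated weights
  set wj : ℕ → X → ℝ≥0∞ := fun j => (Metric.ball o (j : ℝ)).indicator (fun x => min (w x) j) with hwj
  have hwjm : ∀ j, Measurable (wj j) := fun j =>
    (hw.min measurable_const).indicator Metric.isOpen_ball.measurableSet
  have hwjt : ∀ (j : ℕ) (x : X), wj j x ≤ j := by
    intro j x
    rw [hwj]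
    by_cases hx : x ∈ Metric.ball o (j : ℝ)
    · simp only [indicator_of_mem hx]; exact min_le_right _ _
    · simp only [indicator_of_notMem hx]; exact zero_le
  have hwjw : ∀ (j : ℕ) (x : X), wj j x ≤ w x := by
    intro j x
    rw [hwj]
    by_cases hx : x ∈ Metric.ball o (j : ℝ)
    · simp only [indicator_of_mem hx]; exact min_le_left _ _
    · simp only [indicator_of_notMem hx]; exact zero_le
  have hwj0 : ∀ (j : ℕ) (x : X), x ∉ Metric.ball o (j : ℝ) → wj j x = 0 := by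
    intro j x hx
    rw [hwj]
    simp only [indicator_of_notMem hx]
  -- integrability of weighted products
  have hintw : ∀ (j : ℕ) (f g : X → ℝ), IsL2OnBalls m f → IsL2OnBalls m g →
      Integrable (fun x => (wj j x).toReal * (f x * g x)) m := by
    intro j f g hf hg
    have h1 : IntegrableOn (fun x => f x * g x) (Metric.ball o (j : ℝ)) m :=
      MemLp.integrable_mul (hf o j) (hg o j)
    have h2 : IntegrableOn (fun x => (wj j x).toReal * (f x * g x)) (Metric.ball o (j : ℝ)) m := by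
      refine h1.bdd_mul (c := (j : ℝ)) (hwjm j).ennreal_toReal.aestronglyMeasurable ?_
      refine Eventually.of_forall fun x => ?_
      rw [Real.norm_of_nonneg ENNReal.toReal_nonneg]
      have := ENNReal.toReal_mono (ENNReal.natCast_ne_top j) (hwjt j x)
      simpa using this
    rw [← integrable_indicator_iff Metric.isOpen_ball.measurableSet] at h2
    refine h2.congr (Eventually.of_forall fun x => ?_)
    by_cases hx : x ∈ Metric.ball o (j : ℝ)
    · rw [indicator_of_mem hx]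
    · rw [indicator_of_notMem hx]; simp [hwj0 j x hx]
  have hlin : ∀ (j : ℕ) (f : X → ℝ), IsL2OnBalls m f →
      ∫⁻ x, wj j x * ENNReal.ofReal (f x ^ 2) ∂m =
        ENNReal.ofReal (∫ x, (wj j x).toReal * (f x * f x) ∂m) := by
    intro j f hf
    rw [ofReal_integral_eq_lintegral_ofReal (hintw j f f hf hf)]
    · refine lintegral_congr fun x => ?_
      rw [ENNReal.ofReal_mul ENNReal.toReal_nonneg, ENNReal.ofReal_toReal
        (ne_top_of_le_ne_top (ENNReal.natCast_ne_top j) (hwjt j x)), sq]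
    · exact Eventually.of_forall fun x => mul_nonneg ENNReal.toReal_nonneg (mul_self_nonneg _)
  have hj : ∀ j : ℕ, ∫⁻ x, wj j x * ENNReal.ofReal (D' x ^ 2) ∂m ≤ c := by
    intro j
    rw [hlin j D' hD']
    set A := ∫ x, (wj j x).toReal * (D' x * D' x) ∂m with hA
    have hhL : MemLp (fun x => (wj j x).toReal * D' x) 2 m := by
      have h1 : MemLp (fun x => (wj j x).toReal * D' x) 2 (m.restrict (Metric.ball o (j : ℝ))) := by
        refine MemLp.of_le_mul (c := (j : ℝ)) (hD' o j)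
          ((hwjm j).ennreal_toReal.aestronglyMeasurable.mul (hD' o j).1) ?_
        refine Eventually.of_forall fun x => ?_
        rw [norm_mul, Real.norm_of_nonneg ENNReal.toReal_nonneg]
        have := ENNReal.toReal_mono (ENNReal.natCast_ne_top j) (hwjt j x)
        gcongr
        simpa using this
      rw [← memLp_indicator_iff_restrict Metric.isOpen_ball.measurableSet] at h1
      refine h1.ae_eq (Eventually.of_forall fun x => ?_)
      by_cases hx : x ∈ Metric.ball o (j : ℝ)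
      · rw [indicator_of_mem hx]
      · rw [indicator_of_notMem hx]; simp [hwj0 j x hx]
    have hlim := hweak _ o j hhL (fun x hx => by rw [hwj0 j x hx]; simp)
    have e1 : ∫ x, D' x * ((wj j x).toReal * D' x) ∂m = A := by
      rw [hA]
      refine integral_congr_ae (Eventually.of_forall fun x => ?_)
      simp only; ring
    rw [e1] at hlim
    have hle : ∀ n, ∫ x, D n x * ((wj j x).toReal * D' x) ∂m ≤ c.toReal / 2 + A / 2 := by
      intro n
      have i1 := hintw j (D n) (D n) (hD n) (hD n)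
      have i2 := hintw j D' D' hD' hD'
      have i3 := hintw j (D n) D' (hD n) hD'
      have h2 : ∫ x, (wj j x).toReal * (D n x * D n x) ∂m ≤ c.toReal := by
        have h3 := hlin j (D n) (hD n)
        have h4 : ∫⁻ x, wj j x * ENNReal.ofReal (D n x ^ 2) ∂m ≤ c := by
          refine le_trans (lintegral_mono fun x => ?_) (hc n)
          exact mul_le_mul_left (hwjw j x) _
        rw [h3] at h4
        exact (ENNReal.ofReal_le_iff_le_toReal hct).1 h4
      calc ∫ x, D n x * ((wj j x).toReal * D' x) ∂m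
          = ∫ x, (wj j x).toReal * (D n x * D' x) ∂m := by
            refine integral_congr_ae (Eventually.of_forall fun x => ?_)
            simp only; ring
        _ ≤ ∫ x, ((wj j x).toReal * (D n x * D n x) / 2 + (wj j x).toReal * (D' x * D' x) / 2) ∂m := by
            refine integral_mono i3 ((i1.div_const 2).add (i2.div_const 2)) fun x => ?_
            simp only
            have hwnn : 0 ≤ (wj j x).toReal := ENNReal.toReal_nonneg
            nlinarith [mul_nonneg hwnn (sq_nonneg (D n x - D' x))]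
        _ = (∫ x, (wj j x).toReal * (D n x * D n x) ∂m) / 2 + A / 2 := by
            rw [integral_add (i1.div_const 2) (i2.div_const 2), integral_div, integral_div]
        _ ≤ _ := by gcongr
    have hA2 : A ≤ c.toReal / 2 + A / 2 := le_of_tendsto' hlim hle
    exact (ENNReal.ofReal_le_iff_le_toReal hct).2 (by linarith)
  -- monotone convergence
  have hsup : ∀ x, w x * ENNReal.ofReal (D' x ^ 2) =
      ⨆ j : ℕ, wj j x * ENNReal.ofReal (D' x ^ 2) := by
    intro x
    rw [← ENNReal.iSup_mul]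
    congr 1
    apply le_antisymm
    · refine le_of_forall_lt fun b hb => ?_
      obtain ⟨j₁, hj₁⟩ := ENNReal.exists_nat_gt (hb.trans_le le_top).ne
      obtain ⟨j₂, hj₂⟩ := exists_nat_gt (dist x o)
      refine lt_of_lt_of_le ?_ (le_iSup _ (max j₁ j₂))
      rw [hwj]
      have hx : x ∈ Metric.ball o ((max j₁ j₂ : ℕ) : ℝ) := by
        rw [Metric.mem_ball]
        exact lt_of_lt_of_le hj₂ (by exact_mod_cast le_max_right _ _)
      simp only [indicator_of_mem hx]
      refine lt_min hb (lt_of_lt_of_le hj₁ ?_)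
      exact_mod_cast le_max_left _ _
    · exact iSup_le fun j => hwjw j x
  simp_rw [hsup]
  rw [lintegral_iSup']
  · exact iSup_le hj
  · intro j
    exact (hwjm j).aemeasurable.mul (hDm'.aemeasurable.pow_const 2).ennreal_ofReal
  · refine Eventually.of_forall fun x i j hij => ?_
    simp only
    gcongr ?_ * _
    rw [hwj]
    by_cases hx : x ∈ Metric.ball o (i : ℝ)
    · have hx' : x ∈ Metric.ball o (j : ℝ) := Metric.ball_subset_ball (by exact_mod_cast hij) hx
      simp only [indicator_of_mem hx, indicator_of_mem hx']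
      exact min_le_min_left _ (by exact_mod_cast hij)
    · simp only [indicator_of_notMem hx]; exact zero_le

/-- combination of the previous results: the limit of a sequence of local Sobolev functions. -/
theorem exists_wug_of_tendsto (hfin : IsFiniteOnBalls m) {f : X → ℝ} {fn : ℕ → X → ℝ}
    (hn : ∀ n, IsSobolevLoc m (fn n)) (hf : IsL2OnBalls m f)
    (hlim : ∀ (o : X) (R : ℝ), Tendsto
      (fun n => ∫⁻ x in Metric.ball o R, ENNReal.ofReal ((fn n x - f x) ^ 2) ∂m) atTop (𝓝 0))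
    (hbd : ∀ (o : X) (R : ℝ), ∃ C : ℝ≥0, ∀ n,
      ∫⁻ x in Metric.ball o R, ENNReal.ofReal (minWeakGrad m (fn n) x ^ 2) ∂m ≤ C) :
    ∃ D' : X → ℝ, IsWUGLoc m f D' ∧ ∀ (w : X → ℝ≥0∞), Measurable w → ∀ c : ℝ≥0∞,
      (∀ n, ∫⁻ x, w x * ENNReal.ofReal (minWeakGrad m (fn n) x ^ 2) ∂m ≤ c) →
      ∫⁻ x, w x * ENNReal.ofReal (D' x ^ 2) ∂m ≤ c := by
  obtain ⟨D', φ, hφ, hD'L, hD'0, hweak⟩ := exists_weak_limit_ball hfin
    (fun n => minWeakGrad_isL2OnBalls (m := m) (fn n)) (fun n => minWeakGrad_nonneg (fn n)) hbd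
  refine ⟨D', ?_, ?_⟩
  · exact isWUGLoc_of_weak_limit hfin (fn := fun n => fn (φ n))
      (D := fun n => minWeakGrad m (fn (φ n)))
      (fun n => IsSobolevLoc.isWUG (hn (φ n))) hf (fun n => (hn (φ n)).1)
      (fun o R => (hlim o R).comp hφ.tendsto_atTop) hD'L hD'0 hweak
  · intro w hw c hc
    exact lintegral_sq_le_of_weak_limit hfin (fun n => minWeakGrad_isL2OnBalls (fn (φ n))) hD'L
      hweak hw (fun n => hc (φ n))

theorem isSobolevLoc_of_tendsto (hfin : IsFiniteOnBalls m) {f : X → ℝ} {fn : ℕ → X → ℝ}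
    (hn : ∀ n, IsSobolevLoc m (fn n)) (hf : IsL2OnBalls m f)
    (hlim : ∀ (o : X) (R : ℝ), Tendsto
      (fun n => ∫⁻ x in Metric.ball o R, ENNReal.ofReal ((fn n x - f x) ^ 2) ∂m) atTop (𝓝 0))
    (hbd : ∀ (o : X) (R : ℝ), ∃ C : ℝ≥0, ∀ n,
      ∫⁻ x in Metric.ball o R, ENNReal.ofReal (minWeakGrad m (fn n) x ^ 2) ∂m ≤ C) :
    IsSobolevLoc m f := by
  obtain ⟨D', hD', -⟩ := exists_wug_of_tendsto hfin hn hf hlim hbd
  exact (isSobolevLoc_iff hfin).2 ⟨hf, D', hD'⟩

/-- lower semicontinuity, for any measurable weight -/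
theorem lintegral_minWeakGrad_sq_le_liminf (hfin : IsFiniteOnBalls m) {f : X → ℝ}
    {fn : ℕ → X → ℝ} (hn : ∀ n, IsSobolevLoc m (fn n)) (hf : IsL2OnBalls m f)
    (hlim : ∀ (o : X) (R : ℝ), Tendsto
      (fun n => ∫⁻ x in Metric.ball o R, ENNReal.ofReal ((fn n x - f x) ^ 2) ∂m) atTop (𝓝 0))
    (hbd : ∀ (o : X) (R : ℝ), ∃ C : ℝ≥0, ∀ n,
      ∫⁻ x in Metric.ball o R, ENNReal.ofReal (minWeakGrad m (fn n) x ^ 2) ∂m ≤ C)
    {w : X → ℝ≥0∞} (hw : Measurable w) :
    ∫⁻ x, w x * ENNReal.ofReal (minWeakGrad m f x ^ 2) ∂m ≤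
      liminf (fun n => ∫⁻ x, w x * ENNReal.ofReal (minWeakGrad m (fn n) x ^ 2) ∂m) atTop := by
  refine le_of_forall_gt_imp_ge_of_dense fun c hc => ?_
  have hfreq : ∃ᶠ n in atTop,
      ∫⁻ x, w x * ENNReal.ofReal (minWeakGrad m (fn n) x ^ 2) ∂m < c :=
    frequently_lt_of_liminf_lt (by isBoundedDefault) hc
  obtain ⟨ψ, hψ, hψc⟩ := extraction_of_frequently_atTop hfreq
  obtain ⟨D', hD', hlsc⟩ := exists_wug_of_tendsto hfin (fn := fun n => fn (ψ n))
    (fun n => hn (ψ n)) hf (fun o R => (hlim o R).comp hψ.tendsto_atTop)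
    (fun o R => by
      obtain ⟨C, hC⟩ := hbd o R
      exact ⟨C, fun n => hC (ψ n)⟩)
  refine le_trans (lintegral_mono_ae ?_) (hlsc w hw c fun n => (hψc n).le)
  filter_upwards [minWeakGrad_nonneg (m := m) f, minWeakGrad_le_of_isWUGLoc hfin hf hD'] with x h1 h2
  gcongr

/-- the difference of two functions with weak upper gradients. -/
theorem isWUGLoc_sub_of (hfin : IsFiniteOnBalls m) {f g D D' : X → ℝ} (_hf : IsL2OnBalls m f)
    (hg : IsL2OnBalls m g) (hD : IsWUGLoc m f D) (hD' : IsWUGLoc m g D') :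
    IsWUGLoc m (fun x => f x - g x) (fun x => D x + D' x) := by
  have hlf := locallyFinite_of_finiteOnBalls hfin
  refine ⟨fun o R => (hD.1 o R).add (hD'.1 o R), ?_, fun P hP hb => ?_⟩
  · filter_upwards [hD.2.1, hD'.2.1] with x h1 h2
    exact add_nonneg h1 h2
  obtain ⟨h, o₁, R₁, hhm, hh0, hhL, hhs, hhint⟩ := exists_plan_density hfin hP hb
  have h1 := hD.2.2 P hP hb
  have h2 := hD'.2.2 P hP hb
  have hDm := (aesm_of_isL2OnBalls hD.1).aemeasurable
  have hDm' := (aesm_of_isL2OnBalls hD'.1).aemeasurable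
  rw [hhint (fun x => ENNReal.ofReal (D x)) hDm.ennreal_ofReal] at h1
  rw [hhint (fun x => ENNReal.ofReal (D' x)) hDm'.ennreal_ofReal] at h2
  rw [hhint (fun x => ENNReal.ofReal (D x + D' x)) (hDm.add hDm').ennreal_ofReal]
  obtain ⟨hprob, ⟨C, hC⟩, -, -⟩ := hP
  have hgm := (aesm_of_isL2OnBalls hg).aemeasurable
  calc (∫⁻ γ, ENNReal.ofReal |(f (γ.toMap 1) - g (γ.toMap 1)) - (f (γ.toMap 0) - g (γ.toMap 0))| ∂P)
      ≤ ∫⁻ γ, (ENNReal.ofReal |f (γ.toMap 1) - f (γ.toMap 0)| +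
          ENNReal.ofReal |g (γ.toMap 1) - g (γ.toMap 0)|) ∂P := by
        refine lintegral_mono fun γ => ?_
        rw [← ENNReal.ofReal_add (abs_nonneg _) (abs_nonneg _)]
        apply ENNReal.ofReal_le_ofReal
        have e : (f (γ.toMap 1) - g (γ.toMap 1)) - (f (γ.toMap 0) - g (γ.toMap 0)) =
          (f (γ.toMap 1) - f (γ.toMap 0)) - (g (γ.toMap 1) - g (γ.toMap 0)) := by ring
        rw [e]
        exact abs_sub _ _
    _ = (∫⁻ γ, ENNReal.ofReal |f (γ.toMap 1) - f (γ.toMap 0)| ∂P) +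
          ∫⁻ γ, ENNReal.ofReal |g (γ.toMap 1) - g (γ.toMap 0)| ∂P := by
        rw [lintegral_add_right']
        exact ((aemeasurable_comp_toMap hC hgm 1).sub
          (aemeasurable_comp_toMap hC hgm 0)).abs.ennreal_ofReal
    _ ≤ (∫⁻ x, ENNReal.ofReal (D x) * ENNReal.ofReal (h x) ∂m) +
          ∫⁻ x, ENNReal.ofReal (D' x) * ENNReal.ofReal (h x) ∂m := add_le_add h1 h2
    _ = ∫⁻ x, ENNReal.ofReal (D x + D' x) * ENNReal.ofReal (h x) ∂m := by
        rw [← lintegral_add_right']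
        · refine lintegral_congr_ae ?_
          filter_upwards [hD.2.1, hD'.2.1] with x h3 h4
          rw [ENNReal.ofReal_add h3 h4, add_mul]
        · exact hDm'.ennreal_ofReal.mul hhm.aemeasurable.ennreal_ofReal

theorem isSobolev_sub_of (hfin : IsFiniteOnBalls m) {f g : X → ℝ} (hf : IsSobolev m f)
    (hg : IsSobolev m g) : IsSobolev m (fun x => f x - g x) := by
  rw [isSobolev_iff hfin]
  exact ⟨hf.1.sub hg.1, _, isWUGLoc_sub_of hfin hf.2.1.1 hg.2.1.1 (IsSobolevLoc.isWUG hf.2.1)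
    (IsSobolevLoc.isWUG hg.2.1), hf.2.2.add hg.2.2⟩

omit [ProperSpace X] [MetricSpace X] [BorelSpace X] in
/-- completeness of `L²` in terms of functions. -/
theorem exists_L2_limit {fn : ℕ → X → ℝ} (hn : ∀ n, MemLp (fn n) 2 m)
    (hc : ∀ ε : ℝ, 0 < ε → ∃ n₀ : ℕ, ∀ i j : ℕ, n₀ ≤ i → n₀ ≤ j →
      (∫⁻ x, ENNReal.ofReal ((fn i x - fn j x) ^ 2) ∂m) ≤ ENNReal.ofReal ε) :
    ∃ f : X → ℝ, MemLp f 2 m ∧
      Tendsto (fun n => ∫⁻ x, ENNReal.ofReal ((fn n x - f x) ^ 2) ∂m) atTop (𝓝 0) := by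
  have hF : CauchySeq (fun n => (hn n).toLp (fn n)) := by
    rw [EMetric.cauchySeq_iff]
    intro δ hδ
    obtain ⟨d, hd0, hdδ⟩ : ∃ d : ℝ, 0 < d ∧ ENNReal.ofReal d < δ := by
      obtain ⟨d, hd0, hd1⟩ := ENNReal.lt_iff_exists_nnreal_btwn.1 hδ
      refine ⟨d, by exact_mod_cast hd0, by simpa using hd1⟩
    obtain ⟨n₀, hn₀⟩ := hc (d ^ 2) (by positivity)
    refine ⟨n₀, fun i hi j hj => lt_of_le_of_lt ?_ hdδ⟩
    rw [Lp.edist_toLp_toLp, eLpNorm_two_eq]
    refine le_trans (ENNReal.rpow_le_rpow (hn₀ i j hi hj) (by norm_num)) ?_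
    rw [ENNReal.ofReal_pow hd0.le, ← ENNReal.rpow_two, ← ENNReal.rpow_mul]
    norm_num
  obtain ⟨G, hG⟩ := cauchySeq_tendsto_of_complete hF
  obtain ⟨g, hg, rfl⟩ : ∃ (g : X → ℝ) (hg : MemLp g 2 m), hg.toLp g = G :=
    ⟨G, Lp.memLp G, Lp.toLp_coeFn G (Lp.memLp G)⟩
  refine ⟨g, hg, ?_⟩
  have h1 := (Lp.tendsto_Lp_iff_tendsto_eLpNorm'' fn hn g hg).1 hG
  have h2 : Tendsto (fun n => (eLpNorm (fn n - g) 2 m) ^ (2 : ℝ)) atTop (𝓝 (0 ^ (2 : ℝ))) :=
    (ENNReal.continuous_rpow_const.tendsto _).comp h1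
  rw [ENNReal.zero_rpow_of_pos (by norm_num)] at h2
  refine h2.congr fun n => ?_
  rw [eLpNorm_two_eq, ← ENNReal.rpow_mul]
  norm_num

/-- `W^{1,2}` is complete -/
theorem exists_isSobolev_limit (hfin : IsFiniteOnBalls m) {fn : ℕ → X → ℝ}
    (hn : ∀ n, IsSobolev m (fn n))
    (hc : ∀ ε : ℝ, 0 < ε → ∃ n₀ : ℕ, ∀ i j : ℕ, n₀ ≤ i → n₀ ≤ j →
      (∫⁻ x, ENNReal.ofReal ((fn i x - fn j x) ^ 2) ∂m) +
        (∫⁻ x, ENNReal.ofReal (minWeakGrad m (fun y => fn i y - fn j y) x ^ 2) ∂m)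
          ≤ ENNReal.ofReal ε) :
    ∃ f : X → ℝ, IsSobolev m f ∧
      Tendsto (fun n => ∫⁻ x, ENNReal.ofReal ((fn n x - f x) ^ 2) ∂m) atTop (𝓝 0) ∧
      Tendsto (fun n => ∫⁻ x, ENNReal.ofReal
        (minWeakGrad m (fun y => fn n y - f y) x ^ 2) ∂m) atTop (𝓝 0) := by
  obtain ⟨f, hfL, hflim⟩ := exists_L2_limit (fun n => (hn n).1) (fun ε hε => by
    obtain ⟨n₀, hn₀⟩ := hc ε hε
    exact ⟨n₀, fun i j hi hj => le_trans le_self_add (hn₀ i j hi hj)⟩)
  have key : ∀ ε : ℝ, 0 < ε → ∃ n₀ : ℕ, ∀ n, n₀ ≤ n →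
      IsSobolev m (fun x => fn n x - f x) ∧
      ∫⁻ x, ENNReal.ofReal (minWeakGrad m (fun y => fn n y - f y) x ^ 2) ∂m ≤
        ENNReal.ofReal ε := by
    intro ε hε
    obtain ⟨n₀, hn₀⟩ := hc ε hε
    refine ⟨n₀, fun n hnn => ?_⟩
    have hS : ∀ j, IsSobolev m (fun x => fn n x - fn (j + n₀) x) := fun j =>
      isSobolev_sub_of hfin (hn n) (hn (j + n₀))
    have hbound : ∀ j, ∫⁻ x, ENNReal.ofReal
        (minWeakGrad m (fun y => fn n y - fn (j + n₀) y) x ^ 2) ∂m ≤ ENNReal.ofReal ε :=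
      fun j => le_trans le_add_self (hn₀ n (j + n₀) hnn (Nat.le_add_left _ _))
    have huL : MemLp (fun x => fn n x - f x) 2 m := (hn n).1.sub hfL
    have hlim : ∀ (o : X) (R : ℝ), Tendsto (fun j => ∫⁻ x in Metric.ball o R,
        ENNReal.ofReal (((fn n x - fn (j + n₀) x) - (fn n x - f x)) ^ 2) ∂m) atTop (𝓝 0) := by
      intro o R
      have h1 : Tendsto (fun j : ℕ => ∫⁻ x, ENNReal.ofReal ((fn (j + n₀) x - f x) ^ 2) ∂m) atTop
          (𝓝 0) := hflim.comp (tendsto_add_atTop_nat n₀)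
      refine tendsto_of_tendsto_of_tendsto_of_le_of_le tendsto_const_nhds h1 (fun _ => zero_le)
        fun j => ?_
      refine le_trans (setLIntegral_le_lintegral _ _) (le_of_eq ?_)
      refine lintegral_congr fun x => ?_
      congr 1
      ring
    obtain ⟨D', hD', hlsc⟩ := exists_wug_of_tendsto hfin
      (fn := fun j x => fn n x - fn (j + n₀) x) (fun j => (hS j).2.1)
      (isL2OnBalls_of_memLp huL) hlim
      (fun o R => ⟨ε.toNNReal, fun j => le_trans (setLIntegral_le_lintegral _ _) (hbound j)⟩)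
    have h3 := hlsc (fun _ => 1) measurable_const (ENNReal.ofReal ε) (fun j => by
      simpa using hbound j)
    simp only [one_mul] at h3
    have hD'L : MemLp D' 2 m :=
      memLp_two_iff.2 ⟨aesm_of_isL2OnBalls hD'.1, lt_of_le_of_lt h3 ENNReal.ofReal_lt_top⟩
    refine ⟨(isSobolev_iff hfin).2 ⟨huL, D', hD', hD'L⟩, le_trans (lintegral_mono_ae ?_) h3⟩
    filter_upwards [minWeakGrad_nonneg (m := m) (fun y => fn n y - f y),
      minWeakGrad_le_of_isWUGLoc hfin (isL2OnBalls_of_memLp huL) hD'] with x h1 h2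
    gcongr
  refine ⟨f, ?_, hflim, ?_⟩
  · obtain ⟨n₀, hn₀⟩ := key 1 one_pos
    have h1 := isSobolev_sub_of hfin (hn n₀) (hn₀ n₀ le_rfl).1
    have h2 : (fun x => fn n₀ x - (fn n₀ x - f x)) = f := by
      funext x; ring
    rwa [h2] at h1
  · rw [ENNReal.tendsto_atTop_zero]
    intro δ hδ
    obtain ⟨d, hd0, hd1⟩ := ENNReal.lt_iff_exists_nnreal_btwn.1 hδ
    obtain ⟨n₀, hn₀⟩ := key d (by exact_mod_cast hd0)
    refine ⟨n₀, fun n hnn => ((hn₀ n hnn).2.trans ?_)⟩
    rw [ENNReal.ofReal_coe_nnreal]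
    exact hd1.le

end Crest.Agent.R242
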