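import Mathlib
import Crest.Agent.R242.ResCore
import Crest.Agent.R242.Pair
import Crest.Agent.R242.CalcOfHyp
import Crest.Agent.R242.SobClosure
import Crest.Agent.R242.SobLin

/-!
# Row 242, PART R (R1, R2): statements for users (owner helper847)

Everything here is a restatement, with `(H : Hyp m k N) (hV : BddLip V)`, of the theorems of
`ResCore.lean` (which are over `Calc m`, `BddM V`).
-/

set_option autoImplicit false

open MeasureTheory Filter Set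
open scoped ENNReal NNReal Topology
open Crest.GeometryTopology.SyntheticRicci

noncomputable section

namespace Crest.Agent.R242

variable {X : Type*} [MetricSpace X] [ProperSpace X] [MeasurableSpace X] [BorelSpace X]
  {m : Measure X} [IsLocallyFiniteMeasure m] [m.IsOpenPosMeasure] {k N : ℝ}
  {V : X → ℝ} {h : ℝ} {f g u v : X → ℝ}

theorem s8_of_hyp (H : Hyp m k N) : S8 m where
  wg_congr := fun h => minWeakGrad_congr h
  closed := fun h1 h2 h3 h4 => isSobolevLoc_of_tendsto H.fin h1 h2 h3 h4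
  lsc := fun h1 h2 h3 h4 _ hw => lintegral_minWeakGrad_sq_le_liminf H.fin h1 h2 h3 h4 hw

theorem calc_of_hyp (H : Hyp m k N) : Calc m := calc_of_s8 H (s8_of_hyp H)

omit [ProperSpace X] [IsLocallyFiniteMeasure m] [m.IsOpenPosMeasure] in
theorem BddLip.bddM (hV : BddLip V) : BddM V := by
  obtain ⟨hB, L, hL⟩ := hV
  exact ⟨hL.continuous.measurable, hB⟩

/-! ### the energy -/

theorem En_add_left (H : Hyp m k N) (hV : BddLip V) (hf : IsSobolev m f) (hg : IsSobolev m g)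
    (hv : IsSobolev m v) : En m V (fun x => f x + g x) v = En m V f v + En m V g v :=
  (calc_of_hyp H).En_add_left hV.bddM hf hg hv

theorem En_smul_left (H : Hyp m k N) (hV : BddLip V) (c : ℝ) (hf : IsSobolev m f)
    (hv : IsSobolev m v) : En m V (fun x => c * f x) v = c * En m V f v :=
  (calc_of_hyp H).En_smul_left hV.bddM c hf hv

theorem En_symm (H : Hyp m k N) (hV : BddLip V) (hf : IsSobolev m f) (hv : IsSobolev m v) :
    En m V f v = En m V v f :=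
  (calc_of_hyp H).En_symm hV.bddM hf hv

theorem En_nonneg (H : Hyp m k N) (hV : BddLip V) (hf : IsSobolev m f) : 0 ≤ En m V f f :=
  (calc_of_hyp H).En_nonneg hV.bddM hf

theorem En_self (H : Hyp m k N) (hV : BddLip V) (hf : IsSobolev m f) :
    En m V f f = ∫ x, minWeakGrad m f x ^ 2 ∂(wm m V) :=
  (calc_of_hyp H).En_self hV.bddM hf

theorem En_congr (H : Hyp m k N) (hV : BddLip V) {f' g' : X → ℝ} (h1 : f =ᵐ[m] f')
    (h2 : g =ᵐ[m] g') : En m V f g = En m V f' g' :=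
  (calc_of_hyp H).En_congr hV.bddM h1 h2

theorem En_cs (H : Hyp m k N) (hV : BddLip V) (hf : IsSobolev m f) (hv : IsSobolev m v) :
    (En m V f v) ^ 2 ≤ En m V f f * En m V v v :=
  (calc_of_hyp H).En_cs hV.bddM hf hv

/-! ### R1 -/

/-- the weak equation: `J_h f ∈ W^{1,2}` and `h E(J_h f, v) + ∫ J_h f v = ∫ f v`. -/
theorem Jr_isRes (H : Hyp m k N) (hV : BddLip V) (hh : 0 < h) {f : X → ℝ} (hf : MemLp f 2 m) :
    IsRes m V h f (Jr m V h f) :=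
  (calc_of_hyp H).Jr_isRes hV.bddM hh hf

theorem IsRes.unique (H : Hyp m k N) (hV : BddLip V) (hh : 0 < h) {f u u' : X → ℝ}
    (hf : MemLp f 2 m) (hu : IsRes m V h f u) (hu' : IsRes m V h f u') : u =ᵐ[m] u' :=
  (calc_of_hyp H).isRes_unique hV.bddM hh hf hu hu'

theorem Jr_sob (H : Hyp m k N) (hV : BddLip V) (hh : 0 < h) {f : X → ℝ} (hf : MemLp f 2 m) :
    IsSobolev m (Jr m V h f) :=
  (calc_of_hyp H).Jr_sob hV.bddM hh hf

theorem Jr_memLp (H : Hyp m k N) (hV : BddLip V) (hh : 0 < h) {f : X → ℝ} (hf : MemLp f 2 m) :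
    MemLp (Jr m V h f) 2 m :=
  (calc_of_hyp H).Jr_memLp hV.bddM hh hf

theorem Jr_congr (H : Hyp m k N) (hV : BddLip V) (hh : 0 < h) {f g : X → ℝ} (hf : MemLp f 2 m)
    (hfg : f =ᵐ[m] g) : Jr m V h f =ᵐ[m] Jr m V h g := by
  rw [Jr_congr' hV.bddM hfg]

theorem Jr_eq (H : Hyp m k N) (hV : BddLip V) (hh : 0 < h) (hf : MemLp f 2 m)
    (hv : IsSobolev m v) :
    h * En m V (Jr m V h f) v + ∫ x, Jr m V h f x * v x ∂(wm m V) = ∫ x, f x * v x ∂(wm m V) :=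
  (calc_of_hyp H).Jr_eq hV.bddM hh hf hv

theorem Jr_add (H : Hyp m k N) (hV : BddLip V) (hh : 0 < h) {f g : X → ℝ} (hf : MemLp f 2 m)
    (hg : MemLp g 2 m) :
    Jr m V h (fun x => f x + g x) =ᵐ[m] fun x => Jr m V h f x + Jr m V h g x :=
  (calc_of_hyp H).Jr_add hV.bddM hh hf hg

theorem Jr_sub (H : Hyp m k N) (hV : BddLip V) (hh : 0 < h) {f g : X → ℝ} (hf : MemLp f 2 m)
    (hg : MemLp g 2 m) :
    Jr m V h (fun x => f x - g x) =ᵐ[m] fun x => Jr m V h f x - Jr m V h g x :=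
  (calc_of_hyp H).Jr_sub hV.bddM hh hf hg

theorem Jr_smul (H : Hyp m k N) (hV : BddLip V) (hh : 0 < h) (c : ℝ) {f : X → ℝ}
    (hf : MemLp f 2 m) : Jr m V h (fun x => c * f x) =ᵐ[m] fun x => c * Jr m V h f x :=
  (calc_of_hyp H).Jr_smul hV.bddM hh c hf

theorem Jr_symm (H : Hyp m k N) (hV : BddLip V) (hh : 0 < h) {f g : X → ℝ} (hf : MemLp f 2 m)
    (hg : MemLp g 2 m) :
    ∫ x, Jr m V h f x * g x ∂(wm m V) = ∫ x, f x * Jr m V h g x ∂(wm m V) :=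
  (calc_of_hyp H).Jr_symm hV.bddM hh hf hg

theorem Jr_comm (H : Hyp m k N) (hV : BddLip V) (hh : 0 < h) {h' : ℝ} (hh' : 0 < h') {f : X → ℝ}
    (hf : MemLp f 2 m) : Jr m V h (Jr m V h' f) =ᵐ[m] Jr m V h' (Jr m V h f) :=
  (calc_of_hyp H).Jr_comm hV.bddM hh hh' hf

/-- resolvent identity. -/
theorem Jr_resolvent (H : Hyp m k N) (hV : BddLip V) (hh : 0 < h) {h' : ℝ} (hh' : 0 < h')
    {f : X → ℝ} (hf : MemLp f 2 m) :
    Jr m V h f =ᵐ[m] Jr m V h' (fun x => h' / h * f x + (1 - h' / h) * Jr m V h f x) :=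
  (calc_of_hyp H).Jr_resolvent hV.bddM hh hh' hf

/-! ### R2 -/

theorem Jr_nonneg (H : Hyp m k N) (hV : BddLip V) (hh : 0 < h) {f : X → ℝ} (hf : MemLp f 2 m)
    (h0 : 0 ≤ᵐ[m] f) : 0 ≤ᵐ[m] Jr m V h f :=
  (calc_of_hyp H).Jr_nonneg hV.bddM hh hf h0

theorem Jr_mono (H : Hyp m k N) (hV : BddLip V) (hh : 0 < h) {f g : X → ℝ} (hf : MemLp f 2 m)
    (hg : MemLp g 2 m) (hfg : f ≤ᵐ[m] g) : Jr m V h f ≤ᵐ[m] Jr m V h g :=
  (calc_of_hyp H).Jr_mono hV.bddM hh hf hg hfg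

theorem Jr_le_const (H : Hyp m k N) (hV : BddLip V) (hh : 0 < h) {f : X → ℝ} (hf : MemLp f 2 m)
    {c : ℝ} (hc : 0 ≤ c) (hfc : ∀ᵐ x ∂m, f x ≤ c) : ∀ᵐ x ∂m, Jr m V h f x ≤ c :=
  (calc_of_hyp H).Jr_le_const hV.bddM hh hf hc hfc

theorem Jr_abs_le (H : Hyp m k N) (hV : BddLip V) (hh : 0 < h) {f : X → ℝ} (hf : MemLp f 2 m)
    {c : ℝ} (hfc : ∀ᵐ x ∂m, |f x| ≤ c) : ∀ᵐ x ∂m, |Jr m V h f x| ≤ c :=
  (calc_of_hyp H).Jr_abs_le_const hV.bddM hh hf hfc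

theorem abs_Jr_le (H : Hyp m k N) (hV : BddLip V) (hh : 0 < h) {f : X → ℝ} (hf : MemLp f 2 m) :
    ∀ᵐ x ∂m, |Jr m V h f x| ≤ Jr m V h (fun x => |f x|) x :=
  (calc_of_hyp H).abs_Jr_le hV.bddM hh hf

/-- Jensen. -/
theorem Jr_sq_le (H : Hyp m k N) (hV : BddLip V) (hh : 0 < h) {f : X → ℝ} (hf : MemLp f 2 m)
    (hf2 : MemLp (fun x => f x ^ 2) 2 m) :
    ∀ᵐ x ∂m, Jr m V h f x ^ 2 ≤ Jr m V h (fun x => f x ^ 2) x :=
  (calc_of_hyp H).Jr_sq_le hV.bddM hh hf hf2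

theorem Jr_memLp_top (H : Hyp m k N) (hV : BddLip V) (hh : 0 < h) {f : X → ℝ}
    (hf : MemLp f 2 m) (hf2 : MemLp f ⊤ m) : MemLp (Jr m V h f) ⊤ m :=
  (calc_of_hyp H).Jr_memLp_top hV.bddM hh hf hf2

theorem Jr_l1 (H : Hyp m k N) (hV : BddLip V) (hh : 0 < h) {f : X → ℝ} (hf : MemLp f 2 m)
    (hf1 : Integrable f m) : Integrable (Jr m V h f) m ∧
      ∫ x, |Jr m V h f x| ∂(wm m V) ≤ ∫ x, |f x| ∂(wm m V) :=
  (calc_of_hyp H).Jr_l1 hV.bddM hh hf hf1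

theorem Jr_l2 (H : Hyp m k N) (hV : BddLip V) (hh : 0 < h) {f : X → ℝ} (hf : MemLp f 2 m) :
    ∫ x, Jr m V h f x ^ 2 ∂(wm m V) + 2 * h * En m V (Jr m V h f) (Jr m V h f) ≤
      ∫ x, f x ^ 2 ∂(wm m V) := by
  have := (calc_of_hyp H).Jr_energy_l2 hV.bddM hh hf
  linarith

theorem Jr_energy_le (H : Hyp m k N) (hV : BddLip V) (hh : 0 < h) {f : X → ℝ}
    (hf : IsSobolev m f) : En m V (Jr m V h f) (Jr m V h f) ≤ En m V f f :=
  (calc_of_hyp H).Jr_energy_le hV.bddM hh hf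

theorem Jr_energy_sub_le (H : Hyp m k N) (hV : BddLip V) (hh : 0 < h) {f : X → ℝ}
    (hf : IsSobolev m f) :
    En m V (fun x => f x - Jr m V h f x) (fun x => f x - Jr m V h f x) ≤
      En m V f f - En m V (Jr m V h f) (Jr m V h f) :=
  (calc_of_hyp H).Jr_energy_sub_le hV.bddM hh hf

theorem Jr_l2_sub_le (H : Hyp m k N) (hV : BddLip V) (hh : 0 < h) {f : X → ℝ}
    (hf : IsSobolev m f) :
    ∫ x, (f x - Jr m V h f x) ^ 2 ∂(wm m V) ≤ h * En m V f f :=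
  (calc_of_hyp H).Jr_l2_sub_le hV.bddM hh hf

theorem Jr_tendsto_l2 (H : Hyp m k N) (hV : BddLip V) {f : X → ℝ} (hf : MemLp f 2 m) :
    Tendsto (fun h => ∫ x, (Jr m V h f x - f x) ^ 2 ∂m) (𝓝[>] 0) (𝓝 0) :=
  (calc_of_hyp H).Jr_tendsto_l2 hV.bddM hf

theorem Jr_tendsto_sob (H : Hyp m k N) (hV : BddLip V) {f : X → ℝ} (hf : IsSobolev m f) :
    Tendsto (fun h => ∫ x, minWeakGrad m (fun x => Jr m V h f x - f x) x ^ 2 ∂m)
      (𝓝[>] 0) (𝓝 0) :=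
  (calc_of_hyp H).Jr_tendsto_sob hV.bddM hf

/-! ### the generator -/

theorem IsWLap.unique (H : Hyp m k N) (hV : BddLip V) {u g g' : X → ℝ} (h1 : IsWLap m V u g)
    (h2 : IsWLap m V u g') : g =ᵐ[m] g' :=
  (calc_of_hyp H).isWLap_unique hV.bddM h1 h2

theorem IsWLap.congr (H : Hyp m k N) (hV : BddLip V) {u g u' g' : X → ℝ} (h1 : IsWLap m V u g)
    (hu : u =ᵐ[m] u') (hg : g =ᵐ[m] g') : IsWLap m V u' g' :=
  (calc_of_hyp H).isWLap_congr hV.bddM h1 hu hg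

theorem IsWLap.add (H : Hyp m k N) (hV : BddLip V) {u g u' g' : X → ℝ} (h1 : IsWLap m V u g)
    (h2 : IsWLap m V u' g') : IsWLap m V (fun x => u x + u' x) (fun x => g x + g' x) :=
  (calc_of_hyp H).isWLap_add hV.bddM h1 h2

theorem IsWLap.smul (H : Hyp m k N) (hV : BddLip V) (c : ℝ) {u g : X → ℝ}
    (h1 : IsWLap m V u g) : IsWLap m V (fun x => c * u x) (fun x => c * g x) :=
  (calc_of_hyp H).isWLap_smul hV.bddM c h1

/-- `L J_h f = (J_h f - f)/h`. -/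
theorem Jr_isWLap (H : Hyp m k N) (hV : BddLip V) (hh : 0 < h) {f : X → ℝ} (hf : MemLp f 2 m) :
    IsWLap m V (Jr m V h f) (fun x => (Jr m V h f x - f x) / h) :=
  (calc_of_hyp H).Jr_isWLap hV.bddM hh hf

/-- `u = J_h (u - h L u)`. -/
theorem isWLap_iff_eq_Jr (H : Hyp m k N) (hV : BddLip V) (hh : 0 < h) {u g : X → ℝ}
    (hu : MemLp u 2 m) (hg : MemLp g 2 m) :
    IsWLap m V u g ↔ u =ᵐ[m] Jr m V h (fun x => u x - h * g x) :=
  (calc_of_hyp H).isWLap_iff_eq_Jr hV.bddM hh hu hg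

theorem IsWLap.eq_Jr (H : Hyp m k N) (hV : BddLip V) (hh : 0 < h) {u g : X → ℝ}
    (hu : IsWLap m V u g) : u =ᵐ[m] Jr m V h (fun x => u x - h * g x) :=
  ((calc_of_hyp H).isWLap_iff_eq_Jr hV.bddM hh hu.1.1 hu.2.1).1 hu

/-- `L` commutes with the resolvent. -/
theorem IsWLap.Jr (H : Hyp m k N) (hV : BddLip V) (hh : 0 < h) {u g : X → ℝ}
    (hu : IsWLap m V u g) : IsWLap m V (Jr m V h u) (Jr m V h g) :=
  (calc_of_hyp H).isWLap_Jr hV.bddM hh hu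

/-- `J_h u - u = h J_h L u`. -/
theorem IsWLap.Jr_sub (H : Hyp m k N) (hV : BddLip V) (hh : 0 < h) {u g : X → ℝ}
    (hu : IsWLap m V u g) :
    ∀ᵐ x ∂m, Crest.Agent.R242.Jr m V h u x - u x = h * Crest.Agent.R242.Jr m V h g x :=
  (calc_of_hyp H).isWLap_Jr_sub hV.bddM hh hu

theorem IsWLap.integral_mul_symm (H : Hyp m k N) (hV : BddLip V) {u g u' g' : X → ℝ}
    (h1 : IsWLap m V u g) (h2 : IsWLap m V u' g') :
    ∫ x, g x * u' x ∂(wm m V) = ∫ x, u x * g' x ∂(wm m V) :=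
  (calc_of_hyp H).isWLap_integral_mul_symm hV.bddM h1 h2

end Crest.Agent.R242
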