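import Mathlib
import Crest.Prelude.Def_SyntheticRicci

/-!
# Row 242, part V: local Bishop-Gromov from `IsCD`, properness, exponential integrability
-/

set_option autoImplicit false

open MeasureTheory Filter Set Metric
open scoped ENNReal NNReal Topology
open Crest.GeometryTopology.SyntheticRicci

namespace Crest.Agent.R242.V

section basic

variable {X : Type*} [MetricSpace X] [MeasurableSpace X]

/-- normalised restriction -/
noncomputable def unif (m : Measure X) (s : Set X) : Measure X := (m s)⁻¹ • m.restrict s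

theorem unif_isProb {m : Measure X} {s : Set X} (h0 : m s ≠ 0) (h1 : m s ≠ ⊤) :
    IsProbabilityMeasure (unif m s) :=
  ⟨by simp [unif, ENNReal.inv_mul_cancel h0 h1]⟩

theorem unif_ac (m : Measure X) (s : Set X) : unif m s ≪ m :=
  (Measure.absolutelyContinuous_of_le Measure.restrict_le_self).smul_left _

theorem unif_compl {m : Measure X} {s : Set X} (hs : MeasurableSet s) : unif m s sᶜ = 0 := by
  simp [unif, Measure.restrict_apply hs.compl]

theorem unif_rnDeriv {m : Measure X} [SigmaFinite m] {s : Set X} (hs : MeasurableSet s) :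
    (unif m s).rnDeriv m =ᵐ[m] s.indicator fun _ => (m s)⁻¹ := by
  have h : unif m s = m.withDensity (s.indicator fun _ => (m s)⁻¹) := by
    rw [withDensity_indicator hs, withDensity_const, unif]
  rw [h]
  exact Measure.rnDeriv_withDensity m (measurable_const.indicator hs)

end basic

section meas

variable {X : Type*} [MetricSpace X]

theorem continuous_toMap : Continuous (UCurve.toMap : UCurve X → C(unitInterval, X)) :=
  continuous_induced_dom

theorem continuous_eval (t : unitInterval) : Continuous fun γ : UCurve X => γ.toMap t :=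
  (continuous_eval_const t).comp continuous_toMap

variable [MeasurableSpace X] [BorelSpace X]

theorem measurable_eval (t : unitInterval) : Measurable fun γ : UCurve X => γ.toMap t :=
  (continuous_eval t).measurable

theorem measurable_ends : Measurable fun γ : UCurve X => (γ.toMap 0, γ.toMap 1) :=
  (measurable_eval 0).prodMk (measurable_eval 1)

theorem marginal_zero {P : Measure (UCurve X)} {μ₀ μ₁ : Measure X}
    (h : IsCouplingOf (endpointLaw P) μ₀ μ₁) : timeMarginal P 0 = μ₀ := by
  have := h.1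
  rw [endpointLaw, Measure.map_map measurable_fst measurable_ends] at this
  exact this

theorem marginal_one {P : Measure (UCurve X)} {μ₀ μ₁ : Measure X}
    (h : IsCouplingOf (endpointLaw P) μ₀ μ₁) : timeMarginal P 1 = μ₁ := by
  have := h.2
  rw [endpointLaw, Measure.map_map measurable_snd measurable_ends] at this
  exact this

theorem sigmaFinite_of_balls {m : Measure X} (hfin : IsFiniteOnBalls m) : SigmaFinite m := by
  rcases isEmpty_or_nonempty X with h | ⟨⟨o⟩⟩
  · have : m = 0 := Measure.eq_zero_of_isEmpty m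
    rw [this]
    infer_instance
  · refine ⟨⟨⟨fun n : ℕ => ball o n, fun _ => trivial, fun n => hfin o n, ?_⟩⟩⟩
    exact iUnion_ball_nat o

theorem finiteSecondMoment_unif {m : Measure X} {x : X} {r : ℝ} (h0 : m (ball x r) ≠ 0)
    (h1 : m (ball x r) ≠ ⊤) : HasFiniteSecondMoment (unif m (ball x r)) := by
  refine ⟨x, ?_⟩
  rw [unif, lintegral_smul_measure]
  refine ENNReal.mul_lt_top (ENNReal.inv_lt_top.2 (pos_iff_ne_zero.2 h0)) ?_
  calc ∫⁻ y in ball x r, edist y x ^ 2 ∂m ≤ ∫⁻ _ in ball x r, ENNReal.ofReal r ^ 2 ∂m := by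
        refine setLIntegral_mono measurable_const fun y hy => ?_
        gcongr
        rw [edist_dist]
        exact ENNReal.ofReal_le_ofReal (mem_ball.1 hy).le
    _ < ⊤ := by
        rw [setLIntegral_const]
        exact ENNReal.mul_lt_top (by simp) h1.lt_top

end meas

/-! ### lower bound for `τ` -/

theorem sinh_ratio_ge {t b : ℝ} (ht : 0 ≤ t) (hb : 0 < b) :
    t * Real.exp (-b) ≤ Real.sinh (t * b) / Real.sinh b := by
  have hs : 0 < Real.sinh b := Real.sinh_pos_iff.2 hb
  rw [le_div_iff₀ hs]
  have h1 : t * b ≤ Real.sinh (t * b) := Real.self_le_sinh_iff.2 (mul_nonneg ht hb.le)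
  have h2 : Real.sinh b ≤ b * Real.exp b := by
    have h3 : Real.sinh b ≤ b * Real.cosh b := by
      have := Real.sinh_lt_cosh b
      -- tangent bound: `sinh b ≤ b cosh b`
      have hmono : MonotoneOn (fun x => x * Real.cosh x - Real.sinh x) (Set.Ici 0) := by
        refine monotoneOn_of_deriv_nonneg (convex_Ici 0) ?_ ?_ ?_
        · exact (continuous_id.mul Real.continuous_cosh).sub Real.continuous_sinh |>.continuousOn
        · exact ((differentiable_id.mul Real.differentiable_cosh).sub
            Real.differentiable_sinh).differentiableOn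
        · intro x hx
          rw [interior_Ici] at hx
          have hd : HasDerivAt (fun x => x * Real.cosh x - Real.sinh x)
              (1 * Real.cosh x + x * Real.sinh x - Real.cosh x) x :=
            ((hasDerivAt_id x).mul (Real.hasDerivAt_cosh x)).sub (Real.hasDerivAt_sinh x)
          rw [hd.deriv]
          have : 0 ≤ x * Real.sinh x := mul_nonneg hx.le (Real.sinh_nonneg_iff.2 hx.le)
          linarith
      have := hmono (Set.mem_Ici.2 le_rfl) (Set.mem_Ici.2 hb.le) hb.le
      simp at this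
      linarith
    have h4 : Real.cosh b ≤ Real.exp b := by
      rw [Real.cosh_eq]
      have : Real.exp (-b) ≤ Real.exp b := Real.exp_le_exp.2 (by linarith)
      linarith
    nlinarith
  calc t * Real.exp (-b) * Real.sinh b ≤ t * Real.exp (-b) * (b * Real.exp b) := by
        gcongr
    _ = t * b * (Real.exp (-b) * Real.exp b) := by ring
    _ = t * b := by rw [← Real.exp_add]; simp
    _ ≤ Real.sinh (t * b) := h1

theorem tau_ge {k N t θ : ℝ} (hk : 0 < k) (hN : 1 < N) (ht0 : 0 < t) (ht1 : t < 1) (hθ : 0 ≤ θ) :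
    ENNReal.ofReal (t * Real.exp (-(θ * Real.sqrt (k / (N - 1))))) ≤
      distortTau (-k) N t θ := by
  have hN0 : 0 < N := by linarith
  have hσ : ENNReal.ofReal (t * Real.exp (-(θ * Real.sqrt (k / (N - 1))))) ≤
      distortSigma (-k) (N - 1) t θ := by
    unfold distortSigma
    rw [if_neg (by linarith), if_neg (by linarith)]
    by_cases h0 : θ = 0
    · rw [if_pos h0, h0]
      simp
    · rw [if_neg h0, if_neg (by linarith), if_neg (by linarith)]
      have hθ' : 0 < θ := lt_of_le_of_ne hθ (Ne.symm h0)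
      have hb : 0 < θ * Real.sqrt (k / (N - 1)) :=
        mul_pos hθ' (Real.sqrt_pos.2 (div_pos hk (by linarith)))
      rw [neg_neg]
      refine ENNReal.ofReal_le_ofReal ?_
      have := sinh_ratio_ge ht0.le hb
      rwa [← mul_assoc] at this
  unfold distortTau
  set E := Real.exp (-(θ * Real.sqrt (k / (N - 1)))) with hE
  have hE0 : 0 < E := Real.exp_pos _
  have hE1 : E ≤ 1 := by
    rw [hE, Real.exp_le_one_iff]
    have := mul_nonneg hθ (Real.sqrt_nonneg (k / (N - 1)))
    linarith
  calc ENNReal.ofReal (t * E)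
      ≤ ENNReal.ofReal t ^ (1 / N) * ENNReal.ofReal (t * E) ^ ((N - 1) / N) := by
        rw [ENNReal.ofReal_rpow_of_pos ht0, ENNReal.ofReal_rpow_of_pos (by positivity),
          ← ENNReal.ofReal_mul (by positivity)]
        refine ENNReal.ofReal_le_ofReal ?_
        have h1 : t * E = (t * E) ^ (1 / N) * (t * E) ^ ((N - 1) / N) := by
          rw [← Real.rpow_add (by positivity)]
          have : 1 / N + (N - 1) / N = 1 := by field_simp; ring
          rw [this, Real.rpow_one]
        calc t * E = (t * E) ^ (1 / N) * (t * E) ^ ((N - 1) / N) := h1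
          _ ≤ t ^ (1 / N) * (t * E) ^ ((N - 1) / N) := by
            gcongr
            nlinarith
    _ ≤ ENNReal.ofReal t ^ (1 / N) * distortSigma (-k) (N - 1) t θ ^ ((N - 1) / N) := by
        have : 0 ≤ (N - 1) / N := div_nonneg (by linarith) hN0.le
        gcongr

/-! ### Rényi power of a measure concentrated on a small set -/

section renyi

variable {X : Type*} [MetricSpace X] [MeasurableSpace X]

theorem renyi_le {m μ : Measure X} [SigmaFinite m] [IsProbabilityMeasure μ] {s : Set X}
    (hs : MeasurableSet s) (h : μ sᶜ = 0) {N : ℝ} (hN : 1 < N) :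
    renyiPower m μ N ≤ m s ^ (1 / N) := by
  have hN0 : 0 < N := by linarith
  set ρ := μ.rnDeriv m with hρ
  have hρm : Measurable ρ := Measure.measurable_rnDeriv μ m
  have h0 : ∀ᵐ x ∂(m.restrict sᶜ), ρ x = 0 := by
    have h1 : ∫⁻ x in sᶜ, ρ x ∂m = 0 :=
      le_antisymm ((Measure.setLIntegral_rnDeriv_le sᶜ).trans h.le) zero_le
    exact (lintegral_eq_zero_iff hρm).1 h1
  have hexp : 0 < 1 - 1 / N := by
    rw [sub_pos, div_lt_one hN0]; exact hN
  have e1 : ∫⁻ x in sᶜ, ρ x ^ (1 - 1 / N) ∂m = 0 := by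
    rw [lintegral_eq_zero_iff (hρm.pow_const _)]
    filter_upwards [h0] with x hx
    rw [hx, ENNReal.zero_rpow_of_pos hexp]
    rfl
  have e2 : renyiPower m μ N = ∫⁻ x in s, ρ x ^ (1 - 1 / N) ∂m := by
    rw [renyiPower, ← lintegral_add_compl _ hs, e1, add_zero]
  rw [e2]
  have hconj : (1 - 1 / N)⁻¹.HolderConjugate N := by
    rw [Real.holderConjugate_iff]
    refine ⟨?_, ?_⟩
    · rw [one_lt_inv₀ hexp]
      have : 0 < 1 / N := by positivity
      linarith
    · rw [inv_inv]; field_simp; ring
  have h2 := ENNReal.lintegral_mul_le_Lp_mul_Lq (m.restrict s) hconj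
    (f := fun x => ρ x ^ (1 - 1 / N)) (g := fun _ => 1) (hρm.pow_const _).aemeasurable
    aemeasurable_const
  simp only [Pi.mul_apply, mul_one, ENNReal.one_rpow, lintegral_one, Measure.restrict_apply_univ]
    at h2
  refine h2.trans ?_
  have h3 : ∫⁻ x in s, (ρ x ^ (1 - 1 / N)) ^ (1 - 1 / N)⁻¹ ∂m ≤ 1 := by
    have : ∀ x, (ρ x ^ (1 - 1 / N)) ^ (1 - 1 / N)⁻¹ = ρ x := by
      intro x
      rw [← ENNReal.rpow_mul, mul_inv_cancel₀ hexp.ne', ENNReal.rpow_one]
    simp only [this]
    exact (Measure.setLIntegral_rnDeriv_le s).trans prob_le_one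
  calc (∫⁻ x in s, (ρ x ^ (1 - 1 / N)) ^ (1 - 1 / N)⁻¹ ∂m) ^ (1 / (1 - 1 / N)⁻¹) * m s ^ (1 / N)
      ≤ 1 ^ (1 / (1 - 1 / N)⁻¹) * m s ^ (1 / N) := by
        gcongr
    _ = m s ^ (1 / N) := by rw [ENNReal.one_rpow, one_mul]

end renyi

/-! ### V2: local Bishop-Gromov -/

section vol

variable {X : Type*} [MetricSpace X] [MeasurableSpace X] [BorelSpace X]

theorem unif_density_end {m : Measure X} [SigmaFinite m] {P : Measure (UCurve X)}
    {x : X} {s : ℝ} {t : unitInterval} (h : timeMarginal P t = unif m (ball x s)) :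
    ∀ᵐ γ ∂P, (unif m (ball x s)).rnDeriv m (γ.toMap t) = (m (ball x s))⁻¹ ∧
      γ.toMap t ∈ ball x s := by
  have h1 : ∀ᵐ y ∂(unif m (ball x s)), (unif m (ball x s)).rnDeriv m y = (m (ball x s))⁻¹ ∧
      y ∈ ball x s := by
    have h2 : ∀ᵐ y ∂(unif m (ball x s)), y ∈ ball x s := by
      rw [ae_iff]
      exact unif_compl measurableSet_ball
    have h3 := (unif_ac m (ball x s)).ae_le (unif_rnDeriv (m := m) (s := ball x s)
      measurableSet_ball)
    filter_upwards [h2, h3] with y hy hy'
    exact ⟨by rw [hy', indicator_of_mem hy], hy⟩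
  have h4 : ∀ᵐ y ∂(timeMarginal P t), (unif m (ball x s)).rnDeriv m y = (m (ball x s))⁻¹ ∧
      y ∈ ball x s := by
    rw [h]; exact h1
  exact ae_of_ae_map (measurable_eval t).aemeasurable h4

theorem IsCD.vol_le {m : Measure X} [m.IsOpenPosMeasure] (hfin : IsFiniteOnBalls m) {k N : ℝ}
    (hk : 0 < k) (hN : 1 < N) (hCD : IsCD m (-k) N) (x : X) {r s : ℝ} (hr : 0 < r) (hrs : r ≤ s) :
    m (ball x s) ≤ ENNReal.ofReal ((4 * s / r) ^ N *
      Real.exp (5 / 4 * N * Real.sqrt (k / (N - 1)) * s)) * m (ball x r) := by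
  have hN0 : 0 < N := by linarith
  have hs : 0 < s := hr.trans_le hrs
  have := sigmaFinite_of_balls hfin
  set a := Real.sqrt (k / (N - 1)) with ha
  have ha0 : 0 ≤ a := Real.sqrt_nonneg _
  have hpos : ∀ u : ℝ, 0 < u → m (ball x u) ≠ 0 := fun u hu => (measure_ball_pos m x hu).ne'
  have hfi : ∀ u : ℝ, m (ball x u) ≠ ⊤ := fun u => (hfin x u).ne
  have hr4 : 0 < r / 4 := by positivity
  obtain ⟨P, hP, hgeo, ⟨hcoup, -⟩, hineq⟩ := hCD (unif m (ball x (r / 4))) (unif m (ball x s))
    (unif_isProb (hpos _ hr4) (hfi _)) (unif_isProb (hpos _ hs) (hfi _))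
    (finiteSecondMoment_unif (hpos _ hr4) (hfi _)) (finiteSecondMoment_unif (hpos _ hs) (hfi _))
    (unif_ac _ _) (unif_ac _ _)
  have ht0 : 0 < r / (4 * s) := by positivity
  have ht1 : r / (4 * s) < 1 := by
    rw [div_lt_one (by positivity)]; linarith
  let t : unitInterval := ⟨r / (4 * s), ht0.le, ht1.le⟩
  have hI := hineq N le_rfl t
  have h0 := unif_density_end (m := m) (marginal_zero hcoup)
  have h1 := unif_density_end (m := m) (marginal_one hcoup)
  -- lower bound of the left side
  have hdist : ∀ᵐ γ ∂P, dist (γ.toMap 0) (γ.toMap 1) ≤ 5 / 4 * s ∧ γ.toMap t ∈ ball x r := by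
    filter_upwards [h0, h1, hgeo] with γ hγ0 hγ1 hγ
    have d0 : dist (γ.toMap 0) x < r / 4 := hγ0.2
    have d1 : dist (γ.toMap 1) x < s := hγ1.2
    have d01 : dist (γ.toMap 0) (γ.toMap 1) ≤ 5 / 4 * s := by
      have := dist_triangle_right (γ.toMap 0) (γ.toMap 1) x
      linarith
    refine ⟨d01, ?_⟩
    have e := hγ t 0
    have et : ((t : ℝ)) = r / (4 * s) := rfl
    rw [et] at e
    simp only [Icc.coe_zero, sub_zero, abs_of_pos ht0] at e
    have h5 : r / (4 * s) * dist (γ.toMap 0) (γ.toMap 1) ≤ r / (4 * s) * (5 / 4 * s) := by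
      gcongr
    have h6 : r / (4 * s) * (5 / 4 * s) = 5 / 16 * r := by field_simp; ring
    rw [mem_ball]
    have := dist_triangle (γ.toMap t) (γ.toMap 0) x
    linarith
  have hlow : ENNReal.ofReal (r / (4 * s) * Real.exp (-(5 / 4 * s * a))) *
      m (ball x s) ^ (1 / N) ≤ m (ball x r) ^ (1 / N) := by
    calc ENNReal.ofReal (r / (4 * s) * Real.exp (-(5 / 4 * s * a))) * m (ball x s) ^ (1 / N)
        = ∫⁻ _, ENNReal.ofReal (r / (4 * s) * Real.exp (-(5 / 4 * s * a))) *
            m (ball x s) ^ (1 / N) ∂P := by simp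
      _ ≤ ∫⁻ γ, (distortTau (-k) N (1 - (t : ℝ)) (dist (γ.toMap 0) (γ.toMap 1)) *
              (unif m (ball x (r / 4))).rnDeriv m (γ.toMap 0) ^ (-1 / N) +
            distortTau (-k) N (t : ℝ) (dist (γ.toMap 0) (γ.toMap 1)) *
              (unif m (ball x s)).rnDeriv m (γ.toMap 1) ^ (-1 / N)) ∂P := by
          refine lintegral_mono_ae ?_
          filter_upwards [h1, hdist] with γ hγ1 hγ
          refine le_trans ?_ le_add_self
          rw [hγ1.1]
          have e1 : ((m (ball x s))⁻¹) ^ (-1 / N) = m (ball x s) ^ (1 / N) := by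
            rw [ENNReal.inv_rpow, ← ENNReal.rpow_neg]
            congr 1
            ring
          rw [e1]
          have e2 : ENNReal.ofReal (r / (4 * s) * Real.exp (-(5 / 4 * s * a))) ≤
              distortTau (-k) N (t : ℝ) (dist (γ.toMap 0) (γ.toMap 1)) := by
            refine le_trans (ENNReal.ofReal_le_ofReal ?_)
              (tau_ge hk hN ht0 ht1 (dist_nonneg : 0 ≤ dist (γ.toMap 0) (γ.toMap 1)))
            rw [← ha]
            have : dist (γ.toMap 0) (γ.toMap 1) * a ≤ 5 / 4 * s * a := by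
              have := hγ.1
              gcongr
            gcongr
          gcongr
      _ ≤ renyiPower m (timeMarginal P t) N := hI
      _ ≤ m (ball x r) ^ (1 / N) := by
          have : IsProbabilityMeasure (timeMarginal P t) :=
            Measure.isProbabilityMeasure_map (measurable_eval t).aemeasurable
          refine renyi_le measurableSet_ball ?_ hN
          rw [timeMarginal, Measure.map_apply (measurable_eval t) measurableSet_ball.compl]
          exact ae_iff.1 (hdist.mono fun γ hγ => hγ.2)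
  -- raise to the power `N`
  set A := m (ball x s) with hA
  set B := m (ball x r) with hB
  set c0 := r / (4 * s) * Real.exp (-(5 / 4 * s * a)) with hc0
  have hc0pos : 0 < c0 := by positivity
  have h7 : ENNReal.ofReal (c0 ^ N) * A ≤ B := by
    have h8 := ENNReal.rpow_le_rpow hlow hN0.le
    rw [ENNReal.mul_rpow_of_nonneg _ _ hN0.le, ← ENNReal.rpow_mul, ← ENNReal.rpow_mul,
      one_div_mul_cancel hN0.ne', ENNReal.rpow_one, ENNReal.rpow_one,
      ENNReal.ofReal_rpow_of_pos hc0pos] at h8
    exact h8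
  set K0 := (4 * s / r) ^ N * Real.exp (5 / 4 * N * a * s) with hK0
  have hK : K0 * c0 ^ N = 1 := by
    rw [hK0, hc0, Real.mul_rpow (by positivity) (Real.exp_pos _).le, ← Real.exp_mul]
    have e1 : (4 * s / r) ^ N * (r / (4 * s)) ^ N = 1 := by
      rw [← Real.mul_rpow (by positivity) (by positivity)]
      have : 4 * s / r * (r / (4 * s)) = 1 := by field_simp
      rw [this, Real.one_rpow]
    have e2 : Real.exp (5 / 4 * N * a * s) * Real.exp (-(5 / 4 * s * a) * N) = 1 := by
      rw [← Real.exp_add]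
      have : 5 / 4 * N * a * s + -(5 / 4 * s * a) * N = 0 := by ring
      rw [this, Real.exp_zero]
    calc (4 * s / r) ^ N * Real.exp (5 / 4 * N * a * s) *
        ((r / (4 * s)) ^ N * Real.exp (-(5 / 4 * s * a) * N))
        = ((4 * s / r) ^ N * (r / (4 * s)) ^ N) *
          (Real.exp (5 / 4 * N * a * s) * Real.exp (-(5 / 4 * s * a) * N)) := by ring
      _ = 1 := by rw [e1, e2, one_mul]
  have hK0pos : 0 ≤ K0 := by positivity
  calc A = ENNReal.ofReal (K0 * c0 ^ N) * A := by rw [hK, ENNReal.ofReal_one, one_mul]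
    _ = ENNReal.ofReal K0 * (ENNReal.ofReal (c0 ^ N) * A) := by
        rw [ENNReal.ofReal_mul hK0pos, mul_assoc]
    _ ≤ ENNReal.ofReal K0 * B := by gcongr

end vol

end Crest.Agent.R242.V
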