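import Mathlib
import Crest.Agent.R242.Vol1

/-!
# Row 242, V3 (properness) and V4 (exponential integrability)
-/

set_option autoImplicit false

open MeasureTheory Filter Set Metric
open scoped ENNReal NNReal Topology
open Crest.GeometryTopology.SyntheticRicci

namespace Crest.Agent.R242.V

variable {X : Type*} [MetricSpace X] [MeasurableSpace X]

/-- exponential volume growth with local doubling -/
def VolGrowth (m : Measure X) (N c : ℝ) : Prop :=
  ∀ (x : X) (r s : ℝ), 0 < r → r ≤ s →
    m (ball x s) ≤ ENNReal.ofReal ((4 * s / r) ^ N * Real.exp (c * s)) * m (ball x r)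

theorem IsCD.volGrowth [BorelSpace X] {m : Measure X} [m.IsOpenPosMeasure]
    (hfin : IsFiniteOnBalls m) {k N : ℝ} (hk : 0 < k) (hN : 1 < N) (hCD : IsCD m (-k) N) :
    VolGrowth m N (5 / 4 * N * Real.sqrt (k / (N - 1))) :=
  fun x _ _ hr hrs => IsCD.vol_le hfin hk hN hCD x hr hrs

/-- V3: balls are totally bounded, so `X` is proper. -/
theorem VolGrowth.properSpace [BorelSpace X] [CompleteSpace X] {m : Measure X}
    [m.IsOpenPosMeasure] (hfin : IsFiniteOnBalls m) {N c : ℝ} (hV : VolGrowth m N c) :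
    ProperSpace X := by
  refine ⟨fun o R => ?_⟩
  rw [isCompact_iff_totallyBounded_isComplete]
  refine ⟨?_, isClosed_closedBall.isComplete⟩
  rcases lt_or_ge R 0 with hR | hR
  · rw [closedBall_eq_empty.2 hR]
    exact totallyBounded_empty
  rw [Metric.totallyBounded_iff]
  intro ε hε
  by_contra hcon
  push Not at hcon
  -- a separated sequence
  obtain ⟨f, hf, hsep⟩ := exists_seq_of_forall_finset_exists (fun y => y ∈ closedBall o R)
    (fun x y => ε ≤ dist y x) (by
      intro s hs
      have := hcon s s.finite_toSet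
      rw [not_subset] at this
      obtain ⟨y, hy, hy'⟩ := this
      refine ⟨y, hy, fun x hx => ?_⟩
      by_contra hlt
      push Not at hlt
      exact hy' (mem_iUnion₂.2 ⟨x, hx, hlt⟩))
  set S := 2 * R + 2 * ε with hS
  have hS0 : 0 < S := by positivity
  have hεS : ε / 2 ≤ S := by linarith
  set K0 := (4 * S / (ε / 2)) ^ N * Real.exp (c * S) with hK0
  have hK0pos : 0 < K0 := by positivity
  -- lower bound for the measure of the small balls
  have hlow : ∀ n, m (ball o ε) / ENNReal.ofReal K0 ≤ m (ball (f n) (ε / 2)) := by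
    intro n
    have h1 := hV (f n) (ε / 2) S (by positivity) hεS
    have h2 : ball o ε ⊆ ball (f n) S := by
      intro y hy
      have h3 : dist (f n) o ≤ R := hf n
      have h4 : dist y o < ε := hy
      rw [mem_ball]
      have := dist_triangle_right y (f n) o
      linarith
    rw [ENNReal.div_le_iff_le_mul (Or.inl (by simpa using hK0pos)) (Or.inl (by simp)), mul_comm]
    exact (measure_mono h2).trans h1
  have hdisj : Pairwise (Function.onFun Disjoint fun n => ball (f n) (ε / 2)) := by
    have key : ∀ i j, i < j → Disjoint (ball (f i) (ε / 2)) (ball (f j) (ε / 2)) := by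
      intro i j hij
      apply ball_disjoint_ball
      have := hsep i j hij
      rw [dist_comm] at this
      linarith
    intro i j hij
    rcases lt_or_gt_of_ne hij with h | h
    · exact key i j h
    · exact (key j i h).symm
  have hsum := tsum_meas_le_meas_iUnion_of_disjoint m
    (As := fun n => ball (f n) (ε / 2)) (fun n => measurableSet_ball) hdisj
  have hsub : (⋃ n, ball (f n) (ε / 2)) ⊆ ball o (R + ε) := by
    refine iUnion_subset fun n y hy => ?_
    have h3 : dist (f n) o ≤ R := hf n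
    have h4 : dist y (f n) < ε / 2 := hy
    rw [mem_ball]
    have := dist_triangle y (f n) o
    linarith
  have h5 : (∑' _ : ℕ, m (ball o ε) / ENNReal.ofReal K0) < ⊤ :=
    lt_of_le_of_lt (ENNReal.tsum_le_tsum hlow)
      (hsum.trans_lt ((measure_mono hsub).trans_lt (hfin o (R + ε))))
  have h6 : m (ball o ε) / ENNReal.ofReal K0 ≠ 0 := by
    rw [Ne, ENNReal.div_eq_zero_iff]
    push Not
    exact ⟨(measure_ball_pos m o hε).ne', ENNReal.ofReal_ne_top⟩
  rw [ENNReal.tsum_const_eq_top_of_ne_zero h6] at h5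
  exact lt_irrefl _ h5

/-- integration over shells -/
theorem lintegral_shell_le [BorelSpace X] {m : Measure X} (x : X) {r : ℝ} (hr : 0 < r)
    (G : X → ℝ≥0∞) (M : ℕ → ℝ≥0∞)
    (hG : ∀ (n : ℕ) (y : X), n * r ≤ dist y x → dist y x < (n + 1) * r → G y ≤ M n) :
    ∫⁻ y, G y ∂m ≤ ∑' n : ℕ, M n * m (ball x ((n + 1) * r)) := by
  let A : ℕ → Set X := fun n => {y | n * r ≤ dist y x ∧ dist y x < (n + 1) * r}
  have hA : ∀ n, MeasurableSet (A n) := fun n => by
    have h1 : Measurable fun y : X => dist y x := (continuous_id.dist continuous_const).measurable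
    exact (measurableSet_le measurable_const h1).inter (measurableSet_lt h1 measurable_const)
  have hU : (⋃ n, A n) = univ := by
    refine eq_univ_of_forall fun y => mem_iUnion.2 ⟨⌊dist y x / r⌋₊, ?_⟩
    have h0 : 0 ≤ dist y x / r := by positivity
    constructor
    · rw [← le_div_iff₀ hr]
      exact Nat.floor_le h0
    · rw [← div_lt_iff₀ hr]
      exact Nat.lt_floor_add_one _
  calc ∫⁻ y, G y ∂m = ∫⁻ y in ⋃ n, A n, G y ∂m := by rw [hU, Measure.restrict_univ]
    _ ≤ ∑' n, ∫⁻ y in A n, G y ∂m := lintegral_iUnion_le _ _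
    _ ≤ ∑' n : ℕ, M n * m (ball x ((n + 1) * r)) := by
        refine ENNReal.tsum_le_tsum fun n => ?_
        calc ∫⁻ y in A n, G y ∂m ≤ ∫⁻ _ in A n, M n ∂m :=
              setLIntegral_mono' (hA n) fun y hy => hG n y hy.1 hy.2
          _ = M n * m (A n) := by rw [setLIntegral_const]
          _ ≤ M n * m (ball x ((n + 1) * r)) := by
              gcongr
              exact fun y hy => hy.2

theorem summable_shift (j : ℕ) {δ : ℝ} (hδ : 0 < δ) :
    Summable fun n : ℕ => ((n : ℝ) + 2) ^ j * Real.exp (-δ * n) := by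
  have h := Real.summable_pow_mul_exp_neg_nat_mul j hδ
  have h2 := (summable_nat_add_iff 2).2 h
  have h3 := h2.mul_left (Real.exp (2 * δ))
  refine h3.congr fun n => ?_
  have : Real.exp (-δ * n) = Real.exp (2 * δ) * Real.exp (-δ * ((n + 2 : ℕ) : ℝ)) := by
    rw [← Real.exp_add]
    congr 1
    push_cast
    ring
  rw [this]
  push_cast
  ring

/-- V4: exponential integrability -/
theorem VolGrowth.lintegral_exp_lt_top [BorelSpace X] {m : Measure X} (hfin : IsFiniteOnBalls m)
    {N c : ℝ} (hV : VolGrowth m N c) {a : ℝ} (ha : c < a) (p : ℕ) (x : X) :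
    ∫⁻ y, ENNReal.ofReal ((1 + dist y x) ^ p * Real.exp (-a * dist y x)) ∂m < ⊤ := by
  set k := ⌈N⌉₊ with hk
  have hNk : N ≤ k := Nat.le_ceil N
  have ha' : 0 ≤ |a| := abs_nonneg a
  -- shell bound, `r = 1`
  have h1 := lintegral_shell_le (m := m) x one_pos
    (fun y => ENNReal.ofReal ((1 + dist y x) ^ p * Real.exp (-a * dist y x)))
    (fun n => ENNReal.ofReal (((n : ℝ) + 2) ^ p * (Real.exp (-a * n) * Real.exp |a|))) (by
      intro n y h1 h2
      rw [mul_one] at h1 h2
      refine ENNReal.ofReal_le_ofReal ?_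
      refine mul_le_mul ?_ ?_ (Real.exp_pos _).le (by positivity)
      · exact pow_le_pow_left₀ (by positivity) (by linarith) _
      · rw [← Real.exp_add, Real.exp_le_exp]
        have h3 : -a * dist y x = -a * n + -a * (dist y x - n) := by ring
        have h4 : -a * (dist y x - n) ≤ |a| * 1 := by
          calc -a * (dist y x - n) ≤ |-a * (dist y x - n)| := le_abs_self _
            _ = |a| * |dist y x - n| := by rw [abs_mul, abs_neg]
            _ ≤ |a| * 1 := by
              gcongr
              rw [abs_le]; constructor <;> linarith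
        linarith)
  refine h1.trans_lt ?_
  have hterm : ∀ n : ℕ, ENNReal.ofReal (((n : ℝ) + 2) ^ p * (Real.exp (-a * n) * Real.exp |a|)) *
      m (ball x ((n + 1) * 1)) ≤ ENNReal.ofReal (4 ^ k * Real.exp |a| * Real.exp |c| *
        (((n : ℝ) + 2) ^ (p + k) * Real.exp (-(a - c) * n))) * m (ball x 1) := by
    intro n
    have h2 := hV x 1 (n + 1) one_pos (by
      have : (0 : ℝ) ≤ n := Nat.cast_nonneg n
      linarith)
    rw [mul_one]
    calc _ ≤ ENNReal.ofReal (((n : ℝ) + 2) ^ p * (Real.exp (-a * n) * Real.exp |a|)) *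
          (ENNReal.ofReal ((4 * ((n : ℝ) + 1) / 1) ^ N * Real.exp (c * ((n : ℝ) + 1))) *
            m (ball x 1)) := by gcongr
      _ = ENNReal.ofReal (((n : ℝ) + 2) ^ p * (Real.exp (-a * n) * Real.exp |a|) *
          ((4 * ((n : ℝ) + 1) / 1) ^ N * Real.exp (c * ((n : ℝ) + 1)))) * m (ball x 1) := by
          rw [← mul_assoc, ← ENNReal.ofReal_mul (by positivity)]
      _ ≤ _ := by
          refine mul_le_mul' (ENNReal.ofReal_le_ofReal ?_) le_rfl
          have h3 : (4 * ((n : ℝ) + 1) / 1) ^ N ≤ 4 ^ k * ((n : ℝ) + 2) ^ k := by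
            rw [div_one]
            calc (4 * ((n : ℝ) + 1)) ^ N ≤ (4 * ((n : ℝ) + 1)) ^ (k : ℝ) :=
                  Real.rpow_le_rpow_of_exponent_le (by
                    have : (0 : ℝ) ≤ n := Nat.cast_nonneg n
                    linarith) hNk
              _ = (4 * ((n : ℝ) + 1)) ^ k := Real.rpow_natCast _ _
              _ ≤ (4 * ((n : ℝ) + 2)) ^ k :=
                  pow_le_pow_left₀ (by positivity) (by linarith) _
              _ = 4 ^ k * ((n : ℝ) + 2) ^ k := mul_pow _ _ _
          have h4 : Real.exp (c * ((n : ℝ) + 1)) ≤ Real.exp (c * n) * Real.exp |c| := by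
            rw [← Real.exp_add, Real.exp_le_exp]
            have := le_abs_self c
            linarith
          calc ((n : ℝ) + 2) ^ p * (Real.exp (-a * n) * Real.exp |a|) *
              ((4 * ((n : ℝ) + 1) / 1) ^ N * Real.exp (c * ((n : ℝ) + 1)))
              ≤ ((n : ℝ) + 2) ^ p * (Real.exp (-a * n) * Real.exp |a|) *
              ((4 ^ k * ((n : ℝ) + 2) ^ k) * (Real.exp (c * n) * Real.exp |c|)) := by gcongr
            _ = 4 ^ k * Real.exp |a| * Real.exp |c| * (((n : ℝ) + 2) ^ (p + k) *
                (Real.exp (-a * n) * Real.exp (c * n))) := by ring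
            _ = _ := by
                rw [← Real.exp_add]
                congr 3
                ring
  refine (ENNReal.tsum_le_tsum hterm).trans_lt ?_
  rw [ENNReal.tsum_mul_right]
  refine ENNReal.mul_lt_top ?_ (hfin x 1)
  have hs := (summable_shift (p + k) (sub_pos.2 ha)).mul_left
    (4 ^ k * Real.exp |a| * Real.exp |c|)
  rw [← ENNReal.ofReal_tsum_of_nonneg (fun n => by positivity) hs]
  exact ENNReal.ofReal_lt_top

/-- V4, uniform version with the weight `d^p e^{-a d}` -/
theorem VolGrowth.lintegral_dist_exp_le [BorelSpace X] {m : Measure X}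
    {N c : ℝ} (hV : VolGrowth m N c) (p : ℕ) :
    ∃ C : ℝ, 0 ≤ C ∧ ∀ a : ℝ, 0 < a → 2 * c ≤ a → ∀ x : X,
      ∫⁻ y, ENNReal.ofReal (dist y x ^ p * Real.exp (-a * dist y x)) ∂m ≤
        ENNReal.ofReal (C / a ^ p) * m (ball x (1 / a)) := by
  set k := ⌈N⌉₊ with hk
  have hNk : N ≤ k := Nat.le_ceil N
  have hs := (summable_shift (p + k) (show (0 : ℝ) < 1 / 2 by norm_num)).mul_left
    (4 ^ k * Real.exp 1)
  refine ⟨∑' n : ℕ, 4 ^ k * Real.exp 1 * (((n : ℝ) + 2) ^ (p + k) * Real.exp (-(1 / 2) * n)),
    tsum_nonneg fun n => by positivity, ?_⟩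
  intro a ha hca x
  have hr : 0 < 1 / a := by positivity
  have h1 := lintegral_shell_le (m := m) x hr
    (fun y => ENNReal.ofReal (dist y x ^ p * Real.exp (-a * dist y x)))
    (fun n => ENNReal.ofReal ((((n : ℝ) + 1) / a) ^ p * Real.exp (-(n : ℝ)))) (by
      intro n y h1 h2
      refine ENNReal.ofReal_le_ofReal ?_
      refine mul_le_mul ?_ ?_ (Real.exp_pos _).le (by positivity)
      · refine pow_le_pow_left₀ dist_nonneg ?_ _
        rw [mul_one_div] at h2
        exact h2.le
      · rw [Real.exp_le_exp]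
        rw [mul_one_div, div_le_iff₀ ha] at h1
        linarith)
  refine h1.trans ?_
  have hterm : ∀ n : ℕ, ENNReal.ofReal ((((n : ℝ) + 1) / a) ^ p * Real.exp (-(n : ℝ))) *
      m (ball x ((n + 1) * (1 / a))) ≤
      ENNReal.ofReal (4 ^ k * Real.exp 1 * (((n : ℝ) + 2) ^ (p + k) * Real.exp (-(1 / 2) * n))) *
        (ENNReal.ofReal (1 / a ^ p) * m (ball x (1 / a))) := by
    intro n
    have hn0 : (0 : ℝ) ≤ n := Nat.cast_nonneg n
    have h2 := hV x (1 / a) ((n + 1) * (1 / a)) hr (by
      have : 1 * (1 / a) ≤ ((n : ℝ) + 1) * (1 / a) := by gcongr; linarith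
      linarith)
    calc _ ≤ ENNReal.ofReal ((((n : ℝ) + 1) / a) ^ p * Real.exp (-(n : ℝ))) *
          (ENNReal.ofReal ((4 * (((n : ℝ) + 1) * (1 / a)) / (1 / a)) ^ N *
            Real.exp (c * (((n : ℝ) + 1) * (1 / a)))) * m (ball x (1 / a))) := by gcongr
      _ = ENNReal.ofReal ((((n : ℝ) + 1) / a) ^ p * Real.exp (-(n : ℝ)) *
          ((4 * (((n : ℝ) + 1) * (1 / a)) / (1 / a)) ^ N *
            Real.exp (c * (((n : ℝ) + 1) * (1 / a))))) * m (ball x (1 / a)) := by
          rw [← mul_assoc, ← ENNReal.ofReal_mul (by positivity)]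
      _ ≤ ENNReal.ofReal (4 ^ k * Real.exp 1 * (((n : ℝ) + 2) ^ (p + k) *
          Real.exp (-(1 / 2) * n)) * (1 / a ^ p)) * m (ball x (1 / a)) := by
          refine mul_le_mul' (ENNReal.ofReal_le_ofReal ?_) le_rfl
          have e1 : 4 * (((n : ℝ) + 1) * (1 / a)) / (1 / a) = 4 * ((n : ℝ) + 1) := by
            field_simp
          rw [e1]
          have h3 : (4 * ((n : ℝ) + 1)) ^ N ≤ 4 ^ k * ((n : ℝ) + 2) ^ k := by
            calc (4 * ((n : ℝ) + 1)) ^ N ≤ (4 * ((n : ℝ) + 1)) ^ (k : ℝ) :=
                  Real.rpow_le_rpow_of_exponent_le (by linarith) hNk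
              _ = (4 * ((n : ℝ) + 1)) ^ k := Real.rpow_natCast _ _
              _ ≤ (4 * ((n : ℝ) + 2)) ^ k :=
                  pow_le_pow_left₀ (by positivity) (by linarith) _
              _ = 4 ^ k * ((n : ℝ) + 2) ^ k := mul_pow _ _ _
          have h4 : Real.exp (c * (((n : ℝ) + 1) * (1 / a))) ≤
              Real.exp ((1 / 2) * n) * Real.exp 1 := by
            rw [← Real.exp_add, Real.exp_le_exp]
            have h5 : c * (1 / a) ≤ 1 / 2 := by
              rw [mul_one_div, div_le_iff₀ ha]
              linarith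
            calc c * (((n : ℝ) + 1) * (1 / a)) = ((n : ℝ) + 1) * (c * (1 / a)) := by ring
              _ ≤ ((n : ℝ) + 1) * (1 / 2) := by gcongr
              _ ≤ 1 / 2 * n + 1 := by linarith
          have h6 : (((n : ℝ) + 1) / a) ^ p ≤ ((n : ℝ) + 2) ^ p * (1 / a ^ p) := by
            rw [div_pow, div_eq_mul_one_div]
            gcongr
            linarith
          calc (((n : ℝ) + 1) / a) ^ p * Real.exp (-(n : ℝ)) *
              ((4 * ((n : ℝ) + 1)) ^ N * Real.exp (c * (((n : ℝ) + 1) * (1 / a))))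
              ≤ (((n : ℝ) + 2) ^ p * (1 / a ^ p)) * Real.exp (-(n : ℝ)) *
              ((4 ^ k * ((n : ℝ) + 2) ^ k) * (Real.exp ((1 / 2) * n) * Real.exp 1)) := by
                gcongr
            _ = 4 ^ k * Real.exp 1 * (((n : ℝ) + 2) ^ (p + k) *
                (Real.exp (-(n : ℝ)) * Real.exp ((1 / 2) * n))) * (1 / a ^ p) := by ring
            _ = _ := by
                rw [← Real.exp_add]
                congr 4
                ring
      _ = _ := by rw [ENNReal.ofReal_mul (by positivity), mul_assoc]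
  refine (ENNReal.tsum_le_tsum hterm).trans ?_
  rw [ENNReal.tsum_mul_right, ← ENNReal.ofReal_tsum_of_nonneg (fun n => by positivity) hs,
    ← mul_assoc, ← ENNReal.ofReal_mul (tsum_nonneg fun n => by positivity), mul_one_div]

end Crest.Agent.R242.V
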