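import Mathlib
import Crest.Agent.R242.Defs
import Crest.Agent.R242.Vol2

/-!
# Row 242, part V: final statements (volume growth, properness, local finiteness, doubling,
uniform exponential integrability)
-/

set_option autoImplicit false

open MeasureTheory Filter Set Metric
open scoped ENNReal NNReal Topology
open Crest.GeometryTopology.SyntheticRicci

namespace Crest.Agent.R242

section

variable {X : Type*} [MetricSpace X] [MeasurableSpace X] [BorelSpace X] {m : Measure X} {k N : ℝ}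

theorem volGrowth_of_hyp [m.IsOpenPosMeasure] (H : Hyp m k N) :
    ∃ c : ℝ, 0 < c ∧ V.VolGrowth m N c := by
  refine ⟨5 / 4 * N * Real.sqrt (k / (N - 1)), ?_, V.IsCD.volGrowth H.fin H.kpos H.one_lt H.cd⟩
  have h1 := H.one_lt
  have h2 := H.kpos
  have h3 : 0 < Real.sqrt (k / (N - 1)) := Real.sqrt_pos.2 (div_pos h2 (by linarith))
  have h4 : 0 < N := by linarith
  positivity

theorem vol_growth [m.IsOpenPosMeasure] (H : Hyp m k N) :
    ∃ c : ℝ, 0 < c ∧ ∀ (x : X) (r s : ℝ), 0 < r → r ≤ s →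
    m (Metric.ball x s) ≤
      ENNReal.ofReal ((4 * s / r) ^ N * Real.exp (c * s)) * m (Metric.ball x r) :=
  volGrowth_of_hyp H

theorem properSpace_of_hyp [CompleteSpace X] [m.IsOpenPosMeasure] (H : Hyp m k N) :
    ProperSpace X := by
  obtain ⟨c, -, hV⟩ := volGrowth_of_hyp H
  exact hV.properSpace H.fin

omit [BorelSpace X] in
theorem isLocallyFinite_of_hyp (H : Hyp m k N) : IsLocallyFiniteMeasure m :=
  ⟨fun x => ⟨ball x 1, ball_mem_nhds x one_pos, H.fin x 1⟩⟩

/-- local doubling at scales `≤ 1`. -/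
theorem doubling [m.IsOpenPosMeasure] (H : Hyp m k N) :
    ∃ C : ℝ, 0 < C ∧ ∀ (x : X) (r : ℝ), 0 < r → r ≤ 1 →
    m (Metric.ball x (2 * r)) ≤ ENNReal.ofReal C * m (Metric.ball x r) := by
  obtain ⟨c, hc, hV⟩ := volGrowth_of_hyp H
  refine ⟨8 ^ N * Real.exp (c * 2), by positivity, fun x r hr hr1 => ?_⟩
  refine (hV x r (2 * r) hr (by linarith)).trans ?_
  refine mul_le_mul' (ENNReal.ofReal_le_ofReal ?_) le_rfl
  have e : 4 * (2 * r) / r = 8 := by field_simp; norm_num
  rw [e]
  have : c * (2 * r) ≤ c * 2 := by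
    have : 2 * r ≤ 2 := by linarith
    gcongr
  gcongr

/-- Mathlib's uniform local doubling. -/
theorem isUnifLocDoubling_of_hyp [m.IsOpenPosMeasure] (H : Hyp m k N) :
    IsUnifLocDoublingMeasure m := by
  obtain ⟨c, hc, hV⟩ := volGrowth_of_hyp H
  have hC : 0 ≤ 16 ^ N * Real.exp (c * 4) := by positivity
  refine ⟨⟨Real.toNNReal (16 ^ N * Real.exp (c * 4)), ?_⟩⟩
  have h1 : ∀ᶠ ε : ℝ in 𝓝[>] 0, 0 < ε ∧ ε ≤ 1 := by
    refine (eventually_mem_nhdsWithin.and ?_)
    exact (eventually_le_nhds (show (0 : ℝ) < 1 by norm_num)).filter_mono nhdsWithin_le_nhds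
  filter_upwards [h1] with ε hε x
  obtain ⟨h0, h1⟩ := hε
  calc m (closedBall x (2 * ε)) ≤ m (ball x (4 * ε)) :=
        measure_mono (closedBall_subset_ball (by linarith))
    _ ≤ ENNReal.ofReal ((4 * (4 * ε) / ε) ^ N * Real.exp (c * (4 * ε))) * m (ball x ε) :=
        hV x ε (4 * ε) h0 (by linarith)
    _ ≤ ENNReal.ofReal (16 ^ N * Real.exp (c * 4)) * m (closedBall x ε) := by
        refine mul_le_mul' (ENNReal.ofReal_le_ofReal ?_) (measure_mono ball_subset_closedBall)
        have e : 4 * (4 * ε) / ε = 16 := by field_simp; norm_num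
        rw [e]
        have : c * (4 * ε) ≤ c * 4 := by
          have : 4 * ε ≤ 4 := by linarith
          gcongr
        gcongr

/-- uniform exponential integrability: for `a ≥ a₀`. -/
theorem exp_integral [m.IsOpenPosMeasure] (H : Hyp m k N) :
    ∃ a₀ C : ℝ, 1 ≤ a₀ ∧ 0 < C ∧ ∀ a : ℝ, a₀ ≤ a → ∀ x : X,
    ∫⁻ y, ENNReal.ofReal ((1 + a * dist y x) ^ 4 * Real.exp (-(2 * a) * dist y x)) ∂m ≤
      ENNReal.ofReal C * m (Metric.ball x (1 / a)) := by
  obtain ⟨c, hc, hV⟩ := volGrowth_of_hyp H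
  obtain ⟨C0, hC0, h0⟩ := hV.lintegral_dist_exp_le 0
  obtain ⟨C4, hC4, h4⟩ := hV.lintegral_dist_exp_le 4
  refine ⟨max 1 c, 8 * C0 + C4 + 1, le_max_left _ _, by positivity, fun a ha x => ?_⟩
  have ha1 : 1 ≤ a := (le_max_left _ _).trans ha
  have hac : c ≤ a := (le_max_right _ _).trans ha
  have ha0 : 0 < a := by linarith
  have h2a : 0 < 2 * a := by positivity
  have h0' := h0 (2 * a) h2a (by linarith) x
  have h4' := h4 (2 * a) h2a (by linarith) x
  have hmono : m (ball x (1 / (2 * a))) ≤ m (ball x (1 / a)) := by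
    refine measure_mono (ball_subset_ball ?_)
    gcongr
    linarith
  have hpt : ∀ y : X, (1 + a * dist y x) ^ 4 * Real.exp (-(2 * a) * dist y x) ≤
      8 * (dist y x ^ 0 * Real.exp (-(2 * a) * dist y x)) +
      8 * a ^ 4 * (dist y x ^ 4 * Real.exp (-(2 * a) * dist y x)) := by
    intro y
    have h1 : (1 + a * dist y x) ^ 4 ≤ 8 + 8 * (a * dist y x) ^ 4 := by
      set t := a * dist y x with ht
      nlinarith [sq_nonneg (t - 1), sq_nonneg (t ^ 2 - 1), sq_nonneg (t ^ 2 - t),
        sq_nonneg (t + 1), sq_nonneg t, sq_nonneg (t ^ 2 - 2 * t + 1)]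
    calc (1 + a * dist y x) ^ 4 * Real.exp (-(2 * a) * dist y x)
        ≤ (8 + 8 * (a * dist y x) ^ 4) * Real.exp (-(2 * a) * dist y x) := by gcongr
      _ = _ := by ring
  have hm : Measurable fun y : X => dist y x :=
    (continuous_id.dist continuous_const).measurable
  calc ∫⁻ y, ENNReal.ofReal ((1 + a * dist y x) ^ 4 * Real.exp (-(2 * a) * dist y x)) ∂m
      ≤ ∫⁻ y, (ENNReal.ofReal 8 *
            ENNReal.ofReal (dist y x ^ 0 * Real.exp (-(2 * a) * dist y x)) +
          ENNReal.ofReal (8 * a ^ 4) *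
            ENNReal.ofReal (dist y x ^ 4 * Real.exp (-(2 * a) * dist y x))) ∂m := by
        refine lintegral_mono fun y => ?_
        dsimp only
        rw [← ENNReal.ofReal_mul (by norm_num), ← ENNReal.ofReal_mul (by positivity),
          ← ENNReal.ofReal_add (by positivity) (by positivity)]
        exact ENNReal.ofReal_le_ofReal (hpt y)
    _ = ENNReal.ofReal 8 *
          ∫⁻ y, ENNReal.ofReal (dist y x ^ 0 * Real.exp (-(2 * a) * dist y x)) ∂m +
        ENNReal.ofReal (8 * a ^ 4) *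
          ∫⁻ y, ENNReal.ofReal (dist y x ^ 4 * Real.exp (-(2 * a) * dist y x)) ∂m := by
        rw [lintegral_add_left (by fun_prop), lintegral_const_mul _ (by fun_prop),
          lintegral_const_mul _ (by fun_prop)]
    _ ≤ ENNReal.ofReal 8 * (ENNReal.ofReal (C0 / (2 * a) ^ 0) * m (ball x (1 / a))) +
        ENNReal.ofReal (8 * a ^ 4) *
          (ENNReal.ofReal (C4 / (2 * a) ^ 4) * m (ball x (1 / a))) := by
        gcongr
        · exact h0'.trans (by gcongr)
        · exact h4'.trans (by gcongr)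
    _ = ENNReal.ofReal (8 * C0 + C4 / 2) * m (ball x (1 / a)) := by
        rw [← mul_assoc, ← mul_assoc, ← ENNReal.ofReal_mul (by norm_num),
          ← ENNReal.ofReal_mul (by positivity), ← add_mul,
          ← ENNReal.ofReal_add (by positivity) (by positivity)]
        congr 2
        field_simp
        ring
    _ ≤ _ := by
        refine mul_le_mul' (ENNReal.ofReal_le_ofReal ?_) le_rfl
        linarith

end

end Crest.Agent.R242
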