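import Crest.Agent.R242.Davies
import Crest.Agent.R242.Pair
import Crest.Agent.R242.Res
import Crest.Agent.R242.Vol
import Crest.Agent.R242.SobMin
import Crest.Agent.R242.SobChain
import Crest.Agent.R242.SobLip

/-!
# R3, final statements (row 242): Davies' estimate, moments, mass conservation
-/

set_option autoImplicit false
set_option linter.unusedSectionVars false
set_option linter.unusedVariables false

open MeasureTheory Filter Set
open scoped ENNReal NNReal Topology
open Crest.GeometryTopology.SyntheticRicci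

noncomputable section

namespace Crest.Agent.R242

variable {X : Type*} [MetricSpace X] [ProperSpace X] [MeasurableSpace X] [BorelSpace X]
  {m : Measure X} [IsLocallyFiniteMeasure m] [m.IsOpenPosMeasure] {k N : ℝ}

/-- truncation at level `T`. -/
def dvTr (T r : ℝ) : ℝ := max (-T) (min r T)

theorem dvTr_lip (T : ℝ) : LipschitzWith 1 (dvTr T) :=
  (LipschitzWith.id.min_const T).const_max (-T)

theorem dvTr_abs_le {T : ℝ} (hT : 0 ≤ T) (r : ℝ) : |dvTr T r| ≤ T := by
  rw [abs_le]
  exact ⟨le_max_left _ _, max_le (by linarith) (min_le_right _ _)⟩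

theorem dvTr_eq {T r : ℝ} (h : |r| ≤ T) : dvTr T r = r := by
  rw [abs_le] at h
  unfold dvTr
  rw [min_eq_left h.2, max_eq_right h.1]

/-- Leibniz rule without boundedness assumptions. -/
theorem gp_mul_right_gen (H : Hyp m k N) {w f g : X → ℝ} (hw : IsSobolevLoc m w)
    (hf : IsSobolevLoc m f) (hg : IsSobolevLoc m g)
    (hfg : IsSobolevLoc m (fun x => f x * g x)) :
    ∀ᵐ x ∂m, gradPairing m w (fun y => f y * g y) x =
      f x * gradPairing m w g x + g x * gradPairing m w f x := by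
  have key : ∀ n : ℕ, ∀ᵐ x ∂m, |f x| ≤ n → |g x| ≤ n →
      gradPairing m w (fun y => f y * g y) x =
      f x * gradPairing m w g x + g x * gradPairing m w f x := by
    intro n
    have hn : (0 : ℝ) ≤ n := by positivity
    have hf' : IsSobolevLoc m (fun x => dvTr n (f x)) :=
      IsSobolevLoc.comp_lipschitz H.fin hf (dvTr_lip n)
    have hg' : IsSobolevLoc m (fun x => dvTr n (g x)) :=
      IsSobolevLoc.comp_lipschitz H.fin hg (dvTr_lip n)
    have hfb : LocBdd m (fun x => dvTr n (f x)) := fun _ _ =>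
      ⟨n, Filter.Eventually.of_forall fun x => dvTr_abs_le hn _⟩
    have hgb : LocBdd m (fun x => dvTr n (g x)) := fun _ _ =>
      ⟨n, Filter.Eventually.of_forall fun x => dvTr_abs_le hn _⟩
    have hfg' := sobLoc_mul H hf' hg' hfb hgb
    filter_upwards [gp_mul_right H hw hf' hg' hfb hgb, gp_local_right H hw hfg hfg',
      gp_local_right H hw hf hf', gp_local_right H hw hg hg'] with x h1 h2 h3 h4 hx hy
    rw [h2 (by rw [dvTr_eq hx, dvTr_eq hy]), h1, h3 (dvTr_eq hx).symm, h4 (dvTr_eq hy).symm,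
      dvTr_eq hx, dvTr_eq hy]
  filter_upwards [ae_all_iff.2 key] with x hx
  obtain ⟨n, hn⟩ := exists_nat_ge (max |f x| |g x|)
  exact hx n ((le_max_left _ _).trans hn) ((le_max_right _ _).trans hn)

/-- product of a Sobolev function with a bounded Lipschitz function. -/
theorem sob_bddLip_mul (H : Hyp m k N) {u ψ : X → ℝ} (hu : IsSobolev m u) (hψ : BddLip ψ) :
    IsSobolev m (fun x => ψ x * u x) := by
  obtain ⟨⟨B, hB⟩, L, hL⟩ := hψ
  have hLB : LipOnBalls ψ := fun _ _ => ⟨L, hL.lipschitzOnWith⟩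
  obtain ⟨h1, h2⟩ := IsSobolevLoc.mul_lipOnBalls H.fin hu.2.1 hLB
  have e : (fun x => u x * ψ x) = fun x => ψ x * u x := by funext x; ring
  rw [e] at h1 h2
  have h3 := minWeakGrad_le_of_lipschitzOnWith H.fin hLB isOpen_univ
    (L := L) (hL.lipschitzOnWith (s := univ))
  have hψm : AEStronglyMeasurable ψ m := hL.continuous.aestronglyMeasurable
  have hum : AEStronglyMeasurable u m := hu.1.1
  have b1 : MemLp (fun x => B * ‖u x‖) 2 m := hu.1.norm.const_mul B
  have b2 : MemLp (fun x => ‖u x‖ * L + B * minWeakGrad m u x) 2 m :=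
    (hu.1.norm.mul_const (L : ℝ)).add (hu.2.2.const_mul B)
  refine ⟨b1.mono (hψm.mul hum) (Filter.Eventually.of_forall fun x => ?_), h1,
    b2.mono (minWeakGrad_aestronglyMeasurable H.fin _) ?_⟩
  · rw [norm_mul, norm_mul, norm_norm]
    apply mul_le_mul_of_nonneg_right _ (norm_nonneg _)
    rw [Real.norm_eq_abs, Real.norm_eq_abs]
    exact (hB x).trans (le_abs_self _)
  · filter_upwards [h2, h3, minWeakGrad_nonneg (m := m) (fun y => ψ y * u y),
      minWeakGrad_nonneg (m := m) u] with x g1 g2 g3 g4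
    rw [Real.norm_eq_abs, abs_of_nonneg g3]
    refine (g1.trans ?_).trans (le_abs_self _)
    have g5 := g2 (mem_univ _)
    have g6 : |u x| * minWeakGrad m ψ x ≤ |u x| * L := mul_le_mul_of_nonneg_left g5 (abs_nonneg _)
    have g7 : |ψ x| * minWeakGrad m u x ≤ B * minWeakGrad m u x :=
      mul_le_mul_of_nonneg_right (hB x) g4
    rw [Real.norm_eq_abs]
    linarith

theorem calcD_of_hyp (H : Hyp m k N) : CalcD m where
  aesm u := minWeakGrad_aestronglyMeasurable H.fin u
  nonneg u := minWeakGrad_nonneg u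
  lipLoc ψ hψ := LipOnBalls.isSobolevLoc H.fin hψ
  lipOpen ψ hψ U hU L hL := minWeakGrad_le_of_lipschitzOnWith H.fin hψ hU hL
  lipCpt ψ L hL hc := isSobolev_of_lipschitz_hasCompactSupport H.fin hL hc
  mulLip u ψ hu hψ := sob_bddLip_mul H hu hψ
  cs u v hu hv := gp_abs_le H hu hv
  self u hu := gp_self H hu
  symm u v hu hv := gp_comm H hu hv
  leib w ψ u hw hψ hu := by
    have h1 := LipOnBalls.isSobolevLoc H.fin (f := ψ) hψ
    have h2 := (IsSobolevLoc.mul_lipOnBalls H.fin hu (g := ψ) hψ).1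
    have e : (fun x => u x * ψ x) = fun x => ψ x * u x := by funext x; ring
    rw [e] at h2
    exact gp_mul_right_gen H hw h1 hu h2

theorem bddLip_zero : BddLip (fun _ : X => (0 : ℝ)) :=
  ⟨⟨0, fun _ => by simp⟩, 0, LipschitzWith.const 0⟩

/-- Davies' estimate, constant `4`, `4 h a² ≤ 1`. -/
theorem davies4 (H : Hyp m k N) {h : ℝ} (hh : 0 < h) {a : ℝ} (ha : 0 ≤ a)
    (ha4 : 4 * h * a ^ 2 ≤ 1) {f : X → ℝ} (hf : MemLp f 2 m) (x₀ : X)
    (hfi : Integrable (fun x => f x ^ 2 * Real.exp (2 * a * dist x x₀)) m) :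
    Integrable (fun x => J m h f x ^ 2 * Real.exp (2 * a * dist x x₀)) m ∧
    Integrable (fun x => minWeakGrad m (J m h f) x ^ 2 * Real.exp (2 * a * dist x x₀)) m ∧
    (∫ x, J m h f x ^ 2 * Real.exp (2 * a * dist x x₀) ∂m) +
      h * (∫ x, minWeakGrad m (J m h f) x ^ 2 * Real.exp (2 * a * dist x x₀) ∂m) ≤
      4 * ∫ x, f x ^ 2 * Real.exp (2 * a * dist x x₀) ∂m := by
  have hu := Jr_isRes H bddLip_zero hh hf
  have S := calcD_of_hyp H
  exact Dav.real_form hh (by norm_num) x₀ hf.1 hu.1.1.1 (S.aesm _)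
    (daviesK S hh ha (by norm_num) (Dav.pi_four hh ha ha4) x₀ hf hu) hfi

/-- Davies estimate, `V = 0`. -/
theorem davies (H : Hyp m k N) {h : ℝ} (hh : 0 < h) {a : ℝ} (ha : 0 ≤ a)
    (ha8 : 8 * h * a ^ 2 ≤ 1)
    {f : X → ℝ} (hf : MemLp f 2 m) (x₀ : X)
    (hfi : Integrable (fun x => f x ^ 2 * Real.exp (2 * a * dist x x₀)) m) :
    Integrable (fun x => J m h f x ^ 2 * Real.exp (2 * a * dist x x₀)) m ∧
    Integrable (fun x => minWeakGrad m (J m h f) x ^ 2 * Real.exp (2 * a * dist x x₀)) m ∧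
    ∫ x, J m h f x ^ 2 * Real.exp (2 * a * dist x x₀) ∂m ≤
      2 * ∫ x, f x ^ 2 * Real.exp (2 * a * dist x x₀) ∂m ∧
    h * ∫ x, minWeakGrad m (J m h f) x ^ 2 * Real.exp (2 * a * dist x x₀) ∂m ≤
      2 * ∫ x, f x ^ 2 * Real.exp (2 * a * dist x x₀) ∂m := by
  have hu := Jr_isRes H bddLip_zero hh hf
  have S := calcD_of_hyp H
  obtain ⟨h1, h2, h3⟩ := Dav.real_form hh (by norm_num) x₀ hf.1 hu.1.1.1 (S.aesm _)
    (daviesK S hh ha (by norm_num) (Dav.pi_two hh ha ha8) x₀ hf hu) hfi
  have h4 : 0 ≤ ∫ x, J m h f x ^ 2 * Real.exp (2 * a * dist x x₀) ∂m :=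
    integral_nonneg fun y => by simp only [Pi.zero_apply]; positivity
  have h5 : 0 ≤ h * ∫ x, minWeakGrad m (J m h f) x ^ 2 * Real.exp (2 * a * dist x x₀) ∂m :=
    mul_nonneg hh.le (integral_nonneg fun y => by simp only [Pi.zero_apply]; positivity)
  refine ⟨h1, h2, ?_, ?_⟩
  · unfold J at *; linarith
  · unfold J at *; linarith

theorem expInt_of_hyp (H : Hyp m k N) : ∃ a₀ : ℝ, ExpInt m a₀ := by
  obtain ⟨a₀, C, h1, hC, h2⟩ := exp_integral H
  refine ⟨a₀, by linarith, fun x => ?_⟩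
  refine lt_of_le_of_lt (lintegral_mono fun y => ?_) (lt_of_le_of_lt (h2 a₀ le_rfl x)
    (ENNReal.mul_lt_top ENNReal.ofReal_lt_top (H.fin x _)))
  apply ENNReal.ofReal_le_ofReal
  have h3 : 1 ≤ (1 + a₀ * dist y x) ^ 4 := by
    apply one_le_pow₀
    have : 0 ≤ a₀ * dist y x := by positivity
    linarith
  calc Real.exp (-(2 * a₀) * dist y x) = 1 * Real.exp (-(2 * a₀) * dist y x) := (one_mul _).symm
    _ ≤ _ := mul_le_mul_of_nonneg_right h3 (Real.exp_pos _).le

/-- exponential moments of every order for small `h`. -/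
theorem J_expo (H : Hyp m k N) {b : ℝ} (hb : 0 ≤ b) : ∃ h₀ : ℝ, 0 < h₀ ∧ ∀ h, 0 < h → h ≤ h₀ →
    ∀ f : X → ℝ, MemLp f 2 m → BddSupp m f → ∀ o : X,
      Integrable (fun x => Real.exp (b * dist x o) * |J m h f x|) m ∧
      Integrable (fun x => Real.exp (b * dist x o) * minWeakGrad m (J m h f) x) m := by
  obtain ⟨a₀, E⟩ := expInt_of_hyp H
  have ha0 := E.pos
  refine ⟨1 / (4 * (a₀ + b) ^ 2), by positivity, fun h hh hh0 f hf hfs o => ?_⟩
  have hs : 4 * h * (a₀ + b) ^ 2 ≤ 1 := by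
    rw [le_div_iff₀ (by positivity)] at hh0
    linarith
  have hu := Jr_isRes H bddLip_zero hh hf
  obtain ⟨h1, h2⟩ := IsRes.expo (calcD_of_hyp H) E hb hh hs hf hfs hu o
  refine ⟨h1.abs.congr (Filter.Eventually.of_forall fun x => ?_), h2⟩
  simp only [abs_mul, abs_of_pos (Real.exp_pos _)]
  rfl

/-- consequences of Davies + exponential integrability for small `h`: moments, mass
conservation, weak equation against functions of quadratic growth. -/
theorem J_mass (H : Hyp m k N) : ∃ h₀ : ℝ, 0 < h₀ ∧ ∀ h, 0 < h → h ≤ h₀ → ∀ f : X → ℝ,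
    MemLp f 2 m → BddSupp m f → ∀ o : X,
      Integrable (fun x => (1 + dist x o ^ 2) * |J m h f x|) m ∧
      Integrable (fun x => (1 + dist x o) * minWeakGrad m (J m h f) x) m ∧
      ∫ x, J m h f x ∂m = ∫ x, f x ∂m ∧
      ∀ φ : X → ℝ, (∃ A : ℝ, ∀ x x', |φ x - φ x'| ≤ A * dist x x' * (1 + dist x o + dist x' o)) →
        Integrable (fun x => gradPairing m φ (J m h f) x) m ∧
        h * ∫ x, gradPairing m φ (J m h f) x ∂m + ∫ x, φ x * J m h f x ∂m =
          ∫ x, φ x * f x ∂m := by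
  obtain ⟨a₀, E⟩ := expInt_of_hyp H
  have ha0 := E.pos
  refine ⟨1 / (4 * (a₀ + 1) ^ 2), by positivity, fun h hh hh0 f hf hfs o => ?_⟩
  have hs : 4 * h * (a₀ + 1) ^ 2 ≤ 1 := by
    rw [le_div_iff₀ (by positivity)] at hh0
    linarith
  have hu := Jr_isRes H bddLip_zero hh hf
  have S := calcD_of_hyp H
  obtain ⟨h1, h2⟩ := IsRes.expo S E zero_le_one hh hs hf hfs hu o
  have hJm : AEStronglyMeasurable (J m h f) m := hu.1.1.1
  have hGm : AEStronglyMeasurable (minWeakGrad m (J m h f)) m := S.aesm _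
  refine ⟨?_, ?_, (IsRes.mass S E hh hs hf hfs hu).2, ?_⟩
  · have hc : Continuous (fun x : X => 1 + dist x o ^ 2) := by fun_prop
    have h3 := Dav.integrable_mul_of_expo (A := 1) (q := fun x : X => 1 + dist x o ^ 2) h1 hJm
      hc.aestronglyMeasurable (Filter.Eventually.of_forall fun y => by
        have := dist_nonneg (x := y) (y := o)
        rw [abs_of_nonneg (by positivity)]
        nlinarith)
    refine h3.abs.congr (Filter.Eventually.of_forall fun x => ?_)
    simp only [abs_mul]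
    rw [abs_of_nonneg (by positivity : (0 : ℝ) ≤ 1 + dist x o ^ 2)]
    rfl
  · have hc : Continuous (fun x : X => 1 + dist x o) := by fun_prop
    exact Dav.integrable_mul_of_expo (A := 1) (q := fun x : X => 1 + dist x o) h2 hGm
      hc.aestronglyMeasurable (Filter.Eventually.of_forall fun y => by
        have := dist_nonneg (x := y) (y := o)
        rw [abs_of_nonneg (by positivity)]
        nlinarith)
  · rintro φ ⟨A, hA⟩
    have hQ : Dav.QG o |A| φ := by
      intro x x'
      refine (hA x x').trans ?_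
      have h3 : 0 ≤ dist x x' * (1 + dist x o + dist x' o) := by positivity
      have h4 := mul_le_mul_of_nonneg_right (le_abs_self A) h3
      calc A * dist x x' * (1 + dist x o + dist x' o)
          = A * (dist x x' * (1 + dist x o + dist x' o)) := by ring
        _ ≤ |A| * (dist x x' * (1 + dist x o + dist x' o)) := h4
        _ = _ := by ring
    obtain ⟨g1, g2, g3, g4⟩ := IsRes.test S E hh hs hf hfs hu (abs_nonneg A) hQ
    exact ⟨g1, g4⟩

end Crest.Agent.R242
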