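import Crest.Agent.R242.OptBase
import Crest.Agent.R242.Curve

/-!
Row 242: optimal geodesic plans; forms that need the metric speed.  Everything else is in
`OptBase.lean`.  Owner: helper386.
-/

set_option autoImplicit false
set_option linter.unusedSectionVars false

open MeasureTheory Filter Set ProbabilityTheory
open scoped ENNReal NNReal Topology
open Crest.GeometryTopology.SyntheticRicci

noncomputable section

namespace Crest.Agent.R242

section Plans

variable {X : Type*} [MetricSpace X] [ProperSpace X] [MeasurableSpace X] [BorelSpace X]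

/-- `d(γ_s, γ_t)² ≤ (t - s) ∫_s^t |γ'|²`. -/
theorem edist_sq_le_mul_lintegral_upperSpeed {γ : UCurve X} (h : HasL2Speed γ)
    {s t : unitInterval} (hst : s ≤ t) :
    edist (γ.toMap s) (γ.toMap t) ^ 2 ≤
      ENNReal.ofReal ((t : ℝ) - s) * ∫⁻ r in Set.Icc (s : ℝ) (t : ℝ), upperSpeed γ r ^ 2 := by
  have h1 := edist_le_lintegral_upperSpeed h s.2.1 hst t.2.2
  rw [ext_coe, ext_coe] at h1
  have h2 := lintegral_sq_le_measure_mul (volume.restrict (Set.Icc (s : ℝ) (t : ℝ)))
    (measurable_upperSpeed_right γ).aemeasurable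
  rw [Measure.restrict_apply MeasurableSet.univ, univ_inter, Real.volume_Icc] at h2
  exact (pow_le_pow_left' h1 2).trans h2

/-- `W₂(μ_s, μ_t)² ≤ (t - s) ∫∫_s^t |γ'|²`. -/
theorem w2sq_timeMarginal_le (P : Measure (UCurve X)) (hP : ∀ᵐ γ ∂P, HasL2Speed γ)
    {s t : unitInterval} (hst : s ≤ t) :
    w2sq (timeMarginal P s) (timeMarginal P t) ≤
      ENNReal.ofReal ((t : ℝ) - s) *
        ∫⁻ γ, (∫⁻ r in Set.Icc (s : ℝ) (t : ℝ), upperSpeed γ r ^ 2) ∂P := by
  refine (w2sq_timeMarginal_le_dist P s t).trans ?_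
  rw [← lintegral_const_mul' _ _ ENNReal.ofReal_ne_top]
  refine lintegral_mono_ae ?_
  filter_upwards [hP] with γ hγ
  exact edist_sq_le_mul_lintegral_upperSpeed hγ hst

/-- captain's form. -/
theorem w2sq_marginals_le {P : Measure (UCurve X)} [IsProbabilityMeasure P]
    (hP : ∀ᵐ γ ∂P, HasL2Speed γ) {s t : unitInterval} (hst : (s : ℝ) ≤ t) :
    w2sq (timeMarginal P s) (timeMarginal P t) ≤
      ENNReal.ofReal ((t : ℝ) - s) *
        ∫⁻ γ, (∫⁻ r in Set.Icc (s : ℝ) t, upperSpeed γ r ^ 2) ∂P :=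
  w2sq_timeMarginal_le P hP hst

end Plans

end Crest.Agent.R242
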