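import Crest.Agent.R242.SobMin

/-!
Row 242, part S: S10 (a weak upper gradient from a quadratic inequality along test plans).
-/

set_option autoImplicit false

open MeasureTheory Filter Set
open Crest.GeometryTopology.SyntheticRicci
open scoped ENNReal NNReal Topology

namespace Crest.Agent.R242

/-- optimisation of the parameter -/
theorem le_mul_of_forall_quadratic {x d s : ℝ} (hd : 0 ≤ d) (hs : 0 ≤ s)
    (h : ∀ a : ℚ, 0 < a → x ≤ (a : ℝ) / 2 * d ^ 2 + 1 / (2 * (a : ℝ)) * s ^ 2) : x ≤ d * s := by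
  -- all positive reals
  have h1 : ∀ a : ℝ, 0 < a → x ≤ a / 2 * d ^ 2 + 1 / (2 * a) * s ^ 2 := by
    intro a ha
    by_contra hcon
    rw [not_le] at hcon
    have hcont : ContinuousAt (fun a : ℝ => a / 2 * d ^ 2 + 1 / (2 * a) * s ^ 2) a := by
      apply ContinuousAt.add
      · fun_prop
      · apply ContinuousAt.mul _ continuousAt_const
        apply ContinuousAt.div continuousAt_const (by fun_prop) (by positivity)
    have hev : ∀ᶠ b in 𝓝 a, b / 2 * d ^ 2 + 1 / (2 * b) * s ^ 2 < x := hcont.eventually_lt_const hcon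
    have hev2 : ∀ᶠ b in 𝓝 a, 0 < b := lt_mem_nhds ha
    obtain ⟨U, hUs, hUo, haU⟩ := mem_nhds_iff.mp (hev.and hev2)
    obtain ⟨y, hyU, q, hq⟩ := (Rat.denseRange_cast (𝕜 := ℝ)).inter_open_nonempty U hUo ⟨a, haU⟩
    have hy := hUs hyU
    rw [← hq] at hy
    have hq0 : (0 : ℚ) < q := by exact_mod_cast hy.2
    exact absurd (h q hq0) (not_le.mpr hy.1)
  -- choose a = (s + ε) / (d + ε)
  have h2 : ∀ ε : ℝ, 0 < ε → x ≤ (d + ε) * (s + ε) := by
    intro ε hε
    have hd' : 0 < d + ε := by linarith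
    have hs' : 0 < s + ε := by linarith
    have h3 := h1 ((s + ε) / (d + ε)) (by positivity)
    have h4 : (s + ε) / (d + ε) / 2 * d ^ 2 ≤ (s + ε) * (d + ε) / 2 := by
      have : (s + ε) / (d + ε) / 2 * d ^ 2 ≤ (s + ε) / (d + ε) / 2 * (d + ε) ^ 2 := by
        apply mul_le_mul_of_nonneg_left _ (by positivity)
        exact pow_le_pow_left₀ hd (by linarith) 2
      refine this.trans (le_of_eq ?_)
      field_simp
    have h5 : 1 / (2 * ((s + ε) / (d + ε))) * s ^ 2 ≤ (s + ε) * (d + ε) / 2 := by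
      have : 1 / (2 * ((s + ε) / (d + ε))) * s ^ 2 ≤
          1 / (2 * ((s + ε) / (d + ε))) * (s + ε) ^ 2 := by
        apply mul_le_mul_of_nonneg_left _ (by positivity)
        exact pow_le_pow_left₀ hs (by linarith) 2
      refine this.trans (le_of_eq ?_)
      field_simp
    linarith
  have h3 : Tendsto (fun ε : ℝ => (d + ε) * (s + ε)) (𝓝[>] 0) (𝓝 ((d + 0) * (s + 0))) := by
    apply Tendsto.mono_left _ nhdsWithin_le_nhds
    exact Continuous.tendsto (by fun_prop) 0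
  rw [add_zero, add_zero] at h3
  refine ge_of_tendsto h3 ?_
  filter_upwards [self_mem_nhdsWithin] with ε hε
  exact h2 ε hε

theorem ofReal_le_mul_of_forall_quadratic {x d : ℝ} {s : ℝ≥0∞} (hd : 0 ≤ d) (hs : s ≠ ⊤)
    (h : ∀ a : {a : ℚ // 0 < a}, ENNReal.ofReal x ≤
      ENNReal.ofReal ((a : ℚ) / 2) * ENNReal.ofReal (d ^ 2) +
        ENNReal.ofReal (1 / (2 * ((a : ℚ) : ℝ))) * s ^ 2) :
    ENNReal.ofReal x ≤ ENNReal.ofReal d * s := by
  obtain ⟨r, hr⟩ : ∃ r : ℝ≥0, s = r := ⟨s.toNNReal, (ENNReal.coe_toNNReal hs).symm⟩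
  subst hr
  have hr0 : (0 : ℝ) ≤ r := r.2
  have e1 : (r : ℝ≥0∞) = ENNReal.ofReal (r : ℝ) := (ENNReal.ofReal_coe_nnreal).symm
  rw [e1, ← ENNReal.ofReal_mul hd]
  by_cases hx : x ≤ 0
  · rw [ENNReal.ofReal_of_nonpos hx]; exact zero_le
  rw [not_le] at hx
  apply ENNReal.ofReal_le_ofReal
  apply le_mul_of_forall_quadratic hd hr0
  intro a ha
  have h1 := h ⟨a, ha⟩
  have ha' : (0 : ℝ) < a := by exact_mod_cast ha
  simp only at h1
  rw [e1, ← ENNReal.ofReal_pow hr0, ← ENNReal.ofReal_mul (by positivity),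
    ← ENNReal.ofReal_mul (by positivity),
    ← ENNReal.ofReal_add (by positivity) (by positivity)] at h1
  exact (ENNReal.ofReal_le_ofReal_iff (by positivity)).mp h1

section Main

variable {X : Type*} [MetricSpace X] [SecondCountableTopology X] [MeasurableSpace X] [BorelSpace X]
variable {m : Measure X}

theorem integrable_eval_of_isL2OnBalls {g : X → ℝ} (hg : IsL2OnBalls m g)
    {P : Measure (UCurve X)} (hP : IsTestPlan2 m P) (hb : HasBoundedTracks P)
    (t : unitInterval) : Integrable (fun γ : UCurve X => g (γ.toMap t)) P := by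
  have hprob : IsProbabilityMeasure P := hP.1
  obtain ⟨C, hC⟩ := hP.2.1
  obtain ⟨o, R, hR⟩ := hb
  have hgm := isL2OnBalls_aestronglyMeasurable hg
  have hac : timeMarginal P t ≪ m :=
    (Measure.absolutelyContinuous_of_le (hC t)).trans (Measure.smul_absolutelyContinuous)
  have hmeas : AEStronglyMeasurable (fun γ : UCurve X => g (γ.toMap t)) P := by
    have h1 : AEStronglyMeasurable g (timeMarginal P t) := hgm.mono_ac hac
    exact h1.comp_measurable (measurable_eval t)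
  have hL2 : MemLp (fun γ : UCurve X => g (γ.toMap t)) 2 P := by
    refine ⟨hmeas, ?_⟩
    rw [eLpNorm_lt_top_iff_lintegral_rpow_enorm_lt_top (by norm_num) (by norm_num)]
    simp only [ENNReal.toReal_ofNat, ENNReal.rpow_ofNat]
    have hgm2 : AEMeasurable (fun x => ‖g x‖ₑ ^ 2) (m.restrict (Metric.closedBall o R)) :=
      (hgm.enorm.pow_const 2).restrict
    have h2 := lintegral_toMap_le_ball hC hR hgm2 t
    refine h2.trans_lt ?_
    refine ENNReal.mul_lt_top ENNReal.coe_lt_top ?_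
    have h3 := (hg o (R + 1)).2
    rw [eLpNorm_lt_top_iff_lintegral_rpow_enorm_lt_top (by norm_num) (by norm_num)] at h3
    simp only [ENNReal.toReal_ofNat, ENNReal.rpow_ofNat] at h3
    refine (lintegral_mono_set ?_).trans_lt h3
    exact Metric.closedBall_subset_ball (by linarith)
  exact hL2.integrable (by norm_num)

theorem lintegral_lintegral_sq_lt_top {D : X → ℝ} (hD : IsL2OnBalls m D)
    {P : Measure (UCurve X)} (hP : IsTestPlan2 m P) (hb : HasBoundedTracks P) :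
    (∫⁻ γ, (∫⁻ t in Set.Icc (0 : ℝ) 1, ENNReal.ofReal (D (γ.ext t) ^ 2)) ∂P) < ⊤ := by
  have hprob : IsProbabilityMeasure P := hP.1
  obtain ⟨C, hC⟩ := hP.2.1
  obtain ⟨o, R, hR⟩ := hb
  have hDm := isL2OnBalls_aestronglyMeasurable hD
  have hDm2 : AEMeasurable (fun x => ENNReal.ofReal (D x ^ 2))
      (m.restrict (Metric.closedBall o R)) :=
    ((hDm.aemeasurable.pow_const 2).ennreal_ofReal).restrict
  refine (lintegral_lintegral_ext_le_ball hC hR hDm2).trans_lt ?_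
  refine ENNReal.mul_lt_top ENNReal.coe_lt_top ?_
  have h3 := (hD o (R + 1)).2
  rw [eLpNorm_lt_top_iff_lintegral_rpow_enorm_lt_top (by norm_num) (by norm_num)] at h3
  simp only [ENNReal.toReal_ofNat, ENNReal.rpow_ofNat] at h3
  refine lt_of_le_of_lt ?_ h3
  calc ∫⁻ x in Metric.closedBall o R, ENNReal.ofReal (D x ^ 2) ∂m
      ≤ ∫⁻ x in Metric.ball o (R + 1), ENNReal.ofReal (D x ^ 2) ∂m :=
        lintegral_mono_set (Metric.closedBall_subset_ball (by linarith))
    _ = _ := by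
        congr 1
        ext x
        rw [← enorm_pow, Real.enorm_eq_ofReal (sq_nonneg _)]

/-- **S10** -/
theorem isWUGLoc_of_quadratic (_hfin : IsFiniteOnBalls m) {g D : X → ℝ} (hg : IsL2OnBalls m g)
    (hD : IsL2OnBalls m D) (hD0 : ∀ᵐ x ∂m, 0 ≤ D x)
    (h : ∀ P : Measure (UCurve X), IsTestPlan2 m P → HasBoundedTracks P → ∀ a : ℝ, 0 < a →
      (∫ γ, (g (γ.toMap 1) - g (γ.toMap 0)) ∂P) ≤
        (a / 2) * (∫⁻ γ, (∫⁻ t in Set.Icc (0 : ℝ) 1, ENNReal.ofReal (D (γ.ext t) ^ 2)) ∂P).toReal +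
        (1 / (2 * a)) * (∫⁻ γ, (∫⁻ t in Set.Icc (0 : ℝ) 1, upperSpeed γ t ^ 2) ∂P).toReal) :
    IsWUGLoc m g D := by
  -- replace g and D by Borel versions
  obtain ⟨g', hg'm, hgg'⟩ := exists_measurable_rep (isL2OnBalls_aestronglyMeasurable hg)
  obtain ⟨D', hD'm, hDD'⟩ := exists_measurable_rep (isL2OnBalls_aestronglyMeasurable hD)
  have hg' : IsL2OnBalls m g' := isL2OnBalls_congr hgg' hg
  have hD' : IsL2OnBalls m D' := isL2OnBalls_congr hDD' hD
  have hD'0 : ∀ᵐ x ∂m, 0 ≤ D' x := by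
    filter_upwards [hD0, hDD'] with x h1 h2
    rwa [← h2]
  suffices hmain : IsWUGLoc m g' D' from IsWUGLoc.congr hgg'.symm hDD'.symm hmain
  have h' : ∀ P : Measure (UCurve X), IsTestPlan2 m P → HasBoundedTracks P → ∀ a : ℝ, 0 < a →
      (∫ γ, (g' (γ.toMap 1) - g' (γ.toMap 0)) ∂P) ≤
        (a / 2) * (∫⁻ γ, (∫⁻ t in Set.Icc (0 : ℝ) 1, ENNReal.ofReal (D' (γ.ext t) ^ 2)) ∂P).toReal +
        (1 / (2 * a)) * (∫⁻ γ, (∫⁻ t in Set.Icc (0 : ℝ) 1, upperSpeed γ t ^ 2) ∂P).toReal := by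
    intro P hP hb a ha
    have hprob : IsProbabilityMeasure P := hP.1
    obtain ⟨C, hC⟩ := hP.2.1
    have e0 := ae_toMap_of_ae hC hgg' 0
    have e1 := ae_toMap_of_ae hC hgg' 1
    have e2 := ae_ae_ext_of_ae hC hDD'
    have h1 : (∫ γ, (g' (γ.toMap 1) - g' (γ.toMap 0)) ∂P) =
        ∫ γ, (g (γ.toMap 1) - g (γ.toMap 0)) ∂P := by
      apply integral_congr_ae
      filter_upwards [e0, e1] with γ h0 h1
      rw [h0, h1]
    have h2 : (∫⁻ γ, (∫⁻ t in Set.Icc (0 : ℝ) 1, ENNReal.ofReal (D' (γ.ext t) ^ 2)) ∂P) =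
        ∫⁻ γ, (∫⁻ t in Set.Icc (0 : ℝ) 1, ENNReal.ofReal (D (γ.ext t) ^ 2)) ∂P := by
      apply lintegral_congr_ae
      filter_upwards [e2] with γ h2
      apply lintegral_congr_ae
      filter_upwards [h2] with t ht
      rw [ht]
    rw [h1, h2]
    exact h P hP hb a ha
  clear h
  rw [isWUGLoc_iff_curveUG' hg'm.aestronglyMeasurable]
  refine ⟨hD', hD'0, fun P hP hb => ?_⟩
  have hprob : IsProbabilityMeasure P := hP.1
  -- the bound functions
  set G : {a : ℚ // 0 < a} → UCurve X × ℝ → ℝ≥0∞ := fun a p =>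
    ENNReal.ofReal ((a : ℚ) / 2) * ENNReal.ofReal (D' (p.1.ext p.2) ^ 2) +
      ENNReal.ofReal (1 / (2 * ((a : ℚ) : ℝ))) * upperSpeed p.1 p.2 ^ 2 with hGdef
  have hGm : ∀ a, Measurable (G a) := by
    intro a
    exact ((ENNReal.measurable_ofReal.comp
      ((hD'm.comp measurable_evalExt).pow_const 2)).const_mul _).add
      ((measurable_upperSpeed.pow_const 2).const_mul _)
  have hmD : Measurable (fun p : UCurve X × ℝ => ENNReal.ofReal (D' (p.1.ext p.2) ^ 2)) :=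
    ENNReal.measurable_ofReal.comp ((hD'm.comp measurable_evalExt).pow_const 2)
  have hmS : Measurable (fun p : UCurve X × ℝ => upperSpeed p.1 p.2 ^ 2) :=
    measurable_upperSpeed.pow_const 2
  have hDfin : (∫⁻ γ, (∫⁻ t in Set.Icc (0 : ℝ) 1, ENNReal.ofReal (D' (γ.ext t) ^ 2)) ∂P) < ⊤ :=
    lintegral_lintegral_sq_lt_top hD' hP hb
  have hSfin : (∫⁻ γ, (∫⁻ t in Set.Icc (0 : ℝ) 1, upperSpeed γ t ^ 2) ∂P) < ⊤ := hP.2.2.2
  have hDγ : ∀ᵐ γ ∂P, (∫⁻ t in Set.Icc (0 : ℝ) 1, ENNReal.ofReal (D' (γ.ext t) ^ 2)) < ⊤ :=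
    ae_lt_top (Measurable.lintegral_prod_right' hmD) hDfin.ne
  have hSγ : ∀ᵐ γ ∂P, (∫⁻ t in Set.Icc (0 : ℝ) 1, upperSpeed γ t ^ 2) < ⊤ :=
    ae_lt_top (Measurable.lintegral_prod_right' hmS) hSfin.ne
  have hGsplit : ∀ (a : {a : ℚ // 0 < a}) (γ : UCurve X) (s t : ℝ),
      ∫⁻ r in Icc s t, G a (γ, r) =
        ENNReal.ofReal ((a : ℚ) / 2) * (∫⁻ r in Icc s t, ENNReal.ofReal (D' (γ.ext r) ^ 2)) +
        ENNReal.ofReal (1 / (2 * ((a : ℚ) : ℝ))) * (∫⁻ r in Icc s t, upperSpeed γ r ^ 2) := by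
    intro a γ s t
    have hm2 : Measurable (fun r : ℝ =>
        ENNReal.ofReal (1 / (2 * ((a : ℚ) : ℝ))) * upperSpeed γ r ^ 2) :=
      ((measurable_upperSpeed_right γ).pow_const 2).const_mul _
    rw [← lintegral_const_mul' _ _ ENNReal.ofReal_ne_top,
      ← lintegral_const_mul' _ _ ENNReal.ofReal_ne_top, ← lintegral_add_right _ hm2]
  have hfinG : ∀ a, ∀ᵐ γ ∂P, ∫⁻ r in Icc (0 : ℝ) 1, G a (γ, r) < ⊤ := by
    intro a
    filter_upwards [hDγ, hSγ] with γ h1 h2
    rw [hGsplit]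
    exact ENNReal.add_lt_top.mpr ⟨ENNReal.mul_lt_top ENNReal.ofReal_lt_top h1,
      ENNReal.mul_lt_top ENNReal.ofReal_lt_top h2⟩
  -- one-sided increments for arbitrary ordered or reversed pairs of times
  have hone : ∀ (a : {a : ℚ // 0 < a}) (s t : ℝ), s ∈ Icc (0 : ℝ) 1 → t ∈ Icc (0 : ℝ) 1 → s ≠ t →
      ∀ᵐ γ ∂P, ENNReal.ofReal (g' (γ.ext t) - g' (γ.ext s)) ≤
        ENNReal.ofReal ((a : ℚ) / 2) * (∫⁻ r in uIcc s t, ENNReal.ofReal (D' (γ.ext r) ^ 2)) +
        ENNReal.ofReal (1 / (2 * ((a : ℚ) : ℝ))) * (∫⁻ r in uIcc s t, upperSpeed γ r ^ 2) := by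
    intro a s t hs ht hst
    have ha0 : (0 : ℝ) < (a : ℚ) := by exact_mod_cast a.2
    have hlen : 0 < |t - s| := abs_pos.mpr (sub_ne_zero.mpr (Ne.symm hst))
    set B : UCurve X → ℝ≥0∞ := fun γ =>
      ENNReal.ofReal ((a : ℚ) / 2) * (∫⁻ r in uIcc s t, ENNReal.ofReal (D' (γ.ext r) ^ 2)) +
        ENNReal.ofReal (1 / (2 * ((a : ℚ) : ℝ))) * (∫⁻ r in uIcc s t, upperSpeed γ r ^ 2) with hB
    have hBm : Measurable B := by
      apply Measurable.add
      · exact (Measurable.lintegral_prod_right' hmD).const_mul _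
      · exact (Measurable.lintegral_prod_right' hmS).const_mul _
    have husub : uIcc s t ⊆ Icc (0 : ℝ) 1 := by
      rcases le_total s t with h | h
      · rw [uIcc_of_le h]; exact Icc_subset_Icc hs.1 ht.2
      · rw [uIcc_of_ge h]; exact Icc_subset_Icc ht.1 hs.2
    have hBfin : ∫⁻ γ, B γ ∂P < ⊤ := by
      have h1 : ∫⁻ γ, B γ ∂P ≤
          ENNReal.ofReal ((a : ℚ) / 2) *
            (∫⁻ γ, (∫⁻ t in Set.Icc (0 : ℝ) 1, ENNReal.ofReal (D' (γ.ext t) ^ 2)) ∂P) +
          ENNReal.ofReal (1 / (2 * ((a : ℚ) : ℝ))) *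
            (∫⁻ γ, (∫⁻ t in Set.Icc (0 : ℝ) 1, upperSpeed γ t ^ 2) ∂P) := by
        rw [hB, lintegral_add_right _ ((Measurable.lintegral_prod_right' hmS).const_mul _),
          lintegral_const_mul' _ _ ENNReal.ofReal_ne_top,
          lintegral_const_mul' _ _ ENNReal.ofReal_ne_top]
        gcongr
      exact h1.trans_lt (ENNReal.add_lt_top.mpr ⟨ENNReal.mul_lt_top ENNReal.ofReal_lt_top hDfin,
        ENNReal.mul_lt_top ENNReal.ofReal_lt_top hSfin⟩)
    have hBint : Integrable (fun γ => (B γ).toReal) P :=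
      integrable_toReal_of_lintegral_ne_top hBm.aemeasurable hBfin.ne
    have hgs : Integrable (fun γ : UCurve X => g' (γ.ext s)) P := by
      have := integrable_eval_of_isL2OnBalls hg' hP hb ⟨s, hs⟩
      refine this.congr (Eventually.of_forall fun γ => ?_)
      simp only
      rw [ext_of_mem γ hs]
    have hgt : Integrable (fun γ : UCurve X => g' (γ.ext t)) P := by
      have := integrable_eval_of_isL2OnBalls hg' hP hb ⟨t, ht⟩
      refine this.congr (Eventually.of_forall fun γ => ?_)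
      simp only
      rw [ext_of_mem γ ht]
    have hae : (fun γ : UCurve X => g' (γ.ext t) - g' (γ.ext s)) ≤ᵐ[P] fun γ => (B γ).toReal := by
      refine ae_le_of_forall_setIntegral_le (hgt.sub hgs) hBint fun A hA _ => ?_
      by_cases hPA : P A = 0
      · rw [Measure.restrict_eq_zero.mpr hPA]; simp
      have hPAtop : P A ≠ ⊤ := measure_ne_top P A
      have hcs : Measurable (subCurve s t : UCurve X → UCurve X) :=
        (cu_continuous_subCurve s t).measurable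
      have hQ := isTestPlan2_map_subCurve (isTestPlan2_cond hP hPA) s t hs ht
      have hQb := hasBoundedTracks_map_subCurve (hasBoundedTracks_cond hb A (P A)⁻¹) s t
      have h1 := h' _ hQ hQb ((a : ℚ) * |t - s|) (by positivity)
      have hi1 : (∫ γ, (g' (γ.toMap 1) - g' (γ.toMap 0))
          ∂(((P A)⁻¹ • P.restrict A).map (subCurve s t))) =
          (P A)⁻¹.toReal * ∫ γ in A, (g' (γ.ext t) - g' (γ.ext s)) ∂P := by
        rw [integral_map hcs.aemeasurable, integral_smul_measure, smul_eq_mul]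
        · congr 1
          apply integral_congr_ae
          refine Eventually.of_forall fun γ => ?_
          simp only
          rw [subCurve_toMap, subCurve_toMap]
          congr 3 <;> simp
        · exact ((hg'm.comp (measurable_eval 1)).sub
            (hg'm.comp (measurable_eval 0))).aestronglyMeasurable
      have hi2 : (∫⁻ γ, (∫⁻ r in Set.Icc (0 : ℝ) 1, ENNReal.ofReal (D' (γ.ext r) ^ 2))
          ∂(((P A)⁻¹ • P.restrict A).map (subCurve s t))) =
          (P A)⁻¹ * ∫⁻ γ in A, (∫⁻ r in Set.Icc (0 : ℝ) 1,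
            ENNReal.ofReal (D' ((subCurve s t γ).ext r) ^ 2)) ∂P := by
        rw [lintegral_map (Measurable.lintegral_prod_right' hmD) hcs, lintegral_smul_measure,
          smul_eq_mul]
      have hi3 : (∫⁻ γ, (∫⁻ r in Set.Icc (0 : ℝ) 1, upperSpeed γ r ^ 2)
          ∂(((P A)⁻¹ • P.restrict A).map (subCurve s t))) =
          (P A)⁻¹ * ∫⁻ γ in A, (∫⁻ r in Set.Icc (0 : ℝ) 1,
            upperSpeed (subCurve s t γ) r ^ 2) ∂P := by
        rw [lintegral_map (Measurable.lintegral_prod_right' hmS) hcs, lintegral_smul_measure,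
          smul_eq_mul]
      rw [hi1, hi2, hi3] at h1
      have hc2 : ∀ γ : UCurve X, ENNReal.ofReal |t - s| * (∫⁻ r in Set.Icc (0 : ℝ) 1,
            ENNReal.ofReal (D' ((subCurve s t γ).ext r) ^ 2)) =
          ∫⁻ r in uIcc s t, ENNReal.ofReal (D' (γ.ext r) ^ 2) := fun γ =>
        lintegral_subCurve_ext s t hs ht γ (fun x => ENNReal.ofReal (D' x ^ 2))
      have hc3 : ∀ γ : UCurve X, (∫⁻ r in Set.Icc (0 : ℝ) 1,
            upperSpeed (subCurve s t γ) r ^ 2) =
          ENNReal.ofReal |t - s| * ∫⁻ r in uIcc s t, upperSpeed γ r ^ 2 := fun γ =>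
        lintegral_subCurve_sq s t hs ht γ
      simp only [hc3] at h1
      set U : ℝ≥0∞ := ∫⁻ γ in A, (∫⁻ r in Set.Icc (0 : ℝ) 1,
            ENNReal.ofReal (D' ((subCurve s t γ).ext r) ^ 2)) ∂P with hU
      set V : ℝ≥0∞ := ∫⁻ γ in A, (∫⁻ r in uIcc s t, ENNReal.ofReal (D' (γ.ext r) ^ 2)) ∂P with hV
      set W : ℝ≥0∞ := ∫⁻ γ in A, (∫⁻ r in uIcc s t, upperSpeed γ r ^ 2) ∂P with hW
      have hUV : ENNReal.ofReal |t - s| * U = V := by
        rw [hU, hV, ← lintegral_const_mul' _ _ ENNReal.ofReal_ne_top]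
        simp only [hc2]
      have hWeq : (∫⁻ γ in A, (ENNReal.ofReal |t - s| *
          (∫⁻ r in uIcc s t, upperSpeed γ r ^ 2)) ∂P) =
          ENNReal.ofReal |t - s| * W := by
        rw [hW, lintegral_const_mul' _ _ ENNReal.ofReal_ne_top]
      rw [hWeq] at h1
      have hVfin : V ≠ ⊤ := by
        refine (lt_of_le_of_lt ?_ hDfin).ne
        rw [hV]
        refine (setLIntegral_le_lintegral _ _).trans ?_
        exact lintegral_mono fun γ => lintegral_mono_set husub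
      have hWfin : W ≠ ⊤ := by
        refine (lt_of_le_of_lt ?_ hSfin).ne
        rw [hW]
        refine (setLIntegral_le_lintegral _ _).trans ?_
        exact lintegral_mono fun γ => lintegral_mono_set husub
      have hUVr : |t - s| * U.toReal = V.toReal := by
        rw [← hUV, ENNReal.toReal_mul, ENNReal.toReal_ofReal (abs_nonneg _)]
      have hp0 : 0 < (P A)⁻¹.toReal :=
        ENNReal.toReal_pos (ENNReal.inv_ne_zero.mpr hPAtop) (ENNReal.inv_ne_top.mpr hPA)
      rw [ENNReal.toReal_mul, ENNReal.toReal_mul, ENNReal.toReal_mul,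
        ENNReal.toReal_ofReal (abs_nonneg _)] at h1
      have h2 : (∫ γ in A, (g' (γ.ext t) - g' (γ.ext s)) ∂P) ≤
          ((a : ℚ) : ℝ) / 2 * V.toReal + 1 / (2 * ((a : ℚ) : ℝ)) * W.toReal := by
        have h3 : (P A)⁻¹.toReal * ∫ γ in A, (g' (γ.ext t) - g' (γ.ext s)) ∂P ≤
            (P A)⁻¹.toReal * (((a : ℚ) : ℝ) / 2 * V.toReal +
              1 / (2 * ((a : ℚ) : ℝ)) * W.toReal) := by
          refine h1.trans (le_of_eq ?_)
          rw [← hUVr]
          field_simp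
        exact le_of_mul_le_mul_left h3 hp0
      refine h2.trans (le_of_eq ?_)
      have hBA : ∫⁻ γ in A, B γ ∂P = ENNReal.ofReal ((a : ℚ) / 2) * V +
          ENNReal.ofReal (1 / (2 * ((a : ℚ) : ℝ))) * W := by
        rw [hB, lintegral_add_right _ ((Measurable.lintegral_prod_right' hmS).const_mul _),
          lintegral_const_mul' _ _ ENNReal.ofReal_ne_top,
          lintegral_const_mul' _ _ ENNReal.ofReal_ne_top]
      have hBlt : ∀ᵐ γ ∂(P.restrict A), B γ < ⊤ := by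
        apply ae_restrict_of_ae
        exact ae_lt_top hBm hBfin.ne
      rw [integral_toReal hBm.aemeasurable hBlt, hBA,
        ENNReal.toReal_add (ENNReal.mul_ne_top ENNReal.ofReal_ne_top hVfin)
          (ENNReal.mul_ne_top ENNReal.ofReal_ne_top hWfin),
        ENNReal.toReal_mul, ENNReal.toReal_mul, ENNReal.toReal_ofReal (by positivity),
        ENNReal.toReal_ofReal (by positivity)]
    have hBlt : ∀ᵐ γ ∂P, B γ < ⊤ := ae_lt_top hBm hBfin.ne
    filter_upwards [hae, hBlt] with γ h1 h2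
    calc ENNReal.ofReal (g' (γ.ext t) - g' (γ.ext s)) ≤ ENNReal.ofReal (B γ).toReal :=
          ENNReal.ofReal_le_ofReal h1
      _ = B γ := ENNReal.ofReal_toReal h2.ne
  have hinc : ∀ (a : {a : ℚ // 0 < a}) (s t : ℝ), 0 ≤ s → s ≤ t → t ≤ 1 →
      ∀ᵐ γ ∂P, ENNReal.ofReal |g' (γ.ext t) - g' (γ.ext s)| ≤ ∫⁻ r in Icc s t, G a (γ, r) := by
    intro a s t hs hst ht
    rcases eq_or_lt_of_le hst with heq | hlt
    · subst heq
      exact Eventually.of_forall fun γ => by simp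
    have hsI : s ∈ Icc (0 : ℝ) 1 := ⟨hs, hst.trans ht⟩
    have htI : t ∈ Icc (0 : ℝ) 1 := ⟨hs.trans hst, ht⟩
    filter_upwards [hone a s t hsI htI hlt.ne, hone a t s htI hsI hlt.ne'] with γ h1 h2
    rw [hGsplit]
    rw [uIcc_of_le hst] at h1
    rw [uIcc_of_ge hst] at h2
    rcases abs_cases (g' (γ.ext t) - g' (γ.ext s)) with ⟨h3, -⟩ | ⟨h3, -⟩
    · rw [h3]; exact h1
    · rw [h3, neg_sub]; exact h2
  have : Nonempty {a : ℚ // 0 < a} := ⟨⟨1, one_pos⟩⟩
  have key := ae_exists_AC_rep hg'm hGm hfinG hinc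
  obtain ⟨C, hC⟩ := hP.2.1
  have hnn := ae_ae_ext_of_ae hC hD'0
  filter_upwards [key, hP.2.2.1, hnn] with γ hγ hγ2 hγ3
  obtain ⟨u, hu, hu0, hu1, hu2, hu3⟩ := hγ
  refine ⟨u, hu, hu0, hu1, hu2, ?_⟩
  have hsp' : ∀ᵐ t ∂(volume.restrict (Icc (0 : ℝ) 1)), upperSpeed γ t < ⊤ :=
    ae_lt_top (measurable_upperSpeed_right γ) (lintegral_upperSpeed_lt_top hγ2).ne
  have hu3' := ae_all_iff.mpr hu3
  filter_upwards [hu3', hsp', hγ3] with t h1 h2 h3
  exact ofReal_le_mul_of_forall_quadratic h3 h2.ne h1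

end Main

end Crest.Agent.R242
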