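import Mathlib
import Crest.Prelude.Def_SyntheticRicci
import Crest.Agent.R242.Defs

/-!
Row 242: topology of the space of curves, compactness of sets of curves, tightness and weak
convergence of measures on curves, dyadic energy of a curve.  Owner: helper720.
-/

set_option autoImplicit false

open MeasureTheory Filter Set TopologicalSpace
open scoped ENNReal NNReal Topology BoundedContinuousFunction
open Crest.GeometryTopology.SyntheticRicci

noncomputable section

namespace Crest.Agent.R242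

section Top

variable {X : Type*} [MetricSpace X]

/-- curves are the same as continuous maps. -/
def uHomeo : UCurve X ≃ₜ C(unitInterval, X) where
  toFun := UCurve.toMap
  invFun f := ⟨f⟩
  left_inv _ := rfl
  right_inv _ := rfl
  continuous_toFun := continuous_induced_dom
  continuous_invFun := continuous_induced_rng.2 continuous_id

theorem continuous_toMap : Continuous (UCurve.toMap : UCurve X → C(unitInterval, X)) :=
  continuous_induced_dom

instance instT2UCurve : T2Space (UCurve X) := uHomeo.isEmbedding.t2Space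

instance instMetrizableUCurve : MetrizableSpace (UCurve X) :=
  uHomeo.isEmbedding.metrizableSpace

instance instSecondCountableUCurve [SecondCountableTopology X] :
    SecondCountableTopology (UCurve X) :=
  uHomeo.isEmbedding.secondCountableTopology

instance instPolishUCurve [CompleteSpace X] [SecondCountableTopology X] :
    PolishSpace (UCurve X) :=
  haveI : PolishSpace C(unitInterval, X) := inferInstance
  uHomeo.isClosedEmbedding.polishSpace

/-- joint continuity of the evaluation. -/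
theorem continuous_ev₂ : Continuous fun p : UCurve X × unitInterval => p.1.toMap p.2 :=
  ContinuousEval.continuous_eval.comp
    ((continuous_toMap.comp continuous_fst).prodMk continuous_snd)

theorem continuous_ev (t : unitInterval) : Continuous fun γ : UCurve X => γ.toMap t :=
  continuous_ev₂.comp (continuous_id.prodMk continuous_const)

theorem continuous_ext₂ : Continuous fun p : UCurve X × ℝ => p.1.ext p.2 :=
  continuous_ev₂.comp
    (continuous_fst.prodMk ((continuous_projIcc (h := zero_le_one)).comp continuous_snd))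

theorem continuous_ext (t : ℝ) : Continuous fun γ : UCurve X => γ.ext t :=
  continuous_ext₂.comp (continuous_id.prodMk continuous_const)

theorem continuous_ext_right (γ : UCurve X) : Continuous γ.ext :=
  continuous_ext₂.comp (continuous_const.prodMk continuous_id)

theorem ext_coe (γ : UCurve X) (t : unitInterval) : γ.ext (t : ℝ) = γ.toMap t := by
  unfold UCurve.ext
  rw [projIcc_val]

theorem ext_eq_of_mem (γ : UCurve X) {t : ℝ} (ht : t ∈ Icc (0 : ℝ) 1) :
    γ.ext t = γ.toMap ⟨t, ht⟩ := by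
  unfold UCurve.ext
  rw [projIcc_of_mem zero_le_one ht]

theorem ucurve_ext {γ γ' : UCurve X} (h : ∀ t, γ.toMap t = γ'.toMap t) : γ = γ' := by
  cases γ; cases γ'
  congr 1
  exact ContinuousMap.ext h

theorem continuous_subCurve (a b : ℝ) : Continuous (subCurve a b : UCurve X → UCurve X) := by
  refine continuous_induced_rng.2 ?_
  exact (ContinuousMap.continuous_precomp (subI a b)).comp continuous_toMap

/-- convergence of curves = uniform convergence. -/
theorem tendsto_ucurve_iff {ι : Type*} {l : Filter ι} {F : ι → UCurve X} {γ : UCurve X} :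
    Tendsto F l (𝓝 γ) ↔ TendstoUniformly (fun i t => (F i).toMap t) γ.toMap l := by
  rw [← ContinuousMap.tendsto_iff_tendstoUniformly, uHomeo.isInducing.tendsto_nhds_iff]
  rfl

/-- geodesics are closed. -/
theorem isClosed_csGeodesic : IsClosed {γ : UCurve X | IsCSGeodesic γ} := by
  unfold IsCSGeodesic
  simp only [Set.ofPred_forall]
  refine isClosed_iInter fun s => isClosed_iInter fun t => ?_
  exact isClosed_eq ((continuous_ev s).dist (continuous_ev t))
    (continuous_const.mul ((continuous_ev 0).dist (continuous_ev 1)))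

/-- Arzela-Ascoli: a family of curves in a compact set with a common modulus of continuity. -/
theorem isCompact_modulus {K : Set X} (hK : IsCompact K) {ω : ℝ → ℝ}
    (hω : Tendsto ω (𝓝[≥] 0) (𝓝 0)) :
    IsCompact {γ : UCurve X | (∀ t, γ.toMap t ∈ K) ∧
      ∀ s t : unitInterval, dist (γ.toMap s) (γ.toMap t) ≤ ω |(s : ℝ) - t|} := by
  have hb : Tendsto (fun r : ℝ => ω |r|) (𝓝 0) (𝓝 0) := by
    refine hω.comp ?_
    refine tendsto_nhdsWithin_iff.2 ⟨?_, Eventually.of_forall fun r => abs_nonneg r⟩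
    have := (continuous_abs (G := ℝ)).tendsto 0
    simpa using this
  set S : Set C(unitInterval, X) := {f | (∀ t, f t ∈ K) ∧
      ∀ s t : unitInterval, dist (f s) (f t) ≤ ω |(s : ℝ) - t|} with hS
  have hSc : IsCompact S := by
    refine ArzelaAscoli.isCompact_of_equicontinuous S ?_ ?_
    · have hcl : IsCompact {f : unitInterval → X | (∀ t, f t ∈ K) ∧
          ∀ s t : unitInterval, dist (f s) (f t) ≤ ω |(s : ℝ) - t|} := by
        refine (isCompact_univ_pi (fun _ : unitInterval => hK)).of_isClosed_subset ?_ ?_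
        · have h1 : IsClosed {f : unitInterval → X | ∀ t, f t ∈ K} := by
            simp only [Set.ofPred_forall]
            exact isClosed_iInter fun t => hK.isClosed.preimage (continuous_apply t)
          have h2 : IsClosed {f : unitInterval → X |
              ∀ s t : unitInterval, dist (f s) (f t) ≤ ω |(s : ℝ) - t|} := by
            simp only [Set.ofPred_forall]
            exact isClosed_iInter fun s => isClosed_iInter fun t =>
              isClosed_le ((continuous_apply s).dist (continuous_apply t)) continuous_const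
          exact h1.inter h2
        · intro f hf
          exact fun t _ => hf.1 t
      convert hcl using 1
      ext f
      constructor
      · rintro ⟨g, hg, rfl⟩
        exact hg
      · intro hf
        have hcont : Continuous f := by
          rw [continuous_iff_continuousAt]
          intro t
          rw [ContinuousAt, tendsto_iff_dist_tendsto_zero]
          refine squeeze_zero (fun s => dist_nonneg) (fun s => hf.2 s t) ?_
          have h0 : Tendsto (fun s : unitInterval => (s : ℝ) - t) (𝓝 t) (𝓝 0) := by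
            have h1 : Continuous fun s : unitInterval => (s : ℝ) - t := by fun_prop
            have := h1.tendsto t
            rwa [sub_self] at this
          exact hb.comp h0
        exact ⟨⟨f, hcont⟩, hf, rfl⟩
    · refine Metric.equicontinuous_of_continuity_modulus (fun r => ω |r|) hb _ ?_
      intro x y f
      have := f.2.2 x y
      have hd : |(dist x y : ℝ)| = |(x : ℝ) - y| := by
        rw [abs_of_nonneg dist_nonneg]; rfl
      show dist (f.1 x) (f.1 y) ≤ ω |dist x y|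
      rw [hd]
      exact this
  have := uHomeo (X := X) |>.symm.isCompact_image.2 hSc
  convert this using 1
  ext γ
  constructor
  · intro h
    exact ⟨γ.toMap, h, rfl⟩
  · rintro ⟨f, hf, rfl⟩
    exact hf

/-- curves starting in a compact set with a Hoelder 1/2 bound. -/
theorem isCompact_hoelder [ProperSpace X] {K : Set X} (hK : IsCompact K) (A : ℝ) :
    IsCompact {γ : UCurve X | γ.toMap 0 ∈ K ∧
      ∀ s t : unitInterval, dist (γ.toMap s) (γ.toMap t) ^ 2 ≤ A * |(s : ℝ) - t|} := by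
  have hK' : IsCompact (Metric.cthickening (Real.sqrt |A|) K) :=
    hK.cthickening
  have hω : Tendsto (fun r : ℝ => Real.sqrt (|A| * r)) (𝓝[≥] 0) (𝓝 0) := by
    have : Continuous fun r : ℝ => Real.sqrt (|A| * r) := by fun_prop
    have := this.tendsto 0
    simp only [mul_zero, Real.sqrt_zero] at this
    exact this.mono_left nhdsWithin_le_nhds
  refine (isCompact_modulus hK' hω).of_isClosed_subset ?_ ?_
  · have h1 : IsClosed {γ : UCurve X | γ.toMap 0 ∈ K} := hK.isClosed.preimage (continuous_ev 0)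
    have h2 : IsClosed {γ : UCurve X |
        ∀ s t : unitInterval, dist (γ.toMap s) (γ.toMap t) ^ 2 ≤ A * |(s : ℝ) - t|} := by
      simp only [Set.ofPred_forall]
      exact isClosed_iInter fun s => isClosed_iInter fun t =>
        isClosed_le (((continuous_ev s).dist (continuous_ev t)).pow 2) continuous_const
    exact h1.inter h2
  · intro γ hγ
    have key : ∀ s t : unitInterval, dist (γ.toMap s) (γ.toMap t) ≤
        Real.sqrt (|A| * |(s : ℝ) - t|) := by
      intro s t
      refine Real.le_sqrt_of_sq_le ((hγ.2 s t).trans ?_)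
      exact mul_le_mul_of_nonneg_right (le_abs_self A) (abs_nonneg _)
    refine ⟨fun t => ?_, key⟩
    refine Metric.mem_cthickening_of_dist_le _ (γ.toMap 0) _ _ hγ.1 ?_
    refine (key t 0).trans (Real.sqrt_le_sqrt ?_)
    have ht : |((t : ℝ)) - ((0 : unitInterval) : ℝ)| ≤ 1 := by
      have h0 := t.2.1; have h1 := t.2.2
      have : ((0 : unitInterval) : ℝ) = 0 := rfl
      rw [this, sub_zero, abs_of_nonneg h0]; exact h1
    calc |A| * |((t : ℝ)) - ((0 : unitInterval) : ℝ)| ≤ |A| * 1 :=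
          mul_le_mul_of_nonneg_left ht (abs_nonneg _)
      _ = |A| := mul_one _

/-- geodesics with endpoints in a compact set. -/
theorem isCompact_csGeodesic [ProperSpace X] {K L : Set X} (hK : IsCompact K)
    (hL : IsCompact L) :
    IsCompact {γ : UCurve X | γ.toMap 0 ∈ K ∧ γ.toMap 1 ∈ L ∧ IsCSGeodesic γ} := by
  obtain ⟨D, hD⟩ : ∃ D : ℝ, ∀ x ∈ K, ∀ y ∈ L, dist x y ≤ D := by
    have hc : IsCompact ((fun p : X × X => dist p.1 p.2) '' (K ×ˢ L)) :=
      (hK.prod hL).image continuous_dist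
    obtain ⟨D, hD⟩ := hc.bddAbove
    exact ⟨D, fun x hx y hy => hD ⟨(x, y), ⟨hx, hy⟩, rfl⟩⟩
  refine (isCompact_hoelder hK (D ^ 2)).of_isClosed_subset ?_ ?_
  · exact (hK.isClosed.preimage (continuous_ev 0)).inter
      ((hL.isClosed.preimage (continuous_ev 1)).inter isClosed_csGeodesic)
  · rintro γ ⟨h0, h1, hg⟩
    refine ⟨h0, fun s t => ?_⟩
    rw [hg s t, mul_pow]
    have hd : dist (γ.toMap 0) (γ.toMap 1) ^ 2 ≤ D ^ 2 :=
      pow_le_pow_left₀ dist_nonneg (hD _ h0 _ h1) 2
    have hs : |(s : ℝ) - t| ≤ 1 := by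
      have hs0 := s.2.1; have hs1 := s.2.2; have ht0 := t.2.1; have ht1 := t.2.2
      rw [abs_le]; constructor <;> linarith
    have hs2 : |(s : ℝ) - t| ^ 2 ≤ |(s : ℝ) - t| := by
      have := abs_nonneg ((s : ℝ) - t)
      nlinarith
    calc |(s : ℝ) - t| ^ 2 * dist (γ.toMap 0) (γ.toMap 1) ^ 2
        ≤ |(s : ℝ) - t| * D ^ 2 := mul_le_mul hs2 hd (by positivity) (abs_nonneg _)
      _ = D ^ 2 * |(s : ℝ) - t| := mul_comm _ _

end Top

section Meas

variable {X : Type*} [MetricSpace X] [MeasurableSpace X] [BorelSpace X]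

theorem measurable_ev (t : unitInterval) : Measurable fun γ : UCurve X => γ.toMap t :=
  (continuous_ev t).measurable

theorem measurable_ext (t : ℝ) : Measurable fun γ : UCurve X => γ.ext t :=
  (continuous_ext t).measurable

theorem measurable_ev₂ [SecondCountableTopology X] :
    Measurable fun p : UCurve X × unitInterval => p.1.toMap p.2 :=
  continuous_ev₂.measurable

theorem measurable_ext₂ [SecondCountableTopology X] :
    Measurable fun p : UCurve X × ℝ => p.1.ext p.2 :=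
  continuous_ext₂.measurable

theorem measurable_endpoints [SecondCountableTopology X] :
    Measurable fun γ : UCurve X => (γ.toMap 0, γ.toMap 1) :=
  (measurable_ev 0).prodMk (measurable_ev 1)

omit [MeasurableSpace X] [BorelSpace X] in
theorem measurable_subCurve (a b : ℝ) : Measurable (subCurve a b : UCurve X → UCurve X) :=
  (continuous_subCurve a b).measurable

instance {P : Measure (UCurve X)} [IsProbabilityMeasure P] (t : unitInterval) :
    IsProbabilityMeasure (timeMarginal P t) :=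
  Measure.isProbabilityMeasure_map (measurable_ev t).aemeasurable

instance [SecondCountableTopology X] {P : Measure (UCurve X)} [IsProbabilityMeasure P] :
    IsProbabilityMeasure (endpointLaw P) :=
  Measure.isProbabilityMeasure_map measurable_endpoints.aemeasurable

theorem map_fst_endpointLaw [SecondCountableTopology X] (P : Measure (UCurve X)) :
    (endpointLaw P).map Prod.fst = timeMarginal P 0 := by
  unfold endpointLaw timeMarginal
  rw [Measure.map_map measurable_fst measurable_endpoints]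
  rfl

theorem map_snd_endpointLaw [SecondCountableTopology X] (P : Measure (UCurve X)) :
    (endpointLaw P).map Prod.snd = timeMarginal P 1 := by
  unfold endpointLaw timeMarginal
  rw [Measure.map_map measurable_snd measurable_endpoints]
  rfl

/-- time marginal on bundled probability measures. -/
def tmP (t : unitInterval) (P : ProbabilityMeasure (UCurve X)) : ProbabilityMeasure X :=
  P.map (measurable_ev t).aemeasurable

@[simp] theorem coe_tmP (t : unitInterval) (P : ProbabilityMeasure (UCurve X)) :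
    (tmP t P : Measure X) = timeMarginal (P : Measure (UCurve X)) t := rfl

theorem continuous_tmP (t : unitInterval) :
    Continuous (tmP t : ProbabilityMeasure (UCurve X) → ProbabilityMeasure X) :=
  ProbabilityMeasure.continuous_map (continuous_ev t)

/-- endpoint law on bundled probability measures. -/
def elP [SecondCountableTopology X] (P : ProbabilityMeasure (UCurve X)) :
    ProbabilityMeasure (X × X) :=
  P.map measurable_endpoints.aemeasurable

@[simp] theorem coe_elP [SecondCountableTopology X] (P : ProbabilityMeasure (UCurve X)) :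
    (elP P : Measure (X × X)) = endpointLaw (P : Measure (UCurve X)) := rfl

theorem continuous_elP [SecondCountableTopology X] :
    Continuous (elP : ProbabilityMeasure (UCurve X) → ProbabilityMeasure (X × X)) :=
  ProbabilityMeasure.continuous_map ((continuous_ev 0).prodMk (continuous_ev 1))

/-- for fixed `P`, the marginals depend continuously on time. -/
theorem continuous_time_tmP (P : ProbabilityMeasure (UCurve X)) :
    Continuous fun t : unitInterval => tmP t P := by
  rw [continuous_iff_continuousAt]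
  intro t
  rw [ContinuousAt, ProbabilityMeasure.tendsto_iff_forall_integral_tendsto]
  intro f
  simp only [coe_tmP, timeMarginal]
  have e : ∀ s : unitInterval, ∫ x, f x ∂(Measure.map (fun γ : UCurve X => γ.toMap s) (P : Measure (UCurve X)))
      = ∫ γ, f (γ.toMap s) ∂(P : Measure (UCurve X)) := fun s =>
    integral_map (measurable_ev s).aemeasurable f.continuous.aestronglyMeasurable
  simp only [e]
  refine tendsto_integral_filter_of_dominated_convergence (fun _ => ‖f‖) ?_ ?_ ?_ ?_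
  · refine Eventually.of_forall fun s => ?_
    exact ((f.continuous.comp (continuous_ev s)).measurable).aestronglyMeasurable
  · exact Eventually.of_forall fun s => Eventually.of_forall fun γ => f.norm_coe_le_norm _
  · exact integrable_const _
  · refine Eventually.of_forall fun γ => ?_
    exact (f.continuous.comp γ.toMap.continuous).tendsto t

end Meas

section Weak

variable {E : Type*} [TopologicalSpace E] [MeasurableSpace E] [BorelSpace E]

/-- the measure of an open set is lower semicontinuous. -/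
theorem lowerSemicontinuous_measure_isOpen [HasOuterApproxClosed E] {G : Set E} (hG : IsOpen G) :
    LowerSemicontinuous fun P : ProbabilityMeasure E => (P : Measure E) G := by
  rw [lowerSemicontinuous_iff_le_liminf]
  intro P
  exact ProbabilityMeasure.le_liminf_measure_open_of_tendsto tendsto_id hG

/-- measures concentrated on a closed set form a closed set. -/
theorem isClosed_ae_mem [HasOuterApproxClosed E] {F : Set E} (hF : IsClosed F) :
    IsClosed {P : ProbabilityMeasure E | ∀ᵐ x ∂(P : Measure E), x ∈ F} := by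
  have := (lowerSemicontinuous_measure_isOpen hF.isOpen_compl).isClosed_preimage 0
  convert this using 1
  ext P
  simp only [mem_ofPred_eq, mem_preimage, mem_Iic, nonpos_iff_eq_zero]
  rfl

/-- lower semicontinuity of integrals of lower semicontinuous functions. -/
theorem lintegral_le_liminf_of_lsc [HasOuterApproxClosed E] {f : E → ℝ≥0∞}
    (hf : LowerSemicontinuous f) {P : ℕ → ProbabilityMeasure E} {Q : ProbabilityMeasure E}
    (h : Tendsto P atTop (𝓝 Q)) :
    ∫⁻ x, f x ∂(Q : Measure E) ≤ liminf (fun n => ∫⁻ x, f x ∂(P n : Measure E)) atTop := by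
  have hfm : Measurable f := hf.measurable
  have hsup : ∀ μ : Measure E, ∫⁻ x, f x ∂μ = ⨆ N : ℕ, ∫⁻ x, min (f x) (N : ℝ≥0∞) ∂μ := by
    intro μ
    rw [← lintegral_iSup (fun N => hfm.min measurable_const)]
    · congr 1
      ext x
      refine le_antisymm ?_ (iSup_le fun N => min_le_left _ _)
      rcases eq_or_ne (f x) ⊤ with hx | hx
      · rw [hx]
        simp only [min_eq_right le_top]
        rw [ENNReal.iSup_natCast]
      · obtain ⟨N, hN⟩ := ENNReal.exists_nat_gt hx
        exact le_iSup_of_le N (le_min le_rfl hN.le)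
    · intro N M hNM x
      exact min_le_min le_rfl (by exact_mod_cast hNM)
  rw [hsup]
  refine iSup_le fun N => ?_
  have hlay : ∀ μ : Measure E, ∫⁻ x, min (f x) (N : ℝ≥0∞) ∂μ =
      ∫⁻ t in Ioi (0 : ℝ), μ {x | t < (min (f x) (N : ℝ≥0∞)).toReal} := by
    intro μ
    rw [← lintegral_eq_lintegral_meas_lt μ (Eventually.of_forall fun x => ENNReal.toReal_nonneg)
      ((hfm.min measurable_const).ennreal_toReal.aemeasurable)]
    refine lintegral_congr fun x => ?_
    rw [ENNReal.ofReal_toReal]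
    exact (min_lt_of_right_lt (ENNReal.natCast_lt_top N)).ne
  have hopen : ∀ t ∈ Ioi (0 : ℝ), IsOpen {x | t < (min (f x) (N : ℝ≥0∞)).toReal} := by
    intro t ht
    have : {x | t < (min (f x) (N : ℝ≥0∞)).toReal} =
        {x | ENNReal.ofReal t < f x} ∩ {x | ENNReal.ofReal t < (N : ℝ≥0∞)} := by
      ext x
      have hne : min (f x) (N : ℝ≥0∞) ≠ ⊤ := (min_lt_of_right_lt (ENNReal.natCast_lt_top N)).ne
      simp only [mem_ofPred_eq, mem_inter_iff]
      rw [← ENNReal.ofReal_lt_iff_lt_toReal ht.le hne, lt_min_iff]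
    rw [this]
    refine IsOpen.inter ?_ isOpen_const
    exact hf.isOpen_preimage (ENNReal.ofReal t)
  calc ∫⁻ x, min (f x) (N : ℝ≥0∞) ∂(Q : Measure E)
      = ∫⁻ t in Ioi (0 : ℝ), (Q : Measure E) {x | t < (min (f x) (N : ℝ≥0∞)).toReal} := hlay _
    _ ≤ ∫⁻ t in Ioi (0 : ℝ),
        liminf (fun n => (P n : Measure E) {x | t < (min (f x) (N : ℝ≥0∞)).toReal}) atTop := by
        refine setLIntegral_mono' measurableSet_Ioi fun t ht => ?_
        exact ProbabilityMeasure.le_liminf_measure_open_of_tendsto h (hopen t ht)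
    _ ≤ liminf (fun n => ∫⁻ t in Ioi (0 : ℝ),
        (P n : Measure E) {x | t < (min (f x) (N : ℝ≥0∞)).toReal}) atTop := by
        refine lintegral_liminf_le fun n => Antitone.measurable fun s t hst =>
          measure_mono fun ω hω => lt_of_le_of_lt hst hω
    _ = liminf (fun n => ∫⁻ x, min (f x) (N : ℝ≥0∞) ∂(P n : Measure E)) atTop := by
        simp only [hlay]
    _ ≤ liminf (fun n => ∫⁻ x, f x ∂(P n : Measure E)) atTop := by
        refine liminf_le_liminf (Eventually.of_forall fun n => ?_)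
        exact lintegral_mono fun x => min_le_left _ _

/-- the set of probability measures `P` with `∫ f dP ≤ c` is closed, `f` lower semicontinuous. -/
theorem isClosed_lintegral_le [PseudoMetrizableSpace E] [SeparableSpace E] {f : E → ℝ≥0∞}
    (hf : LowerSemicontinuous f) (c : ℝ≥0∞) :
    IsClosed {P : ProbabilityMeasure E | ∫⁻ x, f x ∂(P : Measure E) ≤ c} := by
  refine IsSeqClosed.isClosed ?_
  intro P Q hP hQ
  refine (lintegral_le_liminf_of_lsc hf hQ).trans ?_
  refine liminf_le_of_le (by isBoundedDefault) ?_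
  intro b hb
  obtain ⟨n, hn⟩ := hb.exists
  exact hn.trans (hP n)

/-- domination by a fixed measure is closed. -/
theorem isClosed_le_measure {Y : Type*} [MetricSpace Y] [ProperSpace Y] [MeasurableSpace Y]
    [BorelSpace Y] {m : Measure Y} [IsLocallyFiniteMeasure m] (C : ℝ≥0) :
    IsClosed {P : ProbabilityMeasure Y | (P : Measure Y) ≤ (C : ℝ≥0∞) • m} := by
  have : {P : ProbabilityMeasure Y | (P : Measure Y) ≤ (C : ℝ≥0∞) • m} =
      ⋂ G : {G : Set Y // IsOpen G},
        {P : ProbabilityMeasure Y | (P : Measure Y) G.1 ≤ ((C : ℝ≥0∞) • m) G.1} := by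
    ext P
    simp only [mem_ofPred_eq, mem_iInter]
    refine ⟨fun h G => h _, fun h => ?_⟩
    have : ((C : ℝ≥0∞) • m).OuterRegular := Measure.OuterRegular.smul m ENNReal.coe_ne_top
    refine Measure.le_iff.2 fun s hs => ?_
    rw [Set.measure_eq_iInf_isOpen s ((C : ℝ≥0∞) • m)]
    refine le_iInf fun U => le_iInf fun hsU => le_iInf fun hU => ?_
    exact (measure_mono hsU).trans (h ⟨U, hU⟩)
  rw [this]
  refine isClosed_iInter fun G => ?_
  exact (lowerSemicontinuous_measure_isOpen G.2).isClosed_preimage _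

/-- Prokhorov: extraction of a weakly convergent subsequence. -/
theorem exists_subseq_tendsto {E : Type*} [TopologicalSpace E] [MetrizableSpace E]
    [SecondCountableTopology E] [MeasurableSpace E] [BorelSpace E]
    (P : ℕ → ProbabilityMeasure E)
    (hP : ∀ ε : ℝ≥0∞, 0 < ε → ∃ K : Set E, IsCompact K ∧ ∀ n, (P n : Measure E) Kᶜ ≤ ε) :
    ∃ (Q : ProbabilityMeasure E) (φ : ℕ → ℕ), StrictMono φ ∧
      Tendsto (fun n => P (φ n)) atTop (𝓝 Q) := by
  have : IsTightMeasureSet {((μ : ProbabilityMeasure E) : Measure E) | μ ∈ range P} := by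
    rw [isTightMeasureSet_iff_exists_isCompact_measure_compl_le]
    intro ε hε
    obtain ⟨K, hK, h⟩ := hP ε hε
    refine ⟨K, hK, ?_⟩
    rintro _ ⟨_, ⟨n, rfl⟩, rfl⟩
    exact h n
  have h := isCompact_closure_of_isTightMeasureSet this
  obtain ⟨Q, -, φ, hφ, hlim⟩ := h.tendsto_subseq (fun n => subset_closure (mem_range_self n))
  exact ⟨Q, φ, hφ, hlim⟩

/-- a closed tight set of probability measures is compact. -/
theorem isCompact_of_tight {E : Type*} [TopologicalSpace E] [MetrizableSpace E]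
    [SecondCountableTopology E] [MeasurableSpace E] [BorelSpace E]
    {S : Set (ProbabilityMeasure E)} (hS : IsClosed S)
    (hP : ∀ ε : ℝ≥0∞, 0 < ε → ∃ K : Set E, IsCompact K ∧ ∀ P ∈ S, (P : Measure E) Kᶜ ≤ ε) :
    IsCompact S := by
  have : IsTightMeasureSet {((μ : ProbabilityMeasure E) : Measure E) | μ ∈ S} := by
    rw [isTightMeasureSet_iff_exists_isCompact_measure_compl_le]
    intro ε hε
    obtain ⟨K, hK, h⟩ := hP ε hε
    refine ⟨K, hK, ?_⟩
    rintro _ ⟨P, hPS, rfl⟩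
    exact h P hPS
  have h := isCompact_closure_of_isTightMeasureSet this
  rwa [hS.closure_eq] at h

/-- closed + concentrated on a fixed compact set is compact. -/
theorem isCompact_of_ae_mem_compact {E : Type*} [TopologicalSpace E] [MetrizableSpace E]
    [SecondCountableTopology E] [MeasurableSpace E] [BorelSpace E]
    {S : Set (ProbabilityMeasure E)} (hS : IsClosed S) {K : Set E} (hK : IsCompact K)
    (hP : ∀ P ∈ S, ∀ᵐ x ∂(P : Measure E), x ∈ K) :
    IsCompact S := by
  refine isCompact_of_tight hS fun ε _ => ⟨K, hK, fun P hPS => ?_⟩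
  have := hP P hPS
  rw [ae_iff] at this
  have h0 : (P : Measure E) Kᶜ = 0 := this
  rw [h0]; exact bot_le

end Weak

section WeakL2

/-- weak sequential compactness of bounded sets in `L²(0,1)`, in terms of functions. -/
theorem exists_weak_limit (b : ℕ → ℝ → ℝ) (hb : ∀ n, Measurable (b n)) (hb0 : ∀ n t, 0 ≤ b n t)
    (M : ℝ≥0∞) (hM : M ≠ ⊤)
    (hbM : ∀ n, ∫⁻ t in Icc (0 : ℝ) 1, ENNReal.ofReal (b n t) ^ 2 ≤ M) :
    ∃ (a : ℝ → ℝ≥0∞) (φ : ℕ → ℕ), Measurable a ∧ StrictMono φ ∧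
      (∫⁻ t in Icc (0 : ℝ) 1, a t ^ 2) ≤ M ∧
      ∀ (s t : ℝ) (c : ℝ≥0∞), 0 ≤ s → s ≤ t → t ≤ 1 →
        (∀ᶠ n in atTop, c ≤ ∫⁻ r in Icc s t, ENNReal.ofReal (b (φ n) r)) →
        c ≤ ∫⁻ r in Icc s t, a r := by
  set μ : Measure ℝ := volume.restrict (Icc (0 : ℝ) 1) with hμ
  have hmem : ∀ n, MemLp (b n) 2 μ := by
    intro n
    refine ⟨(hb n).aestronglyMeasurable, ?_⟩
    rw [eLpNorm_lt_top_iff_lintegral_rpow_enorm_lt_top (by norm_num) (by norm_num)]
    refine lt_of_le_of_lt ?_ (lt_top_iff_ne_top.2 hM)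
    refine le_trans (le_of_eq ?_) (hbM n)
    refine lintegral_congr fun t => ?_
    rw [Real.enorm_eq_ofReal (hb0 n t)]
    norm_num
  set B : ℕ → Lp ℝ 2 μ := fun n => (hmem n).toLp (b n) with hB
  have hnorm : ∀ n, ‖B n‖ ≤ Real.sqrt M.toReal := by
    intro n
    rw [hB, Lp.norm_toLp]
    refine Real.le_sqrt_of_sq_le ?_
    rw [← ENNReal.toReal_pow]
    refine ENNReal.toReal_mono hM ?_
    refine le_trans (le_of_eq ?_) (hbM n)
    rw [eLpNorm_eq_lintegral_rpow_enorm_toReal (by norm_num) (by norm_num)]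
    rw [← ENNReal.rpow_natCast, ← ENNReal.rpow_mul]
    norm_num
    refine lintegral_congr fun t => ?_
    rw [Real.enorm_eq_ofReal (hb0 n t)]
  have : Fact ((2 : ℝ≥0∞) ≠ ⊤) := ⟨by norm_num⟩
  have hseq := WeakDual.isSeqCompact_closedBall ℝ (Lp ℝ 2 μ) 0 (Real.sqrt M.toReal)
  set ℓ : ℕ → WeakDual ℝ (Lp ℝ 2 μ) := fun n =>
    StrongDual.toWeakDual (InnerProductSpace.toDual ℝ (Lp ℝ 2 μ) (B n)) with hℓ
  have hℓmem : ∀ n, ℓ n ∈ WeakDual.toStrongDual ⁻¹' Metric.closedBall (0 : StrongDual ℝ (Lp ℝ 2 μ)) (Real.sqrt M.toReal) := by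
    intro n
    simp only [mem_preimage, mem_closedBall_zero_iff]
    have : ‖(InnerProductSpace.toDual ℝ (Lp ℝ 2 μ) (B n))‖ ≤ Real.sqrt M.toReal := by
      rw [LinearIsometryEquiv.norm_map]; exact hnorm n
    exact this
  obtain ⟨L, hL, φ, hφ, hlim⟩ := hseq hℓmem
  set A : Lp ℝ 2 μ := (InnerProductSpace.toDual ℝ (Lp ℝ 2 μ)).symm (WeakDual.toStrongDual L) with hA
  have hAnorm : ‖A‖ ≤ Real.sqrt M.toReal := by
    rw [hA, LinearIsometryEquiv.norm_map]
    simpa [mem_preimage, mem_closedBall_zero_iff] using hL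
  have hweak : ∀ g : Lp ℝ 2 μ, Tendsto (fun n => inner ℝ (B (φ n)) g) atTop (𝓝 (inner ℝ A g)) := by
    intro g
    have h1 := (WeakDual.eval_continuous g).tendsto L |>.comp hlim
    have e1 : ∀ n, (ℓ (φ n)) g = inner ℝ (B (φ n)) g := fun n => rfl
    have e2 : L g = inner ℝ A g := by
      rw [hA, InnerProductSpace.toDual_symm_apply]; rfl
    rw [← e2]
    exact h1
  refine ⟨fun t => ‖A t‖ₑ, φ, ?_, hφ, ?_, ?_⟩
  · exact (Lp.stronglyMeasurable A).measurable.enorm
  · have h1 : ∫⁻ t in Icc (0 : ℝ) 1, ‖A t‖ₑ ^ 2 = eLpNorm A 2 μ ^ 2 := by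
      rw [eLpNorm_eq_lintegral_rpow_enorm_toReal (by norm_num) (by norm_num)]
      rw [← ENNReal.rpow_natCast, ← ENNReal.rpow_mul]
      norm_num
      rfl
    rw [h1]
    have h2 : eLpNorm A 2 μ = ENNReal.ofReal ‖A‖ := by
      rw [Lp.norm_def, ENNReal.ofReal_toReal (Lp.eLpNorm_ne_top A)]
    rw [h2]
    calc ENNReal.ofReal ‖A‖ ^ 2 ≤ ENNReal.ofReal (Real.sqrt M.toReal) ^ 2 :=
          pow_le_pow_left' (ENNReal.ofReal_le_ofReal hAnorm) 2
      _ = M := by
          rw [← ENNReal.ofReal_pow (Real.sqrt_nonneg _), Real.sq_sqrt ENNReal.toReal_nonneg,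
            ENNReal.ofReal_toReal hM]
  · intro s t c hs hst ht hev
    have hsub : Icc s t ⊆ Icc (0 : ℝ) 1 := Icc_subset_Icc hs ht
    have hrestr : μ.restrict (Icc s t) = volume.restrict (Icc s t) := by
      rw [hμ, Measure.restrict_restrict measurableSet_Icc, inter_eq_left.2 hsub]
    have hfin : μ (Icc s t) ≠ ⊤ := measure_ne_top _ _
    set g : Lp ℝ 2 μ := indicatorConstLp 2 measurableSet_Icc hfin (1 : ℝ) with hg
    have hw := hweak g
    have e1 : ∀ f : Lp ℝ 2 μ, inner ℝ f g = ∫ r in Icc s t, f r := by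
      intro f
      rw [real_inner_comm, hg, L2.inner_indicatorConstLp_one, hrestr]
    simp only [e1] at hw
    have e2 : ∀ n, ENNReal.ofReal (∫ r in Icc s t, (B n) r) =
        ∫⁻ r in Icc s t, ENNReal.ofReal (b n r) := by
      intro n
      have h3 : ∀ᵐ r ∂(volume.restrict (Icc s t)), (B n) r = b n r := by
        rw [← hrestr]
        exact ae_restrict_of_ae (hmem n).coeFn_toLp
      rw [integral_congr_ae h3, ofReal_integral_eq_lintegral_ofReal]
      · rw [← hrestr]
        exact ((hmem n).integrable (by norm_num)).restrict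
      · exact Eventually.of_forall (hb0 n)
    have h4 : Tendsto (fun n => ENNReal.ofReal (∫ r in Icc s t, (B (φ n)) r)) atTop
        (𝓝 (ENNReal.ofReal (∫ r in Icc s t, A r))) :=
      (ENNReal.continuous_ofReal.tendsto _).comp hw
    simp only [e2] at h4
    refine (ge_of_tendsto h4 hev).trans ?_
    exact (Real.ofReal_le_enorm _).trans (enorm_integral_le_lintegral_enorm _)

end WeakL2

section Energy

variable {X : Type*} [MetricSpace X]

/-- dyadic energy of level `n` of a curve. -/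
def dyEn (n : ℕ) (γ : UCurve X) : ℝ≥0∞ :=
  ∑ j ∈ Finset.range (2 ^ n),
    (2 : ℝ≥0∞) ^ n * edist (γ.ext ((j : ℝ) / 2 ^ n)) (γ.ext (((j : ℝ) + 1) / 2 ^ n)) ^ 2

/-- energy of a curve: supremum of the dyadic energies. -/
def cEn (γ : UCurve X) : ℝ≥0∞ := ⨆ n, dyEn n γ

theorem continuous_dyEn (n : ℕ) : Continuous (dyEn n : UCurve X → ℝ≥0∞) := by
  unfold dyEn
  refine continuous_finsetSum _ fun j _ => ?_
  refine (ENNReal.continuous_const_mul (by simp)).comp ?_
  exact (ENNReal.continuous_pow 2).comp ((continuous_ext _).edist (continuous_ext _))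

/-- length of the `j`-th dyadic piece. -/
def dPiece (n j : ℕ) (γ : UCurve X) : ℝ :=
  dist (γ.ext ((j : ℝ) / 2 ^ n)) (γ.ext (((j : ℝ) + 1) / 2 ^ n))

theorem dyEn_eq_ofReal (n : ℕ) (γ : UCurve X) :
    dyEn n γ = ENNReal.ofReal (∑ j ∈ Finset.range (2 ^ n), 2 ^ n * dPiece n j γ ^ 2) := by
  unfold dyEn dPiece
  rw [ENNReal.ofReal_sum_of_nonneg (fun j _ => by positivity)]
  refine Finset.sum_congr rfl fun j _ => ?_
  rw [ENNReal.ofReal_mul (by positivity), ENNReal.ofReal_pow dist_nonneg, edist_dist,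
    ENNReal.ofReal_pow (by norm_num)]
  norm_num

theorem sum_range_two_mul {M : Type*} [AddCommMonoid M] (f : ℕ → M) (n : ℕ) :
    ∑ j ∈ Finset.range (2 * n), f j = ∑ j ∈ Finset.range n, (f (2 * j) + f (2 * j + 1)) := by
  induction n with
  | zero => simp
  | succ n ih =>
    rw [Finset.sum_range_succ, ← ih, show 2 * (n + 1) = 2 * n + 1 + 1 by ring,
      Finset.sum_range_succ, Finset.sum_range_succ]
    rw [add_assoc]

theorem dyEn_le_succ (n : ℕ) (γ : UCurve X) : dyEn n γ ≤ dyEn (n + 1) γ := by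
  rw [dyEn_eq_ofReal, dyEn_eq_ofReal]
  refine ENNReal.ofReal_le_ofReal ?_
  rw [pow_succ' (2 : ℕ) n, sum_range_two_mul]
  refine Finset.sum_le_sum fun j _ => ?_
  have e1 : ((2 * j : ℕ) : ℝ) / 2 ^ (n + 1) = (j : ℝ) / 2 ^ n := by
    push_cast; rw [pow_succ']; rw [mul_div_mul_left _ _ (by norm_num)]
  have e2 : (((2 * j + 1 : ℕ) : ℝ) + 1) / 2 ^ (n + 1) = ((j : ℝ) + 1) / 2 ^ n := by
    push_cast; rw [pow_succ']
    rw [show (2 * (j : ℝ) + 1 + 1) = 2 * ((j : ℝ) + 1) by ring, mul_div_mul_left _ _ (by norm_num)]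
  have e3 : (((2 * j : ℕ) : ℝ) + 1) / 2 ^ (n + 1) = ((2 * j + 1 : ℕ) : ℝ) / 2 ^ (n + 1) := by
    push_cast; rfl
  have tri : dPiece n j γ ≤ dPiece (n + 1) (2 * j) γ + dPiece (n + 1) (2 * j + 1) γ := by
    unfold dPiece
    rw [e1, e2, e3]
    exact dist_triangle _ _ _
  have h0 : 0 ≤ dPiece n j γ := dist_nonneg
  have h1 : 0 ≤ dPiece (n + 1) (2 * j) γ := dist_nonneg
  have h2 : 0 ≤ dPiece (n + 1) (2 * j + 1) γ := dist_nonneg
  set a := dPiece n j γ
  set b := dPiece (n + 1) (2 * j) γ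
  set c := dPiece (n + 1) (2 * j + 1) γ
  have hab : a ^ 2 ≤ 2 * (b ^ 2 + c ^ 2) := by nlinarith [sq_nonneg (b - c)]
  calc (2 : ℝ) ^ n * a ^ 2 ≤ 2 ^ n * (2 * (b ^ 2 + c ^ 2)) :=
        mul_le_mul_of_nonneg_left hab (by positivity)
    _ = 2 ^ (n + 1) * b ^ 2 + 2 ^ (n + 1) * c ^ 2 := by ring

theorem dyEn_mono (γ : UCurve X) : Monotone fun n => dyEn n γ :=
  monotone_nat_of_le_succ fun n => dyEn_le_succ n γ

theorem lowerSemicontinuous_cEn : LowerSemicontinuous (cEn : UCurve X → ℝ≥0∞) := by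
  unfold cEn
  exact lowerSemicontinuous_iSup fun n => (continuous_dyEn n).lowerSemicontinuous

theorem measurable_cEn : Measurable (cEn : UCurve X → ℝ≥0∞) :=
  lowerSemicontinuous_cEn.measurable

theorem dPiece_csGeodesic {γ : UCurve X} (h : IsCSGeodesic γ) (n j : ℕ) (hj : j < 2 ^ n) :
    dPiece n j γ = (1 / 2 ^ n) * dist (γ.toMap 0) (γ.toMap 1) := by
  have hj' : (j : ℝ) + 1 ≤ 2 ^ n := by exact_mod_cast hj
  have hp : (0 : ℝ) < 2 ^ n := by positivity
  have hm1 : (j : ℝ) / 2 ^ n ∈ Icc (0 : ℝ) 1 := ⟨by positivity, by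
    rw [div_le_one hp]; linarith⟩
  have hm2 : ((j : ℝ) + 1) / 2 ^ n ∈ Icc (0 : ℝ) 1 := ⟨by positivity, by
    rw [div_le_one hp]; linarith⟩
  unfold dPiece
  rw [ext_eq_of_mem γ hm1, ext_eq_of_mem γ hm2, h]
  congr 1
  simp only
  rw [← sub_div]
  rw [show (j : ℝ) - (j + 1) = -1 by ring, abs_div, abs_neg, abs_one, abs_of_pos hp]

theorem cEn_csGeodesic {γ : UCurve X} (h : IsCSGeodesic γ) :
    cEn γ = edist (γ.toMap 0) (γ.toMap 1) ^ 2 := by
  have key : ∀ n, dyEn n γ = edist (γ.toMap 0) (γ.toMap 1) ^ 2 := by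
    intro n
    rw [dyEn_eq_ofReal, edist_dist, ← ENNReal.ofReal_pow dist_nonneg]
    congr 1
    have : ∀ j ∈ Finset.range (2 ^ n), (2 : ℝ) ^ n * dPiece n j γ ^ 2 =
        (1 / 2 ^ n) * dist (γ.toMap 0) (γ.toMap 1) ^ 2 := by
      intro j hj
      rw [dPiece_csGeodesic h n j (Finset.mem_range.1 hj)]
      field_simp
    rw [Finset.sum_congr rfl this, Finset.sum_const, Finset.card_range, nsmul_eq_mul]
    push_cast
    field_simp
  unfold cEn
  simp only [key, ciSup_const]

/-- discrete Cauchy-Schwarz along dyadic points. -/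
theorem dist_sq_le_dyadic (γ : UCurve X) (n i j : ℕ) (hij : i ≤ j) (hj : j ≤ 2 ^ n) :
    edist (γ.ext ((i : ℝ) / 2 ^ n)) (γ.ext ((j : ℝ) / 2 ^ n)) ^ 2 ≤
      dyEn n γ * ENNReal.ofReal (((j : ℝ) - i) / 2 ^ n) := by
  rw [dyEn_eq_ofReal, edist_dist, ← ENNReal.ofReal_pow dist_nonneg, ← ENNReal.ofReal_mul
    (Finset.sum_nonneg fun j _ => by positivity)]
  refine ENNReal.ofReal_le_ofReal ?_
  have h1 : dist (γ.ext ((i : ℝ) / 2 ^ n)) (γ.ext ((j : ℝ) / 2 ^ n)) ≤
      ∑ l ∈ Finset.Ico i j, dPiece n l γ := by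
    have := dist_le_Ico_sum_dist (fun l : ℕ => γ.ext ((l : ℝ) / 2 ^ n)) hij
    refine this.trans (le_of_eq ?_)
    refine Finset.sum_congr rfl fun l _ => ?_
    unfold dPiece
    push_cast
    rfl
  have h2 : (∑ l ∈ Finset.Ico i j, dPiece n l γ) ^ 2 ≤
      ((j : ℝ) - i) * ∑ l ∈ Finset.Ico i j, dPiece n l γ ^ 2 := by
    have := sq_sum_le_card_mul_sum_sq (s := Finset.Ico i j) (f := fun l => dPiece n l γ)
    rw [Nat.card_Ico, Nat.cast_sub hij] at this
    exact this
  have h3 : ∑ l ∈ Finset.Ico i j, dPiece n l γ ^ 2 ≤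
      ∑ l ∈ Finset.range (2 ^ n), dPiece n l γ ^ 2 := by
    refine Finset.sum_le_sum_of_subset_of_nonneg ?_ fun l _ _ => by positivity
    intro l hl
    rw [Finset.mem_Ico] at hl
    exact Finset.mem_range.2 (lt_of_lt_of_le hl.2 hj)
  have hij' : (0 : ℝ) ≤ (j : ℝ) - i := by
    have : (i : ℝ) ≤ j := by exact_mod_cast hij
    linarith
  calc dist (γ.ext ((i : ℝ) / 2 ^ n)) (γ.ext ((j : ℝ) / 2 ^ n)) ^ 2
      ≤ (∑ l ∈ Finset.Ico i j, dPiece n l γ) ^ 2 := pow_le_pow_left₀ dist_nonneg h1 2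
    _ ≤ ((j : ℝ) - i) * ∑ l ∈ Finset.Ico i j, dPiece n l γ ^ 2 := h2
    _ ≤ ((j : ℝ) - i) * ∑ l ∈ Finset.range (2 ^ n), dPiece n l γ ^ 2 :=
        mul_le_mul_of_nonneg_left h3 hij'
    _ = (∑ l ∈ Finset.range (2 ^ n), 2 ^ n * dPiece n l γ ^ 2) * (((j : ℝ) - i) / 2 ^ n) := by
        rw [← Finset.mul_sum]
        field_simp

/-- dyadic approximation from below. -/
def dyFl (n : ℕ) (t : ℝ) : ℕ := ⌊t * 2 ^ n⌋₊

theorem dyFl_le {n : ℕ} {t : ℝ} (ht : 0 ≤ t) : (dyFl n t : ℝ) / 2 ^ n ≤ t := by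
  rw [div_le_iff₀ (by positivity)]
  exact Nat.floor_le (by positivity)

theorem lt_dyFl {n : ℕ} (t : ℝ) : t < ((dyFl n t : ℝ) + 1) / 2 ^ n := by
  rw [lt_div_iff₀ (by positivity)]
  exact Nat.lt_floor_add_one _

theorem dyFl_le_pow {n : ℕ} {t : ℝ} (ht : t ≤ 1) : dyFl n t ≤ 2 ^ n := by
  have h2 : t * 2 ^ n ≤ ((2 ^ n : ℕ) : ℝ) := by
    push_cast
    have : (0 : ℝ) < 2 ^ n := by positivity
    nlinarith
  have := Nat.floor_le_floor h2
  rwa [Nat.floor_natCast] at this

theorem dyFl_mono {n : ℕ} {s t : ℝ} (h : s ≤ t) : dyFl n s ≤ dyFl n t :=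
  Nat.floor_le_floor (mul_le_mul_of_nonneg_right h (by positivity))

theorem tendsto_dyFl {t : ℝ} (ht : 0 ≤ t) :
    Tendsto (fun n => (dyFl n t : ℝ) / 2 ^ n) atTop (𝓝 t) := by
  have h0 : Tendsto (fun n : ℕ => t - (1 / 2 : ℝ) ^ n) atTop (𝓝 t) := by
    have := (tendsto_pow_atTop_nhds_zero_of_lt_one (r := (1 / 2 : ℝ)) (by norm_num)
      (by norm_num)).const_sub t
    simpa using this
  refine tendsto_of_tendsto_of_tendsto_of_le_of_le h0 tendsto_const_nhds ?_ ?_
  · intro n
    have := lt_dyFl (n := n) t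
    simp only
    rw [add_div] at this
    have e : (1 / 2 : ℝ) ^ n = 1 / 2 ^ n := by rw [div_pow, one_pow]
    rw [e]
    linarith
  · intro n
    exact dyFl_le ht

theorem edist_sq_le_cEn (γ : UCurve X) (s t : unitInterval) :
    edist (γ.toMap s) (γ.toMap t) ^ 2 ≤ cEn γ * ENNReal.ofReal |(s : ℝ) - t| := by
  wlog hst : (s : ℝ) ≤ t generalizing s t
  · rw [edist_comm, abs_sub_comm]
    exact this t s (le_of_not_ge hst)
  rcases eq_or_lt_of_le hst with h | h
  · have : s = t := Subtype.ext h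
    rw [this]; simp
  rcases eq_or_ne (cEn γ) ⊤ with hE | hE
  · rw [hE, ENNReal.top_mul]
    · exact le_top
    · simpa using sub_ne_zero.2 h.ne
  have hs0 := s.2.1
  have ht0 := t.2.1
  have hlim1 : Tendsto (fun n => edist (γ.ext ((dyFl n s : ℝ) / 2 ^ n))
      (γ.ext ((dyFl n t : ℝ) / 2 ^ n)) ^ 2) atTop (𝓝 (edist (γ.toMap s) (γ.toMap t) ^ 2)) := by
    rw [← ext_coe γ s, ← ext_coe γ t]
    refine ((ENNReal.continuous_pow 2).tendsto _).comp ?_
    exact (((continuous_ext_right γ).tendsto _).comp (tendsto_dyFl hs0)).edist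
      (((continuous_ext_right γ).tendsto _).comp (tendsto_dyFl ht0))
  have hlim2 : Tendsto (fun n => cEn γ * ENNReal.ofReal (((dyFl n t : ℝ) - dyFl n s) / 2 ^ n))
      atTop (𝓝 (cEn γ * ENNReal.ofReal |(s : ℝ) - t|)) := by
    refine ENNReal.Tendsto.const_mul ?_ (Or.inr hE)
    refine (ENNReal.continuous_ofReal.tendsto _).comp ?_
    have : |(s : ℝ) - t| = t - s := by rw [abs_sub_comm, abs_of_nonneg]; linarith
    rw [this]
    have := (tendsto_dyFl ht0).sub (tendsto_dyFl hs0)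
    refine this.congr fun n => ?_
    rw [sub_div]
  refine le_of_tendsto_of_tendsto' hlim1 hlim2 fun n => ?_
  refine (dist_sq_le_dyadic γ n _ _ (dyFl_mono hst) (dyFl_le_pow t.2.2)).trans ?_
  exact mul_le_mul' (le_iSup (fun n => dyEn n γ) n) le_rfl

/-- compactness of the sublevel sets of the energy. -/
theorem isCompact_cEn_le [ProperSpace X] {K : Set X} (hK : IsCompact K) (A : ℝ≥0) :
    IsCompact {γ : UCurve X | γ.toMap 0 ∈ K ∧ cEn γ ≤ A} := by
  refine (isCompact_hoelder hK A).of_isClosed_subset ?_ ?_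
  · exact (hK.isClosed.preimage (continuous_ev 0)).inter
      (lowerSemicontinuous_cEn.isClosed_preimage _)
  · rintro γ ⟨h0, hE⟩
    refine ⟨h0, fun s t => ?_⟩
    have := (edist_sq_le_cEn γ s t).trans (mul_le_mul' hE le_rfl)
    rw [edist_dist, ← ENNReal.ofReal_pow dist_nonneg] at this
    rw [show (A : ℝ≥0∞) = ENNReal.ofReal (A : ℝ) by simp,
      ← ENNReal.ofReal_mul (NNReal.coe_nonneg A)] at this
    exact (ENNReal.ofReal_le_ofReal_iff (by positivity)).1 this

theorem lintegral_Icc_add (f : ℝ → ℝ≥0∞) {a b c : ℝ} (hab : a ≤ b) (hbc : b ≤ c) :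
    (∫⁻ t in Icc a b, f t) + (∫⁻ t in Icc b c, f t) = ∫⁻ t in Icc a c, f t := by
  rw [setLIntegral_congr (Ioc_ae_eq_Icc (a := a) (b := b)).symm,
    setLIntegral_congr (Ioc_ae_eq_Icc (a := b) (b := c)).symm,
    setLIntegral_congr (Ioc_ae_eq_Icc (a := a) (b := c)).symm,
    ← Ioc_union_Ioc_eq_Ioc hab hbc, lintegral_union measurableSet_Ioc]
  rw [Set.disjoint_left]
  intro x hx hx'
  exact absurd hx.2 (not_le.2 hx'.1)

theorem sum_lintegral_Icc (f : ℝ → ℝ≥0∞) {c : ℕ → ℝ} (hc : Monotone c) (J : ℕ) :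
    ∑ j ∈ Finset.range J, ∫⁻ t in Icc (c j) (c (j + 1)), f t = ∫⁻ t in Icc (c 0) (c J), f t := by
  induction J with
  | zero => simp
  | succ J ih =>
    rw [Finset.sum_range_succ, ih, lintegral_Icc_add f (hc (Nat.zero_le _)) (hc (Nat.le_succ _))]

theorem sum_lintegral_dyadic (f : ℝ → ℝ≥0∞) (n : ℕ) :
    ∑ j ∈ Finset.range (2 ^ n), ∫⁻ t in Icc ((j : ℝ) / 2 ^ n) (((j : ℝ) + 1) / 2 ^ n), f t =
      ∫⁻ t in Icc (0 : ℝ) 1, f t := by
  have h := sum_lintegral_Icc f (c := fun j : ℕ => (j : ℝ) / 2 ^ n)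
    (fun i j hij => div_le_div_of_nonneg_right (by exact_mod_cast hij) (by positivity)) (2 ^ n)
  simp only [Nat.cast_zero, zero_div, Nat.cast_pow, Nat.cast_ofNat] at h
  rw [div_self (by positivity)] at h
  rw [← h]
  refine Finset.sum_congr rfl fun j _ => ?_
  push_cast
  rfl

/-- Cauchy-Schwarz on an interval. -/
theorem sq_lintegral_Icc_le {a : ℝ → ℝ≥0∞} (ha : Measurable a) (s t : ℝ) :
    (∫⁻ r in Icc s t, a r) ^ 2 ≤ ENNReal.ofReal (t - s) * ∫⁻ r in Icc s t, a r ^ 2 := by
  have h := ENNReal.lintegral_mul_le_Lp_mul_Lq (volume.restrict (Icc s t))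
    (Real.HolderConjugate.two_two) (f := fun _ => 1) (g := a) aemeasurable_const ha.aemeasurable
  simp only [Pi.mul_apply, one_mul, ENNReal.one_rpow, lintegral_const, Measure.restrict_apply
    MeasurableSet.univ, univ_inter, Real.volume_Icc] at h
  calc (∫⁻ r in Icc s t, a r) ^ 2
      ≤ (ENNReal.ofReal (t - s) ^ (1 / (2 : ℝ)) *
          (∫⁻ r in Icc s t, a r ^ (2 : ℝ)) ^ (1 / (2 : ℝ))) ^ 2 := pow_le_pow_left' h 2
    _ = ENNReal.ofReal (t - s) * ∫⁻ r in Icc s t, a r ^ 2 := by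
        rw [mul_pow, ← ENNReal.rpow_natCast, ← ENNReal.rpow_natCast, ← ENNReal.rpow_mul,
          ← ENNReal.rpow_mul]
        norm_num

/-- the energy is bounded by the square integral of any speed bound. -/
theorem cEn_le_of_bound {γ : UCurve X} {a : ℝ → ℝ≥0∞} (ha : Measurable a)
    (h : ∀ s t : unitInterval, (s : ℝ) ≤ (t : ℝ) →
      edist (γ.toMap s) (γ.toMap t) ≤ ∫⁻ r in Icc (s : ℝ) (t : ℝ), a r) :
    cEn γ ≤ ∫⁻ r in Icc (0 : ℝ) 1, a r ^ 2 := by
  refine iSup_le fun n => ?_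
  rw [← sum_lintegral_dyadic _ n]
  unfold dyEn
  refine Finset.sum_le_sum fun j hj => ?_
  have hp : (0 : ℝ) < 2 ^ n := by positivity
  have hj' : (j : ℝ) + 1 ≤ 2 ^ n := by exact_mod_cast Finset.mem_range.1 hj
  have hm1 : (j : ℝ) / 2 ^ n ∈ Icc (0 : ℝ) 1 := ⟨by positivity, by
    rw [div_le_one hp]; linarith⟩
  have hm2 : ((j : ℝ) + 1) / 2 ^ n ∈ Icc (0 : ℝ) 1 := ⟨by positivity, by
    rw [div_le_one hp]; linarith⟩
  rw [ext_eq_of_mem γ hm1, ext_eq_of_mem γ hm2]
  have h1 := h ⟨_, hm1⟩ ⟨_, hm2⟩ (div_le_div_of_nonneg_right (by linarith) hp.le)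
  have h2 := (pow_le_pow_left' h1 2).trans (sq_lintegral_Icc_le ha _ _)
  refine (mul_le_mul' le_rfl h2).trans (le_of_eq ?_)
  simp only
  rw [← mul_assoc]
  have : (2 : ℝ≥0∞) ^ n * ENNReal.ofReal (((j : ℝ) + 1) / 2 ^ n - (j : ℝ) / 2 ^ n) = 1 := by
    rw [← sub_div, show (j : ℝ) + 1 - j = 1 by ring]
    rw [show (2 : ℝ≥0∞) ^ n = ENNReal.ofReal (2 ^ n) by
      rw [ENNReal.ofReal_pow (by norm_num)]; norm_num]
    rw [← ENNReal.ofReal_mul (by positivity), mul_one_div_cancel (by positivity)]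
    simp
  rw [this, one_mul]

/-- the speed function given by the definition of `HasL2Speed` bounds the upper speed a.e. -/
theorem upperSpeed_le_of_bound {γ : UCurve X} {a : ℝ → ℝ≥0∞} (ha : Measurable a)
    (hfin : (∫⁻ r in Icc (0 : ℝ) 1, a r ^ 2) < ⊤)
    (h : ∀ s t : unitInterval, (s : ℝ) ≤ (t : ℝ) →
      edist (γ.toMap s) (γ.toMap t) ≤ ∫⁻ r in Icc (s : ℝ) (t : ℝ), a r) :
    ∀ᵐ t ∂(volume.restrict (Icc (0 : ℝ) 1)), upperSpeed γ t ≤ a t := by
  have hfin1 : (∫⁻ r in Icc (0 : ℝ) 1, a r) < ⊤ := by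
    have h1 := sq_lintegral_Icc_le ha 0 1
    simp only [sub_zero, ENNReal.ofReal_one, one_mul] at h1
    by_contra hcon
    rw [not_lt, top_le_iff] at hcon
    rw [hcon] at h1
    simp only [ne_eq, OfNat.ofNat_ne_zero, not_false_eq_true, ENNReal.top_pow, top_le_iff] at h1
    exact hfin.ne h1
  set b : ℝ → ℝ≥0∞ := (Icc (0 : ℝ) 1).indicator a with hb
  have hbm : Measurable b := ha.indicator measurableSet_Icc
  have hbfin : (∫⁻ r, b r) ≠ ⊤ := by
    rw [hb, lintegral_indicator measurableSet_Icc]; exact hfin1.ne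
  have hleb := VitaliFamily.ae_tendsto_lintegral_div'
    (IsUnifLocDoublingMeasure.vitaliFamily (volume : Measure ℝ) 1) hbm hbfin
  have hb0 : ∀ᵐ t ∂(volume.restrict (Icc (0 : ℝ) 1)), t ∈ Ioo (0 : ℝ) 1 := by
    rw [ae_restrict_iff' measurableSet_Icc]
    have h0 : ∀ᵐ t : ℝ, t ≠ 0 := by simp [ae_iff]
    have h1 : ∀ᵐ t : ℝ, t ≠ 1 := by simp [ae_iff]
    filter_upwards [h0, h1] with t ht0 ht1 ht
    exact ⟨lt_of_le_of_ne ht.1 (Ne.symm ht0), lt_of_le_of_ne ht.2 ht1⟩
  filter_upwards [ae_restrict_of_ae hleb, hb0] with t htl ht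
  have hbt : b t = a t := indicator_of_mem (Ioo_subset_Icc_self ht) a
  rw [hbt] at htl
  have hR := htl.comp (Real.tendsto_Icc_vitaliFamily_right t)
  have hL := htl.comp (Real.tendsto_Icc_vitaliFamily_left t)
  unfold upperSpeed
  have hsplit : (𝓝[≠] t) = 𝓝[<] t ⊔ 𝓝[>] t := by
    rw [← nhdsWithin_union, Iio_union_Ioi]
  rw [hsplit, limsup_sup_filter]
  have key : ∀ u v : ℝ, 0 ≤ u → u < v → v ≤ 1 →
      ENNReal.ofReal (dist (γ.ext u) (γ.ext v) / (v - u)) ≤
        (∫⁻ y in Icc u v, b y) / volume (Icc u v) := by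
    intro u v hu huv hv
    have hmu : u ∈ Icc (0 : ℝ) 1 := ⟨hu, huv.le.trans hv⟩
    have hmv : v ∈ Icc (0 : ℝ) 1 := ⟨hu.trans huv.le, hv⟩
    have h1 := h ⟨u, hmu⟩ ⟨v, hmv⟩ huv.le
    rw [← ext_eq_of_mem γ hmu, ← ext_eq_of_mem γ hmv] at h1
    have h2 : ∫⁻ y in Icc u v, b y = ∫⁻ y in Icc u v, a y := by
      refine setLIntegral_congr_fun measurableSet_Icc fun y hy => ?_
      exact indicator_of_mem (show y ∈ Icc (0 : ℝ) 1 from ⟨hu.trans hy.1, hy.2.trans hv⟩) a
    rw [h2, Real.volume_Icc, ENNReal.ofReal_div_of_pos (by linarith), ← edist_dist]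
    exact ENNReal.div_le_div_right h1 _
  refine sup_le ?_ ?_
  · refine le_of_le_of_eq (limsup_le_limsup ?_) hL.limsup_eq
    have : ∀ᶠ s in 𝓝[<] t, s ∈ Ioo 0 t := Ioo_mem_nhdsLT ht.1
    filter_upwards [this] with s hs
    have := key s t hs.1.le hs.2 ht.2.le
    rw [abs_sub_comm, abs_of_pos (by linarith [hs.2])]
    exact this
  · refine le_of_le_of_eq (limsup_le_limsup ?_) hR.limsup_eq
    have : ∀ᶠ s in 𝓝[>] t, s ∈ Ioo t 1 := Ioo_mem_nhdsGT ht.2
    filter_upwards [this] with s hs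
    have := key t s ht.1.le hs.1 hs.2.le
    rw [abs_of_pos (by linarith [hs.1]), dist_comm]
    exact this



/-- the piecewise constant dyadic speed. -/
def dySpeed (γ : UCurve X) (n : ℕ) (t : ℝ) : ℝ := 2 ^ n * dPiece n (dyFl n t) γ

theorem dySpeed_nonneg (γ : UCurve X) (n : ℕ) (t : ℝ) : 0 ≤ dySpeed γ n t :=
  mul_nonneg (by positivity) dist_nonneg

theorem measurable_dySpeed (γ : UCurve X) (n : ℕ) : Measurable (dySpeed γ n) := by
  have h1 : Measurable (fun t : ℝ => dyFl n t) := by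
    unfold dyFl
    exact (measurable_id.mul_const _).nat_floor
  exact (measurable_from_nat (f := fun j => (2 : ℝ) ^ n * dPiece n j γ)).comp h1

theorem dyFl_eq {n j : ℕ} {t : ℝ} (ht : t ∈ Ico ((j : ℝ) / 2 ^ n) (((j : ℝ) + 1) / 2 ^ n)) :
    dyFl n t = j := by
  have hp : (0 : ℝ) < 2 ^ n := by positivity
  have h1 := (div_le_iff₀ hp).1 ht.1
  have h2 := (lt_div_iff₀ hp).1 ht.2
  unfold dyFl
  rw [Nat.floor_eq_iff (le_trans (Nat.cast_nonneg j) h1)]
  exact ⟨h1, h2⟩

theorem lintegral_dySpeed_piece (γ : UCurve X) (n j : ℕ) (F : ℝ≥0∞ → ℝ≥0∞) :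
    ∫⁻ t in Icc ((j : ℝ) / 2 ^ n) (((j : ℝ) + 1) / 2 ^ n), F (ENNReal.ofReal (dySpeed γ n t)) =
      F (ENNReal.ofReal (2 ^ n * dPiece n j γ)) * ENNReal.ofReal (1 / 2 ^ n) := by
  rw [setLIntegral_congr (Ico_ae_eq_Icc (a := (j : ℝ) / 2 ^ n)
    (b := ((j : ℝ) + 1) / 2 ^ n)).symm]
  rw [setLIntegral_congr_fun (g := fun _ => F (ENNReal.ofReal (2 ^ n * dPiece n j γ)))
    measurableSet_Ico]
  · rw [lintegral_const, Measure.restrict_apply MeasurableSet.univ, univ_inter, Real.volume_Ico,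
      ← sub_div, show (j : ℝ) + 1 - j = 1 by ring]
  · intro t ht
    simp only [dySpeed, dyFl_eq ht]

theorem lintegral_dySpeed_sq (γ : UCurve X) (n : ℕ) :
    ∫⁻ t in Icc (0 : ℝ) 1, ENNReal.ofReal (dySpeed γ n t) ^ 2 = dyEn n γ := by
  rw [← sum_lintegral_dyadic _ n, dyEn_eq_ofReal,
    ENNReal.ofReal_sum_of_nonneg (fun j _ => by positivity)]
  refine Finset.sum_congr rfl fun j _ => ?_
  rw [lintegral_dySpeed_piece γ n j (fun x => x ^ 2), ← ENNReal.ofReal_pow (by
    exact mul_nonneg (by positivity) dist_nonneg), ← ENNReal.ofReal_mul (by positivity)]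
  congr 1
  field_simp

theorem edist_le_lintegral_dySpeed (γ : UCurve X) (n i j : ℕ) (hij : i ≤ j) :
    edist (γ.ext ((i : ℝ) / 2 ^ n)) (γ.ext ((j : ℝ) / 2 ^ n)) ≤
      ∫⁻ t in Icc ((i : ℝ) / 2 ^ n) ((j : ℝ) / 2 ^ n), ENNReal.ofReal (dySpeed γ n t) := by
  induction j, hij using Nat.le_induction with
  | base => simp
  | succ j hij ih =>
    have hp : (0 : ℝ) < 2 ^ n := by positivity
    have h1 : (i : ℝ) / 2 ^ n ≤ (j : ℝ) / 2 ^ n :=
      div_le_div_of_nonneg_right (by exact_mod_cast hij) hp.le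
    have h2 : (j : ℝ) / 2 ^ n ≤ ((j : ℝ) + 1) / 2 ^ n :=
      div_le_div_of_nonneg_right (by linarith) hp.le
    push_cast
    rw [← lintegral_Icc_add _ h1 h2]
    refine (edist_triangle _ (γ.ext ((j : ℝ) / 2 ^ n)) _).trans (add_le_add ih ?_)
    have hd : 0 ≤ dPiece n j γ := dist_nonneg
    rw [lintegral_dySpeed_piece γ n j (fun x => x), ← ENNReal.ofReal_mul
      (mul_nonneg (by positivity) hd), edist_dist]
    refine ENNReal.ofReal_le_ofReal (le_of_eq ?_)
    unfold dPiece
    field_simp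

theorem exists_speed_of_cEn {γ : UCurve X} (h : cEn γ < ⊤) :
    ∃ a : ℝ → ℝ≥0∞, Measurable a ∧ (∫⁻ r in Icc (0 : ℝ) 1, a r ^ 2) ≤ cEn γ ∧
      ∀ s t : unitInterval, (s : ℝ) ≤ (t : ℝ) →
        edist (γ.toMap s) (γ.toMap t) ≤ ∫⁻ r in Icc (s : ℝ) (t : ℝ), a r := by
  obtain ⟨a, φ, ham, hφ, haM, hlim⟩ := exists_weak_limit (dySpeed γ) (measurable_dySpeed γ)
    (dySpeed_nonneg γ) (cEn γ) h.ne (fun n => by
      rw [lintegral_dySpeed_sq]; exact le_iSup (fun n => dyEn n γ) n)
  refine ⟨a, ham, haM, fun s t hst => ?_⟩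
  refine le_of_forall_lt fun c hc => ?_
  obtain ⟨c', hcc', hc'⟩ := exists_between hc
  refine lt_of_lt_of_le hcc' ?_
  refine hlim s t c' s.2.1 hst t.2.2 ?_
  refine hφ.tendsto_atTop.eventually (p := fun n => c' ≤ ∫⁻ r in Icc (s : ℝ) t,
    ENNReal.ofReal (dySpeed γ n r)) ?_
  -- approximations
  set sn : ℕ → ℝ := fun n => (dyFl n s : ℝ) / 2 ^ n with hsn
  set tn : ℕ → ℝ := fun n => (dyFl n t : ℝ) / 2 ^ n with htn
  have hls : Tendsto sn atTop (𝓝 s) := tendsto_dyFl s.2.1
  have hlt : Tendsto tn atTop (𝓝 t) := tendsto_dyFl t.2.1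
  have h1 : Tendsto (fun n => edist (γ.ext (sn n)) (γ.ext (tn n))) atTop
      (𝓝 (edist (γ.toMap s) (γ.toMap t))) := by
    rw [← ext_coe γ s, ← ext_coe γ t]
    exact (((continuous_ext_right γ).tendsto _).comp hls).edist
      (((continuous_ext_right γ).tendsto _).comp hlt)
  set e : ℕ → ℝ≥0∞ := fun n => (ENNReal.ofReal (s - sn n) * cEn γ) ^ (1 / 2 : ℝ) with he
  have h2 : Tendsto e atTop (𝓝 0) := by
    have h3 : Tendsto (fun n => ENNReal.ofReal (s - sn n) * cEn γ) atTop (𝓝 0) := by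
      have h4 : Tendsto (fun n => ENNReal.ofReal (s - sn n)) atTop (𝓝 0) := by
        have := (ENNReal.continuous_ofReal.tendsto _).comp (hls.const_sub (s : ℝ))
        rwa [sub_self, ENNReal.ofReal_zero] at this
      have := ENNReal.Tendsto.mul_const h4 (Or.inr h.ne)
      simpa using this
    have := (ENNReal.continuous_rpow_const (y := (1 / 2 : ℝ))).tendsto 0 |>.comp h3
    rwa [ENNReal.zero_rpow_of_pos (by norm_num)] at this
  have h5 : Tendsto (fun n => edist (γ.ext (sn n)) (γ.ext (tn n)) - e n) atTop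
      (𝓝 (edist (γ.toMap s) (γ.toMap t))) := by
    have := ENNReal.Tendsto.sub h1 h2 (Or.inl (edist_ne_top _ _))
    simpa using this
  filter_upwards [h5.eventually_const_lt hc'] with n hn
  refine hn.le.trans ?_
  rw [tsub_le_iff_left]
  have hsn' : sn n ≤ s := dyFl_le s.2.1
  have htn' : tn n ≤ t := dyFl_le t.2.1
  have hstn : sn n ≤ tn n := div_le_div_of_nonneg_right (by exact_mod_cast dyFl_mono hst)
    (by positivity)
  calc edist (γ.ext (sn n)) (γ.ext (tn n))
      ≤ ∫⁻ r in Icc (sn n) (tn n), ENNReal.ofReal (dySpeed γ n r) :=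
        edist_le_lintegral_dySpeed γ n _ _ (dyFl_mono hst)
    _ ≤ ∫⁻ r in Icc (sn n) t, ENNReal.ofReal (dySpeed γ n r) :=
        lintegral_mono_set (Icc_subset_Icc le_rfl htn')
    _ = (∫⁻ r in Icc (sn n) s, ENNReal.ofReal (dySpeed γ n r)) +
          ∫⁻ r in Icc (s : ℝ) t, ENNReal.ofReal (dySpeed γ n r) :=
        (lintegral_Icc_add _ hsn' hst).symm
    _ ≤ e n + ∫⁻ r in Icc (s : ℝ) t, ENNReal.ofReal (dySpeed γ n r) := by
        refine add_le_add ?_ le_rfl
        have h6 := sq_lintegral_Icc_le (measurable_dySpeed γ n).ennreal_ofReal (sn n) s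
        have h7 : ∫⁻ r in Icc (sn n) s, ENNReal.ofReal (dySpeed γ n r) ^ 2 ≤ cEn γ := by
          calc ∫⁻ r in Icc (sn n) s, ENNReal.ofReal (dySpeed γ n r) ^ 2
              ≤ ∫⁻ r in Icc (0 : ℝ) 1, ENNReal.ofReal (dySpeed γ n r) ^ 2 :=
                lintegral_mono_set (Icc_subset_Icc (by positivity) s.2.2)
            _ = dyEn n γ := lintegral_dySpeed_sq γ n
            _ ≤ cEn γ := le_iSup (fun n => dyEn n γ) n
        have h8 := h6.trans (mul_le_mul' le_rfl h7)
        have h9 := ENNReal.rpow_le_rpow h8 (by norm_num : (0 : ℝ) ≤ 1 / 2)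
        rw [← ENNReal.rpow_natCast, ← ENNReal.rpow_mul] at h9
        norm_num at h9
        rw [he]
        norm_num
        exact h9

theorem hasL2Speed_of_cEn {γ : UCurve X} (h : cEn γ < ⊤) : HasL2Speed γ := by
  obtain ⟨a, ham, haM, hb⟩ := exists_speed_of_cEn h
  exact ⟨a, ham, lt_of_le_of_lt haM h, hb⟩

theorem lintegral_upperSpeed_sq_le_cEn (γ : UCurve X) (h : cEn γ < ⊤) :
    ∫⁻ t in Icc (0 : ℝ) 1, upperSpeed γ t ^ 2 ≤ cEn γ := by
  obtain ⟨a, ham, haM, hb⟩ := exists_speed_of_cEn h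
  refine le_trans (lintegral_mono_ae ?_) haM
  filter_upwards [upperSpeed_le_of_bound ham (lt_of_le_of_lt haM h) hb] with t ht
  exact pow_le_pow_left' ht 2

end Energy

section Tight

variable {X : Type*} [MetricSpace X] [ProperSpace X] [MeasurableSpace X] [BorelSpace X]

/-- plans with a fixed initial marginal and bounded mean energy are tight. -/
theorem tight_of_energy (μ : Measure X) [IsProbabilityMeasure μ] (A : ℝ≥0) (ε : ℝ≥0∞)
    (hε : 0 < ε) :
    ∃ K : Set (UCurve X), IsCompact K ∧ ∀ P : Measure (UCurve X), IsProbabilityMeasure P →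
      timeMarginal P 0 = μ → ∫⁻ γ, cEn γ ∂P ≤ A → P Kᶜ ≤ ε := by
  rcases eq_or_ne ε ⊤ with h | hεt
  · exact ⟨∅, isCompact_empty, fun P _ _ _ => by rw [h]; exact le_top⟩
  lift ε to ℝ≥0 using hεt
  have hε' : 0 < ε := by exact_mod_cast hε
  have hε2 : (0 : ℝ≥0∞) < ((ε / 2 : ℝ≥0) : ℝ≥0∞) := by
    exact_mod_cast half_pos hε'
  obtain ⟨K₀, hK₀, hμK₀⟩ : ∃ K : Set X, IsCompact K ∧ μ Kᶜ ≤ ((ε / 2 : ℝ≥0) : ℝ≥0∞) := by
    have : IsTightMeasureSet ({μ} : Set (Measure X)) := isTightMeasureSet_singleton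
    rw [isTightMeasureSet_iff_exists_isCompact_measure_compl_le] at this
    obtain ⟨K, hK, h⟩ := this _ hε2
    exact ⟨K, hK, h μ rfl⟩
  set R : ℝ≥0 := 2 * A / ε + 1 with hR
  refine ⟨{γ : UCurve X | γ.toMap 0 ∈ K₀ ∧ cEn γ ≤ R}, isCompact_cEn_le hK₀ R, ?_⟩
  intro P hP hP0 hPA
  have hsub : {γ : UCurve X | γ.toMap 0 ∈ K₀ ∧ cEn γ ≤ R}ᶜ ⊆
      (fun γ : UCurve X => γ.toMap 0) ⁻¹' K₀ᶜ ∪ {γ | (R : ℝ≥0∞) ≤ cEn γ} := by
    intro γ hγ
    by_cases h0 : γ.toMap 0 ∈ K₀
    · right
      by_contra h1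
      exact hγ ⟨h0, (not_le.1 h1).le⟩
    · left; exact h0
  have h1 : P ((fun γ : UCurve X => γ.toMap 0) ⁻¹' K₀ᶜ) ≤ ((ε / 2 : ℝ≥0) : ℝ≥0∞) := by
    rw [← hP0, timeMarginal, Measure.map_apply (measurable_ev 0) hK₀.measurableSet.compl] at hμK₀
    exact hμK₀
  have hR0 : (R : ℝ≥0∞) ≠ 0 := by
    rw [hR]; exact_mod_cast (by positivity : (0 : ℝ≥0) < 2 * A / ε + 1).ne'
  have h2 : P {γ | (R : ℝ≥0∞) ≤ cEn γ} ≤ ((ε / 2 : ℝ≥0) : ℝ≥0∞) := by
    refine (meas_ge_le_lintegral_div measurable_cEn.aemeasurable hR0 ENNReal.coe_ne_top).trans ?_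
    refine (ENNReal.div_le_div_right hPA _).trans ?_
    rw [ENNReal.div_le_iff hR0 ENNReal.coe_ne_top]
    rw [← ENNReal.coe_mul, ENNReal.coe_le_coe, hR]
    have : ε / 2 * (2 * A / ε + 1) = A + ε / 2 := by
      field_simp
    rw [this]
    exact le_self_add
  calc P {γ : UCurve X | γ.toMap 0 ∈ K₀ ∧ cEn γ ≤ R}ᶜ
      ≤ P ((fun γ : UCurve X => γ.toMap 0) ⁻¹' K₀ᶜ) + P {γ | (R : ℝ≥0∞) ≤ cEn γ} :=
        (measure_mono hsub).trans (measure_union_le _ _)
    _ ≤ ((ε / 2 : ℝ≥0) : ℝ≥0∞) + ((ε / 2 : ℝ≥0) : ℝ≥0∞) := add_le_add h1 h2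
    _ = ε := by rw [← ENNReal.coe_add, add_halves]

end Tight

end Crest.Agent.R242
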