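import Mathlib
import Crest.Prelude.Def_SyntheticRicci
import Crest.Agent.R242.Defs
import Crest.Agent.R242.CurveTop
import Crest.Agent.R242.Opt

/-!
Row 242, [SUP]: a `W_2`-absolutely continuous curve of measures with bounded densities is the
curve of time marginals of a test plan.  Owner: helper720.
-/

set_option autoImplicit false

open MeasureTheory Filter Set TopologicalSpace
open scoped ENNReal NNReal Topology BoundedContinuousFunction
open Crest.GeometryTopology.SyntheticRicci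

noncomputable section

namespace Crest.Agent.R242

section W2

variable {X : Type*} [MetricSpace X] [ProperSpace X] [MeasurableSpace X] [BorelSpace X]

omit [MetricSpace X] [ProperSpace X] [BorelSpace X] in
theorem sup_isProb_coupling {q : Measure (X × X)} {μ ν : Measure X} [IsProbabilityMeasure μ]
    (h : IsCouplingOf q μ ν) : IsProbabilityMeasure q := by
  constructor
  have h1 : (q.map Prod.fst) univ = 1 := by rw [h.1]; exact measure_univ
  rwa [Measure.map_apply measurable_fst MeasurableSet.univ, preimage_univ] at h1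

/-- Lipschitz test functions and the Wasserstein distance. -/
theorem ofReal_sq_integral_sub_le {μ ν : Measure X}
    [IsProbabilityMeasure μ] [IsProbabilityMeasure ν]
    {f : X → ℝ} {L : ℝ≥0} (hf : LipschitzWith L f) {B : ℝ} (hB : ∀ x, |f x| ≤ B) :
    ENNReal.ofReal |∫ x, f x ∂μ - ∫ x, f x ∂ν| ^ 2 ≤ ((L : ℝ≥0∞) + 1) ^ 2 * w2sq μ ν := by
  have hne0 : ((L : ℝ≥0∞) + 1) ^ 2 ≠ 0 := by simp
  have hnet : ((L : ℝ≥0∞) + 1) ^ 2 ≠ ⊤ := by
    exact ENNReal.pow_ne_top (by simp)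
  rw [mul_comm, ← ENNReal.div_le_iff_le_mul (Or.inl hne0) (Or.inl hnet)]
  refine le_iInf₂ fun q hq => ?_
  rw [ENNReal.div_le_iff_le_mul (Or.inl hne0) (Or.inl hnet), mul_comm]
  have := sup_isProb_coupling hq
  have hfm : Measurable f := hf.continuous.measurable
  have e1 : ∫ x, f x ∂μ = ∫ p, f p.1 ∂q := by
    rw [← hq.1, integral_map measurable_fst.aemeasurable hfm.aestronglyMeasurable]
  have e2 : ∫ x, f x ∂ν = ∫ p, f p.2 ∂q := by
    rw [← hq.2, integral_map measurable_snd.aemeasurable hfm.aestronglyMeasurable]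
  have i1 : Integrable (fun p : X × X => f p.1) q :=
    Integrable.of_bound (hfm.comp measurable_fst).aestronglyMeasurable B
      (Eventually.of_forall fun p => hB p.1)
  have i2 : Integrable (fun p : X × X => f p.2) q :=
    Integrable.of_bound (hfm.comp measurable_snd).aestronglyMeasurable B
      (Eventually.of_forall fun p => hB p.2)
  rw [e1, e2, ← integral_sub i1 i2]
  have h1 : ENNReal.ofReal |∫ p, (f p.1 - f p.2) ∂q| ≤ ∫⁻ p, ‖f p.1 - f p.2‖ₑ ∂q := by
    rw [← Real.enorm_eq_ofReal_abs]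
    exact enorm_integral_le_lintegral_enorm _
  have h2 : ∀ p : X × X, ‖f p.1 - f p.2‖ₑ ≤ ((L : ℝ≥0∞) + 1) * edist p.1 p.2 := by
    intro p
    have := hf.edist_le_mul p.1 p.2
    rw [edist_eq_enorm_sub] at this
    exact this.trans (mul_le_mul' le_self_add le_rfl)
  have h3 : ∫⁻ p, ‖f p.1 - f p.2‖ₑ ∂q ≤ ((L : ℝ≥0∞) + 1) * ∫⁻ p, edist p.1 p.2 ∂q := by
    rw [← lintegral_const_mul' _ _ (by simp)]
    exact lintegral_mono h2
  have h4 : (∫⁻ p, edist p.1 p.2 ∂q) ^ 2 ≤ quadCost q := by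
    have hm : AEMeasurable (fun p : X × X => edist p.1 p.2) q := measurable_edist.aemeasurable
    have h := ENNReal.lintegral_mul_le_Lp_mul_Lq q
      (Real.HolderConjugate.two_two) (f := fun _ => 1) (g := fun p : X × X => edist p.1 p.2)
      aemeasurable_const hm
    simp only [Pi.mul_apply, one_mul, ENNReal.one_rpow, lintegral_const, measure_univ] at h
    calc (∫⁻ p, edist p.1 p.2 ∂q) ^ 2
        ≤ ((∫⁻ p, edist p.1 p.2 ^ (2 : ℝ) ∂q) ^ (1 / (2 : ℝ))) ^ 2 := pow_le_pow_left' h 2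
      _ = quadCost q := by
          rw [← ENNReal.rpow_natCast, ← ENNReal.rpow_mul]
          norm_num [quadCost]
  calc ENNReal.ofReal |∫ p, (f p.1 - f p.2) ∂q| ^ 2
      ≤ (((L : ℝ≥0∞) + 1) * ∫⁻ p, edist p.1 p.2 ∂q) ^ 2 := pow_le_pow_left' (h1.trans h3) 2
    _ = ((L : ℝ≥0∞) + 1) ^ 2 * (∫⁻ p, edist p.1 p.2 ∂q) ^ 2 := by rw [mul_pow]
    _ ≤ ((L : ℝ≥0∞) + 1) ^ 2 * quadCost q := mul_le_mul' le_rfl h4

/-- Wasserstein convergence implies weak convergence. -/
theorem tendsto_of_w2sq {ι : Type*} {l : Filter ι}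
    [l.IsCountablyGenerated]
    {P : ι → ProbabilityMeasure X} {Q : ProbabilityMeasure X}
    (h : Tendsto (fun i => w2sq (P i : Measure X) Q) l (𝓝 0)) : Tendsto P l (𝓝 Q) := by
  rw [tendsto_iff_forall_lipschitz_integral_tendsto]
  rintro f ⟨B, hB⟩ ⟨L, hL⟩
  rcases isEmpty_or_nonempty X with hX | ⟨⟨x₀⟩⟩
  · have : (fun i => ∫ ω, f ω ∂(P i : Measure X)) = fun _ => ∫ ω, f ω ∂(Q : Measure X) := by
      ext i
      rw [integral_of_isEmpty, integral_of_isEmpty]
    rw [this]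
    exact tendsto_const_nhds
  have hB' : ∀ x, |f x| ≤ |f x₀| + B := by
    intro x
    have := hB x x₀
    rw [Real.dist_eq] at this
    have h2 := abs_sub_abs_le_abs_sub (f x) (f x₀)
    linarith
  rw [tendsto_iff_dist_tendsto_zero]
  have h1 : Tendsto (fun i => ENNReal.ofReal
      |∫ x, f x ∂(P i : Measure X) - ∫ x, f x ∂(Q : Measure X)| ^ 2) l (𝓝 0) := by
    have h2 : Tendsto (fun i => ((L : ℝ≥0∞) + 1) ^ 2 * w2sq (P i : Measure X) Q) l (𝓝 0) := by
      have := ENNReal.Tendsto.const_mul (a := ((L : ℝ≥0∞) + 1) ^ 2) h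
        (Or.inr (ENNReal.pow_ne_top (by simp)))
      rwa [mul_zero] at this
    refine tendsto_of_tendsto_of_tendsto_of_le_of_le tendsto_const_nhds h2 (fun _ => bot_le) ?_
    intro i
    exact ofReal_sq_integral_sub_le hL hB'
  have h3 : Tendsto (fun i => |∫ x, f x ∂(P i : Measure X) - ∫ x, f x ∂(Q : Measure X)| ^ 2) l
      (𝓝 0) := by
    have := (ENNReal.tendsto_toReal (by simp : (0 : ℝ≥0∞) ≠ ⊤)).comp h1
    simp only [ENNReal.toReal_zero] at this
    refine this.congr fun i => ?_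
    simp only [Function.comp_apply, ENNReal.toReal_pow]
    rw [ENNReal.toReal_ofReal (abs_nonneg _)]
  have h4 := (Real.continuous_sqrt.tendsto 0).comp h3
  rw [Real.sqrt_zero] at h4
  refine h4.congr fun i => ?_
  simp only [Function.comp_apply, Real.sqrt_sq_eq_abs, abs_abs]
  rfl

theorem continuous_of_w2sq {ν : unitInterval → ProbabilityMeasure X}
    {c : ℝ≥0∞} (hc : c ≠ ⊤)
    (h : ∀ s t : unitInterval, (s : ℝ) ≤ t →
      w2sq (ν s : Measure X) (ν t) ≤ c * ENNReal.ofReal ((t : ℝ) - s)) :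
    Continuous ν := by
  have h' : ∀ s t : unitInterval, w2sq (ν s : Measure X) (ν t) ≤
      c * ENNReal.ofReal |(s : ℝ) - t| := by
    intro s t
    rcases le_total (s : ℝ) t with hst | hst
    · rw [abs_sub_comm, abs_of_nonneg (by linarith)]
      exact h s t hst
    · rw [abs_of_nonneg (by linarith), w2sq_comm]
      exact h t s hst
  rw [continuous_iff_continuousAt]
  intro t
  refine tendsto_of_w2sq ?_
  have h2 : Tendsto (fun s : unitInterval => c * ENNReal.ofReal |(s : ℝ) - t|) (𝓝 t) (𝓝 0) := by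
    have hcont : Continuous fun s : unitInterval => ENNReal.ofReal |(s : ℝ) - t| :=
      ENNReal.continuous_ofReal.comp (by fun_prop)
    have := ENNReal.Tendsto.const_mul (a := c) (hcont.tendsto t) (Or.inr hc)
    simpa using this
  exact tendsto_of_tendsto_of_tendsto_of_le_of_le tendsto_const_nhds h2 (fun _ => bot_le)
    (fun s => h' s t)

end W2

section Halves

variable {X : Type*} [MetricSpace X]

theorem ext_subCurve (a b : ℝ)
    (γ : UCurve X) {t : ℝ} (ht : t ∈ Icc (0 : ℝ) 1) :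
    (subCurve a b γ).ext t = γ.ext (a + t * (b - a)) := by
  rw [ext_eq_of_mem _ ht]
  rfl

theorem dyEn_succ_eq (n : ℕ) (γ : UCurve X) :
    dyEn (n + 1) γ = 2 * dyEn n (subCurve 0 (1 / 2) γ) + 2 * dyEn n (subCurve (1 / 2) 1 γ) := by
  have hp : (0 : ℝ) < 2 ^ n := by positivity
  have e0 : 2 ^ (n + 1) = 2 ^ n + 2 ^ n := by rw [pow_succ]; ring
  unfold dyEn
  rw [e0, Finset.sum_range_add, Finset.mul_sum, Finset.mul_sum]
  congr 1
  · refine Finset.sum_congr rfl fun j hj => ?_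
    have hj' : (j : ℝ) + 1 ≤ 2 ^ n := by exact_mod_cast Finset.mem_range.1 hj
    have hm1 : (j : ℝ) / 2 ^ n ∈ Icc (0 : ℝ) 1 := ⟨by positivity, by
      rw [div_le_one hp]; linarith⟩
    have hm2 : ((j : ℝ) + 1) / 2 ^ n ∈ Icc (0 : ℝ) 1 := ⟨by positivity, by
      rw [div_le_one hp]; linarith⟩
    rw [ext_subCurve _ _ γ hm1,
      ext_subCurve _ _ γ hm2]
    rw [show (0 : ℝ) + (j : ℝ) / 2 ^ n * (1 / 2 - 0) = (j : ℝ) / 2 ^ (n + 1) by
        rw [pow_succ]; field_simp; ring,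
      show (0 : ℝ) + ((j : ℝ) + 1) / 2 ^ n * (1 / 2 - 0) = ((j : ℝ) + 1) / 2 ^ (n + 1) by
        rw [pow_succ]; field_simp; ring]
    rw [pow_succ]
    ring
  · refine Finset.sum_congr rfl fun j hj => ?_
    have hj' : (j : ℝ) + 1 ≤ 2 ^ n := by exact_mod_cast Finset.mem_range.1 hj
    have hm1 : (j : ℝ) / 2 ^ n ∈ Icc (0 : ℝ) 1 := ⟨by positivity, by
      rw [div_le_one hp]; linarith⟩
    have hm2 : ((j : ℝ) + 1) / 2 ^ n ∈ Icc (0 : ℝ) 1 := ⟨by positivity, by
      rw [div_le_one hp]; linarith⟩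
    rw [ext_subCurve _ _ γ hm1,
      ext_subCurve _ _ γ hm2]
    push_cast
    rw [show (1 / 2 : ℝ) + (j : ℝ) / 2 ^ n * (1 - 1 / 2) = (2 ^ n + (j : ℝ)) / 2 ^ (n + 1) by
        rw [pow_succ]; field_simp; ring,
      show (1 / 2 : ℝ) + ((j : ℝ) + 1) / 2 ^ n * (1 - 1 / 2) =
          (2 ^ n + (j : ℝ) + 1) / 2 ^ (n + 1) by
        rw [pow_succ]; field_simp; ring]
    rw [pow_succ]
    ring

theorem cEn_le_halves (γ : UCurve X) :
    cEn γ ≤ 2 * cEn (subCurve 0 (1 / 2) γ) + 2 * cEn (subCurve (1 / 2) 1 γ) := by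
  refine iSup_le fun n => ?_
  refine (dyEn_mono γ (Nat.le_succ n)).trans ?_
  rw [Nat.succ_eq_add_one]
  show dyEn (n + 1) γ ≤ _
  rw [dyEn_succ_eq]
  exact add_le_add (mul_le_mul' le_rfl (le_iSup (fun n => dyEn n (subCurve 0 (1 / 2) γ)) n))
    (mul_le_mul' le_rfl (le_iSup (fun n => dyEn n (subCurve (1 / 2) 1 γ)) n))

end Halves

section Main

variable {X : Type*} [MetricSpace X] [ProperSpace X] [MeasurableSpace X] [BorelSpace X]

omit [ProperSpace X] [BorelSpace X] in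
/-- law at a real time (clamped). -/
theorem timeMarginal_mk (P : Measure (UCurve X)) {t : ℝ} (ht : t ∈ Icc (0 : ℝ) 1) :
    timeMarginal P ⟨t, ht⟩ = P.map (fun γ => γ.ext t) := by
  unfold timeMarginal
  congr 1
  ext γ
  rw [ext_eq_of_mem γ ht]

omit [ProperSpace X] in
theorem map_ext_subCurve (P : Measure (UCurve X)) (a b : ℝ) {t : ℝ} (ht : t ∈ Icc (0 : ℝ) 1) :
    (P.map (subCurve a b)).map (fun γ => γ.ext t) =
      P.map (fun γ => γ.ext (a + t * (b - a))) := by
  rw [Measure.map_map (measurable_ext t) (measurable_subCurve a b)]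
  congr 1
  ext γ
  exact ext_subCurve a b γ ht

/-- the approximating plans. -/
theorem exists_dyadic_plan {m : Measure X} {K N : ℝ} (hcd : IsCD m K N) (n : ℕ) :
    ∀ (ν : ℝ → Measure X) (A : ℝ → ℝ), (∀ t ∈ Icc (0 : ℝ) 1, IsProbabilityMeasure (ν t)) →
      (∀ t ∈ Icc (0 : ℝ) 1, ν t ≪ m) → (∀ t ∈ Icc (0 : ℝ) 1, HasFiniteSecondMoment (ν t)) →
      MonotoneOn A (Icc 0 1) →
      (∀ s ∈ Icc (0 : ℝ) 1, ∀ t ∈ Icc (0 : ℝ) 1, s ≤ t →
        w2sq (ν s) (ν t) ≤ ENNReal.ofReal ((t - s) * (A t - A s))) →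
      ∃ P : Measure (UCurve X), IsProbabilityMeasure P ∧
        (∀ j : ℕ, j ≤ 2 ^ n → P.map (fun γ => γ.ext ((j : ℝ) / 2 ^ n)) = ν ((j : ℝ) / 2 ^ n)) ∧
        ∫⁻ γ, cEn γ ∂P ≤ ENNReal.ofReal (A 1 - A 0) := by
  induction n with
  | zero =>
    intro ν A hp hac hm hA hW
    have h0 : (0 : ℝ) ∈ Icc (0 : ℝ) 1 := by norm_num
    have h1 : (1 : ℝ) ∈ Icc (0 : ℝ) 1 := by norm_num
    obtain ⟨P, hP, hgeo, hopt, -⟩ := hcd (ν 0) (ν 1) (hp 0 h0) (hp 1 h1) (hm 0 h0) (hm 1 h1)
      (hac 0 h0) (hac 1 h1)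
    refine ⟨P, hP, ?_, ?_⟩
    · intro j hj
      have hj' : j = 0 ∨ j = 1 := by simp at hj; omega
      rcases hj' with rfl | rfl
      · simp only [Nat.cast_zero, zero_div]
        rw [← timeMarginal_mk P h0]
        have := map_fst_endpointLaw P
        rw [hopt.1.1] at this
        rw [this]
        rfl
      · simp only [Nat.cast_one, pow_zero, div_one]
        rw [← timeMarginal_mk P h1]
        have := map_snd_endpointLaw P
        rw [hopt.1.2] at this
        rw [this]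
        rfl
    · have e1 : ∫⁻ γ, cEn γ ∂P = ∫⁻ γ, edist (γ.toMap 0) (γ.toMap 1) ^ 2 ∂P := by
        refine lintegral_congr_ae ?_
        filter_upwards [hgeo] with γ hγ
        exact cEn_csGeodesic hγ
      have e2 : quadCost (endpointLaw P) = ∫⁻ γ, edist (γ.toMap 0) (γ.toMap 1) ^ 2 ∂P := by
        unfold quadCost endpointLaw
        rw [lintegral_map (by fun_prop) measurable_endpoints]
      rw [e1, ← e2]
      have e3 : quadCost (endpointLaw P) ≤ w2sq (ν 0) (ν 1) :=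
        le_iInf₂ fun q hq => hopt.2 q hq
      refine e3.trans ((hW 0 h0 1 h1 zero_le_one).trans (le_of_eq ?_))
      rw [sub_zero, one_mul]
  | succ n ih =>
    intro ν A hp hac hm hA hW
    have hl : ∀ t ∈ Icc (0 : ℝ) 1, t / 2 ∈ Icc (0 : ℝ) 1 := fun t ht =>
      ⟨by linarith [ht.1], by linarith [ht.2]⟩
    have hr : ∀ t ∈ Icc (0 : ℝ) 1, (1 + t) / 2 ∈ Icc (0 : ℝ) 1 := fun t ht =>
      ⟨by linarith [ht.1], by linarith [ht.2]⟩
    obtain ⟨P₁, hP₁, hm₁, hE₁⟩ := ih (fun t => ν (t / 2)) (fun t => A (t / 2) / 2)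
      (fun t ht => hp _ (hl t ht)) (fun t ht => hac _ (hl t ht)) (fun t ht => hm _ (hl t ht))
      (fun s hs t ht hst => by
        have := hA (hl s hs) (hl t ht) (by linarith)
        simp only; linarith)
      (fun s hs t ht hst => by
        refine (hW _ (hl s hs) _ (hl t ht) (by linarith)).trans (le_of_eq ?_)
        congr 1; ring)
    obtain ⟨P₂, hP₂, hm₂, hE₂⟩ := ih (fun t => ν ((1 + t) / 2)) (fun t => A ((1 + t) / 2) / 2)
      (fun t ht => hp _ (hr t ht)) (fun t ht => hac _ (hr t ht)) (fun t ht => hm _ (hr t ht))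
      (fun s hs t ht hst => by
        have := hA (hr s hs) (hr t ht) (by linarith)
        simp only; linarith)
      (fun s hs t ht hst => by
        refine (hW _ (hr s hs) _ (hr t ht) (by linarith)).trans (le_of_eq ?_)
        congr 1; ring)
    have hpn : (0 : ℝ) < 2 ^ n := by positivity
    have hglue : timeMarginal P₁ 1 = timeMarginal P₂ 0 := by
      have a1 := hm₁ (2 ^ n) le_rfl
      have a2 := hm₂ 0 (Nat.zero_le _)
      simp only [Nat.cast_pow, Nat.cast_ofNat, div_self hpn.ne', Nat.cast_zero, zero_div,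
        add_zero] at a1 a2
      have b1 := timeMarginal_mk P₁ (show (1 : ℝ) ∈ Icc (0 : ℝ) 1 by norm_num)
      have b2 := timeMarginal_mk P₂ (show (0 : ℝ) ∈ Icc (0 : ℝ) 1 by norm_num)
      exact (b1.trans a1).trans (b2.trans a2).symm
    obtain ⟨P, hPf, hPl, hPr⟩ := exists_glue_curves P₁ P₂ hglue
    have hPp : IsProbabilityMeasure P := by
      constructor
      have : (P.map (subCurve 0 (1 / 2))) univ = 1 := by rw [hPl]; exact measure_univ
      rwa [Measure.map_apply (measurable_subCurve _ _) MeasurableSet.univ, preimage_univ] at this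
    refine ⟨P, hPp, ?_, ?_⟩
    · intro j hj
      have hpn1 : (0 : ℝ) < 2 ^ (n + 1) := by positivity
      rcases le_total j (2 ^ n) with hjn | hjn
      · have hm' : (j : ℝ) / 2 ^ n ∈ Icc (0 : ℝ) 1 := ⟨by positivity, by
          rw [div_le_one hpn]; exact_mod_cast hjn⟩
        have := hm₁ j hjn
        rw [← hPl, map_ext_subCurve P _ _ hm'] at this
        have e : (0 : ℝ) + (j : ℝ) / 2 ^ n * (1 / 2 - 0) = (j : ℝ) / 2 ^ (n + 1) := by
          rw [pow_succ]; field_simp; ring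
        have e' : (j : ℝ) / 2 ^ n / 2 = (j : ℝ) / 2 ^ (n + 1) := by
          rw [pow_succ]; field_simp
        rw [e] at this
        simp only [e'] at this
        exact this
      · obtain ⟨i, rfl⟩ := Nat.exists_eq_add_of_le hjn
        have hin : i ≤ 2 ^ n := by rw [pow_succ] at hj; omega
        have hm' : (i : ℝ) / 2 ^ n ∈ Icc (0 : ℝ) 1 := ⟨by positivity, by
          rw [div_le_one hpn]; exact_mod_cast hin⟩
        have := hm₂ i hin
        rw [← hPr, map_ext_subCurve P _ _ hm'] at this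
        have e : (1 / 2 : ℝ) + (i : ℝ) / 2 ^ n * (1 - 1 / 2) =
            (((2 ^ n + i : ℕ)) : ℝ) / 2 ^ (n + 1) := by
          push_cast; rw [pow_succ]; field_simp; ring
        have e' : (1 + (i : ℝ) / 2 ^ n) / 2 = (((2 ^ n + i : ℕ)) : ℝ) / 2 ^ (n + 1) := by
          push_cast; rw [pow_succ]; field_simp
        rw [e] at this
        simp only [e'] at this
        exact this
    · have i1 : ∫⁻ γ, cEn (subCurve 0 (1 / 2) γ) ∂P = ∫⁻ γ, cEn γ ∂P₁ := by
        rw [← hPl, lintegral_map measurable_cEn (measurable_subCurve _ _)]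
      have i2 : ∫⁻ γ, cEn (subCurve (1 / 2) 1 γ) ∂P = ∫⁻ γ, cEn γ ∂P₂ := by
        rw [← hPr, lintegral_map measurable_cEn (measurable_subCurve _ _)]
      have hmid : (1 / 2 : ℝ) ∈ Icc (0 : ℝ) 1 := by norm_num
      have hA1 : 0 ≤ A (1 / 2) - A 0 := sub_nonneg.2 (hA (by norm_num) hmid (by norm_num))
      have hA2 : 0 ≤ A 1 - A (1 / 2) := sub_nonneg.2 (hA hmid (by norm_num) (by norm_num))
      calc ∫⁻ γ, cEn γ ∂P
          ≤ ∫⁻ γ, (2 * cEn (subCurve 0 (1 / 2) γ) + 2 * cEn (subCurve (1 / 2) 1 γ)) ∂P :=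
            lintegral_mono cEn_le_halves
        _ = 2 * ∫⁻ γ, cEn γ ∂P₁ + 2 * ∫⁻ γ, cEn γ ∂P₂ := by
            have hm1 : Measurable fun γ : UCurve X => 2 * cEn (subCurve 0 (1 / 2) γ) :=
              (measurable_cEn.comp (measurable_subCurve _ _)).const_mul 2
            rw [lintegral_add_left hm1,
              lintegral_const_mul' _ _ (by simp), lintegral_const_mul' _ _ (by simp), i1, i2]
        _ ≤ 2 * ENNReal.ofReal (A (1 / 2) / 2 - A 0 / 2) +
              2 * ENNReal.ofReal (A 1 / 2 - A (1 / 2) / 2) := by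
            refine add_le_add (mul_le_mul' le_rfl ?_) (mul_le_mul' le_rfl ?_)
            · simpa using hE₁
            · refine hE₂.trans (le_of_eq ?_)
              norm_num
        _ = ENNReal.ofReal (A 1 - A 0) := by
            rw [show (2 : ℝ≥0∞) = ENNReal.ofReal 2 by simp, ← ENNReal.ofReal_mul (by norm_num),
              ← ENNReal.ofReal_mul (by norm_num), ← ENNReal.ofReal_add (by linarith)
              (by linarith)]
            congr 1; ring

/-- dyadic times are dense in the unit interval. -/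
theorem dense_dyadic :
    Dense {t : unitInterval | ∃ n j : ℕ, j ≤ 2 ^ n ∧ (t : ℝ) = (j : ℝ) / 2 ^ n} := by
  intro t
  have hmem : ∀ n : ℕ, (dyFl n t : ℝ) / 2 ^ n ∈ Icc (0 : ℝ) 1 := fun n =>
    ⟨by positivity, (dyFl_le t.2.1).trans t.2.2⟩
  refine mem_closure_of_tendsto (f := fun n => (⟨(dyFl n t : ℝ) / 2 ^ n, hmem n⟩ : unitInterval))
    (b := atTop) ?_ (Eventually.of_forall fun n => ⟨n, dyFl n t, dyFl_le_pow t.2.2, rfl⟩)
  rw [tendsto_subtype_rng]
  exact tendsto_dyFl t.2.1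

/-- [SUP] -/
theorem sup_plan {m : Measure X} {K N : ℝ} (hcd : IsCD m K N)
    (ν : unitInterval → Measure X) (hprob : ∀ t, IsProbabilityMeasure (ν t)) (C : ℝ≥0)
    (hC : ∀ t, ν t ≤ (C : ℝ≥0∞) • m) (hmom : ∀ t, HasFiniteSecondMoment (ν t))
    (A : ℝ → ℝ) (hA : MonotoneOn A (Icc 0 1))
    (hW : ∀ s t : unitInterval, (s : ℝ) ≤ (t : ℝ) →
      w2sq (ν s) (ν t) ≤ ENNReal.ofReal (((t : ℝ) - s) * (A t - A s))) :
    ∃ P : Measure (UCurve X), IsTestPlan2 m P ∧ (∀ t, timeMarginal P t = ν t) ∧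
      (∫⁻ γ, (∫⁻ t in Icc (0 : ℝ) 1, upperSpeed γ t ^ 2) ∂P) ≤ ENNReal.ofReal (A 1 - A 0) := by
  set ν' : ℝ → Measure X := fun t => ν (projIcc 0 1 zero_le_one t) with hν'
  have hν'eq : ∀ t : unitInterval, ν' t = ν t := fun t => by rw [hν']; simp only [projIcc_val]
  have hac : ∀ t, ν t ≪ m := fun t =>
    (Measure.absolutelyContinuous_of_le (hC t)).trans Measure.smul_absolutelyContinuous
  have hpl : ∀ n : ℕ, ∃ P : Measure (UCurve X), IsProbabilityMeasure P ∧
        (∀ j : ℕ, j ≤ 2 ^ n → P.map (fun γ => γ.ext ((j : ℝ) / 2 ^ n)) = ν' ((j : ℝ) / 2 ^ n)) ∧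
        ∫⁻ γ, cEn γ ∂P ≤ ENNReal.ofReal (A 1 - A 0) := by
    intro n
    refine exists_dyadic_plan hcd n ν' A (fun t ht => hprob _) (fun t ht => hac _)
      (fun t ht => hmom _) hA ?_
    intro s hs t ht hst
    have h1 := hW ⟨s, hs⟩ ⟨t, ht⟩ hst
    rw [← hν'eq, ← hν'eq] at h1
    exact h1
  choose P hP hmarg hE using hpl
  set PP : ℕ → ProbabilityMeasure (UCurve X) := fun n => ⟨P n, hP n⟩ with hPP
  have hP0 : ∀ n, timeMarginal (P n) 0 = ν 0 := by
    intro n
    have h1 := hmarg n 0 (Nat.zero_le _)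
    simp only [Nat.cast_zero, zero_div] at h1
    have h2 := timeMarginal_mk (P n) (show (0 : ℝ) ∈ Icc (0 : ℝ) 1 by norm_num)
    have h3 : ν' 0 = ν 0 := hν'eq 0
    rw [← h3, ← h1, ← h2]
    rfl
  obtain ⟨Q, φ, hφ, hQ⟩ : ∃ (Q : ProbabilityMeasure (UCurve X)) (φ : ℕ → ℕ), StrictMono φ ∧
      Tendsto (fun n => PP (φ n)) atTop (𝓝 Q) := by
    refine exists_subseq_tendsto PP fun ε hε => ?_
    have := hprob 0
    obtain ⟨K', hK', h⟩ := tight_of_energy (ν 0) (A 1 - A 0).toNNReal ε hε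
    exact ⟨K', hK', fun n => h (P n) (hP n) (hP0 n) (hE n)⟩
  have hQE : ∫⁻ γ, cEn γ ∂(Q : Measure (UCurve X)) ≤ ENNReal.ofReal (A 1 - A 0) := by
    refine (lintegral_le_liminf_of_lsc lowerSemicontinuous_cEn hQ).trans ?_
    refine liminf_le_of_le (by isBoundedDefault) fun b hb => ?_
    obtain ⟨n, hn⟩ := hb.exists
    exact hn.trans (hE (φ n))
  -- time marginals
  set νP : unitInterval → ProbabilityMeasure X := fun t => ⟨ν t, hprob t⟩ with hνP
  have hdy : ∀ t ∈ {t : unitInterval | ∃ n j : ℕ, j ≤ 2 ^ n ∧ (t : ℝ) = (j : ℝ) / 2 ^ n},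
      tmP t Q = νP t := by
    rintro t ⟨n, j, hj, htj⟩
    have hlim : Tendsto (fun i => tmP t (PP (φ i))) atTop (𝓝 (tmP t Q)) :=
      ((continuous_tmP t).tendsto Q).comp hQ
    refine tendsto_nhds_unique hlim ?_
    refine tendsto_const_nhds.congr' ?_
    filter_upwards [hφ.tendsto_atTop.eventually_ge_atTop n] with i hi
    refine Subtype.ext ?_
    obtain ⟨k, hk⟩ := Nat.exists_eq_add_of_le hi
    have e : (t : ℝ) = ((j * 2 ^ k : ℕ) : ℝ) / 2 ^ (φ i) := by
      rw [htj, hk, pow_add]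
      push_cast
      field_simp
    have h1 := hmarg (φ i) (j * 2 ^ k) (by
      rw [hk, pow_add]; exact Nat.mul_le_mul_right _ hj)
    rw [← e] at h1
    show ν t = timeMarginal (P (φ i)) t
    rw [← hν'eq t, ← h1, ← timeMarginal_mk (P (φ i)) t.2]
  have hcontν : Continuous νP := by
    refine continuous_of_w2sq (c := ENNReal.ofReal (A 1 - A 0)) ENNReal.ofReal_ne_top ?_
    intro s t hst
    refine (hW s t hst).trans ?_
    have hAst : A t - A s ≤ A 1 - A 0 := by
      have h1 := hA t.2 (by norm_num : (1 : ℝ) ∈ Icc (0 : ℝ) 1) t.2.2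
      have h2 := hA (by norm_num : (0 : ℝ) ∈ Icc (0 : ℝ) 1) s.2 s.2.1
      linarith
    have hAst0 : 0 ≤ A t - A s := sub_nonneg.2 (hA s.2 t.2 hst)
    rw [← ENNReal.ofReal_mul (hAst0.trans hAst)]
    refine ENNReal.ofReal_le_ofReal ?_
    rw [mul_comm]
    exact mul_le_mul_of_nonneg_right hAst (by linarith)
  have hall : (fun t : unitInterval => tmP t Q) = νP :=
    Continuous.ext_on dense_dyadic (continuous_time_tmP Q) hcontν hdy
  have hmargQ : ∀ t, timeMarginal (Q : Measure (UCurve X)) t = ν t := by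
    intro t
    have := congrFun hall t
    exact congrArg Subtype.val this
  have hfin : ∀ᵐ γ ∂(Q : Measure (UCurve X)), cEn γ < ⊤ :=
    ae_lt_top measurable_cEn (lt_of_le_of_lt hQE ENNReal.ofReal_lt_top).ne
  have hkin : (∫⁻ γ, (∫⁻ t in Icc (0 : ℝ) 1, upperSpeed γ t ^ 2) ∂(Q : Measure (UCurve X))) ≤
      ENNReal.ofReal (A 1 - A 0) := by
    refine (lintegral_mono_ae ?_).trans hQE
    filter_upwards [hfin] with γ hγ
    exact lintegral_upperSpeed_sq_le_cEn γ hγ
  refine ⟨Q, ⟨inferInstance, ⟨C, fun t => ?_⟩, ?_, ?_⟩, hmargQ, hkin⟩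
  · rw [hmargQ t]; exact hC t
  · filter_upwards [hfin] with γ hγ
    exact hasL2Speed_of_cEn hγ
  · exact lt_of_le_of_lt hkin ENNReal.ofReal_lt_top

end Main

end Crest.Agent.R242
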