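import Crest.Agent.R242.BE
import Crest.Agent.R242.SobQuad
import Crest.Agent.R242.Opt
import Crest.Agent.R242.Sup
import Crest.Agent.R242.Res
import Crest.Agent.R242.DaviesFin

/-!
# Row 242, PART B, [BE]: instances of `BECalc` and `GoodJ` from `Hyp` (helper216)

`exists_goodJ_of_contr`: everything except the contraction [C1] is discharged.
-/

set_option autoImplicit false
open MeasureTheory Filter Set
open scoped ENNReal NNReal Topology
open Crest.GeometryTopology.SyntheticRicci

noncomputable section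
namespace Crest.Agent.R242

variable {X : Type*} [MetricSpace X] [ProperSpace X] [MeasurableSpace X] [BorelSpace X]
  {m : Measure X} [IsLocallyFiniteMeasure m] [m.IsOpenPosMeasure] {k N : ℝ}

omit [m.IsOpenPosMeasure] in
theorem beCalc_of_hyp (H : Hyp m k N) : BECalc m where
  young := fun _ _ hf hD _ hP _ ha => IsWUGLoc.lintegral_le_young H.fin hf hD hP ha
  quad := fun _ _ hg hD hD0 h => isWUGLoc_of_quadratic H.fin hg hD hD0 h
  marg := fun P hP s t hst => w2sq_timeMarginal_le P hP hst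
  sup := fun ν hprob C hC hmom A hA hW => sup_plan H.cd ν hprob C hC hmom A hA hW
  meas := measurable_upperSpeed

/-- all properties of small resolvents, from the contraction [C1]. -/
theorem exists_goodJ_of_contr (H : Hyp m k N)
    (hcontr : ∃ h₀ : ℝ, 0 < h₀ ∧ ∀ h, 0 < h → h ≤ h₀ → 2 * h * k < 1 →
      ∀ ρ ρ' : X → ℝ, BEDens m ρ → BEDens m ρ' →
        ENNReal.ofReal (1 - 2 * h * k) * w2sq (dens m (J m h ρ)) (dens m (J m h ρ')) ≤
          w2sq (dens m ρ) (dens m ρ')) :
    ∃ h₀ : ℝ, GoodJ m k h₀ ∧ ∀ h, 0 < h → h ≤ h₀ → JFacts m (1 - 2 * h * k)⁻¹ (J m h) := by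
  obtain ⟨h₀, h0, hm⟩ := J_mass H
  exact goodJ_assembly (beCalc_of_hyp H) (calc_of_hyp H) H.kpos
    ⟨h₀, h0, fun h hh hh0 f hf hs o => ⟨(hm h hh hh0 f hf hs o).1, (hm h hh hh0 f hf hs o).2.2.1⟩⟩
    hcontr

end Crest.Agent.R242
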