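import Crest.Agent.R242.Defs

/-! # Row 242: closure properties of bounded Lipschitz functions -/
set_option autoImplicit false

open MeasureTheory Filter Set
open scoped ENNReal NNReal Topology
open Crest.GeometryTopology.SyntheticRicci

noncomputable section

namespace Crest.Agent.R242

section BL
variable {X : Type*} [MetricSpace X]

theorem BddLip.add {f g : X → ℝ} (hf : BddLip f) (hg : BddLip g) :
    BddLip (fun x => f x + g x) := by
  obtain ⟨⟨B, hB⟩, L, hL⟩ := hf
  obtain ⟨⟨B', hB'⟩, L', hL'⟩ := hg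
  refine ⟨⟨B + B', fun x => ?_⟩, L + L', ?_⟩
  · exact (abs_add_le _ _).trans (add_le_add (hB x) (hB' x))
  · exact hL.add hL'

theorem BddLip.const_mul {f : X → ℝ} (hf : BddLip f) (c : ℝ) :
    BddLip (fun x => c * f x) := by
  obtain ⟨⟨B, hB⟩, L, hL⟩ := hf
  refine ⟨⟨|c| * B, fun x => ?_⟩, ‖c‖₊ * L, ?_⟩
  · rw [abs_mul]; exact mul_le_mul_of_nonneg_left (hB x) (abs_nonneg _)
  · refine LipschitzWith.of_dist_le_mul fun x y => ?_
    rw [Real.dist_eq, ← mul_sub, abs_mul]
    have := hL.dist_le_mul x y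
    rw [Real.dist_eq] at this
    calc |c| * |f x - f y| ≤ |c| * (L * dist x y) := mul_le_mul_of_nonneg_left this (abs_nonneg _)
      _ = _ := by push_cast; rw [Real.norm_eq_abs]; ring

theorem BddLip.const (c : ℝ) : BddLip (fun _ : X => c) :=
  ⟨⟨|c|, fun _ => le_rfl⟩, 0, LipschitzWith.const c⟩

theorem BddLip.neg {f : X → ℝ} (hf : BddLip f) : BddLip (fun x => - f x) := by
  have := hf.const_mul (-1)
  simpa using this

theorem BddLip.sub {f g : X → ℝ} (hf : BddLip f) (hg : BddLip g) :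
    BddLip (fun x => f x - g x) := by
  have := hf.add hg.neg
  simpa [sub_eq_add_neg] using this

theorem BddLip.mul {f g : X → ℝ} (hf : BddLip f) (hg : BddLip g) :
    BddLip (fun x => f x * g x) := by
  obtain ⟨⟨B, hB⟩, L, hL⟩ := hf
  obtain ⟨⟨B', hB'⟩, L', hL'⟩ := hg
  refine ⟨⟨B * B', fun x => ?_⟩, Real.toNNReal B * L' + Real.toNNReal B' * L, ?_⟩
  · rw [abs_mul]; exact mul_le_mul (hB x) (hB' x) (abs_nonneg _) ((abs_nonneg _).trans (hB x))
  · refine LipschitzWith.of_dist_le_mul fun x y => ?_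
    have h1 := hL.dist_le_mul x y
    have h2 := hL'.dist_le_mul x y
    rw [Real.dist_eq] at h1 h2 ⊢
    have hB0 : 0 ≤ B := (abs_nonneg _).trans (hB x)
    have hB0' : 0 ≤ B' := (abs_nonneg _).trans (hB' x)
    have : f x * g x - f y * g y = f x * (g x - g y) + g y * (f x - f y) := by ring
    rw [this]
    refine (abs_add_le _ _).trans ?_
    rw [abs_mul, abs_mul]
    push_cast
    rw [Real.coe_toNNReal _ hB0, Real.coe_toNNReal _ hB0']
    have e1 : |f x| * |g x - g y| ≤ B * (L' * dist x y) :=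
      mul_le_mul (hB x) h2 (abs_nonneg _) hB0
    have e2 : |g y| * |f x - f y| ≤ B' * (L * dist x y) :=
      mul_le_mul (hB' y) h1 (abs_nonneg _) hB0'
    nlinarith

/-- composition with a `C^1` function -/
theorem BddLip.comp {f : X → ℝ} (hf : BddLip f) {φ : ℝ → ℝ} (hφ : ContDiff ℝ 1 φ) :
    BddLip (fun x => φ (f x)) := by
  obtain ⟨⟨B, hB⟩, L, hL⟩ := hf
  have hc : IsCompact (Set.Icc (-B) B) := isCompact_Icc
  obtain ⟨M, hM⟩ := hc.exists_bound_of_continuousOn (hφ.continuous.continuousOn)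
  obtain ⟨M', hM'⟩ := hc.exists_bound_of_continuousOn
    ((hφ.continuous_deriv le_rfl).continuousOn)
  have hmem : ∀ x, f x ∈ Set.Icc (-B) B := fun x => abs_le.mp (hB x)
  refine ⟨⟨M, fun x => by simpa using hM _ (hmem x)⟩, Real.toNNReal M' * L, ?_⟩
  refine LipschitzWith.of_dist_le_mul fun x y => ?_
  have hM0 : 0 ≤ M' := (norm_nonneg _).trans (hM' _ (hmem x))
  have h3 : ‖φ (f x) - φ (f y)‖ ≤ M' * ‖f x - f y‖ := by
    refine Convex.norm_image_sub_le_of_norm_deriv_le (s := Set.Icc (-B) B)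
      (fun z _ => (hφ.differentiable one_ne_zero z)) (fun z hz => hM' z hz) (convex_Icc _ _)
      (hmem y) (hmem x)
  have h1 := hL.dist_le_mul x y
  rw [Real.dist_eq] at h1 ⊢
  rw [Real.norm_eq_abs, Real.norm_eq_abs] at h3
  push_cast
  rw [Real.coe_toNNReal _ hM0]
  calc _ ≤ _ := h3
    _ ≤ M' * (L * dist x y) := mul_le_mul_of_nonneg_left h1 hM0
    _ = _ := by ring

end BL

end Crest.Agent.R242
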