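import Crest.Agent.R242.Kant

/-!
Row 242, block C1: measures with a density restricted to a ball, swap of couplings,
`L¹` convergence of densities implies weak convergence.
-/

set_option autoImplicit false
set_option linter.unusedSectionVars false

open MeasureTheory Filter Set
open scoped ENNReal NNReal Topology
open Crest.GeometryTopology.SyntheticRicci

noncomputable section

namespace Crest.Agent.R242

section Swap

variable {X : Type*} [MetricSpace X] [MeasurableSpace X]

theorem ctr_quadCost_swap (q : Measure (X × X)) : quadCost (q.map Prod.swap) = quadCost q := by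
  unfold quadCost
  have := lintegral_map_equiv (μ := q) (fun p : X × X => edist p.1 p.2 ^ 2)
    (MeasurableEquiv.prodComm (α := X) (β := X))
  have h2 : (⇑(MeasurableEquiv.prodComm (α := X) (β := X)) : X × X → X × X) = Prod.swap := rfl
  rw [h2] at this
  rw [this]
  refine lintegral_congr fun p => ?_
  simp only [Prod.fst_swap, Prod.snd_swap]
  rw [edist_comm]

theorem ctr_coupling_swap {q : Measure (X × X)} {μ ν : Measure X} (h : IsCouplingOf q μ ν) :
    IsCouplingOf (q.map Prod.swap) ν μ := by
  refine ⟨?_, ?_⟩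
  · rw [Measure.map_map measurable_fst measurable_swap]
    exact h.2
  · rw [Measure.map_map measurable_snd measurable_swap]
    exact h.1

theorem ctr_w2sq_comm (μ ν : Measure X) : w2sq μ ν = w2sq ν μ := by
  have key : ∀ μ ν : Measure X, w2sq μ ν ≤ w2sq ν μ := by
    intro μ ν
    refine le_iInf₂ fun q hq => ?_
    have h1 : IsCouplingOf (q.map Prod.swap) μ ν := ctr_coupling_swap hq
    have h2 : w2sq μ ν ≤ quadCost (q.map Prod.swap) := iInf₂_le (q.map Prod.swap) h1
    rwa [ctr_quadCost_swap q] at h2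
  exact le_antisymm (key _ _) (key _ _)

theorem ctr_opt_swap {q : Measure (X × X)} {μ ν : Measure X} (h : IsOptCouplingOf q μ ν) :
    IsOptCouplingOf (q.map Prod.swap) ν μ := by
  refine ⟨ctr_coupling_swap h.1, fun q' hq' => ?_⟩
  rw [ctr_quadCost_swap, ← ctr_quadCost_swap q']
  exact h.2 _ (ctr_coupling_swap hq')

/-- the contact condition with the roles of the two measures exchanged. -/
theorem ctr_contact_swap {o : X} {R : ℝ} {μ₀ μ₁ : Measure X} {φ ψ : X → ℝ}
    (h : IsPot o R μ₀ μ₁ φ ψ) (q : Measure (X × X)) (hq : IsOptCouplingOf q μ₁ μ₀) :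
    ∀ᵐ p ∂q, ψ p.1 + φ p.2 = dist p.1 p.2 ^ 2 / 2 := by
  have h1 := h.contact _ (ctr_opt_swap hq)
  have h2 := ae_of_ae_map (measurable_swap (α := X) (β := X)).aemeasurable h1
  filter_upwards [h2] with p hp
  simp only [Prod.fst_swap, Prod.snd_swap] at hp
  rw [dist_comm, ← hp, add_comm]

end Swap

section Dens

variable {X : Type*} [MeasurableSpace X] {m : Measure X}

/-- the measure with density `s` on `B`. -/
def ctrMu (m : Measure X) (B : Set X) (s : X → ℝ) : Measure X :=
  (m.restrict B).withDensity (fun x => ENNReal.ofReal (s x))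

theorem ctrMu_prob {B : Set X} {s : X → ℝ} (hs : IntegrableOn s B m) (h0 : ∀ᵐ x ∂m, 0 ≤ s x)
    (h1 : ∫ x in B, s x ∂m = 1) : IsProbabilityMeasure (ctrMu m B s) := by
  refine ⟨?_⟩
  unfold ctrMu
  rw [withDensity_apply _ MeasurableSet.univ, Measure.restrict_univ,
    ← ofReal_integral_eq_lintegral_ofReal hs (ae_restrict_of_ae h0), h1, ENNReal.ofReal_one]

theorem ctrMu_compl {B : Set X} (hB : MeasurableSet B) (s : X → ℝ) : ctrMu m B s Bᶜ = 0 := by
  have h := withDensity_absolutelyContinuous (m.restrict B) (fun x => ENNReal.ofReal (s x))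
  apply h
  rw [Measure.restrict_apply hB.compl]
  simp

theorem ctrMu_ac (B : Set X) (s : X → ℝ) : ctrMu m B s ≪ m :=
  (withDensity_absolutelyContinuous _ _).trans Measure.restrict_le_self.absolutelyContinuous

theorem ctrMu_le {B : Set X} {s : X → ℝ} {M : ℝ≥0} (h : ∀ᵐ x ∂m, s x ≤ M) :
    ctrMu m B s ≤ (M : ℝ≥0∞) • m := by
  unfold ctrMu
  calc (m.restrict B).withDensity (fun x => ENNReal.ofReal (s x)) ≤
      (m.restrict B).withDensity (fun _ => (M : ℝ≥0∞)) := by
        refine withDensity_mono (ae_restrict_of_ae ?_)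
        filter_upwards [h] with x hx
        rw [← ENNReal.ofReal_coe_nnreal]
        exact ENNReal.ofReal_le_ofReal hx
    _ = (M : ℝ≥0∞) • (m.restrict B) := withDensity_const _
    _ ≤ (M : ℝ≥0∞) • m := by
        intro A
        simp only [Measure.smul_apply, smul_eq_mul]
        exact mul_le_mul_right (Measure.restrict_le_self A) _

theorem integral_ctrMu {B : Set X} {s : X → ℝ} (hs : AEStronglyMeasurable s m)
    (h0 : ∀ᵐ x ∂m, 0 ≤ s x) (f : X → ℝ) :
    ∫ x, f x ∂(ctrMu m B s) = ∫ x in B, f x * s x ∂m := by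
  unfold ctrMu
  rw [integral_withDensity_eq_integral_toReal_smul₀ (hs.aemeasurable.ennreal_ofReal.restrict)
    (Filter.Eventually.of_forall fun x => ENNReal.ofReal_lt_top)]
  refine integral_congr_ae (ae_restrict_of_ae ?_)
  filter_upwards [h0] with x hx
  rw [ENNReal.toReal_ofReal hx, smul_eq_mul, mul_comm]

theorem lintegral_ctrMu {B : Set X} {s : X → ℝ} (hs : AEStronglyMeasurable s m)
    {f : X → ℝ≥0∞} (hf : AEMeasurable f m) :
    ∫⁻ x, f x ∂(ctrMu m B s) = ∫⁻ x in B, ENNReal.ofReal (s x) * f x ∂m := by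
  unfold ctrMu
  rw [lintegral_withDensity_eq_lintegral_mul₀ (hs.aemeasurable.ennreal_ofReal.restrict)
    (hf.restrict)]
  rfl

/-- `dens` as a special case. -/
theorem dens_eq_ctrMu (s : X → ℝ) [MetricSpace X] : dens m s = ctrMu m Set.univ s := by
  unfold dens ctrMu
  rw [Measure.restrict_univ]

end Dens

section Weak

variable {X : Type*} [MetricSpace X] [MeasurableSpace X] [BorelSpace X] {m : Measure X}

/-- `L¹` convergence of densities implies weak convergence. -/
theorem tendsto_of_l1 {μ : ℕ → ProbabilityMeasure X} {ν : ProbabilityMeasure X}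
    {s : ℕ → X → ℝ} {r : X → ℝ}
    (hμ : ∀ n, ∀ f : X → ℝ, ∫ x, f x ∂(μ n : Measure X) = ∫ x, f x * s n x ∂m)
    (hν : ∀ f : X → ℝ, ∫ x, f x ∂(ν : Measure X) = ∫ x, f x * r x ∂m)
    (hs : ∀ n, Integrable (s n) m) (hr : Integrable r m)
    (h : Tendsto (fun n => ∫ x, |s n x - r x| ∂m) atTop (𝓝 0)) :
    Tendsto μ atTop (𝓝 ν) := by
  rw [ProbabilityMeasure.tendsto_iff_forall_integral_tendsto]
  intro f
  rw [tendsto_iff_dist_tendsto_zero]
  have hb : ∀ x, |f x| ≤ ‖f‖ := fun x => f.norm_coe_le_norm x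
  have i1 : ∀ n, Integrable (fun x => f x * s n x) m := fun n =>
    (hs n).bdd_mul f.continuous.aestronglyMeasurable (Filter.Eventually.of_forall hb)
  have i2 : Integrable (fun x => f x * r x) m :=
    hr.bdd_mul f.continuous.aestronglyMeasurable (Filter.Eventually.of_forall hb)
  refine squeeze_zero (fun _ => dist_nonneg) (fun n => ?_) (by
    have := h.const_mul ‖f‖
    rwa [mul_zero] at this)
  rw [Real.dist_eq, hμ, hν, ← integral_sub (i1 n) i2]
  calc |∫ x, (f x * s n x - f x * r x) ∂m| ≤ ∫ x, |f x * s n x - f x * r x| ∂m :=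
        abs_integral_le_integral_abs
    _ ≤ ∫ x, ‖f‖ * |s n x - r x| ∂m := by
        refine integral_mono ((i1 n).sub i2).abs (((hs n).sub hr).abs.const_mul _) fun x => ?_
        have : f x * s n x - f x * r x = f x * (s n x - r x) := by ring
        simp only [this, abs_mul]
        exact mul_le_mul_of_nonneg_right (hb x) (abs_nonneg _)
    _ = ‖f‖ * ∫ x, |s n x - r x| ∂m := integral_const_mul _ _

end Weak

end Crest.Agent.R242
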