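import Crest.Agent.R242.ContrTail

/-!
Row 242, part C1: bounds for Kantorovich potentials, in the form consumed by `Contr.lean`.
-/

set_option autoImplicit false
set_option linter.unusedSectionVars false

open MeasureTheory Filter Set Topology Metric
open scoped ENNReal NNReal
open Crest.GeometryTopology.SyntheticRicci

noncomputable section

namespace Crest.Agent.R242.ContrTail

variable {X : Type*} [MetricSpace X] [ProperSpace X] [MeasurableSpace X] [BorelSpace X]
  {m : Measure X} [IsLocallyFiniteMeasure m] [m.IsOpenPosMeasure] {k N : ℝ}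

theorem pot_bounds (H : Hyp m k N) {o : X} {R : ℝ} {mu0 mu1 : Measure X} {phi psi : X → ℝ}
    (hpot : IsPot o R mu0 mu1 phi psi) (hR : 1 ≤ R) [IsProbabilityMeasure mu0]
    [IsProbabilityMeasure mu1] (h0 : mu0 (Metric.closedBall o R)ᶜ = 0)
    (h1 : mu1 (Metric.closedBall o R)ᶜ = 0) :
    (∀ x, |phi x| ≤ 8 * (R + dist x o) ^ 2) ∧ (∀ x, |psi x| ≤ 8 * (R + dist x o) ^ 2) ∧
    IsSobolevLoc m phi ∧ IsSobolevLoc m psi ∧
    (∀ᵐ x ∂m, minWeakGrad m phi x ≤ R + dist x o) ∧
    (∀ᵐ x ∂m, minWeakGrad m psi x ≤ R + dist x o) := by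
  obtain ⟨a, b, c, d, e, f⟩ := pot_abs_le H hR h0 h1 hpot
  exact ⟨a, b, e, f, c, d⟩

end Crest.Agent.R242.ContrTail
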