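import Crest.Agent.R242.Defs
import Crest.Agent.R242.Vol
import Crest.Agent.R242.SobLip
import Crest.Agent.R242.Kant

/-!
Row 242, part C1 (owner helper851), ingredients (helper994): a weight `w` with
`|∇w| ≤ Λ w`, good radii, growth of Kantorovich potentials, tails.
-/

set_option autoImplicit false
set_option linter.unusedSectionVars false

open MeasureTheory Filter Set Topology Metric
open scoped ENNReal NNReal
open Crest.GeometryTopology.SyntheticRicci

noncomputable section

namespace Crest.Agent.R242.ContrTail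


theorem ct_exists_small_deriv {G : ℝ → ℝ} (hG : Monotone G) {B : ℝ}
    (hB : ∀ x, 0 ≤ G x ∧ G x ≤ B) {del A : ℝ} (hd : 0 < del) (hA : 1 ≤ A) :
    ∃ R : ℝ, A ≤ R ∧ DifferentiableAt ℝ G R ∧ 2 * R * deriv G R < del := by
  by_contra hcon
  push Not at hcon
  have h1 : ∀ᵐ x : ℝ, A ≤ x → del / 2 * x⁻¹ ≤ deriv G x := by
    filter_upwards [hG.ae_differentiableAt] with x hx hAx
    have := hcon x hAx hx
    have hx0 : 0 < x := by linarith
    rw [← div_eq_mul_inv, div_le_iff₀ hx0]
    linarith
  have hBnn : 0 ≤ B := (hB 0).1.trans (hB 0).2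
  set T : ℝ := A * Real.exp (2 * (B + 1) / del) with hT
  have hexp : 1 ≤ Real.exp (2 * (B + 1) / del) := Real.one_le_exp (by positivity)
  have hAT : A ≤ T := by
    rw [hT]; nlinarith
  have hG1 := (hG.monotoneOn (uIcc A T)).intervalIntegrable_deriv
  have hG2 := (hG.monotoneOn (uIcc A T)).intervalIntegral_deriv_mem_uIcc
  have h0A : (0 : ℝ) ∉ uIcc A T := by
    rw [uIcc_of_le hAT]
    intro h
    linarith [h.1]
  have hint : IntervalIntegrable (fun x : ℝ => del / 2 * x⁻¹) volume A T :=
    (intervalIntegral.intervalIntegrable_inv (fun x hx => by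
      intro h; simp only [id] at h; rw [h] at hx; exact h0A hx) continuousOn_id).const_mul _
  have h2 : ∫ x in A..T, del / 2 * x⁻¹ ≤ ∫ x in A..T, deriv G x := by
    refine intervalIntegral.integral_mono_ae_restrict hAT hint hG1 ?_
    rw [EventuallyLE, ae_restrict_iff' measurableSet_Icc]
    filter_upwards [h1] with x hx hxI using hx hxI.1
  have h3 : ∫ x in A..T, del / 2 * x⁻¹ = B + 1 := by
    rw [intervalIntegral.integral_const_mul, integral_inv h0A, hT,
      mul_div_cancel_left₀ _ (by linarith : A ≠ 0), Real.log_exp]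
    field_simp
  rw [uIcc_of_le (by linarith [hG hAT])] at hG2
  have := hG2.2
  linarith [(hB A).1, (hB T).2]

theorem ct_eventually_diff_le {G : ℝ → ℝ} {R del : ℝ} (hG : DifferentiableAt ℝ G R)
    (h : 2 * R * deriv G R < del) :
    ∀ᶠ n : ℕ in atTop, G (R + 2 * R * (1 / 2 : ℝ) ^ n) - G R ≤ del * (1 / 2 : ℝ) ^ n := by
  have h1 : HasDerivAt (fun t : ℝ => G (R + 2 * R * t)) (deriv G R * (2 * R)) 0 := by
    have h2 : HasDerivAt (fun t : ℝ => R + 2 * R * t) (2 * R) 0 := by
      have := ((hasDerivAt_id (0 : ℝ)).const_mul (2 * R)).const_add R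
      simpa using this
    have h3 : HasDerivAt G (deriv G R) (R + 2 * R * 0) := by
      simpa using hG.hasDerivAt
    exact h3.comp (0 : ℝ) h2
  have h4 := hasDerivAt_iff_tendsto_slope.1 h1
  have h5 : Tendsto (fun n : ℕ => (1 / 2 : ℝ) ^ n) atTop (𝓝[≠] 0) := by
    rw [tendsto_nhdsWithin_iff]
    exact ⟨tendsto_pow_atTop_nhds_zero_of_lt_one (by norm_num) (by norm_num),
      Eventually.of_forall fun n => by simp⟩
  have h6 := (h4.comp h5).eventually (eventually_lt_nhds (show deriv G R * (2 * R) < del by linarith))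
  filter_upwards [h6] with n hn
  have hp : (0 : ℝ) < (1 / 2 : ℝ) ^ n := by positivity
  simp only [Function.comp_apply, slope_def_field, sub_zero, mul_zero, add_zero] at hn
  rw [div_lt_iff₀ hp] at hn
  exact hn.le

section Slope

variable {X : Type*} [MetricSpace X]

theorem ct_ascSlope_le {f : X → ℝ} {x : X} {G : X → ℝ} (hG : ContinuousAt G x)
    (h : ∀ y, f y - f x ≤ dist x y * G y) : ascSlope f x ≤ ENNReal.ofReal (G x) := by
  have key : ∀ ε : ℝ, 0 < ε → ascSlope f x ≤ ENNReal.ofReal (G x + ε) := by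
    intro ε hε
    refine ascSlope_le_of_eventually ?_
    have h1 : ∀ᶠ y in 𝓝 x, G y < G x + ε := hG.eventually (eventually_lt_nhds (by linarith))
    filter_upwards [mem_nhdsWithin_of_mem_nhds h1] with y hy
    have h2 := h y
    have h3 : (0 : ℝ) ≤ dist x y := dist_nonneg
    have hy' : G y < G x + ε := hy
    nlinarith
  have hlim : Tendsto (fun ε : ℝ => ENNReal.ofReal (G x + ε)) (𝓝[>] 0) (𝓝 (ENNReal.ofReal (G x))) := by
    have h1 : Tendsto (fun ε : ℝ => G x + ε) (𝓝[>] 0) (𝓝 (G x)) := by
      have h2 : Tendsto (fun ε : ℝ => G x + ε) (𝓝 0) (𝓝 (G x + 0)) :=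
        (continuous_const.add continuous_id).tendsto 0
      rw [add_zero] at h2
      exact h2.mono_left nhdsWithin_le_nhds
    exact ENNReal.tendsto_ofReal h1
  exact ge_of_tendsto hlim (by filter_upwards [self_mem_nhdsWithin] with ε hε using key ε hε)

end Slope

variable {X : Type*} [MetricSpace X] [ProperSpace X] [MeasurableSpace X] [BorelSpace X]
  {m : Measure X} [IsLocallyFiniteMeasure m] [m.IsOpenPosMeasure] {k N : ℝ}

theorem ct_abs_exp_sub {s t : ℝ} : |Real.exp s - Real.exp t| ≤
    max (Real.exp s) (Real.exp t) * |s - t| := by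
  have key : ∀ s t : ℝ, s ≤ t → |Real.exp s - Real.exp t| ≤
      max (Real.exp s) (Real.exp t) * |s - t| := by
    intro s t h
    have h1 : Real.exp s ≤ Real.exp t := Real.exp_le_exp.2 h
    rw [max_eq_right h1, abs_sub_comm, abs_of_nonneg (by linarith), abs_sub_comm,
      abs_of_nonneg (by linarith)]
    have h2 : Real.exp s = Real.exp t * Real.exp (s - t) := by
      rw [← Real.exp_add]; congr 1; ring
    have h3 := Real.add_one_le_exp (s - t)
    have h4 := Real.exp_pos t
    rw [h2]
    nlinarith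
  rcases le_total s t with h | h
  · exact key s t h
  · rw [abs_sub_comm, max_comm, abs_sub_comm s t]
    exact key t s h

/-- a Lipschitz probability density with `|∇w| ≤ Λ w`, positive, with second moments. -/
theorem exists_w_lip (H : Hyp m k N) (o : X) : ∃ (Lam : ℝ) (w : X → ℝ), 0 < Lam ∧
    (∃ L : ℝ≥0, LipschitzWith L w) ∧ (∃ Bw : ℝ, ∀ x, 0 < w x ∧ w x ≤ Bw) ∧
    (∀ (o' : X) (R : ℝ), ∃ c : ℝ, 0 < c ∧ ∀ x ∈ closedBall o' R, c ≤ w x) ∧
    Integrable (fun x => (1 + dist x o) ^ 2 * w x) m ∧ ∫ x, w x ∂m = 1 ∧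
    IsSobolevLoc m w ∧ (∀ᵐ x ∂m, minWeakGrad m w x ≤ Lam * w x) := by
  obtain ⟨a, C, ha, hC, hint⟩ := exp_integral H
  have ha0 : 0 < a := by linarith
  set v : X → ℝ := fun x => Real.exp (-(2 * a) * dist x o) with hv
  have hvc : Continuous v := by fun_prop
  have hvpos : ∀ x, 0 < v x := fun x => Real.exp_pos _
  have hv1 : ∀ x, v x ≤ 1 := fun x => by
    rw [hv]; simp only []
    rw [Real.exp_le_one_iff]
    have : (0 : ℝ) ≤ dist x o := dist_nonneg
    nlinarith
  have hbig : Integrable (fun x => (1 + a * dist x o) ^ 4 * v x) m := by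
    refine ⟨Continuous.aestronglyMeasurable (by fun_prop), ?_⟩
    rw [hasFiniteIntegral_iff_ofReal (Eventually.of_forall fun x => by
      have := hvpos x
      have : (0 : ℝ) ≤ dist x o := dist_nonneg
      positivity)]
    refine (hint a le_rfl o).trans_lt ?_
    exact ENNReal.mul_lt_top ENNReal.ofReal_lt_top (H.fin o (1 / a))
  have hsq : Integrable (fun x => (1 + dist x o) ^ 2 * v x) m := by
    refine hbig.mono' (Continuous.aestronglyMeasurable (by fun_prop)) (Eventually.of_forall
      fun x => ?_)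
    have hd : (0 : ℝ) ≤ dist x o := dist_nonneg
    have h1 := hvpos x
    rw [Real.norm_of_nonneg (by positivity)]
    refine mul_le_mul_of_nonneg_right ?_ h1.le
    have h2 : 1 + dist x o ≤ 1 + a * dist x o := by nlinarith
    calc (1 + dist x o) ^ 2 ≤ (1 + dist x o) ^ 4 :=
          pow_le_pow_right₀ (by linarith) (by norm_num)
      _ ≤ (1 + a * dist x o) ^ 4 := pow_le_pow_left₀ (by positivity) h2 4
  have hvint : Integrable v m := by
    refine hsq.mono' hvc.aestronglyMeasurable (Eventually.of_forall fun x => ?_)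
    have hd : (0 : ℝ) ≤ dist x o := dist_nonneg
    have h1 := hvpos x
    rw [Real.norm_of_nonneg h1.le]
    nlinarith [mul_nonneg hd h1.le, mul_nonneg (mul_nonneg hd hd) h1.le]
  set c : ℝ := ∫ x, v x ∂m with hc
  have hcpos : 0 < c := by
    rw [hc, integral_pos_iff_support_of_nonneg (fun x => (hvpos x).le) hvint]
    have : Function.support v = univ := by
      ext x; simp [(hvpos x).ne']
    rw [this]
    exact (isOpen_univ.measure_pos m ⟨o, mem_univ o⟩)
  have hvl : ∀ x y, |v x - v y| ≤ dist x y * (2 * a * max (v x) (v y)) := by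
    intro x y
    refine ct_abs_exp_sub.trans ?_
    have h1 : |(-(2 * a) * dist x o) - (-(2 * a) * dist y o)| ≤ 2 * a * dist x y := by
      have : (-(2 * a) * dist x o) - (-(2 * a) * dist y o) = -(2 * a) * (dist x o - dist y o) := by
        ring
      rw [this, abs_mul, abs_neg, abs_of_nonneg (by linarith : (0 : ℝ) ≤ 2 * a)]
      exact mul_le_mul_of_nonneg_left (abs_dist_sub_le x y o) (by linarith)
    have h2 : 0 ≤ max (v x) (v y) := (hvpos x).le.trans (le_max_left _ _)
    calc max (v x) (v y) * |(-(2 * a) * dist x o) - (-(2 * a) * dist y o)|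
        ≤ max (v x) (v y) * (2 * a * dist x y) := mul_le_mul_of_nonneg_left h1 h2
      _ = _ := by ring
  set w : X → ℝ := fun x => c⁻¹ * v x with hw
  have hci : 0 < c⁻¹ := inv_pos.2 hcpos
  have hwl : ∀ x y, |w x - w y| ≤ dist x y * (2 * a * max (w x) (w y)) := by
    intro x y
    have h1 : w x - w y = c⁻¹ * (v x - v y) := by rw [hw]; ring
    have h2 : max (w x) (w y) = c⁻¹ * max (v x) (v y) := by
      rw [hw, mul_max_of_nonneg _ _ hci.le]
    rw [h1, h2, abs_mul, abs_of_pos hci]
    calc c⁻¹ * |v x - v y| ≤ c⁻¹ * (dist x y * (2 * a * max (v x) (v y))) :=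
          mul_le_mul_of_nonneg_left (hvl x y) hci.le
      _ = _ := by ring
  have hwb : ∀ x, 0 < w x ∧ w x ≤ c⁻¹ := fun x =>
    ⟨mul_pos hci (hvpos x), by
      have := mul_le_mul_of_nonneg_left (hv1 x) hci.le
      rwa [mul_one] at this⟩
  have hwc : Continuous w := by fun_prop
  have hlip : LipschitzWith (Real.toNNReal (2 * a * c⁻¹)) w := by
    refine LipschitzWith.of_dist_le_mul fun x y => ?_
    rw [Real.coe_toNNReal _ (by positivity), Real.dist_eq, mul_comm]
    refine (hwl x y).trans (mul_le_mul_of_nonneg_left ?_ dist_nonneg)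
    exact mul_le_mul_of_nonneg_left (max_le (hwb x).2 (hwb y).2) (by linarith)
  refine ⟨2 * a, w, by linarith, ⟨_, hlip⟩, ⟨c⁻¹, hwb⟩, ?_, ?_, ?_, ?_, ?_⟩
  · intro o' R
    refine ⟨c⁻¹ * Real.exp (-(2 * a) * (R + dist o' o)), by positivity, fun x hx => ?_⟩
    rw [mem_closedBall] at hx
    refine mul_le_mul_of_nonneg_left (Real.exp_le_exp.2 ?_) hci.le
    have h2 := dist_triangle x o' o
    nlinarith
  · refine (hsq.const_mul c⁻¹).congr (Eventually.of_forall fun x => ?_)
    simp only [hw]; ring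
  · rw [hw, integral_const_mul, ← hc]
    exact inv_mul_cancel₀ hcpos.ne'
  · exact (LipschitzWith.lipOnBalls hlip).isSobolevLoc H.fin
  · filter_upwards [ofReal_minWeakGrad_le_ascSlope H.fin (LipschitzWith.lipOnBalls hlip)] with x hx
    have h1 : ascSlope w x ≤ ENNReal.ofReal (2 * a * max (w x) (w x)) := by
      refine ct_ascSlope_le (G := fun y => 2 * a * max (w y) (w x)) ?_ ?_
      · have : Continuous fun y : X => 2 * a * max (w y) (w x) := by fun_prop
        exact this.continuousAt
      · intro y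
        have h2 := (le_abs_self _).trans (hwl y x)
        rwa [dist_comm] at h2
    have h2 := hx.trans h1
    rw [max_self] at h2
    rwa [ENNReal.ofReal_le_ofReal_iff (by have := (hwb x).1; positivity)] at h2

/-- good radii. -/
theorem exists_radius {g : X → ℝ} (hg : Integrable g m) (h0 : ∀ᵐ x ∂m, 0 ≤ g x) (o : X) {del : ℝ}
    (hd : 0 < del) (A : ℝ) : ∃ R : ℝ, A ≤ R ∧ 1 ≤ R ∧
    ∀ᶠ n : ℕ in atTop, ∫ x in closedBall o (R + 2 * R * (1 / 2 : ℝ) ^ n) \ closedBall o R, g x ∂m ≤
      del * (1 / 2 : ℝ) ^ n := by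
  set G : ℝ → ℝ := fun r => ∫ x in closedBall o r, g x ∂m with hGdef
  have hmono : Monotone G := by
    intro a b hab
    exact setIntegral_mono_set hg.integrableOn (ae_restrict_of_ae h0)
      (LE.le.eventuallyLE (closedBall_subset_closedBall hab))
  have hB : ∀ r, 0 ≤ G r ∧ G r ≤ ∫ x, g x ∂m := fun r =>
    ⟨integral_nonneg_of_ae (ae_restrict_of_ae h0), setIntegral_le_integral hg h0⟩
  obtain ⟨R, hAR, hdiff, hsmall⟩ := ct_exists_small_deriv hmono hB hd (le_max_left 1 A)
  have hR1 : 1 ≤ R := (le_max_left 1 A).trans hAR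
  refine ⟨R, (le_max_right 1 A).trans hAR, hR1, ?_⟩
  filter_upwards [ct_eventually_diff_le hdiff hsmall] with n hn
  have hsub : closedBall o R ⊆ closedBall o (R + 2 * R * (1 / 2 : ℝ) ^ n) :=
    closedBall_subset_closedBall (by
      have : (0 : ℝ) ≤ 2 * R * (1 / 2 : ℝ) ^ n := by positivity
      linarith)
  rw [setIntegral_sdiff measurableSet_closedBall hg.integrableOn hsub]
  exact hn

/-- growth constant of potentials -/
def C0 : ℝ := 8

theorem ct_pot_lip {f : X → ℝ} {o : X} {R : ℝ}
    (h : ∀ x x', |f x - f x'| ≤ dist x x' * ((dist x o + dist x' o) / 2 + R)) :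
    LipOnBalls f := by
  intro o' R'
  refine ⟨Real.toNNReal (R' + dist o' o + R), LipschitzOnWith.of_dist_le_mul
    fun x hx y hy => ?_⟩
  have h1 := h x y
  rw [mem_ball] at hx hy
  have h2 := dist_triangle x o' o
  have h3 := dist_triangle y o' o
  rw [Real.dist_eq]
  refine h1.trans ?_
  rw [mul_comm]
  refine mul_le_mul_of_nonneg_right ?_ dist_nonneg
  refine le_trans ?_ (Real.le_coe_toNNReal _)
  linarith

theorem ct_pot_wg (H : Hyp m k N) {f : X → ℝ} {o : X} {R : ℝ} (hR : 0 ≤ R)
    (h : ∀ x x', |f x - f x'| ≤ dist x x' * ((dist x o + dist x' o) / 2 + R)) :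
    ∀ᵐ x ∂m, minWeakGrad m f x ≤ R + dist x o := by
  filter_upwards [ofReal_minWeakGrad_le_ascSlope H.fin (ct_pot_lip h)] with x hx
  have h1 : ascSlope f x ≤ ENNReal.ofReal ((dist x o + dist x o) / 2 + R) := by
    refine ct_ascSlope_le (G := fun y => (dist y o + dist x o) / 2 + R) ?_ ?_
    · have : Continuous fun y : X => (dist y o + dist x o) / 2 + R := by fun_prop
      exact this.continuousAt
    · intro y
      have h2 := (le_abs_self _).trans (h y x)
      rwa [dist_comm] at h2
  have h2 := hx.trans h1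
  have h3 : (0 : ℝ) ≤ (dist x o + dist x o) / 2 + R := by positivity
  rw [ENNReal.ofReal_le_ofReal_iff h3] at h2
  linarith

/-- growth of Kantorovich potentials. -/
theorem pot_abs_le (H : Hyp m k N) {o : X} {R : ℝ} (hR : 1 ≤ R) {μ₀ μ₁ : Measure X}
    [IsProbabilityMeasure μ₀] [IsProbabilityMeasure μ₁]
    (h₀ : μ₀ (closedBall o R)ᶜ = 0) (h₁ : μ₁ (closedBall o R)ᶜ = 0) {φ ψ : X → ℝ}
    (hpot : IsPot o R μ₀ μ₁ φ ψ) :
    (∀ x, |φ x| ≤ C0 * (R + dist x o) ^ 2) ∧ (∀ x, |ψ x| ≤ C0 * (R + dist x o) ^ 2) ∧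
    (∀ᵐ x ∂m, minWeakGrad m φ x ≤ R + dist x o) ∧ (∀ᵐ x ∂m, minWeakGrad m ψ x ≤ R + dist x o) ∧
    IsSobolevLoc m φ ∧ IsSobolevLoc m ψ := by
  have hR0 : (0 : ℝ) ≤ R := by linarith
  refine ⟨?_, ?_, ct_pot_wg H hR0 hpot.lipφ, ct_pot_wg H hR0 hpot.lipψ,
    (ct_pot_lip hpot.lipφ).isSobolevLoc H.fin, (ct_pot_lip hpot.lipψ).isSobolevLoc H.fin⟩
  · intro x
    have h1 := hpot.lipφ x o
    rw [hpot.zero, sub_zero, dist_self, add_zero] at h1
    have hd : (0 : ℝ) ≤ dist x o := dist_nonneg
    unfold C0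
    nlinarith
  · have hY : IsCompact (closedBall o R) := isCompact_closedBall o R
    obtain ⟨-, -, -, -, -, -, -, -, -, q, hqo⟩ := kantorovich_potentials hY μ₀ μ₁ h₀ h₁
    have hq := hqo.1
    have hqp := coupling_isProb hq
    have hm := coupling_ae_mem hY.measurableSet hq h₀ h₁
    obtain ⟨p, ⟨hp1, hp2⟩, hp3⟩ := (hm.and (hpot.contact q hqo)).exists
    rw [mem_closedBall] at hp1 hp2
    have hφp := hpot.lipφ p.1 o
    rw [hpot.zero, sub_zero, dist_self, add_zero] at hφp
    have ha0 : (0 : ℝ) ≤ dist p.1 o := dist_nonneg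
    have hb0 : (0 : ℝ) ≤ dist p.2 o := dist_nonneg
    have hφp' : |φ p.1| ≤ 3 / 2 * R ^ 2 := by
      refine hφp.trans ?_
      nlinarith
    have hd := dist_triangle_right p.1 p.2 o
    have hdd : (0 : ℝ) ≤ dist p.1 p.2 := dist_nonneg
    have hψp : |ψ p.2| ≤ 7 / 2 * R ^ 2 := by
      have h1 : ψ p.2 = dist p.1 p.2 ^ 2 / 2 - φ p.1 := by linarith
      have h2 : dist p.1 p.2 ^ 2 / 2 ≤ 2 * R ^ 2 := by nlinarith
      rw [h1, abs_le]
      rw [abs_le] at hφp'
      constructor
      · nlinarith [sq_nonneg (dist p.1 p.2)]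
      · linarith [hφp'.1]
    have hψo : |ψ o| ≤ 5 * R ^ 2 := by
      have h1 := hpot.lipψ p.2 o
      rw [dist_self, add_zero] at h1
      have h2 : dist p.2 o * (dist p.2 o / 2 + R) ≤ 3 / 2 * R ^ 2 := by nlinarith
      rw [abs_le] at h1 hψp ⊢
      constructor
      · linarith [h1.1, h1.2, hψp.1, hψp.2]
      · linarith [h1.1, h1.2, hψp.1, hψp.2]
    intro x
    have h1 := hpot.lipψ x o
    rw [dist_self, add_zero] at h1
    have hx0 : (0 : ℝ) ≤ dist x o := dist_nonneg
    have h3 : |ψ x| ≤ 5 * R ^ 2 + dist x o * (dist x o / 2 + R) := by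
      rw [abs_le] at h1 hψo ⊢
      constructor
      · linarith [h1.1, h1.2, hψo.1, hψo.2]
      · linarith [h1.1, h1.2, hψo.1, hψo.2]
    unfold C0
    nlinarith

/-- tails with quadratic weight. -/
theorem tail_sq {g : X → ℝ} {o : X} (hg : Integrable (fun x => (1 + dist x o) ^ 2 * g x) m) :
    Tendsto (fun R : ℝ => ∫ x in (closedBall o R)ᶜ, (R + dist x o) ^ 2 * g x ∂m) atTop (𝓝 0) := by
  have hgm : AEStronglyMeasurable g m := by
    have h0 : Continuous fun x : X => ((1 + dist x o) ^ 2)⁻¹ :=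
      Continuous.inv₀ (by fun_prop) (fun x => by positivity)
    have h1 : AEStronglyMeasurable (fun x => ((1 + dist x o) ^ 2)⁻¹ * ((1 + dist x o) ^ 2 * g x)) m :=
      h0.aestronglyMeasurable.mul hg.aestronglyMeasurable
    refine h1.congr (Eventually.of_forall fun x => ?_)
    have : (1 + dist x o) ^ 2 ≠ 0 := by positivity
    simp only []
    rw [← mul_assoc, inv_mul_cancel₀ this, one_mul]
  have h1 : ∀ R : ℝ, ∫ x in (closedBall o R)ᶜ, (R + dist x o) ^ 2 * g x ∂m =
      ∫ x, (closedBall o R)ᶜ.indicator (fun x => (R + dist x o) ^ 2 * g x) x ∂m := fun R =>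
    (integral_indicator measurableSet_closedBall.compl).symm
  simp_rw [h1]
  have h2 : Tendsto (fun R : ℝ => ∫ x, (closedBall o R)ᶜ.indicator
      (fun x => (R + dist x o) ^ 2 * g x) x ∂m) atTop (𝓝 (∫ x, (0 : ℝ) ∂m)) := by
    refine tendsto_integral_filter_of_dominated_convergence
      (fun x => 4 * |(1 + dist x o) ^ 2 * g x|) ?_ ?_ (hg.abs.const_mul 4) ?_
    · refine Eventually.of_forall fun R => AEStronglyMeasurable.indicator ?_
        measurableSet_closedBall.compl
      have : Continuous fun x : X => (R + dist x o) ^ 2 := by fun_prop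
      exact this.aestronglyMeasurable.mul hgm
    · filter_upwards [eventually_ge_atTop (0 : ℝ)] with R hR
      refine Eventually.of_forall fun x => ?_
      by_cases hx : x ∈ closedBall o R
      · rw [indicator_of_notMem (by simpa using hx), norm_zero]
        positivity
      · rw [indicator_of_mem (by simpa using hx), Real.norm_eq_abs, abs_mul, abs_mul,
          abs_of_nonneg (sq_nonneg (R + dist x o)), abs_of_nonneg (sq_nonneg (1 + dist x o)),
          ← mul_assoc]
        rw [mem_closedBall, not_le] at hx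
        refine mul_le_mul_of_nonneg_right ?_ (abs_nonneg _)
        have : (R + dist x o) ^ 2 ≤ (2 * (1 + dist x o)) ^ 2 := by
          refine pow_le_pow_left₀ (by positivity) ?_ 2
          linarith
        linarith
    · refine Eventually.of_forall fun x => ?_
      refine tendsto_const_nhds.congr' ?_
      filter_upwards [eventually_ge_atTop (dist x o)] with R hR
      rw [indicator_of_notMem]
      simpa using hR
  simpa using h2

/-- tails with linear weight. -/
theorem tail_lin {g : X → ℝ} {o : X} (hg : Integrable (fun x => (1 + dist x o) * g x) m) :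
    Tendsto (fun R : ℝ => ∫ x in (closedBall o R)ᶜ, (R + dist x o) * g x ∂m) atTop (𝓝 0) := by
  have hgm : AEStronglyMeasurable g m := by
    have h0 : Continuous fun x : X => (1 + dist x o)⁻¹ :=
      Continuous.inv₀ (by fun_prop) (fun x => by positivity)
    have h1 : AEStronglyMeasurable (fun x => (1 + dist x o)⁻¹ * ((1 + dist x o) * g x)) m :=
      h0.aestronglyMeasurable.mul hg.aestronglyMeasurable
    refine h1.congr (Eventually.of_forall fun x => ?_)
    have : 1 + dist x o ≠ 0 := by positivity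
    simp only []
    rw [← mul_assoc, inv_mul_cancel₀ this, one_mul]
  have h1 : ∀ R : ℝ, ∫ x in (closedBall o R)ᶜ, (R + dist x o) * g x ∂m =
      ∫ x, (closedBall o R)ᶜ.indicator (fun x => (R + dist x o) * g x) x ∂m := fun R =>
    (integral_indicator measurableSet_closedBall.compl).symm
  simp_rw [h1]
  have h2 : Tendsto (fun R : ℝ => ∫ x, (closedBall o R)ᶜ.indicator
      (fun x => (R + dist x o) * g x) x ∂m) atTop (𝓝 (∫ x, (0 : ℝ) ∂m)) := by
    refine tendsto_integral_filter_of_dominated_convergence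
      (fun x => 2 * |(1 + dist x o) * g x|) ?_ ?_ (hg.abs.const_mul 2) ?_
    · refine Eventually.of_forall fun R => AEStronglyMeasurable.indicator ?_
        measurableSet_closedBall.compl
      have : Continuous fun x : X => R + dist x o := by fun_prop
      exact this.aestronglyMeasurable.mul hgm
    · filter_upwards [eventually_ge_atTop (0 : ℝ)] with R hR
      refine Eventually.of_forall fun x => ?_
      by_cases hx : x ∈ closedBall o R
      · rw [indicator_of_notMem (by simpa using hx), norm_zero]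
        positivity
      · have hd : (0 : ℝ) ≤ dist x o := dist_nonneg
        rw [indicator_of_mem (by simpa using hx), Real.norm_eq_abs, abs_mul, abs_mul,
          abs_of_nonneg (by linarith : (0 : ℝ) ≤ R + dist x o),
          abs_of_nonneg (by linarith : (0 : ℝ) ≤ 1 + dist x o), ← mul_assoc]
        rw [mem_closedBall, not_le] at hx
        refine mul_le_mul_of_nonneg_right ?_ (abs_nonneg _)
        linarith
    · refine Eventually.of_forall fun x => ?_
      refine tendsto_const_nhds.congr' ?_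
      filter_upwards [eventually_ge_atTop (dist x o)] with R hR
      rw [indicator_of_notMem]
      simpa using hR
  simpa using h2

end Crest.Agent.R242.ContrTail
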