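import Crest.Agent.R242.SobLip
import Crest.Agent.R242.Vol

/-!
Row 242, block C1 (contraction of the resolvent): the exponential weight.  Owner: helper386.
-/

set_option autoImplicit false
set_option linter.unusedSectionVars false

open MeasureTheory Filter Set
open scoped ENNReal NNReal Topology
open Crest.GeometryTopology.SyntheticRicci

noncomputable section

namespace Crest.Agent.R242.ContrTail

variable {X : Type*} [MetricSpace X] [ProperSpace X] [MeasurableSpace X] [BorelSpace X]
  {m : Measure X} [IsLocallyFiniteMeasure m] [m.IsOpenPosMeasure] {k N : ℝ}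

theorem exp_w_sub_le {a : ℝ} (ha : 0 < a) (o x y : X) (hy : 2 * a * dist y x ≤ 1) :
    Real.exp (-(2 * a) * dist y o) - Real.exp (-(2 * a) * dist x o) ≤
      4 * a * Real.exp (-(2 * a) * dist x o) * dist y x := by
  have hd := dist_nonneg (x := y) (y := x)
  have h1 : -(2 * a) * dist y o ≤ -(2 * a) * dist x o + 2 * a * dist y x := by
    have := dist_triangle_left x o y
    nlinarith
  have h2 : Real.exp (-(2 * a) * dist y o) ≤
      Real.exp (-(2 * a) * dist x o) * Real.exp (2 * a * dist y x) := by
    rw [← Real.exp_add]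
    exact Real.exp_le_exp.2 h1
  have h0 : 0 ≤ 2 * a * dist y x := by positivity
  have h3 : Real.exp (2 * a * dist y x) - 1 ≤ 2 * (2 * a * dist y x) := by
    have := Real.abs_exp_sub_one_le (x := 2 * a * dist y x) (by rwa [abs_of_nonneg h0])
    rw [abs_of_nonneg h0] at this
    exact (le_abs_self _).trans this
  have h4 : 0 < Real.exp (-(2 * a) * dist x o) := Real.exp_pos _
  nlinarith [mul_le_mul_of_nonneg_left h3 h4.le]

theorem lipschitz_exp_w {a : ℝ} (ha : 0 < a) (o : X) (x y : X) :
    |Real.exp (-(2 * a) * dist x o) - Real.exp (-(2 * a) * dist y o)| ≤ 2 * a * dist x y := by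
  have key : ∀ s t : ℝ, 0 ≤ s → s ≤ t → Real.exp (-s) - Real.exp (-t) ≤ t - s := by
    intro s t hs hst
    have h1 : Real.exp (-s) ≤ 1 := Real.exp_le_one_iff.2 (by linarith)
    have h2 : 1 - (t - s) ≤ Real.exp (-(t - s)) := Real.one_sub_le_exp_neg _
    have h3 : Real.exp (-t) = Real.exp (-s) * Real.exp (-(t - s)) := by
      rw [← Real.exp_add]; congr 1; ring
    rw [h3]
    have h4 : 0 < Real.exp (-s) := Real.exp_pos _
    nlinarith [mul_le_mul_of_nonneg_left h2 h4.le]
  have key2 : ∀ s t : ℝ, 0 ≤ s → 0 ≤ t → |Real.exp (-s) - Real.exp (-t)| ≤ |s - t| := by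
    intro s t hs ht
    rcases le_total s t with h | h
    · rw [abs_of_nonneg (sub_nonneg.2 (Real.exp_le_exp.2 (by linarith))), abs_sub_comm,
        abs_of_nonneg (sub_nonneg.2 h)]
      exact key s t hs h
    · rw [abs_sub_comm, abs_of_nonneg (sub_nonneg.2 (Real.exp_le_exp.2 (by linarith))),
        abs_of_nonneg (sub_nonneg.2 h)]
      exact key t s ht h
  have h5 := key2 (2 * a * dist x o) (2 * a * dist y o) (by positivity) (by positivity)
  rw [show -(2 * a) * dist x o = -(2 * a * dist x o) by ring,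
    show -(2 * a) * dist y o = -(2 * a * dist y o) by ring]
  refine h5.trans ?_
  rw [← mul_sub, abs_mul, abs_of_pos (by positivity : (0 : ℝ) < 2 * a)]
  gcongr
  exact abs_dist_sub_le x y o

theorem exists_w (H : Hyp m k N) (o : X) : ∃ (Lam : ℝ) (w : X → ℝ), 0 < Lam ∧
    (∃ Bw : ℝ, ∀ x, 0 < w x ∧ w x ≤ Bw) ∧
    (∀ (o' : X) (R : ℝ), ∃ c : ℝ, 0 < c ∧ ∀ x ∈ Metric.closedBall o' R, c ≤ w x) ∧
    Integrable (fun x => (1 + dist x o) ^ 2 * w x) m ∧ ∫ x, w x ∂m = 1 ∧ IsSobolevLoc m w ∧
    ∀ᵐ x ∂m, minWeakGrad m w x ≤ Lam * w x := by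
  obtain ⟨a, C, ha1, hC, hI⟩ := exp_integral H
  have ha : 0 < a := by linarith
  have hIo := hI a le_rfl o
  have hfinI : ∫⁻ y, ENNReal.ofReal ((1 + a * dist y o) ^ 4 * Real.exp (-(2 * a) * dist y o)) ∂m
      < ⊤ := hIo.trans_lt (ENNReal.mul_lt_top ENNReal.ofReal_lt_top (H.fin o _))
  set e : X → ℝ := fun x => Real.exp (-(2 * a) * dist x o) with he
  have hec : Continuous e := by fun_prop
  have he0 : ∀ x, 0 < e x := fun x => Real.exp_pos _
  have he1 : ∀ x, e x ≤ 1 := fun x => Real.exp_le_one_iff.2 (by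
    have := dist_nonneg (x := x) (y := o)
    nlinarith)
  have hint4 : Integrable (fun y => (1 + a * dist y o) ^ 4 * e y) m := by
    refine ⟨(by fun_prop : Continuous fun y => (1 + a * dist y o) ^ 4 * e y).aestronglyMeasurable,
      ?_⟩
    rw [hasFiniteIntegral_iff_ofReal]
    · exact hfinI
    · exact Eventually.of_forall fun y => by
        have := dist_nonneg (x := y) (y := o)
        have := (he0 y).le
        positivity
  have hint2 : Integrable (fun y => (1 + dist y o) ^ 2 * e y) m := by
    refine hint4.mono'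
      (by fun_prop : Continuous fun y => (1 + dist y o) ^ 2 * e y).aestronglyMeasurable ?_
    refine Eventually.of_forall fun y => ?_
    have hd := dist_nonneg (x := y) (y := o)
    have h1 : 0 ≤ (1 + dist y o) ^ 2 * e y := mul_nonneg (sq_nonneg _) (he0 y).le
    rw [Real.norm_of_nonneg h1]
    refine mul_le_mul_of_nonneg_right ?_ (he0 y).le
    have h2 : 1 + dist y o ≤ 1 + a * dist y o := by nlinarith
    have h3 : 1 ≤ 1 + a * dist y o := by nlinarith
    calc (1 + dist y o) ^ 2 ≤ (1 + a * dist y o) ^ 2 := pow_le_pow_left₀ (by linarith) h2 2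
      _ ≤ (1 + a * dist y o) ^ 4 := pow_le_pow_right₀ h3 (by norm_num)
  have hinte : Integrable e m := by
    refine hint2.mono' hec.aestronglyMeasurable (Eventually.of_forall fun y => ?_)
    rw [Real.norm_of_nonneg (he0 y).le]
    have hd := dist_nonneg (x := y) (y := o)
    exact le_mul_of_one_le_left (he0 y).le (one_le_pow₀ (by linarith))
  have hpos : 0 < ∫ x, e x ∂m := by
    rw [integral_pos_iff_support_of_nonneg (fun x => (he0 x).le) hinte]
    have : Function.support e = Set.univ := by
      ext x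
      simp [(he0 x).ne']
    rw [this]
    have : Nonempty X := ⟨o⟩
    exact isOpen_univ.measure_pos m Set.univ_nonempty
  set c : ℝ := (∫ x, e x ∂m)⁻¹ with hc
  have hc0 : 0 < c := inv_pos.2 hpos
  have hlip : ∀ x y, |c * e x - c * e y| ≤ c * (2 * a) * dist x y := by
    intro x y
    rw [← mul_sub, abs_mul, abs_of_pos hc0, mul_assoc]
    exact mul_le_mul_of_nonneg_left (lipschitz_exp_w ha o x y) hc0.le
  have hLB : LipOnBalls (fun x => c * e x) := by
    refine LipschitzWith.lipOnBalls (L := Real.toNNReal (c * (2 * a))) ?_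
    refine LipschitzWith.of_dist_le_mul fun x y => ?_
    rw [Real.coe_toNNReal _ (by positivity), Real.dist_eq]
    exact hlip x y
  refine ⟨4 * a, fun x => c * e x, by positivity, ⟨c, fun x => ⟨mul_pos hc0 (he0 x), ?_⟩⟩, ?_, ?_,
    ?_, hLB.isSobolevLoc H.fin, ?_⟩
  · exact mul_le_of_le_one_right hc0.le (he1 x)
  · intro o' R
    refine ⟨c * Real.exp (-(2 * a) * (R + dist o' o)), by positivity, fun x hx => ?_⟩
    refine mul_le_mul_of_nonneg_left (Real.exp_le_exp.2 ?_) hc0.le
    have h1 : dist x o ≤ R + dist o' o :=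
      (dist_triangle x o' o).trans (add_le_add_left (Metric.mem_closedBall.1 hx) _)
    nlinarith
  · have : (fun x => (1 + dist x o) ^ 2 * (c * e x)) = fun x => c * ((1 + dist x o) ^ 2 * e x) := by
      funext x; ring
    rw [this]
    exact hint2.const_mul c
  · rw [integral_const_mul, hc, inv_mul_cancel₀ hpos.ne']
  · filter_upwards [ofReal_minWeakGrad_le_ascSlope H.fin hLB] with x hx
    have h1 : ascSlope (fun x => c * e x) x ≤ ENNReal.ofReal (4 * a * (c * e x)) := by
      refine ascSlope_le_of_eventually ?_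
      have hnb : Metric.ball x (1 / (2 * a)) ∈ 𝓝[≠] x :=
        mem_nhdsWithin_of_mem_nhds (Metric.ball_mem_nhds x (by positivity))
      filter_upwards [hnb] with y hy
      have hy' : 2 * a * dist y x ≤ 1 := by
        have h2 : dist y x < 1 / (2 * a) := hy
        rw [lt_div_iff₀ (by positivity)] at h2
        linarith
      have h3 := exp_w_sub_le ha o x y hy'
      calc c * e y - c * e x = c * (e y - e x) := by ring
        _ ≤ c * (4 * a * e x * dist y x) := mul_le_mul_of_nonneg_left h3 hc0.le
        _ = 4 * a * (c * e x) * dist x y := by rw [dist_comm y x]; ring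
    have h4 := hx.trans h1
    rwa [ENNReal.ofReal_le_ofReal_iff (by have := he0 x; positivity)] at h4

end Crest.Agent.R242.ContrTail
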