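import Crest.Agent.R242.Mid
import Crest.Agent.R242.Sob2Lip

/-!
Row 242: [DYAD], geodesic plans with bounded compression and entropy bounds at dyadic times.
-/

set_option autoImplicit false
set_option linter.unusedSectionVars false

open MeasureTheory Filter Set
open scoped ENNReal NNReal Topology
open Crest.GeometryTopology.SyntheticRicci
open InformationTheory

noncomputable section

namespace Crest.Agent.R242

variable {X : Type*} [MetricSpace X] [ProperSpace X] [MeasurableSpace X] [BorelSpace X]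
  {m : Measure X} [IsLocallyFiniteMeasure m] [m.IsOpenPosMeasure] {k N : ℝ}

/-- all optimal plans stay in the ball and have displacement at most `D`. -/
def DyTr (o : X) (R D : ℝ) (μ₀ μ₁ : Measure X) : Prop :=
  ∀ Q, IsOptGeo Q μ₀ μ₁ → ∀ᵐ γ ∂Q, (∀ t, γ.toMap t ∈ Metric.closedBall o R) ∧
    dist (γ.toMap 0) (γ.toMap 1) ≤ D

/-- the time `t / 2`. -/
def leftT (t : unitInterval) : unitInterval :=
  ⟨(t : ℝ) / 2, by have := t.2.1; positivity, by have := t.2.2; linarith⟩

/-- the time `1 / 2 + t / 2`. -/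
def rightT (t : unitInterval) : unitInterval :=
  ⟨1 / 2 + (t : ℝ) / 2, by have := t.2.1; positivity, by have := t.2.2; linarith⟩

lemma dy_subCurve_left (γ : UCurve X) (t : unitInterval) :
    (subCurve 0 (1 / 2) γ).toMap t = γ.toMap (leftT t) := by
  change γ.toMap (Set.projIcc (0 : ℝ) 1 zero_le_one (0 + (t : ℝ) * (1 / 2 - 0))) = _
  congr 1
  have h : (0 : ℝ) + (t : ℝ) * (1 / 2 - 0) = (t : ℝ) / 2 := by ring
  rw [h]
  exact Set.projIcc_of_mem zero_le_one (leftT t).2

lemma dy_subCurve_right (γ : UCurve X) (t : unitInterval) :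
    (subCurve (1 / 2) 1 γ).toMap t = γ.toMap (rightT t) := by
  change γ.toMap (Set.projIcc (0 : ℝ) 1 zero_le_one (1 / 2 + (t : ℝ) * (1 - 1 / 2))) = _
  congr 1
  have h : (1 / 2 : ℝ) + (t : ℝ) * (1 - 1 / 2) = 1 / 2 + (t : ℝ) / 2 := by ring
  rw [h]
  exact Set.projIcc_of_mem zero_le_one (rightT t).2

lemma dy_marg_left (P : Measure (UCurve X)) (t : unitInterval) :
    timeMarginal (P.map (subCurve 0 (1 / 2))) t = timeMarginal P (leftT t) := by
  unfold timeMarginal
  rw [Measure.map_map (measurable_ev t) (measurable_subCurve _ _)]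
  congr 1
  funext γ
  exact dy_subCurve_left γ t

lemma dy_marg_right (P : Measure (UCurve X)) (t : unitInterval) :
    timeMarginal (P.map (subCurve (1 / 2) 1)) t = timeMarginal P (rightT t) := by
  unfold timeMarginal
  rw [Measure.map_map (measurable_ev t) (measurable_subCurve _ _)]
  congr 1
  funext γ
  exact dy_subCurve_right γ t

lemma leftT_zero : leftT 0 = 0 := by
  apply Subtype.ext
  simp [leftT]

lemma leftT_one : leftT 1 = half := by
  apply Subtype.ext
  simp [leftT, half]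

lemma rightT_zero : rightT 0 = half := by
  apply Subtype.ext
  simp [rightT, half]

lemma rightT_one : rightT 1 = 1 := by
  apply Subtype.ext
  simp [rightT]; norm_num

lemma dy_closed_tr (o : X) (R D : ℝ) :
    IsClosed {γ : UCurve X | (∀ t, γ.toMap t ∈ Metric.closedBall o R) ∧
      dist (γ.toMap 0) (γ.toMap 1) ≤ D} := by
  refine IsClosed.inter ?_ ?_
  · have : {γ : UCurve X | ∀ t, γ.toMap t ∈ Metric.closedBall o R} =
        ⋂ t, (fun γ : UCurve X => γ.toMap t) ⁻¹' (Metric.closedBall o R) := by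
      ext γ; simp
    change IsClosed {γ : UCurve X | ∀ t, γ.toMap t ∈ Metric.closedBall o R}
    rw [this]
    exact isClosed_iInter fun t => Metric.isClosed_closedBall.preimage (continuous_ev t)
  · exact isClosed_le ((continuous_ev 0).dist (continuous_ev 1)) continuous_const

lemma dyTr_left {o : X} {R D : ℝ} {μ₀ μ₁ : Measure X} (h : DyTr o R D μ₀ μ₁)
    (hfin : w2sq μ₀ μ₁ ≠ ⊤) {P : Measure (UCurve X)} (hP : IsOptGeo P μ₀ μ₁) :
    DyTr o R (D / 2) μ₀ (timeMarginal P half) := by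
  intro Q hQ
  have hP2 : IsOptGeo (P.map (subCurve (1 / 2) 1)) (timeMarginal P half) μ₁ := by
    have := hP.subCurve hfin half 1
    rwa [hP.marg_one] at this
  obtain ⟨P', hP', hP'1, -⟩ := IsOptGeo.glue hQ hP2 hfin (hP.w2sq_half_left hfin)
    (hP.w2sq_half_right hfin)
  rw [← hP'1, ae_map_iff (measurable_subCurve _ _).aemeasurable
    (dy_closed_tr o R (D / 2)).measurableSet]
  filter_upwards [h P' hP', hP'.geod] with γ hγ hg
  refine ⟨fun t => ?_, ?_⟩
  · rw [dy_subCurve_left]; exact hγ.1 _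
  · rw [dy_subCurve_left, dy_subCurve_left, leftT_zero, leftT_one, hg 0 half]
    have h2 := hγ.2
    have : |(((0 : unitInterval) : ℝ)) - (half : ℝ)| = 1 / 2 := by
      simp [half]
    rw [this]
    linarith

lemma dyTr_right {o : X} {R D : ℝ} {μ₀ μ₁ : Measure X} (h : DyTr o R D μ₀ μ₁)
    (hfin : w2sq μ₀ μ₁ ≠ ⊤) {P : Measure (UCurve X)} (hP : IsOptGeo P μ₀ μ₁) :
    DyTr o R (D / 2) (timeMarginal P half) μ₁ := by
  intro Q hQ
  have hP1 : IsOptGeo (P.map (subCurve 0 (1 / 2))) μ₀ (timeMarginal P half) := by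
    have := hP.subCurve hfin 0 half
    rwa [hP.marg_zero] at this
  obtain ⟨P', hP', -, hP'2⟩ := IsOptGeo.glue hP1 hQ hfin (hP.w2sq_half_left hfin)
    (hP.w2sq_half_right hfin)
  rw [← hP'2, ae_map_iff (measurable_subCurve _ _).aemeasurable
    (dy_closed_tr o R (D / 2)).measurableSet]
  filter_upwards [h P' hP', hP'.geod] with γ hγ hg
  refine ⟨fun t => ?_, ?_⟩
  · rw [dy_subCurve_right]; exact hγ.1 _
  · rw [dy_subCurve_right, dy_subCurve_right, rightT_zero, rightT_one, hg half 1]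
    have h2 := hγ.2
    have : |((half : unitInterval) : ℝ) - (((1 : unitInterval) : ℝ))| = 1 / 2 := by
      simp [half]; norm_num
    rw [this]
    linarith

/-- right side of the entropy inequality. -/
def dyRHS (m : Measure X) (k : ℝ) (B : Set X) (μ₀ μ₁ : Measure X) (i : ℕ) : ℝ≥0∞ :=
  ENNReal.ofReal (1 - (1 / 2) ^ i) * entB m B μ₀ + ENNReal.ofReal ((1 / 2) ^ i) * entB m B μ₁ +
    ENNReal.ofReal (k / 2 * (1 / 2) ^ i * (1 - (1 / 2) ^ i)) * w2sq μ₀ μ₁

lemma dy_zero : dy 0 = 1 := by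
  apply Subtype.ext
  simp [dy]

lemma dy_succ (i : ℕ) : dy (i + 1) = leftT (dy i) := by
  apply Subtype.ext
  simp only [dy, leftT, pow_succ]
  ring

lemma dyRHS_zero (B : Set X) (μ₀ μ₁ : Measure X) : dyRHS m k B μ₀ μ₁ 0 = entB m B μ₁ := by
  simp [dyRHS]

/-- the recursion of the entropy bounds. -/
lemma dyRHS_succ (hk : 0 < k) {B : Set X} {μ₀ μ₁ ν : Measure X} {e : ℝ≥0∞} (i : ℕ)
    (he : e ≤ ENNReal.ofReal (1 - (1 / 2) ^ i) * entB m B μ₀ +
      ENNReal.ofReal ((1 / 2) ^ i) * entB m B ν +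
      ENNReal.ofReal (k / 2 * (1 / 2) ^ i * (1 - (1 / 2) ^ i)) * w2sq μ₀ ν)
    (hν : entB m B ν ≤ (entB m B μ₀ + entB m B μ₁) / 2 + ENNReal.ofReal (k / 8) * w2sq μ₀ μ₁)
    (hw : 4 * w2sq μ₀ ν = w2sq μ₀ μ₁) :
    e ≤ dyRHS m k B μ₀ μ₁ (i + 1) := by
  set s : ℝ := (1 / 2) ^ i with hs
  have hs0 : 0 ≤ s := by positivity
  have hs1 : s ≤ 1 := pow_le_one₀ (by norm_num) (by norm_num)
  have hw' : w2sq μ₀ ν = ENNReal.ofReal (1 / 4) * w2sq μ₀ μ₁ := by
    rw [← hw, ← mul_assoc]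
    have : ENNReal.ofReal (1 / 4) * 4 = 1 := by
      rw [show (4 : ℝ≥0∞) = ENNReal.ofReal 4 by simp, ← ENNReal.ofReal_mul (by norm_num)]
      norm_num
    rw [this, one_mul]
  have hhalf : ∀ x : ℝ≥0∞, x / 2 = x * ENNReal.ofReal (1 / 2) := by
    intro x
    rw [ENNReal.div_eq_inv_mul, mul_comm]
    congr 1
    rw [one_div, ENNReal.ofReal_inv_of_pos (by norm_num)]
    simp
  have hpow : ((1 : ℝ) / 2) ^ (i + 1) = s / 2 := by rw [hs, pow_succ]; ring
  unfold dyRHS
  rw [hpow]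
  have e1 : ENNReal.ofReal (1 - s / 2) =
      ENNReal.ofReal (1 - s) + ENNReal.ofReal s * ENNReal.ofReal (1 / 2) := by
    rw [← ENNReal.ofReal_mul hs0, ← ENNReal.ofReal_add (by linarith) (by positivity)]
    congr 1; ring
  have e2 : ENNReal.ofReal (s / 2) = ENNReal.ofReal s * ENNReal.ofReal (1 / 2) := by
    rw [← ENNReal.ofReal_mul hs0]
    congr 1; ring
  have e3 : ENNReal.ofReal (k / 2 * (s / 2) * (1 - s / 2)) =
      ENNReal.ofReal s * ENNReal.ofReal (k / 8) +
        ENNReal.ofReal (k / 2 * s * (1 - s)) * ENNReal.ofReal (1 / 4) := by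
    have h1 : 0 ≤ 1 - s := by linarith
    rw [← ENNReal.ofReal_mul hs0, ← ENNReal.ofReal_mul (by positivity),
      ← ENNReal.ofReal_add (by positivity) (by positivity)]
    congr 1; ring
  rw [e1, e2, e3]
  rw [hhalf] at hν
  calc e ≤ _ := he
    _ ≤ ENNReal.ofReal (1 - s) * entB m B μ₀ +
      ENNReal.ofReal s * ((entB m B μ₀ + entB m B μ₁) * ENNReal.ofReal (1 / 2) +
        ENNReal.ofReal (k / 8) * w2sq μ₀ μ₁) +
      ENNReal.ofReal (k / 2 * s * (1 - s)) * (ENNReal.ofReal (1 / 4) * w2sq μ₀ μ₁) := by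
        rw [hw']
        gcongr
    _ = _ := by ring

/-- the induction over dyadic levels. -/
theorem dyad_claim (H : Hyp m k N) {o : X} {R : ℝ} {B : Set X} (hB : MeasurableSet B)
    (hmB : m B ≠ ⊤) (hBR : Metric.closedBall o R ⊆ B) (n : ℕ) :
    ∀ (M D : ℝ) (μ₀ μ₁ : Measure X), 1 ≤ M → 0 < D → IsProbabilityMeasure μ₀ →
      IsProbabilityMeasure μ₁ → μ₀ (Metric.closedBall o R)ᶜ = 0 →
      μ₁ (Metric.closedBall o R)ᶜ = 0 → μ₀ ≤ ENNReal.ofReal M • m → μ₁ ≤ ENNReal.ofReal M • m →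
      DyTr o R D μ₀ μ₁ →
      ∃ P, IsOptGeo P μ₀ μ₁ ∧
        (∀ (j : ℕ) (t : unitInterval), (t : ℝ) * 2 ^ n = j →
          timeMarginal P t ≤ ENNReal.ofReal (M * Real.exp (k * D ^ 2 / 3)) • m) ∧
        ∀ i ≤ n, entB m B (timeMarginal P (dy i)) ≤ dyRHS m k B μ₀ μ₁ i := by
  have hk := H.kpos
  have hmonoB : ∀ {μ : Measure X}, μ (Metric.closedBall o R)ᶜ = 0 → μ Bᶜ = 0 := fun h =>
    measure_mono_null (compl_subset_compl.mpr hBR) h
  have hmono : ∀ {a b : ℝ} {μ : Measure X}, a ≤ b → μ ≤ ENNReal.ofReal a • m →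
      μ ≤ ENNReal.ofReal b • m := by
    intro a b μ hab h
    refine h.trans ?_
    intro s
    simp only [Measure.smul_apply, smul_eq_mul]
    gcongr
  induction n with
  | zero =>
    intro M D μ₀ μ₁ hM hD hp₀ hp₁ h₀ h₁ hM₀ hM₁ htr
    obtain ⟨P, hP, -, -⟩ := ENT_gen H ENNReal.ofReal_ne_top h₀ h₁ hM₀ hM₁
    have hexp : M ≤ M * Real.exp (k * D ^ 2 / 3) :=
      le_mul_of_one_le_right (by linarith) (Real.one_le_exp (by positivity))
    refine ⟨P, hP, ?_, ?_⟩
    · intro j t hj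
      rw [pow_zero, mul_one] at hj
      have hj1 : j ≤ 1 := by
        have : (j : ℝ) ≤ 1 := by rw [← hj]; exact t.2.2
        exact_mod_cast this
      interval_cases j
      · have : t = 0 := Subtype.ext (by simpa using hj)
        rw [this, hP.marg_zero]
        exact hmono hexp hM₀
      · have : t = 1 := Subtype.ext (by simpa using hj)
        rw [this, hP.marg_one]
        exact hmono hexp hM₁
    · intro i hi
      obtain rfl : i = 0 := by omega
      rw [dy_zero, dyRHS_zero, hP.marg_one]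
  | succ n ih =>
    intro M D μ₀ μ₁ hM hD hp₀ hp₁ h₀ h₁ hM₀ hM₁ htr
    set M' := M * Real.exp (k * D ^ 2 / 4) with hM'
    have hMM' : M ≤ M' :=
      le_mul_of_one_le_right (by linarith) (Real.one_le_exp (by positivity))
    have hM'1 : 1 ≤ M' := hM.trans hMM'
    have hlt : M * Real.exp (k * D ^ 2 / 8) < M' := by
      refine mul_lt_mul_of_pos_left (Real.exp_lt_exp.mpr ?_) (by linarith)
      have : 0 < k * D ^ 2 := by positivity
      linarith
    have hhalf : ∀ P, IsOptGeo P μ₀ μ₁ → timeMarginal P half (Metric.closedBall o R)ᶜ = 0 := by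
      intro P hP
      refine mid_marg_null Metric.isClosed_closedBall.measurableSet ?_
      filter_upwards [htr P hP] with γ hγ using hγ.1 half
    obtain ⟨P', hP', hC', he'⟩ := MID_gen H h₀ h₁ hM₀ hM₁
      (fun P hP => (htr P hP).mono fun γ hγ => hγ.2) hB hmB (hmonoB h₀) (hmonoB h₁)
      (fun P hP => hmonoB (hhalf P hP)) hlt hM'1
    have hfin : w2sq μ₀ μ₁ ≠ ⊤ :=
      ((mid_cost_le hP' ((htr P' hP').mono fun γ hγ => hγ.2)).trans_lt ENNReal.ofReal_lt_top).ne
    set ν := timeMarginal P' half with hν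
    have hPp' := hP'.prob
    have hνp : IsProbabilityMeasure ν := by rw [hν]; infer_instance
    have hwl := hP'.w2sq_half_left hfin
    have hwr := hP'.w2sq_half_right hfin
    obtain ⟨P₁, hP₁, hd₁, he₁⟩ := ih M' (D / 2) μ₀ ν hM'1 (by linarith) hp₀ hνp h₀
      (hhalf _ hP') (hmono hMM' hM₀) hC' (dyTr_left htr hfin hP')
    obtain ⟨P₂, hP₂, hd₂, -⟩ := ih M' (D / 2) ν μ₁ hM'1 (by linarith) hνp hp₁ (hhalf _ hP')
      h₁ hC' (hmono hMM' hM₁) (dyTr_right htr hfin hP')
    have hconst : M' * Real.exp (k * (D / 2) ^ 2 / 3) = M * Real.exp (k * D ^ 2 / 3) := by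
      rw [hM', mul_assoc, ← Real.exp_add]
      congr 2; ring
    rw [hconst] at hd₁ hd₂
    obtain ⟨P, hP, hPl, hPr⟩ := IsOptGeo.glue hP₁ hP₂ hfin hwl hwr
    refine ⟨P, hP, ?_, ?_⟩
    · intro j t hj
      rw [pow_succ] at hj
      rcases le_total (t : ℝ) (1 / 2) with h | h
      · set s : unitInterval := ⟨2 * (t : ℝ), by have := t.2.1; positivity, by linarith⟩ with hs
        have hts : t = leftT s := Subtype.ext (by simp [leftT, hs])
        rw [hts, ← dy_marg_left, hPl]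
        refine hd₁ j s ?_
        rw [← hj]; simp only [hs]; ring
      · set s : unitInterval := ⟨2 * (t : ℝ) - 1, by linarith, by have := t.2.2; linarith⟩ with hs
        have hts : t = rightT s := Subtype.ext (by simp [rightT, hs]; ring)
        rw [hts, ← dy_marg_right, hPr]
        have hj2 : 2 ^ n ≤ j := by
          have : (2 : ℝ) ^ n ≤ j := by
            rw [← hj]
            have : (0 : ℝ) < 2 ^ n := by positivity
            nlinarith
          exact_mod_cast this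
        refine hd₂ (j - 2 ^ n) s ?_
        rw [Nat.cast_sub hj2, ← hj]
        simp only [hs]; push_cast; ring
    · intro i hi
      rcases i with _ | i
      · rw [dy_zero, dyRHS_zero, hP.marg_one]
      · rw [dy_succ, ← dy_marg_left, hPl]
        exact dyRHS_succ hk i (he₁ i (by omega)) he' hwl

/-- dyadic times are dense: a closed set of times containing them is everything. -/
lemma dy_dense {F : Set unitInterval} (hF : IsClosed F)
    (h : ∀ (n j : ℕ) (t : unitInterval), (t : ℝ) * 2 ^ n = j → t ∈ F) (t : unitInterval) :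
    t ∈ F := by
  have ht0 := t.2.1
  have ht1 := t.2.2
  have hle : ∀ n : ℕ, (⌊(t : ℝ) * 2 ^ n⌋₊ : ℝ) / 2 ^ n ≤ t := by
    intro n
    rw [div_le_iff₀ (by positivity)]
    exact Nat.floor_le (by positivity)
  set u : ℕ → unitInterval := fun n =>
    ⟨(⌊(t : ℝ) * 2 ^ n⌋₊ : ℝ) / 2 ^ n, by positivity, (hle n).trans ht1⟩ with hu
  have hlim : Tendsto u atTop (𝓝 t) := by
    rw [tendsto_subtype_rng]
    have h1 : Tendsto (fun n : ℕ => (t : ℝ) - (1 / 2) ^ n) atTop (𝓝 ((t : ℝ) - 0)) :=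
      tendsto_const_nhds.sub (tendsto_pow_atTop_nhds_zero_of_lt_one (by norm_num) (by norm_num))
    rw [sub_zero] at h1
    refine tendsto_of_tendsto_of_tendsto_of_le_of_le h1 tendsto_const_nhds ?_ hle
    intro n
    simp only [hu]
    rw [le_div_iff₀ (by positivity)]
    have h2 := (Nat.lt_floor_add_one ((t : ℝ) * 2 ^ n)).le
    have h3 : ((1 : ℝ) / 2) ^ n * 2 ^ n = 1 := by
      rw [← mul_pow]; norm_num
    nlinarith
  refine hF.mem_of_tendsto hlim (Eventually.of_forall fun n => h n ⌊(t : ℝ) * 2 ^ n⌋₊ (u n) ?_)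
  simp only [hu]
  field_simp

/-- [DYAD], general ball. -/
theorem DYAD_gen (H : Hyp m k N) (R M : ℝ) :
    ∃ C : ℝ, 1 ≤ C ∧ ∀ (o : X) (B : Set X), MeasurableSet B → m B ≠ ⊤ →
      Metric.closedBall o (2 * R) ⊆ B → ∀ μ₀ μ₁ : Measure X, IsProbabilityMeasure μ₀ →
      IsProbabilityMeasure μ₁ → μ₀ (Metric.closedBall o R)ᶜ = 0 →
      μ₁ (Metric.closedBall o R)ᶜ = 0 → μ₀ ≤ ENNReal.ofReal M • m → μ₁ ≤ ENNReal.ofReal M • m →
      ∃ P, IsOptGeo P μ₀ μ₁ ∧ (∀ t, timeMarginal P t ≤ ENNReal.ofReal C • m) ∧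
        ∀ n : ℕ, entB m B (timeMarginal P (dy n)) ≤
          ENNReal.ofReal (1 - (1 / 2) ^ n) * entB m B μ₀ +
          ENNReal.ofReal ((1 / 2) ^ n) * entB m B μ₁ +
          ENNReal.ofReal (k / 2 * (1 / 2) ^ n * (1 - (1 / 2) ^ n)) * w2sq μ₀ μ₁ := by
  have hk := H.kpos
  set M' := max M 1 with hM'
  set D := max (2 * R) 1 with hD
  have hM'1 : 1 ≤ M' := le_max_right _ _
  have hD0 : 0 < D := lt_of_lt_of_le one_pos (le_max_right _ _)
  set C := M' * Real.exp (k * D ^ 2 / 3) with hC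
  have hC1 : 1 ≤ C := by
    have : 1 ≤ Real.exp (k * D ^ 2 / 3) := Real.one_le_exp (by positivity)
    nlinarith
  refine ⟨C, hC1, ?_⟩
  intro o B hB hmB hBR μ₀ μ₁ hp₀ hp₁ h₀ h₁ hM₀ hM₁
  have hR : 0 ≤ R := by
    by_contra hR
    rw [Metric.closedBall_eq_empty.mpr (not_le.mp hR), compl_empty, measure_univ] at h₀
    exact one_ne_zero h₀
  have hmono : ∀ {μ : Measure X}, μ ≤ ENNReal.ofReal M • m → μ ≤ ENNReal.ofReal M' • m := by
    intro μ h
    refine h.trans ?_
    intro s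
    simp only [Measure.smul_apply, smul_eq_mul]
    gcongr
    exact le_max_left _ _
  have hsub : ∀ {μ : Measure X}, μ (Metric.closedBall o R)ᶜ = 0 →
      μ (Metric.closedBall o (2 * R))ᶜ = 0 := fun h => measure_mono_null
    (compl_subset_compl.mpr (Metric.closedBall_subset_closedBall (by linarith))) h
  have htr : DyTr o (2 * R) D μ₀ μ₁ := by
    intro Q hQ
    filter_upwards [mid_supp hQ h₀ h₁] with γ hγ using ⟨hγ.1, hγ.2.trans (le_max_left _ _)⟩
  have hκfin : IsFiniteMeasure (m.restrict B) := ⟨by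
    rw [Measure.restrict_apply_univ]; exact lt_top_iff_ne_top.mpr hmB⟩
  have hcarr : ∀ P, IsOptGeo P μ₀ μ₁ → ∀ t, timeMarginal P t Bᶜ = 0 := by
    intro P hP t
    refine mid_marg_null hB ?_
    filter_upwards [htr P hP] with γ hγ using hBR (hγ.1 t)
  -- the closed sets
  set K := {P : ProbabilityMeasure (UCurve X) | IsOptGeo (P : Measure (UCurve X)) μ₀ μ₁} with hK
  have hKc : IsCompact K := isCompact_optGeo h₀ h₁
  set F : Set (ProbabilityMeasure X) :=
    {ν | (ν : Measure X) ≤ ENNReal.ofReal C • m} with hF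
  have hFc : IsClosed F := by
    have := isClosed_le_measure (m := m) (Real.toNNReal C)
    exact this
  set T : ℕ → Set unitInterval := fun n => {t | ∃ j : ℕ, (t : ℝ) * 2 ^ n = j} with hT
  set E : ℕ → Set (ProbabilityMeasure (UCurve X)) := fun i =>
    {P | ENNReal.ofReal (Phi (m.restrict B) C (tmP (dy i) P : Measure X)) ≤
      dyRHS m k B μ₀ μ₁ i} with hE
  have hEc : ∀ i, IsClosed (E i) := by
    intro i
    have h1 : LowerSemicontinuous (fun P : ProbabilityMeasure (UCurve X) =>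
        Phi (m.restrict B) C (tmP (dy i) P : Measure X)) :=
      (lowerSemicontinuous_Phi (m.restrict B) hC1).comp (continuous_tmP (dy i))
    have h2 := ENNReal.continuous_ofReal.comp_lowerSemicontinuous h1 ENNReal.ofReal_mono
    exact h2.isClosed_preimage _
  set S : ℕ → Set (ProbabilityMeasure (UCurve X)) := fun n =>
    K ∩ ((⋂ t ∈ T n, (tmP t) ⁻¹' F) ∩ ⋂ i ≤ n, E i) with hS
  have hSc : ∀ n, IsClosed (S n) := by
    intro n
    refine hKc.isClosed.inter (IsClosed.inter ?_ ?_)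
    · exact isClosed_biInter fun t _ => hFc.preimage (continuous_tmP t)
    · exact isClosed_biInter fun i _ => hEc i
  have hSne : ∀ n, (S n).Nonempty := by
    intro n
    obtain ⟨P, hP, hPd, hPe⟩ := dyad_claim H hB hmB hBR n M' D μ₀ μ₁ hM'1 hD0 hp₀ hp₁
      (hsub h₀) (hsub h₁) (hmono hM₀) (hmono hM₁) htr
    have hPp := hP.prob
    refine ⟨⟨P, hPp⟩, hP, ?_, ?_⟩
    · refine mem_iInter₂.mpr ?_
      rintro t ⟨j, hj⟩
      exact hPd j t hj
    · refine mem_iInter₂.mpr ?_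
      intro i hi
      have hdi : timeMarginal P (dy i) ≤ ENNReal.ofReal C • m := by
        refine hPd (2 ^ (n - i)) (dy i) ?_
        simp only [dy]
        push_cast
        rw [show (2 : ℝ) ^ n = 2 ^ i * 2 ^ (n - i) by rw [← pow_add]; congr 1; omega,
          ← mul_assoc, ← mul_pow]
        norm_num
      refine (mid_ofReal_Phi_le hB hmB (Measure.absolutelyContinuous_of_le_smul hdi)
        (hcarr P hP _) hC1).trans (hPe i hi)
  have hSmono : ∀ n, S (n + 1) ⊆ S n := by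
    rintro n P ⟨h1, h2, h3⟩
    refine ⟨h1, ?_, ?_⟩
    · simp only [mem_iInter] at h2 ⊢
      rintro t ⟨j, hj⟩
      refine h2 t ⟨2 * j, ?_⟩
      rw [pow_succ]
      push_cast
      rw [← hj]; ring
    · simp only [mem_iInter] at h3 ⊢
      intro i hi
      exact h3 i (by omega)
  have hS0 : IsCompact (S 0) := hKc.of_isClosed_subset (hSc 0) inter_subset_left
  obtain ⟨P, hP⟩ := IsCompact.nonempty_iInter_of_sequence_nonempty_isCompact_isClosed S hSmono
    hSne hS0 hSc
  rw [mem_iInter] at hP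
  have hPK : IsOptGeo (P : Measure (UCurve X)) μ₀ μ₁ := (hP 0).1
  have hall : ∀ t, timeMarginal (P : Measure (UCurve X)) t ≤ ENNReal.ofReal C • m := by
    intro t
    have hcl : IsClosed {t : unitInterval | tmP t P ∈ F} :=
      hFc.preimage (continuous_time_tmP P)
    refine dy_dense hcl ?_ t
    intro n j t ht
    have := (hP n).2.1
    simp only [mem_iInter] at this
    exact this t ⟨j, ht⟩
  refine ⟨P, hPK, hall, fun n => ?_⟩
  have h3 := (hP n).2.2
  simp only [mem_iInter] at h3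
  have h4 : ENNReal.ofReal (Phi (m.restrict B) C (timeMarginal (P : Measure (UCurve X)) (dy n))) ≤
    dyRHS m k B μ₀ μ₁ n := h3 n le_rfl
  rwa [mid_ofReal_Phi_eq hB hmB (hcarr _ hPK _) hC1 (hall _)] at h4

/-- [DYAD] -/
theorem DYAD (H : Hyp m k N) (o : X) {R M : ℝ} (hR : 0 ≤ R) (hM : 0 ≤ M) :
    ∃ C : ℝ, 0 ≤ C ∧ ∀ μ₀ μ₁ : Measure X, IsProbabilityMeasure μ₀ → IsProbabilityMeasure μ₁ →
      μ₀ (Metric.closedBall o R)ᶜ = 0 → μ₁ (Metric.closedBall o R)ᶜ = 0 →
      μ₀ ≤ ENNReal.ofReal M • m → μ₁ ≤ ENNReal.ofReal M • m →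
      ∃ P, IsOptGeo P μ₀ μ₁ ∧ (∀ t, timeMarginal P t ≤ ENNReal.ofReal C • m) ∧
        ∀ n : ℕ, entB m (Metric.closedBall o (3 * R)) (timeMarginal P (dy n)) ≤
          ENNReal.ofReal (1 - (1 / 2) ^ n) * entB m (Metric.closedBall o (3 * R)) μ₀ +
          ENNReal.ofReal ((1 / 2) ^ n) * entB m (Metric.closedBall o (3 * R)) μ₁ +
          ENNReal.ofReal (k / 2 * (1 / 2) ^ n * (1 - (1 / 2) ^ n)) * w2sq μ₀ μ₁ := by
  obtain ⟨C, hC1, hC⟩ := DYAD_gen H R M
  exact ⟨C, by linarith, fun μ₀ μ₁ => hC o _ Metric.isClosed_closedBall.measurableSet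
    (isCompact_closedBall o (3 * R)).measure_lt_top.ne
    (Metric.closedBall_subset_closedBall (by linarith)) μ₀ μ₁⟩

/-- the geodesic plans needed for the local-to-Lipschitz statements. -/
theorem hasBddGeoPlans (H : Hyp m k N) : HasBddGeoPlans m := by
  intro o R M μ₀ μ₁ hp₀ hp₁ hM₀ hM₁ h₀ h₁
  obtain ⟨C, hC1, hC⟩ := DYAD_gen H R (M : ℝ)
  obtain ⟨P, hP, hPC, -⟩ := hC o _ Metric.isClosed_closedBall.measurableSet
    (isCompact_closedBall o (2 * R)).measure_lt_top.ne subset_rfl μ₀ μ₁ hp₀ hp₁ h₀ h₁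
    (by simpa using hM₀) (by simpa using hM₁)
  exact ⟨P, hP.prob, hP.geod, hP.marg_zero, hP.marg_one, Real.toNNReal C, hPC⟩

end Crest.Agent.R242
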