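import Mathlib
import Crest.Agent.R242.Defs

/-!
Row 242, module E1, part A: the tangent-line lower bound for the relative entropy.
-/

set_option autoImplicit false

open MeasureTheory Filter Set
open scoped ENNReal NNReal Topology
open Crest.GeometryTopology.SyntheticRicci

noncomputable section

namespace Crest.Agent.R242

open InformationTheory (klFun)

lemma kl_core {a b : ℝ} (ha : 0 < a) (hb : 0 ≤ b) :
    0 ≤ b * Real.log b - b - b * Real.log a + a := by
  rcases hb.eq_or_lt with rfl | hb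
  · simp [ha.le]
  · have h1 : Real.log (a / b) ≤ a / b - 1 := Real.log_le_sub_one_of_pos (by positivity)
    rw [Real.log_div ha.ne' hb.ne'] at h1
    have h2 : b * (Real.log a - Real.log b) ≤ b * (a / b - 1) :=
      mul_le_mul_of_nonneg_left h1 hb.le
    have h3 : b * (a / b - 1) = a - b := by field_simp
    rw [h3] at h2
    nlinarith

section Ent

variable {X : Type*} [MetricSpace X] [MeasurableSpace X] {m : Measure X}

lemma rnDeriv_le_of_le_smul [SigmaFinite m] {ν : Measure X} [SigmaFinite ν] {C : ℝ≥0∞}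
    (h : ν ≤ C • m) : ∀ᵐ x ∂m, ν.rnDeriv m x ≤ C := by
  refine ae_le_of_forall_setLIntegral_le_of_sigmaFinite (Measure.measurable_rnDeriv ν m) ?_
  intro s hs _
  calc ∫⁻ x in s, ν.rnDeriv m x ∂m ≤ ν s := Measure.setLIntegral_rnDeriv_le s
    _ ≤ (C • m) s := h s
    _ = ∫⁻ _ in s, C ∂m := by simp [Measure.smul_apply]

lemma klFun_bdd (C : ℝ) : ∃ K : ℝ, 0 ≤ K ∧ ∀ r, 0 ≤ r → r ≤ C → klFun r ≤ K := by
  obtain ⟨K, hK⟩ := (isCompact_Icc (a := (0 : ℝ)) (b := C)).exists_bound_of_continuousOn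
    InformationTheory.continuous_klFun.continuousOn
  refine ⟨|K|, abs_nonneg _, fun r h0 h1 => ?_⟩
  have := hK r ⟨h0, h1⟩
  exact (le_abs_self _).trans (this.trans (le_abs_self _))

lemma ae_klFun_bdd [SigmaFinite m] {ν : Measure X} [SigmaFinite ν] {C : ℝ≥0}
    (h : ν ≤ (C : ℝ≥0∞) • m) :
    ∃ K : ℝ, 0 ≤ K ∧ ∀ᵐ x ∂m, 0 ≤ klFun (ν.rnDeriv m x).toReal ∧
      klFun (ν.rnDeriv m x).toReal ≤ K := by
  obtain ⟨K, hK0, hK⟩ := klFun_bdd C
  refine ⟨K, hK0, ?_⟩
  filter_upwards [rnDeriv_le_of_le_smul h] with x hx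
  refine ⟨InformationTheory.klFun_nonneg ENNReal.toReal_nonneg, hK _ ENNReal.toReal_nonneg ?_⟩
  exact ENNReal.toReal_le_of_le_ofReal C.2 (by simpa using hx)

lemma integrableOn_kl [SigmaFinite m] {ν : Measure X} [SigmaFinite ν] {C : ℝ≥0}
    (h : ν ≤ (C : ℝ≥0∞) • m) {B : Set X} (hB : m B < ∞) :
    IntegrableOn (fun x => klFun (ν.rnDeriv m x).toReal) B m := by
  obtain ⟨K, hK0, hK⟩ := ae_klFun_bdd h
  have hm : Measurable (fun x => klFun (ν.rnDeriv m x).toReal) :=
    InformationTheory.measurable_klFun.comp (Measure.measurable_rnDeriv ν m).ennreal_toReal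
  have : IsFiniteMeasure (m.restrict B) := ⟨by simpa using hB⟩
  refine Integrable.of_bound hm.aestronglyMeasurable K ?_
  filter_upwards [ae_restrict_of_ae hK] with x hx
  rw [Real.norm_eq_abs, abs_of_nonneg hx.1]
  exact hx.2

lemma entB_lt_top [SigmaFinite m] {ν : Measure X} [SigmaFinite ν] {C : ℝ≥0}
    (h : ν ≤ (C : ℝ≥0∞) • m) {B : Set X} (hB : m B < ∞) : entB m B ν < ∞ := by
  have := (integrableOn_kl h hB).lintegral_lt_top
  exact this

lemma entB_toReal [SigmaFinite m] {ν : Measure X} (B : Set X) :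
    (entB m B ν).toReal = ∫ x in B, klFun (ν.rnDeriv m x).toReal ∂m := by
  have hm : Measurable (fun x => klFun (ν.rnDeriv m x).toReal) :=
    InformationTheory.measurable_klFun.comp (Measure.measurable_rnDeriv ν m).ennreal_toReal
  rw [integral_eq_lintegral_of_nonneg_ae
    (Eventually.of_forall fun x => InformationTheory.klFun_nonneg ENNReal.toReal_nonneg)
    hm.aestronglyMeasurable]
  rfl

lemma rnDeriv_zero_of_null [SigmaFinite m] {ν : Measure X} [SigmaFinite ν] {B : Set X}
    (hB : MeasurableSet B) (h : ν Bᶜ = 0) : ∀ᵐ x ∂m, x ∉ B → ν.rnDeriv m x = 0 := by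
  have h1 : ∫⁻ x in Bᶜ, ν.rnDeriv m x ∂m = 0 :=
    le_antisymm ((Measure.setLIntegral_rnDeriv_le _).trans h.le) bot_le
  rw [lintegral_eq_zero_iff (Measure.measurable_rnDeriv ν m)] at h1
  have h2 := (ae_restrict_iff' hB.compl).1 h1
  filter_upwards [h2] with x hx hxB
  exact hx hxB

lemma integral_eq_setIntegral_rnDeriv [SigmaFinite m] {ν : Measure X} [SigmaFinite ν]
    (hac : ν ≪ m) {B : Set X} (hB : MeasurableSet B) (h : ν Bᶜ = 0) (f : X → ℝ) :
    ∫ x, f x ∂ν = ∫ x in B, (ν.rnDeriv m x).toReal * f x ∂m := by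
  rw [← integral_rnDeriv_smul hac, ← integral_indicator hB]
  refine integral_congr_ae ?_
  filter_upwards [rnDeriv_zero_of_null hB h] with x hx
  by_cases hxB : x ∈ B
  · simp [hxB]
  · simp [hxB, hx hxB]

/-- tangent-line lower bound for the entropy, with a truncated reference density. -/
lemma ent_lower [SigmaFinite m] {A B' B : Set X} (hA : MeasurableSet A) (hB' : MeasurableSet B')
    (hB : MeasurableSet B) (hAB' : A ⊆ B') (hB'B : B' ⊆ B) (hBfin : m B < ∞)
    {r₀ : X → ℝ} (hr₀ : AEMeasurable r₀ (m.restrict B)) {c C : ℝ} (hc : 0 < c)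
    (hcr : ∀ᵐ x ∂(m.restrict B), c ≤ r₀ x ∧ r₀ x ≤ C)
    {μ₀ : Measure X} (hμ₀ : μ₀ = (m.restrict A).withDensity (fun x => ENNReal.ofReal (r₀ x)))
    {ν : Measure X} [IsFiniteMeasure ν] {M : ℝ≥0} (hν : ν ≤ (M : ℝ≥0∞) • m)
    (hνs : ν B'ᶜ = 0) {f : X → ℝ} (hf : ∀ᵐ x ∂(m.restrict B), f x = Real.log (r₀ x)) :
    ∫ x, f x ∂ν - ∫ x, f x ∂μ₀ - ∫ x in B' \ A, r₀ x ∂m ≤
      (entB m B ν).toReal - (entB m B μ₀).toReal := by
  have hAB : A ⊆ B := hAB'.trans hB'B
  have hr₀A : AEMeasurable r₀ (m.restrict A) := hr₀.mono_measure (Measure.restrict_mono hAB le_rfl)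
  have hcrA : ∀ᵐ x ∂(m.restrict A), c ≤ r₀ x ∧ r₀ x ≤ C :=
    ae_restrict_of_ae_restrict_of_subset hAB hcr
  -- the density of `μ₀`
  have hμ₀' : μ₀ = m.withDensity (A.indicator (fun x => ENNReal.ofReal (r₀ x))) := by
    rw [hμ₀, withDensity_indicator hA]
  have hρ₀ : ∀ᵐ x ∂m, μ₀.rnDeriv m x = A.indicator (fun x => ENNReal.ofReal (r₀ x)) x := by
    rw [hμ₀']
    exact Measure.rnDeriv_withDensity₀ m ((aemeasurable_indicator_iff hA).2 hr₀A.ennreal_ofReal)
  have hμ₀le : μ₀ ≤ ((Real.toNNReal C : ℝ≥0) : ℝ≥0∞) • m := by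
    rw [hμ₀']
    refine Measure.le_intro fun s hs _ => ?_
    rw [withDensity_apply _ hs, Measure.smul_apply, smul_eq_mul, ← setLIntegral_const]
    refine lintegral_mono_ae ?_
    have h2 := (ae_restrict_iff' hA).1 hcrA
    filter_upwards [ae_restrict_of_ae h2] with x hx
    by_cases hxA : x ∈ A
    · simp only [hxA, indicator_of_mem]
      exact ENNReal.ofReal_le_ofReal (hx hxA).2
    · simp [hxA]
  have hμ₀ac : μ₀ ≪ m := by rw [hμ₀']; exact withDensity_absolutelyContinuous _ _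
  have hνac : ν ≪ m := (Measure.absolutelyContinuous_of_le hν).trans
    (Measure.smul_absolutelyContinuous)
  have hμ₀s : μ₀ Bᶜ = 0 := by
    rw [hμ₀']
    rw [withDensity_apply _ hB.compl, lintegral_eq_zero_iff' ]
    · refine (ae_restrict_iff' hB.compl).2 (Eventually.of_forall fun x hx => ?_)
      have : x ∉ A := fun h => hx (hAB h)
      simp [this]
    · exact ((aemeasurable_indicator_iff hA).2 hr₀A.ennreal_ofReal).restrict
  have hνsB : ν Bᶜ = 0 := measure_mono_null (compl_subset_compl.2 hB'B) hνs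
  have : IsFiniteMeasure μ₀ := by
    refine ⟨?_⟩
    rw [← measure_add_measure_compl hB, hμ₀s, add_zero]
    exact (hμ₀le B).trans_lt (by
      rw [Measure.smul_apply, smul_eq_mul]
      exact ENNReal.mul_lt_top ENNReal.coe_lt_top hBfin)
  have : IsFiniteMeasure (m.restrict B) := ⟨by simpa using hBfin⟩
  rw [integral_eq_setIntegral_rnDeriv hνac hB hνsB, integral_eq_setIntegral_rnDeriv hμ₀ac hB hμ₀s,
    entB_toReal, entB_toReal]
  have hdiff : ∫ x in B' \ A, r₀ x ∂m = ∫ x in B, (B' \ A).indicator r₀ x ∂m := by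
    rw [setIntegral_indicator (hB'.diff hA)]
    congr 2
    exact (inter_eq_right.2 (sdiff_subset.trans hB'B)).symm
  rw [hdiff]
  -- integrability
  have hfm : AEStronglyMeasurable f (m.restrict B) := by
    have : AEMeasurable (fun x => Real.log (r₀ x)) (m.restrict B) :=
      Real.measurable_log.comp_aemeasurable hr₀
    exact this.aestronglyMeasurable.congr (by filter_upwards [hf] with x hx using hx.symm)
  have hfb : ∀ᵐ x ∂(m.restrict B), |f x| ≤ |Real.log c| + |Real.log C| := by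
    filter_upwards [hf, hcr] with x hx hx2
    rw [hx, abs_le]
    have h1 : Real.log c ≤ Real.log (r₀ x) := Real.log_le_log hc hx2.1
    have h2 : Real.log (r₀ x) ≤ Real.log C := Real.log_le_log (hc.trans_le hx2.1) hx2.2
    constructor
    · have := neg_abs_le (Real.log c); have := abs_nonneg (Real.log C); linarith
    · have := le_abs_self (Real.log C); have := abs_nonneg (Real.log c); linarith
  have hint : ∀ (κ : Measure X) [SigmaFinite κ] (D : ℝ≥0), κ ≤ (D : ℝ≥0∞) • m →
      IntegrableOn (fun x => (κ.rnDeriv m x).toReal * f x) B m := by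
    intro κ _ D hκ
    refine Integrable.of_bound
      ((Measure.measurable_rnDeriv κ m).ennreal_toReal.aestronglyMeasurable.mul hfm)
      (D * (|Real.log c| + |Real.log C|)) ?_
    filter_upwards [hfb, ae_restrict_of_ae (rnDeriv_le_of_le_smul hκ)] with x hx hx2
    rw [Real.norm_eq_abs, abs_mul, abs_of_nonneg ENNReal.toReal_nonneg]
    refine mul_le_mul ?_ hx (abs_nonneg _) D.2
    exact ENNReal.toReal_le_of_le_ofReal D.2 (by simpa using hx2)
  have i1 := hint ν M hν
  have i2 := hint μ₀ _ hμ₀le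
  have i3 : IntegrableOn ((B' \ A).indicator r₀) B m := by
    refine Integrable.of_bound (hr₀.indicator (hB'.diff hA)).aestronglyMeasurable |C| ?_
    filter_upwards [hcr] with x hx
    by_cases hxA : x ∈ B' \ A
    · rw [indicator_of_mem hxA, Real.norm_eq_abs, abs_of_nonneg (hc.le.trans hx.1)]
      exact hx.2.trans (le_abs_self _)
    · rw [indicator_of_notMem hxA]; simp
  have i4 := integrableOn_kl hν hBfin
  have i5 := integrableOn_kl hμ₀le hBfin
  have i12 : IntegrableOn (fun x => (ν.rnDeriv m x).toReal * f x -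
    (μ₀.rnDeriv m x).toReal * f x) B m := i1.sub i2
  rw [← integral_sub i1 i2, ← integral_sub i12 i3, ← integral_sub i4 i5]
  refine integral_mono_ae (i12.sub i3) (i4.sub i5) ?_
  filter_upwards [hf, hcr, ae_restrict_of_ae hρ₀, ae_restrict_of_ae (rnDeriv_zero_of_null hB' hνs)]
    with x hfx hcx hρx hνx
  have hr0x : 0 < r₀ x := hc.trans_le hcx.1
  have hb0 : 0 ≤ (ν.rnDeriv m x).toReal := ENNReal.toReal_nonneg
  have hkc := kl_core hr0x hb0
  simp only [hρx, hfx, InformationTheory.klFun_apply]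
  by_cases hxA : x ∈ A
  · have h1 : x ∉ B' \ A := fun h => h.2 hxA
    rw [indicator_of_mem hxA, indicator_of_notMem h1, ENNReal.toReal_ofReal hr0x.le]
    nlinarith
  · rw [indicator_of_notMem hxA]
    by_cases hxB' : x ∈ B'
    · have h1 : x ∈ B' \ A := ⟨hxB', hxA⟩
      rw [indicator_of_mem h1]
      simp only [ENNReal.toReal_zero, zero_mul]
      nlinarith
    · have h1 : x ∉ B' \ A := fun h => hxB' h.1
      rw [indicator_of_notMem h1, hνx hxB']
      simp

end Ent

end Crest.Agent.R242
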