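import Mathlib
import Crest.Agent.R242.Defs

/-!
Row 242, module E1, part B: plans of geodesics, the weak upper gradient inequality along them and
continuity of the time marginals at `t = 0`.  (Everything in the sub-namespace `E1`.)
-/

set_option autoImplicit false

open MeasureTheory Filter Set
open scoped ENNReal NNReal Topology
open Crest.GeometryTopology.SyntheticRicci

noncomputable section

namespace Crest.Agent.R242.E1

section Basic

variable {X : Type*} [MetricSpace X]

theorem continuous_toMap : Continuous (UCurve.toMap : UCurve X → C(unitInterval, X)) :=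
  continuous_induced_dom

theorem continuous_eval : Continuous (fun p : UCurve X × unitInterval => p.1.toMap p.2) :=
  ContinuousEval.continuous_eval.comp
    ((continuous_toMap.comp continuous_fst).prodMk continuous_snd)

theorem continuous_eval_left (t : unitInterval) : Continuous (fun γ : UCurve X => γ.toMap t) :=
  continuous_eval.comp (continuous_id.prodMk continuous_const)

theorem continuous_evalExt : Continuous (fun p : UCurve X × ℝ => p.1.ext p.2) := by
  have h : Continuous (fun p : UCurve X × ℝ =>
      ((p.1, projIcc (0:ℝ) 1 zero_le_one p.2) : UCurve X × unitInterval)) :=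
    continuous_fst.prodMk (continuous_projIcc.comp continuous_snd)
  exact continuous_eval.comp h

theorem ext_coe (γ : UCurve X) (t : unitInterval) : γ.ext t = γ.toMap t := by
  unfold UCurve.ext; rw [projIcc_val]

theorem isClosed_geod : IsClosed {γ : UCurve X | IsCSGeodesic γ} := by
  simp only [IsCSGeodesic, ofPred_forall]
  refine isClosed_iInter fun s => isClosed_iInter fun t => ?_
  exact isClosed_eq ((continuous_eval_left s).dist (continuous_eval_left t))
    (continuous_const.mul ((continuous_eval_left 0).dist (continuous_eval_left 1)))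

theorem dist_ext_le {γ : UCurve X} (h : IsCSGeodesic γ) (s t : ℝ) :
    dist (γ.ext s) (γ.ext t) ≤ |s - t| * dist (γ.toMap 0) (γ.toMap 1) := by
  unfold UCurve.ext
  rw [h]
  refine mul_le_mul_of_nonneg_right ?_ dist_nonneg
  have := abs_projIcc_sub_projIcc (a := (0:ℝ)) (b := 1) (h := zero_le_one) (c := s) (d := t)
  exact this

theorem upperSpeed_geod_le {γ : UCurve X} (h : IsCSGeodesic γ) (t : ℝ) :
    upperSpeed γ t ≤ ENNReal.ofReal (dist (γ.toMap 0) (γ.toMap 1)) := by
  unfold upperSpeed
  refine limsup_le_of_le (by isBoundedDefault) ?_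
  filter_upwards [self_mem_nhdsWithin] with s hs
  refine ENNReal.ofReal_le_ofReal ?_
  have hst : 0 < |s - t| := abs_pos.2 (sub_ne_zero.2 hs)
  rw [div_le_iff₀ hst, mul_comm]
  exact dist_ext_le h s t

theorem hasL2Speed_geod {γ : UCurve X} (h : IsCSGeodesic γ) : HasL2Speed γ := by
  refine ⟨fun _ => ENNReal.ofReal (dist (γ.toMap 0) (γ.toMap 1)), measurable_const, ?_, ?_⟩
  · simp only [lintegral_const, Measure.restrict_apply MeasurableSet.univ, univ_inter]
    refine ENNReal.mul_lt_top (ENNReal.pow_lt_top ENNReal.ofReal_lt_top) ?_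
    simp
  · intro s t hst
    rw [edist_dist, h s t]
    simp only [lintegral_const, Measure.restrict_apply MeasurableSet.univ, univ_inter,
      Real.volume_Icc]
    rw [← ENNReal.ofReal_mul dist_nonneg]
    refine ENNReal.ofReal_le_ofReal ?_
    rw [abs_of_nonpos (by linarith), mul_comm]
    simp

end Basic

section Plans

variable {X : Type*} [MetricSpace X] [MeasurableSpace X] [BorelSpace X] {m : Measure X}

theorem measurable_eval (t : unitInterval) : Measurable (fun γ : UCurve X => γ.toMap t) :=
  (continuous_eval_left t).measurable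

theorem measurable_evalExt [SecondCountableTopology X] :
    Measurable (fun p : UCurve X × ℝ => p.1.ext p.2) :=
  continuous_evalExt.measurable

theorem ae_ae_notMem [SecondCountableTopology X] {Q : Measure (UCurve X)} [SFinite Q]
    {N : Set X} (hN : MeasurableSet N) (h : ∀ t : unitInterval, Q {γ | γ.toMap t ∈ N} = 0) :
    ∀ᵐ γ ∂Q, ∀ᵐ t ∂(volume.restrict (Icc (0:ℝ) 1)), γ.ext t ∉ N := by
  have hjm : MeasurableSet {p : UCurve X × ℝ | p.1.ext p.2 ∈ N} := measurable_evalExt hN
  have h1 : ∫⁻ γ : UCurve X, (∫⁻ t in Icc (0:ℝ) 1, N.indicator (fun _ => (1:ℝ≥0∞)) (γ.ext t)) ∂Q = 0 := by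
    rw [lintegral_lintegral_swap]
    · rw [lintegral_eq_zero_iff']
      · refine Eventually.of_forall fun t => ?_
        have h2 : ∫⁻ γ, N.indicator (fun _ => (1:ℝ≥0∞)) (UCurve.ext γ t) ∂Q =
            Q {γ | γ.ext t ∈ N} := by
          rw [← lintegral_indicator_one]
          · rfl
          · exact (continuous_evalExt.comp (continuous_id.prodMk continuous_const)).measurable hN
        simp only [Pi.zero_apply]
        rw [h2]
        exact h _
      · refine Measurable.aemeasurable ?_
        refine Measurable.lintegral_prod_right' (f := fun p : ℝ × UCurve X =>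
          N.indicator (fun _ => (1:ℝ≥0∞)) (p.2.ext p.1)) ?_
        exact (measurable_const.indicator hN).comp
          (measurable_evalExt.comp (measurable_snd.prodMk measurable_fst))
    · exact ((measurable_const.indicator hN).comp measurable_evalExt).aemeasurable
  rw [lintegral_eq_zero_iff'] at h1
  · filter_upwards [h1] with γ hγ
    simp only [Pi.zero_apply] at hγ
    rw [lintegral_eq_zero_iff'] at hγ
    · filter_upwards [hγ] with t ht htN
      simp [htN] at ht
    · exact ((measurable_const.indicator hN).comp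
        (continuous_evalExt.comp (continuous_const.prodMk continuous_id)).measurable).aemeasurable
  · refine Measurable.aemeasurable ?_
    refine Measurable.lintegral_prod_right' (f := fun p : UCurve X × ℝ =>
      N.indicator (fun _ => (1:ℝ≥0∞)) (p.1.ext p.2)) ?_
    exact (measurable_const.indicator hN).comp measurable_evalExt

theorem young (D d : ℝ) (hd : 0 ≤ d) {a : ℝ} (ha : 0 < a) :
    ENNReal.ofReal D * ENNReal.ofReal d ≤
      ENNReal.ofReal (a / 2) * ENNReal.ofReal (D ^ 2) +
        ENNReal.ofReal (1 / (2 * a)) * ENNReal.ofReal (d ^ 2) := by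
  rw [← ENNReal.ofReal_mul' hd, ← ENNReal.ofReal_mul (by positivity),
    ← ENNReal.ofReal_mul (by positivity), ← ENNReal.ofReal_add (by positivity) (by positivity)]
  refine ENNReal.ofReal_le_ofReal ?_
  have h1 : 0 ≤ (a * D - d) ^ 2 / (2 * a) := by positivity
  have h2 : (a * D - d) ^ 2 / (2 * a) = a / 2 * D ^ 2 + 1 / (2 * a) * d ^ 2 - D * d := by
    field_simp
    ring
  linarith

theorem isTestPlan2_geod {Q : Measure (UCurve X)} [IsProbabilityMeasure Q]
    (hgeo : ∀ᵐ γ ∂Q, IsCSGeodesic γ) {C : ℝ≥0}
    (hC : ∀ t, timeMarginal Q t ≤ (C : ℝ≥0∞) • m) {o : X} {R : ℝ}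
    (hball : ∀ᵐ γ ∂Q, ∀ t : unitInterval, γ.toMap t ∈ Metric.closedBall o R) :
    IsTestPlan2 m Q := by
  refine ⟨inferInstance, ⟨C, hC⟩, hgeo.mono fun γ h => hasL2Speed_geod h, ?_⟩
  calc ∫⁻ γ, (∫⁻ t in Icc (0:ℝ) 1, upperSpeed γ t ^ 2) ∂Q
      ≤ ∫⁻ _, ENNReal.ofReal (2 * R) ^ 2 ∂Q := by
        refine lintegral_mono_ae ?_
        filter_upwards [hgeo, hball] with γ h1 h2
        calc ∫⁻ t in Icc (0:ℝ) 1, upperSpeed γ t ^ 2
            ≤ ∫⁻ _ in Icc (0:ℝ) 1, ENNReal.ofReal (2 * R) ^ 2 := by
              refine lintegral_mono fun t => ?_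
              refine pow_le_pow_left' ((upperSpeed_geod_le h1 t).trans
                (ENNReal.ofReal_le_ofReal ?_)) 2
              have h3 := h2 0
              have h4 := h2 1
              rw [Metric.mem_closedBall] at h3 h4
              have := dist_triangle_right (γ.toMap 0) (γ.toMap 1) o
              linarith
          _ = ENNReal.ofReal (2 * R) ^ 2 := by simp
    _ < ⊤ := by
        simp only [lintegral_const, measure_univ, mul_one]
        exact ENNReal.pow_lt_top ENNReal.ofReal_lt_top

theorem plan_wug [SecondCountableTopology X] {f D : X → ℝ} (hD : IsWUGLoc m f D)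
    {Q : Measure (UCurve X)} [IsProbabilityMeasure Q]
    (hgeo : ∀ᵐ γ ∂Q, IsCSGeodesic γ) {C : ℝ≥0}
    (hC : ∀ t, timeMarginal Q t ≤ (C : ℝ≥0∞) • m) {o : X} {R : ℝ}
    (hball : ∀ᵐ γ ∂Q, ∀ t : unitInterval, γ.toMap t ∈ Metric.closedBall o R)
    {a : ℝ} (ha : 0 < a) {S : ℝ≥0∞}
    (hS : ∀ t : unitInterval, ∫⁻ x, ENNReal.ofReal (D x ^ 2) ∂(timeMarginal Q t) ≤ S) :
    ∫⁻ γ, ENNReal.ofReal |f (γ.toMap 1) - f (γ.toMap 0)| ∂Q ≤
      ENNReal.ofReal (a / 2) * S + ENNReal.ofReal (1 / (2 * a)) *
        ∫⁻ γ, ENNReal.ofReal (dist (γ.toMap 0) (γ.toMap 1) ^ 2) ∂Q := by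
  have hT := isTestPlan2_geod hgeo hC hball
  refine (hD.2.2 Q hT ⟨o, R, hball⟩).trans ?_
  -- measurable representative of `D` on the ball
  have hDm : AEStronglyMeasurable D (m.restrict (Metric.closedBall o R)) :=
    (hD.1 o (R + 1)).1.mono_measure
      (Measure.restrict_mono (Metric.closedBall_subset_ball (by linarith)) le_rfl)
  obtain ⟨D', hD'm, hDD'⟩ := hDm.aemeasurable
  have hnull : m {x | x ∈ Metric.closedBall o R ∧ D x ≠ D' x} = 0 := by
    have h1 := (ae_restrict_iff' (Metric.isClosed_closedBall.measurableSet)).1 hDD'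
    rw [ae_iff] at h1
    convert h1 using 2
    ext x
    simp [Classical.not_imp]
  set N := toMeasurable m {x | x ∈ Metric.closedBall o R ∧ D x ≠ D' x} with hN
  have hN0 : m N = 0 := by rw [hN, measure_toMeasurable, hnull]
  have hNm : MeasurableSet N := measurableSet_toMeasurable _ _
  have hNt : ∀ t : unitInterval, Q {γ | γ.toMap t ∈ N} = 0 := by
    intro t
    have h1 : timeMarginal Q t N ≤ ((C : ℝ≥0∞) • m) N := hC t N
    rw [Measure.smul_apply, hN0, smul_zero] at h1
    have h2 : timeMarginal Q t N = Q {γ | γ.toMap t ∈ N} := by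
      unfold timeMarginal
      rw [Measure.map_apply (measurable_eval t) hNm]
      rfl
    rw [← h2]
    exact le_antisymm h1 bot_le
  have hae := ae_ae_notMem hNm hNt
  have hDt : ∀ t : unitInterval, ∫⁻ x, ENNReal.ofReal (D' x ^ 2) ∂(timeMarginal Q t) ≤ S := by
    intro t
    refine le_trans (le_of_eq ?_) (hS t)
    refine lintegral_congr_ae ?_
    have hb : ∀ᵐ x ∂(timeMarginal Q t), x ∈ Metric.closedBall o R := by
      unfold timeMarginal
      refine (ae_map_iff (p := fun x => x ∈ Metric.closedBall o R)
        (measurable_eval t).aemeasurable Metric.isClosed_closedBall.measurableSet).2 ?_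
      filter_upwards [hball] with γ h using h t
    have hn : ∀ᵐ x ∂(timeMarginal Q t), x ∉ N := by
      have : timeMarginal Q t N = 0 := by
        unfold timeMarginal
        rw [Measure.map_apply (measurable_eval t) hNm]
        exact hNt t
      rw [ae_iff]
      simpa using this
    filter_upwards [hb, hn] with x h1 h2
    have : D x = D' x := by
      by_contra hne
      exact h2 (subset_toMeasurable _ _ ⟨h1, hne⟩)
    rw [this]
  have hjoint : Measurable (fun p : UCurve X × ℝ => ENNReal.ofReal (D' (p.1.ext p.2) ^ 2)) :=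
    ((hD'm.comp measurable_evalExt).pow_const 2).ennreal_ofReal
  calc ∫⁻ γ, (∫⁻ t in Icc (0:ℝ) 1, ENNReal.ofReal (D (γ.ext t)) * upperSpeed γ t) ∂Q
      ≤ ∫⁻ γ, ((∫⁻ t in Icc (0:ℝ) 1, ENNReal.ofReal (a / 2) *
            ENNReal.ofReal (D' (γ.ext t) ^ 2)) + ENNReal.ofReal (1 / (2 * a)) *
          ENNReal.ofReal (dist (γ.toMap 0) (γ.toMap 1) ^ 2)) ∂Q := by
        refine lintegral_mono_ae ?_
        filter_upwards [hgeo, hball, hae] with γ h1 h2 h3
        calc ∫⁻ t in Icc (0:ℝ) 1, ENNReal.ofReal (D (γ.ext t)) * upperSpeed γ t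
            ≤ ∫⁻ t in Icc (0:ℝ) 1, (ENNReal.ofReal (a / 2) * ENNReal.ofReal (D' (γ.ext t) ^ 2) +
                ENNReal.ofReal (1 / (2 * a)) *
                  ENNReal.ofReal (dist (γ.toMap 0) (γ.toMap 1) ^ 2)) := by
              refine lintegral_mono_ae ?_
              filter_upwards [h3] with t ht
              have hDe : D (γ.ext t) = D' (γ.ext t) := by
                by_contra hne
                exact ht (subset_toMeasurable _ _ ⟨h2 _, hne⟩)
              rw [hDe]
              exact (mul_le_mul_right (upperSpeed_geod_le h1 t) _).trans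
                (young _ _ dist_nonneg ha)
          _ = _ := by
              rw [lintegral_add_right _ measurable_const]
              simp
    _ = (∫⁻ γ, (∫⁻ t in Icc (0:ℝ) 1, ENNReal.ofReal (a / 2) *
            ENNReal.ofReal (D' (γ.ext t) ^ 2)) ∂Q) + ENNReal.ofReal (1 / (2 * a)) *
          ∫⁻ γ, ENNReal.ofReal (dist (γ.toMap 0) (γ.toMap 1) ^ 2) ∂Q := by
        rw [lintegral_add_left, lintegral_const_mul]
        · exact (((continuous_eval_left 0).dist (continuous_eval_left 1)).measurable.pow_const
            2).ennreal_ofReal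
        · exact Measurable.lintegral_prod_right' (f := fun p : UCurve X × ℝ =>
            ENNReal.ofReal (a / 2) * ENNReal.ofReal (D' (p.1.ext p.2) ^ 2)) (hjoint.const_mul _)
    _ ≤ _ := by
        refine add_le_add ?_ le_rfl
        rw [lintegral_lintegral_swap (hjoint.const_mul _).aemeasurable]
        calc ∫⁻ t in Icc (0:ℝ) 1, ∫⁻ γ, ENNReal.ofReal (a / 2) *
              ENNReal.ofReal (D' (UCurve.ext γ t) ^ 2) ∂Q
            ≤ ∫⁻ _ in Icc (0:ℝ) 1, ENNReal.ofReal (a / 2) * S := by
              refine lintegral_mono fun t => ?_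
              have hm2 : Measurable (fun x : X => ENNReal.ofReal (D' x ^ 2)) :=
                (hD'm.pow_const 2).ennreal_ofReal
              have h4 : ∫⁻ γ, ENNReal.ofReal (a / 2) * ENNReal.ofReal (D' (UCurve.ext γ t) ^ 2) ∂Q =
                  ENNReal.ofReal (a / 2) * ∫⁻ x, ENNReal.ofReal (D' x ^ 2)
                    ∂(timeMarginal Q (projIcc (0:ℝ) 1 zero_le_one t)) := by
                unfold timeMarginal
                rw [lintegral_map hm2 (measurable_eval _), lintegral_const_mul]
                · rfl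
                · exact hm2.comp (measurable_eval _)
              simp only [h4]
              exact mul_le_mul_right (hDt _) _
          _ = _ := by simp

end Plans

end Crest.Agent.R242.E1
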