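import Mathlib
import Crest.Agent.R242.E1Plan

/-!
Row 242, module E1, part C: initial pieces of a geodesic plan.
-/

set_option autoImplicit false

open MeasureTheory Filter Set
open scoped ENNReal NNReal Topology
open Crest.GeometryTopology.SyntheticRicci

noncomputable section

namespace Crest.Agent.R242.E1

section Basic

variable {X : Type*} [MetricSpace X]

theorem continuous_subCurve (a b : ℝ) : Continuous (subCurve a b : UCurve X → UCurve X) := by
  refine continuous_induced_rng.2 ?_
  change Continuous fun γ : UCurve X => (γ.toMap).comp (subI a b)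
  exact (ContinuousMap.continuous_precomp (subI a b)).comp continuous_toMap

theorem subCurve_zero (t : unitInterval) (γ : UCurve X) :
    (subCurve 0 t γ).toMap 0 = γ.toMap 0 := by
  change γ.toMap (subI 0 t 0) = γ.toMap 0
  congr 1
  simp [subI]

theorem subCurve_one (t : unitInterval) (γ : UCurve X) :
    (subCurve 0 t γ).toMap 1 = γ.toMap t := by
  change γ.toMap (subI 0 t 1) = γ.toMap t
  congr 1
  simp [subI]

theorem subI_coe (t s : unitInterval) : ((subI 0 t s : unitInterval) : ℝ) = s * t := by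
  simp only [subI, sub_zero, zero_add, ContinuousMap.coe_mk]
  rw [projIcc_of_mem _ (show (s : ℝ) * t ∈ Icc (0:ℝ) 1 from
    ⟨mul_nonneg s.2.1 t.2.1, mul_le_one₀ s.2.2 t.2.1 t.2.2⟩)]

theorem subI_le (t s : unitInterval) : subI 0 t s ≤ t := by
  rw [← Subtype.coe_le_coe, subI_coe]
  exact mul_le_of_le_one_left t.2.1 s.2.2

theorem geod_subCurve {γ : UCurve X} (h : IsCSGeodesic γ) (t : unitInterval) :
    IsCSGeodesic (subCurve 0 t γ) := by
  intro r s
  rw [subCurve_zero, subCurve_one]
  change dist (γ.toMap (subI 0 t r)) (γ.toMap (subI 0 t s)) = _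
  rw [h, subI_coe, subI_coe, h 0 t]
  simp only [Icc.coe_zero, zero_sub, abs_neg]
  rw [← sub_mul, abs_mul]
  ring

end Basic

section Marg

variable {X : Type*} [MetricSpace X] [MeasurableSpace X] [BorelSpace X] {m : Measure X}

theorem timeMarginal_subCurve (P : Measure (UCurve X)) (t s : unitInterval) :
    timeMarginal (P.map (subCurve 0 t)) s = timeMarginal P (subI 0 t s) := by
  unfold timeMarginal
  rw [Measure.map_map (measurable_eval s) (continuous_subCurve 0 (t:ℝ)).measurable]
  rfl

theorem restrict_of_null {ν : Measure X} {A : Set X} (hA : MeasurableSet A) (h : ν Aᶜ = 0) :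
    ν.restrict A = ν := by
  refine Measure.restrict_eq_self_of_ae_mem ?_
  rw [ae_iff]
  exact h

theorem integrable_marg {ν : Measure X} {C : ℝ≥0} (hν : ν ≤ (C : ℝ≥0∞) • m) {A : Set X}
    (hA : MeasurableSet A) (h : ν Aᶜ = 0) {w : X → ℝ} (hw : IntegrableOn w A m) :
    Integrable w ν := by
  have h1 : ν ≤ (C : ℝ≥0∞) • m.restrict A := by
    rw [← restrict_of_null hA h, ← Measure.restrict_smul]
    exact Measure.restrict_mono le_rfl hν
  have h2 : Integrable w ((C : ℝ≥0∞) • m.restrict A) :=
    Integrable.smul_measure (μ := m.restrict A) hw ENNReal.coe_ne_top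
  exact h2.mono_measure h1

theorem integral_abs_marg_le {ν : Measure X} {C : ℝ≥0} (hν : ν ≤ (C : ℝ≥0∞) • m) {A : Set X}
    (hA : MeasurableSet A) (h : ν Aᶜ = 0) {w : X → ℝ} (hw : IntegrableOn w A m) :
    ∫ x, |w x| ∂ν ≤ C * ∫ x in A, |w x| ∂m := by
  have h1 : ν ≤ (C : ℝ≥0∞) • m.restrict A := by
    rw [← restrict_of_null hA h, ← Measure.restrict_smul]
    exact Measure.restrict_mono le_rfl hν
  calc ∫ x, |w x| ∂ν ≤ ∫ x, |w x| ∂((C : ℝ≥0∞) • m.restrict A) := by
        refine integral_mono_measure h1 (Eventually.of_forall fun x => abs_nonneg _) ?_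
        exact (Integrable.abs hw).smul_measure ENNReal.coe_ne_top
    _ = C * ∫ x in A, |w x| ∂m := by
        rw [integral_smul_measure]
        simp

theorem marg_null {P : Measure (UCurve X)} {A : Set X} (hA : MeasurableSet A)
    (hball : ∀ᵐ γ ∂P, ∀ t : unitInterval, γ.toMap t ∈ A) (t : unitInterval) :
    timeMarginal P t Aᶜ = 0 := by
  unfold timeMarginal
  rw [Measure.map_apply (measurable_eval t) hA.compl]
  refine measure_mono_null (t := {γ : UCurve X | ¬ ∀ t : unitInterval, γ.toMap t ∈ A})
    (fun γ hγ h => hγ (h t)) ?_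
  exact ae_iff.1 hball

theorem l2_integrableOn [SecondCountableTopology X] [IsLocallyFiniteMeasure m] [ProperSpace X]
    {f : X → ℝ} (hf : IsL2OnBalls m f) (o : X) (R : ℝ) :
    IntegrableOn f (Metric.closedBall o R) m := by
  have h1 : MemLp f 2 (m.restrict (Metric.closedBall o R)) :=
    (hf o (R + 1)).mono_measure
      (Measure.restrict_mono (Metric.closedBall_subset_ball (by linarith)) le_rfl)
  have : IsFiniteMeasure (m.restrict (Metric.closedBall o R)) :=
    ⟨by simpa using (isCompact_closedBall o R).measure_lt_top⟩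
  exact h1.integrable (by norm_num)

theorem l2_sq_integrableOn {f : X → ℝ} (hf : IsL2OnBalls m f) (o : X) (R : ℝ) :
    IntegrableOn (fun x => f x ^ 2) (Metric.closedBall o R) m := by
  have h1 : MemLp f 2 (m.restrict (Metric.closedBall o R)) :=
    (hf o (R + 1)).mono_measure
      (Measure.restrict_mono (Metric.closedBall_subset_ball (by linarith)) le_rfl)
  exact h1.integrable_sq

/-- the weak upper gradient inequality on the initial piece `[0,t]` of a geodesic plan. -/
theorem key_ineq [ProperSpace X] [IsLocallyFiniteMeasure m] {f D : X → ℝ}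
    (hf : IsL2OnBalls m f) (hD : IsWUGLoc m f D) {P : Measure (UCurve X)}
    [IsProbabilityMeasure P] (hgeo : ∀ᵐ γ ∂P, IsCSGeodesic γ) {C : ℝ≥0}
    (hC : ∀ t, timeMarginal P t ≤ (C : ℝ≥0∞) • m) {o : X} {R : ℝ}
    (hball : ∀ᵐ γ ∂P, ∀ t : unitInterval, γ.toMap t ∈ Metric.closedBall o R)
    {t : unitInterval} (ht : 0 < (t : ℝ)) {S : ℝ} (hS0 : 0 ≤ S)
    (hS : ∀ s : unitInterval, s ≤ t → ∫ x, D x ^ 2 ∂(timeMarginal P s) ≤ S)
    {W : ℝ} (hW0 : 0 ≤ W)
    (hW : ∫⁻ γ, ENNReal.ofReal (dist (γ.toMap 0) (γ.toMap 1) ^ 2) ∂P = ENNReal.ofReal W) :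
    ∫ x, f x ∂(timeMarginal P 0) - ∫ x, f x ∂(timeMarginal P t) ≤ t / 2 * S + t / 2 * W := by
  have hsm := (continuous_subCurve (X := X) 0 (t:ℝ)).measurable
  set Q := P.map (subCurve 0 (t:ℝ)) with hQ
  have hQp : IsProbabilityMeasure Q := Measure.isProbabilityMeasure_map hsm.aemeasurable
  have hcb : MeasurableSet (Metric.closedBall o R) := Metric.isClosed_closedBall.measurableSet
  have hQgeo : ∀ᵐ γ ∂Q, IsCSGeodesic γ := by
    refine (ae_map_iff (p := fun γ : UCurve X => IsCSGeodesic γ) hsm.aemeasurable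
      isClosed_geod.measurableSet).2 ?_
    filter_upwards [hgeo] with γ h using geod_subCurve h t
  have hQC : ∀ s, timeMarginal Q s ≤ (C : ℝ≥0∞) • m := by
    intro s
    rw [hQ, timeMarginal_subCurve]
    exact hC _
  have hclosed : IsClosed {γ : UCurve X | ∀ s : unitInterval, γ.toMap s ∈ Metric.closedBall o R} := by
    simp only [ofPred_forall]
    exact isClosed_iInter fun s => Metric.isClosed_closedBall.preimage (continuous_eval_left s)
  have hQball : ∀ᵐ γ ∂Q, ∀ s : unitInterval, γ.toMap s ∈ Metric.closedBall o R := by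
    refine (ae_map_iff (p := fun γ : UCurve X => ∀ s : unitInterval,
      γ.toMap s ∈ Metric.closedBall o R) hsm.aemeasurable hclosed.measurableSet).2 ?_
    filter_upwards [hball] with γ h s using h _
  have hDi : ∀ s, Integrable (fun x => D x ^ 2) (timeMarginal P s) := fun s =>
    integrable_marg (hC s) hcb (marg_null hcb hball s) (l2_sq_integrableOn hD.1 o R)
  have hfi : ∀ s, Integrable f (timeMarginal P s) := fun s =>
    integrable_marg (hC s) hcb (marg_null hcb hball s) (l2_integrableOn hf o R)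
  have hQS : ∀ s : unitInterval,
      ∫⁻ x, ENNReal.ofReal (D x ^ 2) ∂(timeMarginal Q s) ≤ ENNReal.ofReal S := by
    intro s
    rw [hQ, timeMarginal_subCurve, ← ofReal_integral_eq_lintegral_ofReal (hDi _)
      (Eventually.of_forall fun x => sq_nonneg _)]
    exact ENNReal.ofReal_le_ofReal (hS _ (subI_le t s))
  have hmain := plan_wug hD hQgeo hQC hQball ht hQS
  have hcost : ∫⁻ γ, ENNReal.ofReal (dist (γ.toMap 0) (γ.toMap 1) ^ 2) ∂Q =
      ENNReal.ofReal (t ^ 2) * ENNReal.ofReal W := by
    rw [hQ, lintegral_map _ hsm, ← hW, ← lintegral_const_mul]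
    · refine lintegral_congr_ae ?_
      filter_upwards [hgeo] with γ h
      rw [subCurve_zero, subCurve_one, h 0 t, ← ENNReal.ofReal_mul (by positivity)]
      congr 1
      simp [mul_pow, abs_of_pos ht]
    · exact (((continuous_eval_left 0).dist (continuous_eval_left 1)).measurable.pow_const
        2).ennreal_ofReal
    · exact (((continuous_eval_left 0).dist (continuous_eval_left 1)).measurable.pow_const
        2).ennreal_ofReal
  rw [hcost] at hmain
  have hrhs : ENNReal.ofReal ((t:ℝ) / 2) * ENNReal.ofReal S + ENNReal.ofReal (1 / (2 * t)) *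
      (ENNReal.ofReal ((t:ℝ) ^ 2) * ENNReal.ofReal W) = ENNReal.ofReal (t / 2 * S + t / 2 * W) := by
    rw [← ENNReal.ofReal_mul (by positivity), ← ENNReal.ofReal_mul (by positivity),
      ← ENNReal.ofReal_mul (by positivity), ← ENNReal.ofReal_add (by positivity) (by positivity)]
    congr 2
    field_simp
  rw [hrhs] at hmain
  -- left-hand side
  have e0 : timeMarginal Q 0 = timeMarginal P 0 := by
    rw [hQ, timeMarginal_subCurve]; congr 1; simp [subI]
  have e1 : timeMarginal Q 1 = timeMarginal P t := by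
    rw [hQ, timeMarginal_subCurve]; congr 1; simp [subI]
  rw [← e0, ← e1]
  have hf0 : Integrable f (timeMarginal Q 0) := by rw [e0]; exact hfi 0
  have hf1 : Integrable f (timeMarginal Q 1) := by rw [e1]; exact hfi t
  have i0 : Integrable (fun γ : UCurve X => f (γ.toMap 0)) Q :=
    (integrable_map_measure hf0.1 (measurable_eval 0).aemeasurable).1 hf0
  have i1 : Integrable (fun γ : UCurve X => f (γ.toMap 1)) Q :=
    (integrable_map_measure hf1.1 (measurable_eval 1).aemeasurable).1 hf1
  have j0 : ∫ x, f x ∂(timeMarginal Q 0) = ∫ γ, f (γ.toMap 0) ∂Q :=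
    integral_map (measurable_eval 0).aemeasurable hf0.1
  have j1 : ∫ x, f x ∂(timeMarginal Q 1) = ∫ γ, f (γ.toMap 1) ∂Q :=
    integral_map (measurable_eval 1).aemeasurable hf1.1
  rw [j0, j1, ← integral_sub i0 i1]
  calc ∫ γ, (f (γ.toMap 0) - f (γ.toMap 1)) ∂Q
      ≤ ∫ γ, |f (γ.toMap 1) - f (γ.toMap 0)| ∂Q := by
        refine integral_mono (i0.sub i1) (i1.sub i0).abs fun γ => ?_
        exact (le_abs_self _).trans (abs_sub_comm _ _).le
    _ = (∫⁻ γ, ENNReal.ofReal |f (γ.toMap 1) - f (γ.toMap 0)| ∂Q).toReal := by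
        have i10 : Integrable (fun γ : UCurve X => |f (γ.toMap 1) - f (γ.toMap 0)|) Q :=
          (i1.sub i0).abs
        exact integral_eq_lintegral_of_nonneg_ae (Eventually.of_forall fun _ => abs_nonneg _)
          i10.1
    _ ≤ (ENNReal.ofReal (t / 2 * S + t / 2 * W)).toReal :=
        ENNReal.toReal_mono ENNReal.ofReal_ne_top hmain
    _ = _ := ENNReal.toReal_ofReal (by positivity)

/-- the time marginals converge at `t = 0` against locally integrable functions. -/
theorem marg_cont [ProperSpace X] [IsLocallyFiniteMeasure m] {P : Measure (UCurve X)}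
    [IsProbabilityMeasure P] {C : ℝ≥0} (hC : ∀ t, timeMarginal P t ≤ (C : ℝ≥0∞) • m)
    {o : X} {R : ℝ}
    (hball : ∀ᵐ γ ∂P, ∀ t : unitInterval, γ.toMap t ∈ Metric.closedBall o R)
    {w : X → ℝ} (hw : IntegrableOn w (Metric.closedBall o R) m) {ε : ℝ} (hε : 0 < ε) :
    ∀ᶠ t : unitInterval in 𝓝 0,
      |∫ x, w x ∂(timeMarginal P t) - ∫ x, w x ∂(timeMarginal P 0)| ≤ ε := by
  have hcb : MeasurableSet (Metric.closedBall o R) := Metric.isClosed_closedBall.measurableSet
  have : IsFiniteMeasure (m.restrict (Metric.closedBall o R)) :=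
    ⟨by simpa using (isCompact_closedBall o R).measure_lt_top⟩
  have hε3 : 0 < ε / (3 * ((C:ℝ) + 1)) := by positivity
  obtain ⟨v, hv, hvi⟩ := Integrable.exists_boundedContinuous_integral_sub_le
    (μ := m.restrict (Metric.closedBall o R)) hw hε3
  have hnear : ∀ t, |∫ x, w x ∂(timeMarginal P t) - ∫ x, v x ∂(timeMarginal P t)| ≤ ε / 3 := by
    intro t
    have i1 := integrable_marg (hC t) hcb (marg_null hcb hball t) hw
    have i2 := integrable_marg (hC t) hcb (marg_null hcb hball t) hvi
    rw [← integral_sub i1 i2]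
    refine (abs_integral_le_integral_abs).trans ?_
    have h3 := integral_abs_marg_le (hC t) hcb (marg_null hcb hball t) (w := fun x => w x - v x)
      (hw.sub hvi)
    refine h3.trans ?_
    have h4 : ∫ x in Metric.closedBall o R, |w x - v x| ∂m ≤ ε / (3 * ((C:ℝ) + 1)) := hv
    calc (C:ℝ) * ∫ x in Metric.closedBall o R, |w x - v x| ∂m
        ≤ C * (ε / (3 * ((C:ℝ) + 1))) := mul_le_mul_of_nonneg_left h4 C.2
      _ ≤ ((C:ℝ) + 1) * (ε / (3 * ((C:ℝ) + 1))) :=
          mul_le_mul_of_nonneg_right (by linarith) hε3.le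
      _ = ε / 3 := by field_simp
  have hcont : Tendsto (fun t : unitInterval => ∫ x, v x ∂(timeMarginal P t)) (𝓝 0)
      (𝓝 (∫ x, v x ∂(timeMarginal P 0))) := by
    have h5 : ∀ t : unitInterval, ∫ x, v x ∂(timeMarginal P t) = ∫ γ, v (γ.toMap t) ∂P := by
      intro t
      exact integral_map (measurable_eval t).aemeasurable
        v.continuous.measurable.aestronglyMeasurable
    simp only [h5]
    refine tendsto_integral_filter_of_dominated_convergence (fun _ => ‖v‖) ?_ ?_ ?_ ?_
    · exact Eventually.of_forall fun t =>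
        (v.continuous.measurable.comp (measurable_eval t)).aestronglyMeasurable
    · exact Eventually.of_forall fun t => Eventually.of_forall fun γ => v.norm_coe_le_norm _
    · exact integrable_const _
    · refine Eventually.of_forall fun γ => ?_
      exact (v.continuous.comp γ.toMap.continuous).tendsto 0
  have h6 := Metric.tendsto_nhds.1 hcont (ε / 3) (by positivity)
  filter_upwards [h6] with t ht
  rw [Real.dist_eq] at ht
  have h7 := hnear t
  have h8 := hnear 0
  rw [abs_le] at h7 h8 ⊢
  rw [abs_lt] at ht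
  constructor <;> linarith [h7.1, h7.2, h8.1, h8.2, ht.1, ht.2]

end Marg

end Crest.Agent.R242.E1
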