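import Mathlib
import Crest.Agent.R242.E1Marg
import Crest.Agent.R242.E1Ent

/-!
Row 242, module E1, part D: the variational core and the contact inequality.
-/

set_option autoImplicit false

open MeasureTheory Filter Set
open scoped ENNReal NNReal Topology
open Crest.GeometryTopology.SyntheticRicci

noncomputable section

namespace Crest.Agent.R242.E1

theorem dy_coe (n : ℕ) : ((dy n : unitInterval) : ℝ) = (1 / 2 : ℝ) ^ n := rfl

theorem dy_pos (n : ℕ) : 0 < ((dy n : unitInterval) : ℝ) := by rw [dy_coe]; positivity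

theorem tendsto_dy : Tendsto dy atTop (𝓝 (0 : unitInterval)) := by
  rw [tendsto_subtype_rng]
  exact tendsto_pow_atTop_nhds_zero_of_lt_one (by norm_num) (by norm_num)

section Core

variable {X : Type*} [MetricSpace X] [ProperSpace X] [MeasurableSpace X] [BorelSpace X]
  {m : Measure X} [IsLocallyFiniteMeasure m]

/-- the variational core of E1. -/
theorem core {P : Measure (UCurve X)} [IsProbabilityMeasure P]
    (hgeo : ∀ᵐ γ ∂P, IsCSGeodesic γ) {C : ℝ≥0}
    (hC : ∀ t, timeMarginal P t ≤ (C : ℝ≥0∞) • m) {o : X} {R : ℝ}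
    (hball : ∀ᵐ γ ∂P, ∀ t : unitInterval, γ.toMap t ∈ Metric.closedBall o R)
    {W : ℝ} (hW0 : 0 ≤ W)
    (hW : ∫⁻ γ, ENNReal.ofReal (dist (γ.toMap 0) (γ.toMap 1) ^ 2) ∂P = ENNReal.ofReal W)
    {φ f : X → ℝ} (hφ : IsL2OnBalls m φ) (hf : IsL2OnBalls m f) {D : ℝ → X → ℝ}
    (hD : ∀ η : ℝ, 0 < η → IsWUGLoc m (fun x => φ x + η * f x) (D η)) {A F : ℝ}
    (hDA : ∀ η : ℝ, 0 < η → ∫ x, D η x ^ 2 ∂(timeMarginal P 0) ≤ W + 2 * η * A + η ^ 2 * F)
    (hcont : ∀ t : unitInterval, (t - t ^ 2 / 2 : ℝ) * W ≤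
      ∫ x, φ x ∂(timeMarginal P 0) - ∫ x, φ x ∂(timeMarginal P t))
    {K : ℝ} (hK : ∀ᶠ n in atTop,
      ∫ x, f x ∂(timeMarginal P (dy n)) - ∫ x, f x ∂(timeMarginal P 0) ≤ (1 / 2) ^ n * K) :
    -A ≤ K := by
  have hcb : MeasurableSet (Metric.closedBall o R) := Metric.isClosed_closedBall.measurableSet
  have hint : ∀ (g : X → ℝ), IsL2OnBalls m g → ∀ s, Integrable g (timeMarginal P s) :=
    fun g hg s => integrable_marg (hC s) hcb (marg_null hcb hball s) (l2_integrableOn hg o R)
  -- the inequality for fixed `η, ε`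
  have main : ∀ η : ℝ, 0 < η → ∀ ε : ℝ, 0 < ε → -(η * K) ≤ η * A + η ^ 2 * F / 2 + ε / 2 := by
    intro η hη ε hε
    have hw : IntegrableOn (fun x => D η x ^ 2) (Metric.closedBall o R) m :=
      l2_sq_integrableOn (hD η hη).1 o R
    have hev := marg_cont hC hball hw hε
    -- a uniform neighbourhood
    have hev2 : ∀ᶠ n in atTop, ∀ s : unitInterval, s ≤ dy n →
        |∫ x, D η x ^ 2 ∂(timeMarginal P s) - ∫ x, D η x ^ 2 ∂(timeMarginal P 0)| ≤ ε := by
      rw [Metric.eventually_nhds_iff] at hev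
      obtain ⟨δ, hδ, h⟩ := hev
      have h1 := (Metric.tendsto_nhds.1 tendsto_dy) δ hδ
      filter_upwards [h1] with n hn s hs
      refine h ?_
      rw [Subtype.dist_eq, Real.dist_eq] at hn ⊢
      simp only [Icc.coe_zero, sub_zero] at hn ⊢
      rw [abs_of_nonneg s.2.1]
      rw [abs_of_pos (dy_pos n)] at hn
      exact lt_of_le_of_lt hs hn
    have hfφ : IsL2OnBalls m (fun x => φ x + η * f x) := fun o R =>
      (hφ o R).add ((hf o R).const_mul η)
    have hlim : Tendsto (fun n : ℕ => -(((1:ℝ) / 2) ^ n * W / 2) - η * K) atTop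
        (𝓝 (-(0 * W / 2) - η * K)) := by
      refine Tendsto.sub_const (Tendsto.neg ?_) _
      refine Tendsto.div_const (Tendsto.mul_const _ ?_) _
      exact tendsto_pow_atTop_nhds_zero_of_lt_one (by norm_num) (by norm_num)
    have hle : -(0 * W / 2) - η * K ≤ η * A + η ^ 2 * F / 2 + ε / 2 := by
      refine le_of_tendsto hlim ?_
      filter_upwards [hev2, hK] with n h1 h2
      set t : ℝ := (1 / 2 : ℝ) ^ n with ht
      have ht0 : 0 < t := by positivity
      set S : ℝ := ∫ x, D η x ^ 2 ∂(timeMarginal P 0) + ε with hS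
      have hS0 : 0 ≤ S := add_nonneg (integral_nonneg fun x => sq_nonneg _) hε.le
      have h3 : ∀ s : unitInterval, s ≤ dy n → ∫ x, D η x ^ 2 ∂(timeMarginal P s) ≤ S := by
        intro s hs
        have := (abs_le.1 (h1 s hs)).2
        linarith
      have h4 := key_ineq hfφ (hD η hη) hgeo hC hball (dy_pos n) hS0 h3 hW0 hW
      rw [integral_add (hint φ hφ 0) ((hint f hf 0).const_mul η),
        integral_add (hint φ hφ _) ((hint f hf _).const_mul η), integral_const_mul,
        integral_const_mul, dy_coe, ← ht] at h4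
      have h5 := hcont (dy n)
      rw [dy_coe, ← ht] at h5
      have h6 := hDA η hη
      have h7 : t * (-(t * W / 2) - η * K) ≤ t * (η * A + η ^ 2 * F / 2 + ε / 2) := by
        have h8 : η * (∫ x, f x ∂(timeMarginal P (dy n)) - ∫ x, f x ∂(timeMarginal P 0)) ≤
            η * (t * K) := mul_le_mul_of_nonneg_left h2 hη.le
        have h9 : t / 2 * S ≤ t / 2 * (W + 2 * η * A + η ^ 2 * F + ε) :=
          mul_le_mul_of_nonneg_left (by linarith) (by positivity)
        nlinarith
      exact le_of_mul_le_mul_left h7 ht0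
    linarith
  -- `ε → 0`
  have main2 : ∀ η : ℝ, 0 < η → -K ≤ A + η * F / 2 := by
    intro η hη
    have h1 : -(η * K) ≤ η * A + η ^ 2 * F / 2 := by
      refine le_of_forall_pos_le_add fun ε hε => ?_
      have := main η hη (2 * ε) (by positivity)
      linarith
    have h2 : η * (-K) ≤ η * (A + η * F / 2) := by nlinarith
    exact le_of_mul_le_mul_left h2 hη
  have h3 : -K ≤ A := by
    refine le_of_forall_pos_le_add fun ε hε => ?_
    have hη : 0 < 2 * ε / (|F| + 1) := by positivity
    have h4 := main2 _ hη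
    have h5 : 2 * ε / (|F| + 1) * F / 2 ≤ ε := by
      have h6 : 2 * ε / (|F| + 1) * F / 2 ≤ 2 * ε / (|F| + 1) * (|F| + 1) / 2 := by
        have : F ≤ |F| + 1 := (le_abs_self F).trans (by linarith)
        have := mul_le_mul_of_nonneg_left this hη.le
        linarith
      refine h6.trans (le_of_eq ?_)
      field_simp
    linarith
  linarith

end Core

section Contact

variable {X : Type*} [MetricSpace X]

/-- pointwise contact inequality along a geodesic. -/
theorem contact_pointwise {o : X} {R : ℝ} {φ ψ : X → ℝ}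
    (hle : ∀ x, ∀ y ∈ Metric.closedBall o R, φ x + ψ y ≤ dist x y ^ 2 / 2)
    {γ : UCurve X} (hγ : IsCSGeodesic γ) (h1 : γ.toMap 1 ∈ Metric.closedBall o R)
    (hc : φ (γ.toMap 0) + ψ (γ.toMap 1) = dist (γ.toMap 0) (γ.toMap 1) ^ 2 / 2)
    (t : unitInterval) :
    (t - t ^ 2 / 2 : ℝ) * dist (γ.toMap 0) (γ.toMap 1) ^ 2 ≤
      φ (γ.toMap 0) - φ (γ.toMap t) := by
  have h2 := hle (γ.toMap t) _ h1
  have h3 := hγ t 1
  rw [h3] at h2
  have h4 : |(t:ℝ) - (1:unitInterval)| = 1 - t := by
    rw [abs_of_nonpos]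
    · simp
    · have := t.2.2; simpa using this
  rw [h4] at h2
  nlinarith

/-- the ascending slope of `φ` at the starting point of a contact pair. -/
theorem ascSlope_le {o : X} {R : ℝ} {φ ψ : X → ℝ}
    (hle : ∀ x, ∀ y ∈ Metric.closedBall o R, φ x + ψ y ≤ dist x y ^ 2 / 2)
    {x y : X} (hy : y ∈ Metric.closedBall o R)
    (hc : φ x + ψ y = dist x y ^ 2 / 2) :
    ascSlope φ x ≤ ENNReal.ofReal (dist x y) := by
  unfold ascSlope
  have hlim : Tendsto (fun z => ENNReal.ofReal ((dist z y + dist x y) / 2)) (𝓝[≠] x)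
      (𝓝 (ENNReal.ofReal ((dist x y + dist x y) / 2))) := by
    refine ENNReal.tendsto_ofReal ?_
    have : Continuous (fun z => (dist z y + dist x y) / 2) := by fun_prop
    exact (this.tendsto x).mono_left nhdsWithin_le_nhds
  have h1 : limsup (fun z => ENNReal.ofReal ((φ z - φ x) / dist z x)) (𝓝[≠] x) ≤
      limsup (fun z => ENNReal.ofReal ((dist z y + dist x y) / 2)) (𝓝[≠] x) := by
    refine limsup_le_limsup ?_ (by isBoundedDefault) (by isBoundedDefault)
    filter_upwards [self_mem_nhdsWithin] with z hz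
    refine ENNReal.ofReal_le_ofReal ?_
    have hzx : 0 < dist z x := dist_pos.2 hz
    rw [div_le_iff₀ hzx]
    have h2 := hle z y hy
    have h3 : φ z - φ x ≤ (dist z y ^ 2 - dist x y ^ 2) / 2 := by linarith
    have h4 : dist z y - dist x y ≤ dist z x := by
      have := dist_triangle z x y
      linarith
    have h5 : 0 ≤ dist z y + dist x y := by positivity
    nlinarith
  refine h1.trans ?_
  rcases (𝓝[≠] x).eq_or_neBot with hbot | hne
  · rw [hbot, limsup_bot]
    exact bot_le
  · rw [hlim.limsup_eq]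
    simp

end Contact

end Crest.Agent.R242.E1
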