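import Mathlib
import Crest.Agent.R242.E1Core
import Crest.Agent.R242.Pair

/-!
Row 242, module E1, part E: assembly of E1 from DYAD, the slope bound (S7) and the pairing calculus.
-/

set_option autoImplicit false

open MeasureTheory Filter Set
open scoped ENNReal NNReal Topology
open Crest.GeometryTopology.SyntheticRicci

noncomputable section

namespace Crest.Agent.R242.E1

/-! ### truncated logarithm -/

/-- `log (max s c)`. -/
def tlog (c s : ℝ) : ℝ := Real.log (max s c)

theorem tlog_lip {c : ℝ} (hc : 0 < c) : LipschitzWith (Real.toNNReal (1 / c)) (tlog c) := by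
  have key : ∀ a b : ℝ, c ≤ a → c ≤ b → Real.log a - Real.log b ≤ 1 / c * |a - b| := by
    intro a b ha hb
    have ha0 : 0 < a := hc.trans_le ha
    have hb0 : 0 < b := hc.trans_le hb
    rw [← Real.log_div ha0.ne' hb0.ne']
    have h1 : Real.log (a / b) ≤ a / b - 1 := Real.log_le_sub_one_of_pos (by positivity)
    have h2 : a / b - 1 = (a - b) / b := by field_simp
    have h3 : (a - b) / b ≤ |a - b| / b := div_le_div_of_nonneg_right (le_abs_self _) hb0.le
    have h4 : |a - b| / b ≤ |a - b| / c := div_le_div_of_nonneg_left (abs_nonneg _) hc hb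
    calc Real.log (a / b) ≤ |a - b| / c := by linarith
      _ = 1 / c * |a - b| := by ring
  refine LipschitzWith.of_dist_le_mul fun x y => ?_
  rw [Real.dist_eq, Real.dist_eq, Real.coe_toNNReal _ (by positivity)]
  have h1 : |max x c - max y c| ≤ |x - y| := by
    have := abs_max_sub_max_le_max x c y c
    simpa using this
  have h2 := key (max x c) (max y c) (le_max_right _ _) (le_max_right _ _)
  have h3 := key (max y c) (max x c) (le_max_right _ _) (le_max_right _ _)
  have h4 : 1 / c * |max x c - max y c| ≤ 1 / c * |x - y| :=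
    mul_le_mul_of_nonneg_left h1 (by positivity)
  rw [abs_sub_comm (max y c)] at h3
  unfold tlog
  rw [abs_le]
  constructor <;> linarith

theorem tlog_deriv {c s : ℝ} (hs : c < s) : deriv (tlog c) s = 1 / s := by
  have h1 : tlog c =ᶠ[𝓝 s] Real.log := by
    filter_upwards [lt_mem_nhds hs] with r hr
    unfold tlog
    rw [max_eq_left hr.le]
  rw [h1.deriv_eq, Real.deriv_log, one_div]

theorem tlog_diff {c : ℝ} (hc : 0 < c) {s : ℝ} (hs : s ∉ ({c} : Set ℝ)) :
    DifferentiableAt ℝ (tlog c) s := by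
  have hs' : s ≠ c := fun h => hs (by simp [h])
  rcases lt_or_gt_of_ne hs' with h | h
  · have h1 : tlog c =ᶠ[𝓝 s] fun _ => Real.log c := by
      filter_upwards [gt_mem_nhds h] with r hr
      unfold tlog
      rw [max_eq_right (le_of_lt hr)]
    exact h1.differentiableAt_iff.2 (differentiableAt_const _)
  · have h1 : tlog c =ᶠ[𝓝 s] Real.log := by
      filter_upwards [lt_mem_nhds h] with r hr
      unfold tlog
      rw [max_eq_left (le_of_lt hr)]
    exact h1.differentiableAt_iff.2 (Real.differentiableAt_log (by linarith))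

/-! ### optimal geodesic plans -/

section Opt

variable {X : Type*} [MetricSpace X] [ProperSpace X] [MeasurableSpace X] [BorelSpace X]

theorem measurable_ends : Measurable (fun γ : UCurve X => (γ.toMap 0, γ.toMap 1)) :=
  (measurable_eval 0).prodMk (measurable_eval 1)

theorem opt_zero {P : Measure (UCurve X)} {μ₀ μ₁ : Measure X} (h : IsOptGeo P μ₀ μ₁) :
    timeMarginal P 0 = μ₀ := by
  rw [← h.opt.1.1]
  unfold timeMarginal endpointLaw
  rw [Measure.map_map measurable_fst measurable_ends]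
  rfl

theorem opt_one {P : Measure (UCurve X)} {μ₀ μ₁ : Measure X} (h : IsOptGeo P μ₀ μ₁) :
    timeMarginal P 1 = μ₁ := by
  rw [← h.opt.1.2]
  unfold timeMarginal endpointLaw
  rw [Measure.map_map measurable_snd measurable_ends]
  rfl

theorem opt_cost {P : Measure (UCurve X)} {μ₀ μ₁ : Measure X} (h : IsOptGeo P μ₀ μ₁) :
    ∫⁻ γ, ENNReal.ofReal (dist (γ.toMap 0) (γ.toMap 1) ^ 2) ∂P = w2sq μ₀ μ₁ := by
  have h1 : quadCost (endpointLaw P) = w2sq μ₀ μ₁ := by
    unfold w2sq
    refine le_antisymm (le_iInf₂ fun q hq => h.opt.2 q hq) (iInf₂_le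
      (f := fun (q : Measure (X × X)) (_ : IsCouplingOf q μ₀ μ₁) => quadCost q)
      (endpointLaw P) h.opt.1)
  rw [← h1]
  unfold quadCost endpointLaw
  rw [lintegral_map _ measurable_ends]
  · refine lintegral_congr fun γ => ?_
    rw [edist_dist, ENNReal.ofReal_pow dist_nonneg]
  · exact (measurable_fst.edist measurable_snd).pow_const 2

theorem ae_start {P : Measure (UCurve X)} {μ₀ : Measure X} (h : timeMarginal P 0 = μ₀)
    {p : X → Prop} (hp : ∀ᵐ x ∂μ₀, p x) : ∀ᵐ γ ∂P, p (γ.toMap 0) := by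
  rw [← h] at hp
  exact ae_of_ae_map (measurable_eval 0).aemeasurable hp

theorem ae_end {P : Measure (UCurve X)} {μ₁ : Measure X} (h : timeMarginal P 1 = μ₁)
    {p : X → Prop} (hp : ∀ᵐ x ∂μ₁, p x) : ∀ᵐ γ ∂P, p (γ.toMap 1) := by
  rw [← h] at hp
  exact ae_of_ae_map (measurable_eval 1).aemeasurable hp

theorem ae_ball {P : Measure (UCurve X)} {μ₀ μ₁ : Measure X} (h : IsOptGeo P μ₀ μ₁)
    {o : X} {R : ℝ} (h₀ : μ₀ (Metric.closedBall o R)ᶜ = 0) (h₁ : μ₁ (Metric.closedBall o R)ᶜ = 0) :
    ∀ᵐ γ ∂P, γ.toMap 0 ∈ Metric.closedBall o R ∧ γ.toMap 1 ∈ Metric.closedBall o R ∧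
      ∀ t : unitInterval, γ.toMap t ∈ Metric.closedBall o (R + 2 * R * t) := by
  have a0 : ∀ᵐ x ∂μ₀, x ∈ Metric.closedBall o R := by rw [ae_iff]; exact h₀
  have a1 : ∀ᵐ x ∂μ₁, x ∈ Metric.closedBall o R := by rw [ae_iff]; exact h₁
  filter_upwards [h.geod, ae_start (opt_zero h) a0, ae_end (opt_one h) a1] with γ hg h0 h1
  refine ⟨h0, h1, fun t => ?_⟩
  rw [Metric.mem_closedBall] at h0 h1 ⊢
  have h2 := hg t 0
  have h3 : |(t:ℝ) - (0:unitInterval)| = t := by simp [abs_of_nonneg t.2.1]
  rw [h3] at h2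
  have h4 := dist_triangle_right (γ.toMap 0) (γ.toMap 1) o
  have h5 := dist_triangle (γ.toMap t) (γ.toMap 0) o
  have h6 : (t:ℝ) * dist (γ.toMap 0) (γ.toMap 1) ≤ t * (2 * R) :=
    mul_le_mul_of_nonneg_left (by linarith) t.2.1
  linarith

end Opt

theorem isWUG_min {X : Type*} [MetricSpace X] [MeasurableSpace X] {m : Measure X} {f : X → ℝ}
    (hf : IsSobolevLoc m f) : IsWUGLoc m f (minWeakGrad m f) := by
  unfold minWeakGrad
  rw [dif_pos hf.2]
  exact (Classical.choose_spec hf.2).1

end Crest.Agent.R242.E1
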