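import Mathlib
import Crest.Agent.R242.E1Opt

/-!
Row 242, module E1, part F: E1 from DYAD, the slope bound (S7) and the pairing calculus.
-/

set_option autoImplicit false

open MeasureTheory Filter Set
open scoped ENNReal NNReal Topology
open Crest.GeometryTopology.SyntheticRicci

noncomputable section

namespace Crest.Agent.R242

open E1

variable {X : Type*} [MetricSpace X] [ProperSpace X] [MeasurableSpace X] [BorelSpace X]
  {m : Measure X} [IsLocallyFiniteMeasure m] [m.IsOpenPosMeasure] {k N : ℝ}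

theorem ae_contact {μ₀ μ₁ : Measure X} {φ ψ : X → ℝ}
    (hcont : ∀ q : Measure (X × X), IsOptCouplingOf q μ₀ μ₁ →
      ∀ᵐ p ∂q, φ p.1 + ψ p.2 = dist p.1 p.2 ^ 2 / 2)
    {P : Measure (UCurve X)} (hP : IsOptGeo P μ₀ μ₁) :
    ∀ᵐ γ ∂P, φ (γ.toMap 0) + ψ (γ.toMap 1) = dist (γ.toMap 0) (γ.toMap 1) ^ 2 / 2 := by
  have h := hcont _ hP.opt
  exact ae_of_ae_map (p := fun p : X × X => φ p.1 + ψ p.2 = dist p.1 p.2 ^ 2 / 2)
    measurable_ends.aemeasurable h

/-- the weak gradient of a Kantorovich potential is bounded by the transport distance. -/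
theorem wg_pot_le {o : X} {R : ℝ} {μ₀ μ₁ : Measure X}
    (hac : μ₀ ≪ m) {φ ψ : X → ℝ}
    (hle : ∀ x, ∀ y ∈ Metric.closedBall o R, φ x + ψ y ≤ dist x y ^ 2 / 2)
    (hs₁ : μ₁ (Metric.closedBall o R)ᶜ = 0)
    (hcont : ∀ q : Measure (X × X), IsOptCouplingOf q μ₀ μ₁ →
      ∀ᵐ p ∂q, φ p.1 + ψ p.2 = dist p.1 p.2 ^ 2 / 2)
    (hslope : ∀ᵐ x ∂m, ENNReal.ofReal (minWeakGrad m φ x) ≤ ascSlope φ x)
    (hnn : ∀ᵐ x ∂m, 0 ≤ minWeakGrad m φ x)
    (hmeas : AEStronglyMeasurable (minWeakGrad m φ) m)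
    {P : Measure (UCurve X)} (hP : IsOptGeo P μ₀ μ₁) :
    ∫⁻ x, ENNReal.ofReal (minWeakGrad m φ x ^ 2) ∂μ₀ ≤ w2sq μ₀ μ₁ := by
  have e0 := opt_zero hP
  have hm : AEMeasurable (fun x => ENNReal.ofReal (minWeakGrad m φ x ^ 2)) μ₀ :=
    ((hmeas.aemeasurable.mono_ac hac).pow_const 2).ennreal_ofReal
  have a1 : ∀ᵐ x ∂μ₁, x ∈ Metric.closedBall o R := by rw [ae_iff]; exact hs₁
  rw [← opt_cost hP]
  calc ∫⁻ x, ENNReal.ofReal (minWeakGrad m φ x ^ 2) ∂μ₀
      = ∫⁻ γ : UCurve X, ENNReal.ofReal (minWeakGrad m φ (γ.toMap 0) ^ 2) ∂P := by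
        conv_lhs => rw [← e0]
        unfold timeMarginal
        rw [lintegral_map']
        · have : AEMeasurable (fun x => ENNReal.ofReal (minWeakGrad m φ x ^ 2))
            (timeMarginal P 0) := by rw [e0]; exact hm
          exact this
        · exact (measurable_eval 0).aemeasurable
    _ ≤ _ := by
        refine lintegral_mono_ae ?_
        filter_upwards [ae_contact hcont hP, ae_start e0 (hac.ae_le hslope),
          ae_start e0 (hac.ae_le hnn), ae_end (opt_one hP) a1] with γ h1 h2 h3 h4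
        have h5 := h2.trans (ascSlope_le hle h4 h1)
        rw [ENNReal.ofReal_le_ofReal_iff dist_nonneg] at h5
        refine ENNReal.ofReal_le_ofReal ?_
        exact pow_le_pow_left₀ h3 h5 2

theorem E1_of (H : Hyp m k N) (o : X) {R : ℝ} (hR : 0 < R) {r₀ : X → ℝ}
    (hr₀ : IsSobolevLoc m r₀) {c C : ℝ} (hc : 0 < c)
    (hcr : ∀ᵐ x ∂(m.restrict (Metric.closedBall o (4 * R))), c ≤ r₀ x ∧ r₀ x ≤ C)
    {μ₀ μ₁ : Measure X} [IsProbabilityMeasure μ₀] [IsProbabilityMeasure μ₁]
    (hμ₀ : μ₀ = (m.restrict (Metric.closedBall o R)).withDensity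
      (fun x => ENNReal.ofReal (r₀ x)))
    {M : ℝ≥0} (hμ₁ : μ₁ ≤ (M : ℝ≥0∞) • m)
    (hs₁ : μ₁ (Metric.closedBall o R)ᶜ = 0) {φ ψ : X → ℝ}
    (hle : ∀ x, ∀ y ∈ Metric.closedBall o R, φ x + ψ y ≤ dist x y ^ 2 / 2)
    (hcont : ∀ q : Measure (X × X), IsOptCouplingOf q μ₀ μ₁ →
      ∀ᵐ p ∂q, φ p.1 + ψ p.2 = dist p.1 p.2 ^ 2 / 2)
    {e : ℝ} (he : ∀ᶠ n : ℕ in atTop,
      ∫ x in Metric.closedBall o (R + 2 * R * (1 / 2) ^ n) \ Metric.closedBall o R, r₀ x ∂m ≤
        e * (1 / 2) ^ n)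
    -- S7
    (hφ : IsSobolevLoc m φ)
    (hslope : ∀ᵐ x ∂m, ENNReal.ofReal (minWeakGrad m φ x) ≤ ascSlope φ x)
    -- S5
    (hlog : IsSobolevLoc m (fun x => tlog (c / 2) (r₀ x)))
    -- DYAD
    {C' : ℝ≥0} {P : Measure (UCurve X)} (hP : IsOptGeo P μ₀ μ₁)
    (hPC : ∀ t, timeMarginal P t ≤ (C' : ℝ≥0∞) • m)
    (hPE : ∀ n : ℕ, entB m (Metric.closedBall o (4 * R)) (timeMarginal P (dy n)) ≤
          ENNReal.ofReal (1 - (1 / 2) ^ n) * entB m (Metric.closedBall o (4 * R)) μ₀ +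
          ENNReal.ofReal ((1 / 2) ^ n) * entB m (Metric.closedBall o (4 * R)) μ₁ +
          ENNReal.ofReal (k / 2 * (1 / 2) ^ n * (1 - (1 / 2) ^ n)) * w2sq μ₀ μ₁) :
    -(∫ x in Metric.closedBall o R, gradPairing m φ r₀ x ∂m) ≤
      (entB m (Metric.closedBall o (4 * R)) μ₁).toReal -
        (entB m (Metric.closedBall o (4 * R)) μ₀).toReal +
        k / 2 * (w2sq μ₀ μ₁).toReal + e := by
  have hPp : IsProbabilityMeasure P := hP.prob
  have hcb : ∀ r, MeasurableSet (Metric.closedBall o r) :=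
    fun r => Metric.isClosed_closedBall.measurableSet
  have hfinB : ∀ r, m (Metric.closedBall o r) < ∞ :=
    fun r => (isCompact_closedBall o r).measure_lt_top
  set f : X → ℝ := fun x => tlog (c / 2) (r₀ x) with hf
  have hsub4 : Metric.closedBall o R ⊆ Metric.closedBall o (4 * R) :=
    Metric.closedBall_subset_closedBall (by linarith)
  have hcrR : ∀ᵐ x ∂(m.restrict (Metric.closedBall o R)), c ≤ r₀ x ∧ r₀ x ≤ C :=
    ae_restrict_of_ae_restrict_of_subset hsub4 hcr
  have hr₀m4 : AEMeasurable r₀ (m.restrict (Metric.closedBall o (4 * R))) :=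
    ((hr₀.1 o (4 * R + 1)).1.mono_measure
      (Measure.restrict_mono (Metric.closedBall_subset_ball (by linarith)) le_rfl)).aemeasurable
  have hr₀m : AEMeasurable r₀ (m.restrict (Metric.closedBall o R)) :=
    hr₀m4.mono_measure (Measure.restrict_mono hsub4 le_rfl)
  have hac₀ : μ₀ ≪ m := by
    rw [hμ₀]
    exact (withDensity_absolutelyContinuous _ _).trans Measure.absolutelyContinuous_restrict
  have hs₀ : μ₀ (Metric.closedBall o R)ᶜ = 0 := by
    rw [hμ₀]
    refine withDensity_absolutelyContinuous _ _ ?_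
    rw [Measure.restrict_apply (hcb R).compl]
    simp
  have e0 := opt_zero hP
  have e1 := opt_one hP
  have hball := ae_ball hP hs₀ hs₁
  have hball3 : ∀ᵐ γ ∂P, ∀ t : unitInterval, γ.toMap t ∈ Metric.closedBall o (3 * R) := by
    filter_upwards [hball] with γ h t
    refine Metric.closedBall_subset_closedBall ?_ (h.2.2 t)
    have := t.2.2
    nlinarith
  -- the transport cost
  have hWfin : w2sq μ₀ μ₁ < ∞ := by
    rw [← opt_cost hP]
    calc ∫⁻ γ, ENNReal.ofReal (dist (γ.toMap 0) (γ.toMap 1) ^ 2) ∂P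
        ≤ ∫⁻ _, ENNReal.ofReal ((2 * R) ^ 2) ∂P := by
          refine lintegral_mono_ae ?_
          filter_upwards [hball] with γ h
          refine ENNReal.ofReal_le_ofReal (pow_le_pow_left₀ dist_nonneg ?_ 2)
          have h0 := h.1
          have h1 := h.2.1
          rw [Metric.mem_closedBall] at h0 h1
          have := dist_triangle_right (γ.toMap 0) (γ.toMap 1) o
          linarith
      _ < ∞ := by simp
  set W : ℝ := (w2sq μ₀ μ₁).toReal with hWdef
  have hW0 : 0 ≤ W := ENNReal.toReal_nonneg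
  have hW : ∫⁻ γ, ENNReal.ofReal (dist (γ.toMap 0) (γ.toMap 1) ^ 2) ∂P = ENNReal.ofReal W := by
    rw [opt_cost hP, ENNReal.ofReal_toReal hWfin.ne]
  have hdm : Measurable (fun γ : UCurve X => dist (γ.toMap 0) (γ.toMap 1) ^ 2) :=
    ((continuous_eval_left 0).dist (continuous_eval_left 1)).measurable.pow_const 2
  have hdi : Integrable (fun γ : UCurve X => dist (γ.toMap 0) (γ.toMap 1) ^ 2) P := by
    refine ⟨hdm.aestronglyMeasurable, ?_⟩
    rw [hasFiniteIntegral_iff_ofReal (Eventually.of_forall fun _ => sq_nonneg _), hW]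
    exact ENNReal.ofReal_lt_top
  have hWint : ∫ γ, dist (γ.toMap 0) (γ.toMap 1) ^ 2 ∂P = W := by
    rw [integral_eq_lintegral_of_nonneg_ae (Eventually.of_forall fun _ => sq_nonneg _)
      hdm.aestronglyMeasurable, hW, ENNReal.toReal_ofReal hW0]
  -- Sobolev classes
  have hηf : ∀ η : ℝ, IsSobolevLoc m (fun x => η * f x) := fun η => sobLoc_smul H η hlog
  have hμ₀C : μ₀ ≤ (C' : ℝ≥0∞) • m := by rw [← e0]; exact hPC 0
  have hint₀ : ∀ w : X → ℝ, IntegrableOn w (Metric.closedBall o R) m → Integrable w μ₀ :=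
    fun w hw => integrable_marg hμ₀C (hcb R) hs₀ hw
  have i1 : Integrable (fun x => minWeakGrad m φ x ^ 2) μ₀ :=
    hint₀ _ (l2_sq_integrableOn (isWUG_min hφ).1 o R)
  have i2 : Integrable (gradPairing m φ f) μ₀ :=
    hint₀ _ ((integrableOn_gp H hφ hlog o (R + 1)).mono_set
      (Metric.closedBall_subset_ball (by linarith)))
  have i3 : Integrable (fun x => minWeakGrad m f x ^ 2) μ₀ :=
    hint₀ _ (l2_sq_integrableOn (isWUG_min hlog).1 o R)
  have hφW : ∫ x, minWeakGrad m φ x ^ 2 ∂μ₀ ≤ W := by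
    have h1 := wg_pot_le hac₀ hle hs₁ hcont hslope (wg_nonneg H hφ) (aesm_wg H hφ) hP
    rw [integral_eq_lintegral_of_nonneg_ae (Eventually.of_forall fun _ => sq_nonneg _) i1.1]
    exact ENNReal.toReal_mono hWfin.ne h1
  set A : ℝ := ∫ x, gradPairing m φ f x ∂μ₀ with hA
  set F : ℝ := ∫ x, minWeakGrad m f x ^ 2 ∂μ₀ with hF
  have hDA : ∀ η : ℝ, 0 < η →
      ∫ x, minWeakGrad m (fun x => φ x + η * f x) x ^ 2 ∂(timeMarginal P 0) ≤
        W + 2 * η * A + η ^ 2 * F := by
    intro η _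
    rw [e0]
    have h1 := hac₀.ae_le (wg_add_sq H hφ (hηf η))
    have h2 := hac₀.ae_le (gp_smul_right H η hφ hlog)
    have h3 := hac₀.ae_le (gp_self H (hηf η))
    have h4 := hac₀.ae_le (gp_smul_left H η hlog (hηf η))
    have h5 := hac₀.ae_le (gp_smul_right H η hlog hlog)
    have h6 := hac₀.ae_le (gp_self H hlog)
    have h7 : ∫ x, minWeakGrad m (fun x => φ x + η * f x) x ^ 2 ∂μ₀ =
        ∫ x, (minWeakGrad m φ x ^ 2 + 2 * η * gradPairing m φ f x +
          η ^ 2 * minWeakGrad m f x ^ 2) ∂μ₀ := by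
      refine integral_congr_ae ?_
      filter_upwards [h1, h2, h3, h4, h5, h6] with x g1 g2 g3 g4 g5 g6
      rw [g1, g2, ← g3, g4, g5, g6]
      ring
    have i12 : Integrable (fun x => minWeakGrad m φ x ^ 2 + 2 * η * gradPairing m φ f x) μ₀ :=
      i1.add (i2.const_mul (2 * η))
    rw [h7, integral_add i12 (i3.const_mul _),
      integral_add i1 (i2.const_mul _), integral_const_mul, integral_const_mul]
    linarith
  have hD : ∀ η : ℝ, 0 < η →
      IsWUGLoc m (fun x => φ x + η * f x) (minWeakGrad m (fun x => φ x + η * f x)) :=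
    fun η _ => isWUG_min (sobLoc_add H hφ (hηf η))
  -- contact
  have hφint : ∀ t, Integrable φ (timeMarginal P t) := fun t =>
    integrable_marg (hPC t) (hcb _) (marg_null (hcb _) hball3 t) (l2_integrableOn hφ.1 o (3 * R))
  have hct : ∀ t : unitInterval, (t - t ^ 2 / 2 : ℝ) * W ≤
      ∫ x, φ x ∂(timeMarginal P 0) - ∫ x, φ x ∂(timeMarginal P t) := by
    intro t
    have j : ∀ s : unitInterval, Integrable (fun γ : UCurve X => φ (γ.toMap s)) P ∧
        ∫ x, φ x ∂(timeMarginal P s) = ∫ γ, φ (γ.toMap s) ∂P := fun s =>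
      ⟨(integrable_map_measure (hφint s).1 (measurable_eval s).aemeasurable).1 (hφint s),
        integral_map (measurable_eval s).aemeasurable (hφint s).1⟩
    rw [(j 0).2, (j t).2, ← integral_sub (j 0).1 (j t).1, ← hWint, ← integral_const_mul]
    refine integral_mono_ae (hdi.const_mul _) ((j 0).1.sub (j t).1) ?_
    filter_upwards [hP.geod, hball, ae_contact hcont hP] with γ h1 h2 h3
    exact contact_pointwise hle h1 h2.2.1 h3 t
  -- entropy
  have hE₀ := entB_lt_top hμ₀C (hfinB (4 * R))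
  have hE₁ := entB_lt_top hμ₁ (hfinB (4 * R))
  have hlogr : ∀ᵐ x ∂(m.restrict (Metric.closedBall o (4 * R))), f x = Real.log (r₀ x) := by
    filter_upwards [hcr] with x hx
    simp only [hf, tlog]
    rw [max_eq_left (by linarith [hx.1])]
  have hK : ∀ᶠ n in atTop,
      ∫ x, f x ∂(timeMarginal P (dy n)) - ∫ x, f x ∂(timeMarginal P 0) ≤
        (1 / 2) ^ n * ((entB m (Metric.closedBall o (4 * R)) μ₁).toReal -
        (entB m (Metric.closedBall o (4 * R)) μ₀).toReal + k / 2 * W + e) := by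
    filter_upwards [he] with n hn
    have ht0 : (0:ℝ) < (1 / 2) ^ n := by positivity
    have ht1 : ((1:ℝ) / 2) ^ n ≤ 1 := pow_le_one₀ (by norm_num) (by norm_num)
    set t : ℝ := (1 / 2 : ℝ) ^ n with ht
    have hsub1 : Metric.closedBall o R ⊆ Metric.closedBall o (R + 2 * R * t) :=
      Metric.closedBall_subset_closedBall (by nlinarith)
    have hsub2 : Metric.closedBall o (R + 2 * R * t) ⊆ Metric.closedBall o (4 * R) :=
      Metric.closedBall_subset_closedBall (by nlinarith)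
    have hnull : timeMarginal P (dy n) (Metric.closedBall o (R + 2 * R * t))ᶜ = 0 := by
      unfold timeMarginal
      rw [Measure.map_apply (measurable_eval _) (hcb _).compl]
      refine measure_mono_null (t := {γ : UCurve X | ¬ (γ.toMap 0 ∈ Metric.closedBall o R ∧
        γ.toMap 1 ∈ Metric.closedBall o R ∧
        ∀ t : unitInterval, γ.toMap t ∈ Metric.closedBall o (R + 2 * R * t))})
        (fun γ hγ h => hγ (h.2.2 (dy n))) ?_
      exact ae_iff.1 hball
    have hprob : IsProbabilityMeasure (timeMarginal P (dy n)) :=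
      Measure.isProbabilityMeasure_map (measurable_eval _).aemeasurable
    have h1 := ent_lower (hcb R) (hcb (R + 2 * R * t)) (hcb (4 * R)) hsub1 hsub2 (hfinB _)
      hr₀m4 hc hcr hμ₀ (hPC (dy n)) hnull hlogr
    have h2 := hPE n
    have hEn := entB_lt_top (hPC (dy n)) (hfinB (4 * R))
    have h3 : (entB m (Metric.closedBall o (4 * R)) (timeMarginal P (dy n))).toReal ≤
        (1 - t) * (entB m (Metric.closedBall o (4 * R)) μ₀).toReal +
        t * (entB m (Metric.closedBall o (4 * R)) μ₁).toReal + k / 2 * t * (1 - t) * W := by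
      have hk := H.kpos
      have hn1 : 0 ≤ 1 - t := by linarith
      have hn2 : 0 ≤ k / 2 * t * (1 - t) := by positivity
      have g1 : ENNReal.ofReal (1 - t) * entB m (Metric.closedBall o (4 * R)) μ₀ ≠ ∞ :=
        ENNReal.mul_ne_top ENNReal.ofReal_ne_top hE₀.ne
      have g2 : ENNReal.ofReal t * entB m (Metric.closedBall o (4 * R)) μ₁ ≠ ∞ :=
        ENNReal.mul_ne_top ENNReal.ofReal_ne_top hE₁.ne
      have g3 : ENNReal.ofReal (k / 2 * t * (1 - t)) * w2sq μ₀ μ₁ ≠ ∞ :=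
        ENNReal.mul_ne_top ENNReal.ofReal_ne_top hWfin.ne
      have h4 := ENNReal.toReal_mono (ENNReal.add_ne_top.2 ⟨ENNReal.add_ne_top.2 ⟨g1, g2⟩, g3⟩) h2
      rw [ENNReal.toReal_add (ENNReal.add_ne_top.2 ⟨g1, g2⟩) g3, ENNReal.toReal_add g1 g2,
        ENNReal.toReal_mul, ENNReal.toReal_mul, ENNReal.toReal_mul,
        ENNReal.toReal_ofReal hn1, ENNReal.toReal_ofReal ht0.le, ENNReal.toReal_ofReal hn2] at h4
      exact h4
    rw [e0]
    have hk := H.kpos
    have h5 : k / 2 * t * (1 - t) * W ≤ k / 2 * t * W := by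
      have : 0 ≤ k / 2 * t * t * W := by positivity
      nlinarith
    nlinarith
  have hcore := core hP.geod hPC hball3 hW0 hW hφ.1 hlog.1 hD hDA hct hK
  -- identify `A`
  have hAeq : A = ∫ x in Metric.closedBall o R, gradPairing m φ r₀ x ∂m := by
    rw [hA, hμ₀, integral_withDensity_eq_integral_toReal_smul₀ hr₀m.ennreal_ofReal
      (Eventually.of_forall fun x => ENNReal.ofReal_lt_top)]
    refine integral_congr_ae ?_
    filter_upwards [hcrR, ae_restrict_of_ae (gp_comm H hφ hlog),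
      ae_restrict_of_ae (gp_comp_left_lip H (tlog_lip (c := c / 2) (by positivity))
        (countable_singleton (c / 2)) (fun r hr => tlog_diff (by positivity) hr) hr₀ hφ),
      ae_restrict_of_ae (gp_comm H hφ hr₀)] with x h1 h2 h3 h4
    have hpos : 0 < r₀ x := hc.trans_le h1.1
    rw [ENNReal.toReal_ofReal hpos.le, smul_eq_mul]
    rw [h2]
    have h5 : gradPairing m f φ x = deriv (tlog (c / 2)) (r₀ x) * gradPairing m r₀ φ x := h3
    rw [h5, h4, tlog_deriv (by linarith [h1.1])]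
    field_simp
  rw [← hAeq]
  linarith

end Crest.Agent.R242
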