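import Mathlib
import Crest.Agent.R242.E1Of
import Crest.Agent.R242.Dyad
import Crest.Agent.R242.SobLin

/-!
Row 242, module E1: the first-variation inequality for the entropy (frozen statements).
-/

set_option autoImplicit false

open MeasureTheory Filter Set
open scoped ENNReal NNReal Topology
open Crest.GeometryTopology.SyntheticRicci

noncomputable section

namespace Crest.Agent.R242

open E1

variable {X : Type*} [MetricSpace X] [ProperSpace X] [MeasurableSpace X] [BorelSpace X]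
  {m : Measure X} [IsLocallyFiniteMeasure m] [m.IsOpenPosMeasure] {k N : ℝ}

theorem E1.lipOnBalls_of_pot {o : X} {R : ℝ} {φ : X → ℝ}
    (hlip : ∀ x x', |φ x - φ x'| ≤ dist x x' * ((dist x o + dist x' o) / 2 + R)) :
    LipOnBalls φ := by
  intro p r
  refine ⟨Real.toNNReal (|r| + dist p o + |R|), ?_⟩
  refine LipschitzOnWith.of_dist_le_mul fun x hx y hy => ?_
  rw [Real.dist_eq, Real.coe_toNNReal _ (by positivity), mul_comm]
  refine (hlip x y).trans (mul_le_mul_of_nonneg_left ?_ dist_nonneg)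
  rw [Metric.mem_ball] at hx hy
  have h1 := dist_triangle x p o
  have h2 := dist_triangle y p o
  have h3 := le_abs_self r
  have h4 := le_abs_self R
  linarith

/-- the weak gradient of a Kantorovich potential is bounded by the transport distance. -/
theorem wg_pot_sq_le (H : Hyp m k N) (o : X) {R : ℝ} (_hR : 0 < R)
    {μ₀ μ₁ : Measure X} [IsProbabilityMeasure μ₀] [IsProbabilityMeasure μ₁]
    {M : ℝ≥0} (hμ₀ : μ₀ ≤ (M : ℝ≥0∞) • m) (hμ₁ : μ₁ ≤ (M : ℝ≥0∞) • m)
    (hs₀ : μ₀ (Metric.closedBall o R)ᶜ = 0)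
    (hs₁ : μ₁ (Metric.closedBall o R)ᶜ = 0) {φ ψ : X → ℝ}
    (hle : ∀ x, ∀ y ∈ Metric.closedBall o R, φ x + ψ y ≤ dist x y ^ 2 / 2)
    (hcont : ∀ q : Measure (X × X), IsOptCouplingOf q μ₀ μ₁ →
      ∀ᵐ p ∂q, φ p.1 + ψ p.2 = dist p.1 p.2 ^ 2 / 2)
    (hlip : ∀ x x', |φ x - φ x'| ≤ dist x x' * ((dist x o + dist x' o) / 2 + R)) :
    ∫⁻ x, ENNReal.ofReal (minWeakGrad m φ x ^ 2) ∂μ₀ ≤ w2sq μ₀ μ₁ := by
  obtain ⟨C, -, hC⟩ := DYAD_gen H R M
  have hM : ENNReal.ofReal (M : ℝ) = (M : ℝ≥0∞) := ENNReal.ofReal_coe_nnreal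
  have hs2 : Metric.closedBall o (2 * R) ⊆ Metric.closedBall o (2 * R) := subset_rfl
  obtain ⟨P, hP, -, -⟩ := hC o (Metric.closedBall o (2 * R))
    Metric.isClosed_closedBall.measurableSet (isCompact_closedBall o (2 * R)).measure_lt_top.ne hs2
    μ₀ μ₁ inferInstance inferInstance hs₀ hs₁ (by rwa [hM]) (by rwa [hM])
  have hL := E1.lipOnBalls_of_pot hlip
  have hS := hL.isSobolevLoc H.fin
  have hac : μ₀ ≪ m := (Measure.absolutelyContinuous_of_le hμ₀).trans
    Measure.smul_absolutelyContinuous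
  exact wg_pot_le hac hle hs₁ hcont (ofReal_minWeakGrad_le_ascSlope H.fin hL)
    (wg_nonneg H hS) (aesm_wg H hS) hP

theorem E1 (H : Hyp m k N) (o : X) {R : ℝ} (hR : 0 < R) {r₀ : X → ℝ}
    (hr₀ : IsSobolevLoc m r₀) {c C : ℝ} (hc : 0 < c)
    (hcr : ∀ᵐ x ∂(m.restrict (Metric.closedBall o (4 * R))), c ≤ r₀ x ∧ r₀ x ≤ C)
    {μ₀ μ₁ : Measure X} [IsProbabilityMeasure μ₀] [IsProbabilityMeasure μ₁]
    (hμ₀ : μ₀ = (m.restrict (Metric.closedBall o R)).withDensity
      (fun x => ENNReal.ofReal (r₀ x)))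
    {M : ℝ≥0} (hμ₁ : μ₁ ≤ (M : ℝ≥0∞) • m)
    (hs₁ : μ₁ (Metric.closedBall o R)ᶜ = 0) {φ ψ : X → ℝ}
    (hle : ∀ x, ∀ y ∈ Metric.closedBall o R, φ x + ψ y ≤ dist x y ^ 2 / 2)
    (hcont : ∀ q : Measure (X × X), IsOptCouplingOf q μ₀ μ₁ →
      ∀ᵐ p ∂q, φ p.1 + ψ p.2 = dist p.1 p.2 ^ 2 / 2)
    (hlip : ∀ x x', |φ x - φ x'| ≤ dist x x' * ((dist x o + dist x' o) / 2 + R))
    {e : ℝ} (he : ∀ᶠ n : ℕ in atTop,
      ∫ x in Metric.closedBall o (R + 2 * R * (1 / 2) ^ n) \ Metric.closedBall o R, r₀ x ∂m ≤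
        e * (1 / 2) ^ n) :
    -(∫ x in Metric.closedBall o R, gradPairing m φ r₀ x ∂m) ≤
      (entB m (Metric.closedBall o (4 * R)) μ₁).toReal -
        (entB m (Metric.closedBall o (4 * R)) μ₀).toReal +
        k / 2 * (w2sq μ₀ μ₁).toReal + e := by
  have hcb : MeasurableSet (Metric.closedBall o R) := Metric.isClosed_closedBall.measurableSet
  have hsub4 : Metric.closedBall o R ⊆ Metric.closedBall o (4 * R) :=
    Metric.closedBall_subset_closedBall (by linarith)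
  have hcrR : ∀ᵐ x ∂(m.restrict (Metric.closedBall o R)), c ≤ r₀ x ∧ r₀ x ≤ C :=
    ae_restrict_of_ae_restrict_of_subset hsub4 hcr
  -- bounds for `μ₀`
  have hs₀ : μ₀ (Metric.closedBall o R)ᶜ = 0 := by
    rw [hμ₀]
    refine withDensity_absolutelyContinuous _ _ ?_
    rw [Measure.restrict_apply hcb.compl]
    simp
  have hμ₀C : μ₀ ≤ ENNReal.ofReal C • m := by
    rw [hμ₀]
    refine Measure.le_intro fun s hs _ => ?_
    rw [withDensity_apply _ hs, Measure.smul_apply, smul_eq_mul]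
    calc ∫⁻ x in s, ENNReal.ofReal (r₀ x) ∂(m.restrict (Metric.closedBall o R))
        ≤ ∫⁻ _ in s, ENNReal.ofReal C ∂(m.restrict (Metric.closedBall o R)) := by
          refine lintegral_mono_ae (ae_restrict_of_ae ?_)
          filter_upwards [hcrR] with x hx using ENNReal.ofReal_le_ofReal hx.2
      _ = ENNReal.ofReal C * (m.restrict (Metric.closedBall o R)) s := by
          rw [setLIntegral_const]
      _ ≤ ENNReal.ofReal C * m s := by
          gcongr
          exact Measure.restrict_le_self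
  set M' : ℝ := max C M with hM'
  have hM0 : μ₀ ≤ ENNReal.ofReal M' • m := by
    refine hμ₀C.trans (Measure.le_intro fun s _ _ => ?_)
    rw [Measure.smul_apply, Measure.smul_apply, smul_eq_mul, smul_eq_mul]
    gcongr
    exact le_max_left _ _
  have hM1 : μ₁ ≤ ENNReal.ofReal M' • m := by
    refine hμ₁.trans (Measure.le_intro fun s _ _ => ?_)
    rw [Measure.smul_apply, Measure.smul_apply, smul_eq_mul, smul_eq_mul]
    gcongr
    rw [← ENNReal.ofReal_coe_nnreal]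
    exact ENNReal.ofReal_le_ofReal (le_max_right _ _)
  obtain ⟨C₁, hC₁, hdy⟩ := DYAD_gen H R M'
  obtain ⟨P, hP, hPC, hPE⟩ := hdy o (Metric.closedBall o (4 * R))
    Metric.isClosed_closedBall.measurableSet (isCompact_closedBall o (4 * R)).measure_lt_top.ne
    (Metric.closedBall_subset_closedBall (by linarith)) μ₀ μ₁ inferInstance inferInstance hs₀ hs₁
    hM0 hM1
  have hL := E1.lipOnBalls_of_pot hlip
  have hS := hL.isSobolevLoc H.fin
  have hlog : IsSobolevLoc m (fun x => tlog (c / 2) (r₀ x)) :=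
    ((wgCalc H.fin).comp _ _ r₀ (tlog_lip (by positivity)) hr₀).1
  have hPC' : ∀ t, timeMarginal P t ≤ ((Real.toNNReal C₁ : ℝ≥0) : ℝ≥0∞) • m := hPC
  exact E1_of H o hR hr₀ hc hcr hμ₀ hμ₁ hs₁ hle hcont he hS
    (ofReal_minWeakGrad_le_ascSlope H.fin hL) hlog hP hPC' hPE

end Crest.Agent.R242
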