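import Crest.Agent.R242.ContrCore
import Crest.Agent.R242.ContrMeas
import Crest.Agent.R242.ContrPot
import Crest.Agent.R242.ContrW
import Crest.Agent.R242.ContrTail
import Crest.Agent.R242.E1
import Crest.Agent.R242.DaviesFin

/-!
Row 242, block C1: contraction of the resolvent in `W₂`.
-/

set_option autoImplicit false
set_option linter.unusedSectionVars false

open MeasureTheory Filter Set
open scoped ENNReal NNReal Topology
open Crest.GeometryTopology.SyntheticRicci

noncomputable section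

namespace Crest.Agent.R242

/-- bounded probability densities with bounded support. -/
structure BdDens {X : Type*} [MetricSpace X] [MeasurableSpace X] (m : Measure X) (ρ : X → ℝ) :
    Prop where
  meas : Measurable ρ
  nonneg : ∀ x, 0 ≤ ρ x
  bdd : ∃ C : ℝ, ∀ x, ρ x ≤ C
  supp : ∃ (o : X) (R : ℝ), ∀ x, x ∉ Metric.closedBall o R → ρ x = 0
  int : ∫ x, ρ x ∂m = 1

namespace Contr

variable {X : Type*} [MetricSpace X] [ProperSpace X] [MeasurableSpace X] [BorelSpace X]
  {m : Measure X} [IsLocallyFiniteMeasure m] [m.IsOpenPosMeasure] {k N : ℝ}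

/-- what is used of `r = J_h ρ`. -/
structure RData (m : Measure X) (o : X) (h : ℝ) (ρ r : X → ℝ) : Prop where
  sob : IsSobolevLoc m r
  nonneg : ∀ᵐ x ∂m, 0 ≤ r x
  bdd : ∃ C : ℝ, ∀ᵐ x ∂m, r x ≤ C
  mom : Integrable (fun x => (1 + dist x o) ^ 2 * r x) m
  gmom : Integrable (fun x => (1 + dist x o) * minWeakGrad m r x) m
  mass : ∫ x, r x ∂m = 1
  weak : ∀ φ : X → ℝ,
    (∃ A : ℝ, ∀ x x', |φ x - φ x'| ≤ A * dist x x' * (1 + dist x o + dist x' o)) →
      h * (∫ x, gradPairing m φ r x ∂m) + ∫ x, φ x * r x ∂m = ∫ x, φ x * ρ x ∂m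

/-- what is used of the weight `w`. -/
structure WData (m : Measure X) (o : X) (Lam : ℝ) (w : X → ℝ) : Prop where
  sob : IsSobolevLoc m w
  pos : ∀ x, 0 < w x
  bdd : ∃ C : ℝ, ∀ x, w x ≤ C
  low : ∀ (o' : X) (R : ℝ), ∃ c : ℝ, 0 < c ∧ ∀ x ∈ Metric.closedBall o' R, c ≤ w x
  mom : Integrable (fun x => (1 + dist x o) ^ 2 * w x) m
  mass : ∫ x, w x ∂m = 1
  grad : ∀ᵐ x ∂m, minWeakGrad m w x ≤ Lam * w x

/-- what is used of a potential. -/
structure PData (m : Measure X) (o : X) (R C₀ : ℝ) (φ : X → ℝ) : Prop where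
  cont : Continuous φ
  bd : ∀ x, |φ x| ≤ C₀ * (R + dist x o) ^ 2
  sob : IsSobolevLoc m φ
  wg : ∀ᵐ x ∂m, minWeakGrad m φ x ≤ R + dist x o
  lip : ∀ x x', |φ x - φ x'| ≤ dist x x' * ((dist x o + dist x' o) / 2 + R)

theorem int_scale {o : X} {R : ℝ} (hR : 1 ≤ R) {g : X → ℝ} (n : ℕ)
    (hg : Integrable (fun x => (1 + dist x o) ^ n * g x) m) :
    Integrable (fun x => (R + dist x o) ^ n * g x) m := by
  have e : (fun x => (R + dist x o) ^ n * g x) =
      fun x => ((R + dist x o) / (1 + dist x o)) ^ n * ((1 + dist x o) ^ n * g x) := by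
    funext x
    have : 0 < 1 + dist x o := by positivity
    rw [div_pow]; field_simp
  rw [e]
  refine hg.bdd_mul (c := R ^ n) ?_ (Filter.Eventually.of_forall fun x => ?_)
  · refine (Continuous.pow ?_ n).aestronglyMeasurable
    refine Continuous.div (by fun_prop) (by fun_prop) fun x => ?_
    have : 0 < 1 + dist x o := by positivity
    exact this.ne'
  · have h1 : 0 < 1 + dist x o := by positivity
    have h2 : 0 ≤ (R + dist x o) / (1 + dist x o) := by positivity
    rw [Real.norm_of_nonneg (pow_nonneg h2 n)]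
    refine pow_le_pow_left₀ h2 ?_ n
    rw [div_le_iff₀ h1]
    have := dist_nonneg (x := x) (y := o)
    nlinarith

theorem side_of (H : Hyp m k N) {o : X} {R C₀ h Lam : ℝ} (hR : 1 ≤ R) {ρ r w φ : X → ℝ}
    (A : RData m o h ρ r) (B : WData m o Lam w) (P : PData m o R C₀ φ) :
    Side m o R C₀ h Lam φ r w (gradPairing m φ r) (gradPairing m φ w) (minWeakGrad m φ)
      (minWeakGrad m r) ρ where
  φm := P.cont.aestronglyMeasurable
  φb := Filter.Eventually.of_forall P.bd
  r0 := A.nonneg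
  w0 := Filter.Eventually.of_forall fun x => (B.pos x).le
  rint := int_scale hR 2 A.mom
  wint := int_scale hR 2 B.mom
  grint := by
    have := int_scale (g := minWeakGrad m r) hR 1 (by simpa using A.gmom)
    simpa using this
  rm := aesm_of_sobLoc H A.sob
  wm := aesm_of_sobLoc H B.sob
  gr0 := wg_nonneg H A.sob
  g0 := wg_nonneg H P.sob
  gb := P.wg
  gm := aesm_wg H P.sob
  pm := aesm_gp H P.sob A.sob
  pwm := aesm_gp H P.sob B.sob
  pb := gp_abs_le H P.sob A.sob
  pwb := by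
    filter_upwards [gp_abs_le H P.sob B.sob, B.grad, wg_nonneg H P.sob] with x h1 h2 h3
    exact h1.trans (mul_le_mul_of_nonneg_left h2 h3)
  wone := B.mass
  weak := by
    refine A.weak φ ⟨R, fun x x' => (P.lip x x').trans ?_⟩
    have h1 := dist_nonneg (x := x) (y := x')
    have h2 := dist_nonneg (x := x) (y := o)
    have h3 := dist_nonneg (x := x') (y := o)
    have : (dist x o + dist x' o) / 2 + R ≤ R * (1 + dist x o + dist x' o) := by nlinarith
    nlinarith

/-- the density at one end. -/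
def sden (r w : X → ℝ) (ε Z : ℝ) (x : X) : ℝ := (r x + ε * w x) / Z

section Ends

variable {o : X} {R C₀ h Lam ε Z : ℝ} {ρ r w φ : X → ℝ}

theorem sob_sden (H : Hyp m k N) (A : RData m o h ρ r) (B : WData m o Lam w) :
    IsSobolevLoc m (sden r w ε Z) := by
  have h1 := sobLoc_smul H (1 / Z) (sobLoc_add H A.sob (sobLoc_smul H ε B.sob))
  have : sden r w ε Z = fun x => 1 / Z * (r x + ε * w x) := by
    funext x; unfold sden; ring
  rw [this]; exact h1

theorem gp_sden (H : Hyp m k N) (A : RData m o h ρ r) (B : WData m o Lam w)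
    (hφ : IsSobolevLoc m φ) :
    gradPairing m φ (sden r w ε Z) =ᵐ[m]
      fun x => (gradPairing m φ r x + ε * gradPairing m φ w x) / Z := by
  have e : sden r w ε Z = fun x => 1 / Z * (r x + ε * w x) := by
    funext x; unfold sden; ring
  rw [e]
  have s2 := sobLoc_smul H ε B.sob
  filter_upwards [gp_smul_right H (1 / Z) hφ (sobLoc_add H A.sob s2),
    gp_add_right H hφ A.sob s2, gp_smul_right H ε hφ B.sob] with x h1 h2 h3
  rw [h1, h2, h3]; ring

theorem sden_nonneg (A : RData m o h ρ r) (B : WData m o Lam w) (hε : 0 < ε) (hZ : 0 < Z) :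
    ∀ᵐ x ∂m, 0 ≤ sden r w ε Z x := by
  filter_upwards [A.nonneg] with x hx
  have := B.pos x
  unfold sden
  positivity

theorem int_r (H : Hyp m k N) (A : RData m o h ρ r) : Integrable r m := by
  refine A.mom.mono' (aesm_of_sobLoc H A.sob) ?_
  filter_upwards [A.nonneg] with x hx
  rw [Real.norm_of_nonneg hx]
  have h1 := dist_nonneg (x := x) (y := o)
  nlinarith [mul_nonneg h1 hx, mul_nonneg (mul_nonneg h1 h1) hx]

theorem int_w (H : Hyp m k N) (B : WData m o Lam w) : Integrable w m := by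
  refine B.mom.mono' (aesm_of_sobLoc H B.sob) ?_
  refine Filter.Eventually.of_forall fun x => ?_
  have hx := (B.pos x).le
  rw [Real.norm_of_nonneg hx]
  have h1 := dist_nonneg (x := x) (y := o)
  nlinarith [mul_nonneg h1 hx, mul_nonneg (mul_nonneg h1 h1) hx]

theorem int_sden (H : Hyp m k N) (A : RData m o h ρ r) (B : WData m o Lam w) :
    Integrable (sden r w ε Z) m := by
  have := ((int_r H A).add ((int_w H B).const_mul ε)).div_const Z
  exact this

theorem sden_bd (A : RData m o h ρ r) (B : WData m o Lam w) (hε : 0 < ε) (hZ : 0 < Z) :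
    ∃ C : ℝ≥0, ∀ᵐ x ∂m, sden r w ε Z x ≤ C := by
  obtain ⟨C1, h1⟩ := A.bdd
  obtain ⟨C2, h2⟩ := B.bdd
  refine ⟨Real.toNNReal ((C1 + ε * C2) / Z), ?_⟩
  filter_upwards [h1] with x hx
  refine le_trans ?_ (Real.le_coe_toNNReal _)
  unfold sden
  have := h2 x
  gcongr

theorem sden_low (A : RData m o h ρ r) (B : WData m o Lam w) (hε : 0 < ε) (hZ : 0 < Z) (R : ℝ) :
    ∃ c : ℝ, 0 < c ∧ ∀ᵐ x ∂(m.restrict (Metric.closedBall o R)), c ≤ sden r w ε Z x := by
  obtain ⟨c, hc, h1⟩ := B.low o R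
  refine ⟨ε * c / Z, by positivity, ?_⟩
  refine (ae_restrict_iff' Metric.isClosed_closedBall.measurableSet).mpr ?_
  filter_upwards [A.nonneg] with x hx hxB
  unfold sden
  have := h1 x hxB
  have h2 : ε * c ≤ r x + ε * w x := by nlinarith
  gcongr

end Ends

/-- the zero potential. -/
theorem pdata_zero (H : Hyp m k N) (o : X) {R : ℝ} (hR : 1 ≤ R) :
    PData m o R 8 (fun _ : X => (0 : ℝ)) where
  cont := continuous_const
  bd := fun x => by rw [abs_zero]; positivity
  sob := sobLoc_const H 0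
  wg := by
    filter_upwards [wg_eq_zero_of_eq H (sobLoc_const (m := m) H 0) 0] with x hx
    rw [hx rfl]
    have := dist_nonneg (x := x) (y := o)
    linarith
  lip := fun x x' => by
    have h1 := dist_nonneg (x := x) (y := x')
    have h2 := dist_nonneg (x := x) (y := o)
    have h3 := dist_nonneg (x := x') (y := o)
    rw [sub_zero, abs_zero]
    positivity

theorem bdDens_integrable {ρ : X → ℝ} (hρ : BdDens m ρ) : Integrable ρ m := by
  by_contra hcon
  have := hρ.int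
  rw [integral_undef hcon] at this
  exact zero_ne_one this

theorem dens_eq {ρ : X → ℝ} {B : Set X} (hB : MeasurableSet B)
    (hS : ∀ x, x ∉ B → ρ x = 0) : dens m ρ = ctrMu m B ρ := by
  unfold dens ctrMu
  rw [← withDensity_indicator hB]
  congr 1
  funext x
  by_cases hx : x ∈ B
  · rw [Set.indicator_of_mem hx]
  · rw [Set.indicator_of_notMem hx, hS x hx, ENNReal.ofReal_zero]

theorem integral_dens {ρ : X → ℝ} (hρ : BdDens m ρ) (f : X → ℝ) :
    ∫ x, f x ∂(dens m ρ) = ∫ x, f x * ρ x ∂m := by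
  rw [dens_eq_ctrMu, integral_ctrMu hρ.meas.aestronglyMeasurable
    (Filter.Eventually.of_forall hρ.nonneg), Measure.restrict_univ]

theorem dens_prob {ρ : X → ℝ} (hρ : BdDens m ρ) : IsProbabilityMeasure (dens m ρ) := by
  rw [dens_eq_ctrMu]
  refine ctrMu_prob (bdDens_integrable hρ).integrableOn
    (Filter.Eventually.of_forall hρ.nonneg) ?_
  rw [Measure.restrict_univ, hρ.int]

/-- [duality]. -/
theorem dual_le {o : X} {R : ℝ} {μ₀ μ₁ : Measure X} {φ ψ ρ ρ' : X → ℝ}
    (hpot : IsPot o R μ₀ μ₁ φ ψ) (hρ : BdDens m ρ) (hρ' : BdDens m ρ')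
    (hS : ∀ x, x ∉ Metric.closedBall o R → ρ x = 0 ∧ ρ' x = 0)
    (hfin : w2sq (dens m ρ) (dens m ρ') ≠ ⊤) :
    (∫ x, φ x * ρ x ∂m) + (∫ x, ψ x * ρ' x ∂m) ≤ (w2sq (dens m ρ) (dens m ρ')).toReal / 2 := by
  have := dens_prob hρ
  have := dens_prob hρ'
  have hBm : MeasurableSet (Metric.closedBall o R) := Metric.isClosed_closedBall.measurableSet
  have s0 : dens m ρ (Metric.closedBall o R)ᶜ = 0 := by
    rw [dens_eq hBm fun x hx => (hS x hx).1]; exact ctrMu_compl hBm ρ
  have s1 : dens m ρ' (Metric.closedBall o R)ᶜ = 0 := by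
    rw [dens_eq hBm fun x hx => (hS x hx).2]; exact ctrMu_compl hBm ρ'
  have h1 := weak_duality hpot s0 s1
  rw [integral_dens hρ, integral_dens hρ', ENNReal.ofReal_le_iff_le_toReal hfin] at h1
  linarith

theorem abs_pot_dens_le {o : X} {R C₀ : ℝ} {ψ ρ' : X → ℝ} (hC : 0 ≤ C₀) (hR : 1 ≤ R)
    (P : PData m o R C₀ ψ)
    (hρ' : BdDens m ρ') (hS : ∀ x, x ∉ Metric.closedBall o R → ρ' x = 0) :
    |∫ x, ψ x * ρ' x ∂m| ≤ C₀ * (4 * R ^ 2) := by
  have hb : ∀ x, |ψ x * ρ' x| ≤ (C₀ * (4 * R ^ 2)) * ρ' x := by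
    intro x
    rw [abs_mul, abs_of_nonneg (hρ'.nonneg x)]
    by_cases hx : x ∈ Metric.closedBall o R
    · have h1 := P.bd x
      have h2 : dist x o ≤ R := hx
      have h3 := dist_nonneg (x := x) (y := o)
      have h4 : (R + dist x o) ^ 2 ≤ 4 * R ^ 2 := by nlinarith
      exact mul_le_mul_of_nonneg_right (h1.trans (mul_le_mul_of_nonneg_left h4 hC))
        (hρ'.nonneg x)
    · rw [hS x hx, mul_zero, mul_zero]
  have hi := bdDens_integrable hρ'
  calc |∫ x, ψ x * ρ' x ∂m| ≤ ∫ x, |ψ x * ρ' x| ∂m := abs_integral_le_integral_abs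
    _ ≤ ∫ x, (C₀ * (4 * R ^ 2)) * ρ' x ∂m := by
      refine integral_mono_of_nonneg (Filter.Eventually.of_forall fun x => abs_nonneg _)
        (hi.const_mul _) (Filter.Eventually.of_forall hb)
    _ = C₀ * (4 * R ^ 2) := by rw [integral_const_mul, hρ'.int, mul_one]

/-- the gradient energy of the potential. -/
theorem grad_energy {o : X} {R C₀ h Lam ε Z : ℝ} {ρ r w φ : X → ℝ}
    (S : Side m o R C₀ h Lam φ r w (gradPairing m φ r) (gradPairing m φ w) (minWeakGrad m φ)
      (minWeakGrad m r) ρ) (hε : 0 < ε) (hZ : 0 < Z) {W : ℝ≥0∞} (hW : W ≠ ⊤)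
    (h1 : ∫⁻ x, ENNReal.ofReal (minWeakGrad m φ x ^ 2)
      ∂(ctrMu m (Metric.closedBall o R) (sden r w ε Z)) ≤ W) :
    ∫ x in Metric.closedBall o R, minWeakGrad m φ x ^ 2 * ((r x + ε * w x) / Z) ∂m ≤
      W.toReal := by
  have hint : Integrable (fun x => minWeakGrad m φ x ^ 2 * ((r x + ε * w x) / Z)) m := by
    have := (S.int_ggr.add (S.int_ggw.const_mul ε)).div_const Z
    refine this.congr (Filter.Eventually.of_forall fun x => ?_)
    simp only [Pi.add_apply]; ring
  have h0 : ∀ᵐ x ∂m, 0 ≤ sden r w ε Z x := by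
    filter_upwards [S.r0, S.w0] with x hx hx'
    unfold sden
    positivity
  rw [← ENNReal.ofReal_le_iff_le_toReal hW]
  refine le_trans (le_of_eq ?_) h1
  have hsm : AEStronglyMeasurable (sden r w ε Z) m := by
    have := (S.rm.add (S.wm.const_mul ε)).mul_const (1 / Z)
    refine this.congr (Filter.Eventually.of_forall fun x => ?_)
    simp only [Pi.add_apply, sden]; ring
  have hm2 : AEMeasurable (fun x => ENNReal.ofReal (minWeakGrad m φ x ^ 2)) m :=
    (S.gm.pow 2).aemeasurable.ennreal_ofReal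
  rw [lintegral_ctrMu hsm hm2, ofReal_integral_eq_lintegral_ofReal hint.integrableOn]
  · refine lintegral_congr_ae (ae_restrict_of_ae ?_)
    filter_upwards [h0] with x hx
    rw [← ENNReal.ofReal_mul hx, mul_comm]
    rfl
  · refine ae_restrict_of_ae ?_
    filter_upwards [h0] with x hx
    exact mul_nonneg (sq_nonneg _) hx

/-- the inequality at a good radius. -/
theorem key (H : Hyp m k N) {o : X} {h Lam : ℝ} (hh : 0 < h) (hL : 0 < Lam)
    {ρ ρ' r r' w : X → ℝ} (hρ : BdDens m ρ) (hρ' : BdDens m ρ')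
    (A : RData m o h ρ r) (A' : RData m o h ρ' r') (B : WData m o Lam w)
    {ε τ δ R : ℝ} (hε : 0 < ε) (hε1 : ε ≤ 1) (hτ1 : τ ≤ 1) (hR : 1 ≤ R)
    (hS : ∀ x, x ∉ Metric.closedBall o R → ρ x = 0 ∧ ρ' x = 0)
    (hfin : w2sq (dens m ρ) (dens m ρ') ≠ ⊤)
    (t1 : ∫ x in (Metric.closedBall o R)ᶜ, (R + dist x o) ^ 2 * r x ∂m ≤ τ)
    (t2 : ∫ x in (Metric.closedBall o R)ᶜ, (R + dist x o) ^ 2 * r' x ∂m ≤ τ)
    (t3 : ∫ x in (Metric.closedBall o R)ᶜ, (R + dist x o) ^ 2 * w x ∂m ≤ τ)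
    (t4 : ∫ x in (Metric.closedBall o R)ᶜ, (R + dist x o) * minWeakGrad m r x ∂m ≤ τ)
    (t5 : ∫ x in (Metric.closedBall o R)ᶜ, (R + dist x o) * minWeakGrad m r' x ∂m ≤ τ)
    (hrad : ∀ᶠ n : ℕ in atTop, ∫ x in Metric.closedBall o (R + 2 * R * (1 / 2) ^ n) \
      Metric.closedBall o R, (r x + r' x + w x) ∂m ≤ δ * (1 / 2) ^ n)
    {Z₀ Z₁ : ℝ} (hZ₀ : Z₀ = ∫ x in Metric.closedBall o R, (r x + ε * w x) ∂m)
    (hZ₁ : Z₁ = ∫ x in Metric.closedBall o R, (r' x + ε * w x) ∂m) :
    0 < Z₀ ∧ 0 < Z₁ ∧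
    IsProbabilityMeasure (ctrMu m (Metric.closedBall o R) (sden r w ε Z₀)) ∧
    IsProbabilityMeasure (ctrMu m (Metric.closedBall o R) (sden r' w ε Z₁)) ∧
    w2sq (ctrMu m (Metric.closedBall o R) (sden r w ε Z₀))
      (ctrMu m (Metric.closedBall o R) (sden r' w ε Z₁)) ≠ ⊤ ∧
    (1 - 2 * h * k - 2 * h * √ε) * (w2sq (ctrMu m (Metric.closedBall o R) (sden r w ε Z₀))
      (ctrMu m (Metric.closedBall o R) (sden r' w ε Z₁))).toReal ≤
    (1 + τ) * (w2sq (dens m ρ) (dens m ρ')).toReal + 4 * h * (2 * δ) + 4 * h * Lam ^ 2 * √ε +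
      τ * (40 * 8 + 8 * h + 4 * 8 * (∫ x, (1 + dist x o) ^ 2 * w x ∂m)) := by
  have hBm : MeasurableSet (Metric.closedBall o R) := Metric.isClosed_closedBall.measurableSet
  -- the normalising constants
  have SS := side_of H (h := h) hR A B (pdata_zero H o hR)
  have SS' := side_of H (h := h) hR A' B (pdata_zero H o hR)
  obtain ⟨-, hτ, m2, m3⟩ := SS.mass_tail hR hε hε1 t1 t3 A.mass
  obtain ⟨-, -, n2, n3⟩ := SS'.mass_tail hR hε hε1 t2 t3 A'.mass
  rw [← hZ₀] at m2 m3
  rw [← hZ₁] at n2 n3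
  obtain ⟨p0, p1, a1, a2, b2, ab⟩ := inv_diff hR hε hτ hτ1 m2 m3 n2 n3
  refine ⟨p0, p1, ?_⟩
  -- the measures
  have e0 : ∫ x in Metric.closedBall o R, sden r w ε Z₀ x ∂m = 1 := by
    unfold sden
    rw [integral_div, ← hZ₀, div_self p0.ne']
  have e1 : ∫ x in Metric.closedBall o R, sden r' w ε Z₁ x ∂m = 1 := by
    unfold sden
    rw [integral_div, ← hZ₁, div_self p1.ne']
  have P0 : IsProbabilityMeasure (ctrMu m (Metric.closedBall o R) (sden r w ε Z₀)) :=
    ctrMu_prob (int_sden H A B).integrableOn (sden_nonneg A B hε p0) e0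
  have P1 : IsProbabilityMeasure (ctrMu m (Metric.closedBall o R) (sden r' w ε Z₁)) :=
    ctrMu_prob (int_sden H A' B).integrableOn (sden_nonneg A' B hε p1) e1
  refine ⟨P0, P1, ?_⟩
  have q0 := ctrMu_compl (m := m) hBm (sden r w ε Z₀)
  have q1 := ctrMu_compl (m := m) hBm (sden r' w ε Z₁)
  obtain ⟨φ, ψ, hpot⟩ := exists_pot q0 q1
  obtain ⟨hb, hb', hs, hs', hw, hw'⟩ := ContrTail.pot_bounds H hpot hR q0 q1
  have Pφ : PData m o R 8 φ := ⟨hpot.continuous_left, hb, hs, hw, hpot.lipφ⟩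
  have Pψ : PData m o R 8 ψ := ⟨hpot.continuous_right, hb', hs', hw', hpot.lipψ⟩
  have S₀ := side_of H (h := h) hR A B Pφ
  have S₁ := side_of H (h := h) hR A' B Pψ
  obtain ⟨d1, d2⟩ := strong_duality hpot q0 q1
  have hWfin : w2sq (ctrMu m (Metric.closedBall o R) (sden r w ε Z₀))
      (ctrMu m (Metric.closedBall o R) (sden r' w ε Z₁)) ≠ ⊤ := by
    rw [d2]; exact ENNReal.ofReal_ne_top
  refine ⟨hWfin, ?_⟩
  have hval : (∫ x in Metric.closedBall o R, φ x * ((r x + ε * w x) / Z₀) ∂m) +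
      (∫ x in Metric.closedBall o R, ψ x * ((r' x + ε * w x) / Z₁) ∂m) =
      (w2sq (ctrMu m (Metric.closedBall o R) (sden r w ε Z₀))
      (ctrMu m (Metric.closedBall o R) (sden r' w ε Z₁))).toReal / 2 := by
    rw [d2, ENNReal.toReal_ofReal (by linarith),
      integral_ctrMu (int_sden H A B).aestronglyMeasurable (sden_nonneg A B hε p0),
      integral_ctrMu (int_sden H A' B).aestronglyMeasurable (sden_nonneg A' B hε p1)]
    unfold sden
    ring
  -- energies
  have hle : ∀ x, ∀ y ∈ Metric.closedBall o R, φ x + ψ y ≤ dist x y ^ 2 / 2 := hpot.le_left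
  have hle' : ∀ x, ∀ y ∈ Metric.closedBall o R, ψ x + φ y ≤ dist x y ^ 2 / 2 := fun x y hy => by
    have := hpot.le_right y hy x
    rw [dist_comm, add_comm]; exact this
  obtain ⟨C0, hC0⟩ := sden_bd A B hε p0
  obtain ⟨C1, hC1⟩ := sden_bd A' B hε p1
  have hM0 : ctrMu m (Metric.closedBall o R) (sden r w ε Z₀) ≤ ((max C0 C1 : ℝ≥0) : ℝ≥0∞) • m :=
    ctrMu_le (by filter_upwards [hC0] with x hx using hx.trans (by exact_mod_cast le_max_left _ _))
  have hM1 : ctrMu m (Metric.closedBall o R) (sden r' w ε Z₁) ≤ ((max C0 C1 : ℝ≥0) : ℝ≥0∞) • m :=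
    ctrMu_le (by filter_upwards [hC1] with x hx using hx.trans (by exact_mod_cast le_max_right _ _))
  have hG := grad_energy S₀ hε p0 hWfin (wg_pot_sq_le H o (by linarith) hM0 hM1 q0 q1
    hle hpot.contact hpot.lipφ)
  have hWc := ctr_w2sq_comm (ctrMu m (Metric.closedBall o R) (sden r w ε Z₀))
    (ctrMu m (Metric.closedBall o R) (sden r' w ε Z₁))
  have hG' := grad_energy S₁ hε p1 (W := w2sq (ctrMu m (Metric.closedBall o R) (sden r w ε Z₀))
      (ctrMu m (Metric.closedBall o R) (sden r' w ε Z₁))) hWfin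
    (by
      rw [hWc]
      exact wg_pot_sq_le H o (by linarith) hM1 hM0 q1 q0 hle'
        (ctr_contact_swap hpot) hpot.lipψ)
  -- first variation
  obtain ⟨c0, hc0, hl0⟩ := sden_low A B hε p0 (4 * R)
  obtain ⟨c1, hc1, hl1⟩ := sden_low A' B hε p1 (4 * R)
  have ir := int_r H A
  have ir' := int_r H A'
  have iw := int_w H B
  have shell : ∀ {f : X → ℝ} {Z : ℝ}, 0 < Z → 1 / Z ≤ 2 → Integrable f m →
      (∀ᵐ x ∂m, 0 ≤ f x) → (∀ᵐ x ∂m, f x ≤ r x + r' x + w x) →
      ∀ᶠ n : ℕ in atTop, ∫ x in Metric.closedBall o (R + 2 * R * (1 / 2) ^ n) \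
        Metric.closedBall o R, f x / Z ∂m ≤ 2 * δ * (1 / 2) ^ n := by
    intro f Z hZ hZ2 hf hf0 hfb
    filter_upwards [hrad] with n hn
    rw [integral_div]
    have h1 : ∫ x in Metric.closedBall o (R + 2 * R * (1 / 2) ^ n) \ Metric.closedBall o R,
        f x ∂m ≤ δ * (1 / 2) ^ n :=
      (integral_mono_ae hf.integrableOn ((ir.add ir').add iw).integrableOn
        (ae_restrict_of_ae hfb)).trans hn
    have h2 : 0 ≤ ∫ x in Metric.closedBall o (R + 2 * R * (1 / 2) ^ n) \ Metric.closedBall o R,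
        f x ∂m := integral_nonneg_of_ae (ae_restrict_of_ae hf0)
    calc (∫ x in Metric.closedBall o (R + 2 * R * (1 / 2) ^ n) \ Metric.closedBall o R,
        f x ∂m) / Z = (1 / Z) * ∫ x in Metric.closedBall o (R + 2 * R * (1 / 2) ^ n) \
          Metric.closedBall o R, f x ∂m := by ring
      _ ≤ 2 * ∫ x in Metric.closedBall o (R + 2 * R * (1 / 2) ^ n) \
          Metric.closedBall o R, f x ∂m := mul_le_mul_of_nonneg_right hZ2 h2
      _ ≤ 2 * (δ * (1 / 2) ^ n) := mul_le_mul_of_nonneg_left h1 (by norm_num)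
      _ = 2 * δ * (1 / 2) ^ n := by ring
  have E0 := E1 H o (by linarith) (r₀ := sden r w ε Z₀) (sob_sden H A B) hc0
    (by filter_upwards [hl0, ae_restrict_of_ae hC0] with x h1 h2 using ⟨h1, h2⟩)
    (μ₀ := ctrMu m (Metric.closedBall o R) (sden r w ε Z₀))
    (μ₁ := ctrMu m (Metric.closedBall o R) (sden r' w ε Z₁)) rfl hM1 q1 hle
    hpot.contact hpot.lipφ (e := 2 * δ)
    (shell p0 a2 (ir.add (iw.const_mul ε))
      (by
        filter_upwards [A.nonneg] with x hx
        have := B.pos x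
        positivity)
      (by
        filter_upwards [A'.nonneg] with x hx
        have := B.pos x
        nlinarith))
  have E2 := E1 H o (by linarith) (r₀ := sden r' w ε Z₁) (sob_sden H A' B) hc1
    (by filter_upwards [hl1, ae_restrict_of_ae hC1] with x h1 h2 using ⟨h1, h2⟩)
    (μ₀ := ctrMu m (Metric.closedBall o R) (sden r' w ε Z₁))
    (μ₁ := ctrMu m (Metric.closedBall o R) (sden r w ε Z₀)) rfl hM0 q0 hle'
    (ctr_contact_swap hpot) hpot.lipψ (e := 2 * δ)
    (shell p1 b2 (ir'.add (iw.const_mul ε))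
      (by
        filter_upwards [A'.nonneg] with x hx
        have := B.pos x
        positivity)
      (by
        filter_upwards [A.nonneg] with x hx
        have := B.pos x
        nlinarith))
  rw [← hWc] at E2
  have g0 : ∫ x in Metric.closedBall o R, gradPairing m φ (sden r w ε Z₀) x ∂m =
      ∫ x in Metric.closedBall o R, (gradPairing m φ r x + ε * gradPairing m φ w x) / Z₀ ∂m :=
    integral_congr_ae (ae_restrict_of_ae (gp_sden H A B hs))
  have g1 : ∫ x in Metric.closedBall o R, gradPairing m ψ (sden r' w ε Z₁) x ∂m =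
      ∫ x in Metric.closedBall o R, (gradPairing m ψ r' x + ε * gradPairing m ψ w x) / Z₁ ∂m :=
    integral_congr_ae (ae_restrict_of_ae (gp_sden H A' B hs'))
  rw [g0] at E0
  rw [g1] at E2
  -- duality
  have hdual := dual_le hpot hρ hρ' hS hfin
  have hψρ := abs_pot_dens_le (C₀ := 8) (by norm_num) hR Pψ hρ' fun x hx => (hS x hx).2
  have hneg : ∀ x ∈ Metric.closedBall o R, φ x + ψ x ≤ 0 := by
    intro x hx
    have := hle x x hx
    simpa using this
  have hM₂ : 0 ≤ ∫ x, (1 + dist x o) ^ 2 * w x ∂m :=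
    integral_nonneg fun x => mul_nonneg (sq_nonneg _) (B.pos x).le
  have hM : ∫ x, (R + dist x o) ^ 2 * w x ∂m ≤ (∫ x, (1 + dist x o) ^ 2 * w x ∂m) * R ^ 2 := by
    rw [mul_comm, ← integral_const_mul]
    refine integral_mono (int_scale hR 2 B.mom) (B.mom.const_mul _) fun x => ?_
    simp only
    rw [← mul_assoc]
    refine mul_le_mul_of_nonneg_right ?_ (B.pos x).le
    rw [← mul_pow]
    refine pow_le_pow_left₀ (by positivity) ?_ 2
    have := dist_nonneg (x := x) (y := o)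
    nlinarith
  have T := two_sided (k := k) (e := 2 * δ) S₀ S₁ hR hL.le (by norm_num) hh.le hε hε1 hτ1
    ENNReal.toReal_nonneg hM₂ A.mass A'.mass hZ₀ hZ₁ t1 t2 t3 t4 t5 hM hval
    (by linarith) hG hG' hdual hψρ hneg
  exact T

/-- tails outside large balls. -/
theorem tail_tendsto {o : X} {g : X → ℝ} (n : ℕ) (hg0 : ∀ᵐ x ∂m, 0 ≤ g x)
    (hg : Integrable (fun x => (1 + dist x o) ^ n * g x) m) :
    Tendsto (fun R : ℝ => ∫ x in (Metric.closedBall o R)ᶜ, (R + dist x o) ^ n * g x ∂m)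
      atTop (𝓝 0) := by
  have h1 : Tendsto (fun R : ℝ => ∫ x in (Metric.closedBall o R)ᶜ, (1 + dist x o) ^ n * g x ∂m)
      atTop (𝓝 0) := by
    have h2 := tendsto_setIntegral_of_antitone (μ := m)
      (s := fun R : ℝ => (Metric.closedBall o R)ᶜ) (f := fun x => (1 + dist x o) ^ n * g x)
      (fun R => Metric.isClosed_closedBall.measurableSet.compl)
      (fun a b hab => compl_subset_compl.mpr (Metric.closedBall_subset_closedBall hab))
      ⟨0, hg.integrableOn⟩
    have h3 : (⋂ R : ℝ, (Metric.closedBall o R)ᶜ) = ∅ := by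
      rw [← compl_iUnion, compl_empty_iff]
      exact iUnion_eq_univ_iff.mpr fun x => ⟨dist x o, by simp [Metric.mem_closedBall]⟩
    rw [h3] at h2
    simpa using h2
  have h4 := h1.const_mul ((2 : ℝ) ^ n)
  rw [mul_zero] at h4
  refine squeeze_zero' ?_ ?_ h4
  · filter_upwards [eventually_ge_atTop (0 : ℝ)] with R hR
    refine integral_nonneg_of_ae (ae_restrict_of_ae ?_)
    filter_upwards [hg0] with x hx
    have := dist_nonneg (x := x) (y := o)
    exact mul_nonneg (pow_nonneg (by linarith) n) hx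
  · filter_upwards [eventually_ge_atTop (1 : ℝ)] with R hR
    rw [← integral_const_mul]
    refine setIntegral_mono_ae_restrict (int_scale hR n hg).integrableOn
      (hg.const_mul _).integrableOn ?_
    refine (ae_restrict_iff' Metric.isClosed_closedBall.measurableSet.compl).mpr ?_
    filter_upwards [hg0] with x hx hxB
    have hd : R < dist x o := by simpa [Metric.mem_closedBall] using hxB
    rw [← mul_assoc, ← mul_pow]
    refine mul_le_mul_of_nonneg_right ?_ hx
    exact pow_le_pow_left₀ (by linarith) (by linarith) n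

/-- `L¹` distance of the normalised truncated density to `r`. -/
theorem l1_close (H : Hyp m k N) {o : X} {h Lam : ℝ} {ρ r w : X → ℝ}
    (A : RData m o h ρ r) (B : WData m o Lam w) {ε τ R Z : ℝ} (hε : 0 < ε)
    (hτ : 0 ≤ τ) (hR : 1 ≤ R)
    (t1 : ∫ x in (Metric.closedBall o R)ᶜ, (R + dist x o) ^ 2 * r x ∂m ≤ τ)
    (hZ0 : 0 < Z) (hZ1 : Z ≤ 1 + ε) (hZ2 : 1 - τ ≤ Z) (hZ3 : 1 / Z ≤ 2) :
    ∫ x, |(Metric.closedBall o R).indicator (sden r w ε Z) x - r x| ∂m ≤ 4 * ε + 3 * τ := by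
  have hBm : MeasurableSet (Metric.closedBall o R) := Metric.isClosed_closedBall.measurableSet
  have ir := int_r H A
  have iw := int_w H B
  have is := int_sden (ε := ε) (Z := Z) H A B
  have hi : Integrable (fun x => (Metric.closedBall o R).indicator (sden r w ε Z) x - r x) m :=
    (is.indicator hBm).sub ir
  rw [← integral_add_compl hBm hi.abs]
  have e1 : ∫ x in Metric.closedBall o R,
      |(Metric.closedBall o R).indicator (sden r w ε Z) x - r x| ∂m ≤ 2 * (ε + τ) + 2 * ε := by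
    have hb : ∀ᵐ x ∂m, x ∈ Metric.closedBall o R →
        |(Metric.closedBall o R).indicator (sden r w ε Z) x - r x| ≤
          2 * (ε + τ) * r x + 2 * ε * w x := by
      filter_upwards [A.nonneg] with x hx hxB
      have hw := (B.pos x).le
      rw [Set.indicator_of_mem hxB]
      have e : sden r w ε Z x - r x = (1 - Z) * (1 / Z) * r x + ε * (1 / Z) * w x := by
        unfold sden; field_simp; ring
      rw [e]
      have hz : |1 - Z| ≤ ε + τ := by rw [abs_le]; constructor <;> linarith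
      have hz' : 0 < 1 / Z := by positivity
      calc |(1 - Z) * (1 / Z) * r x + ε * (1 / Z) * w x| ≤
          |(1 - Z) * (1 / Z) * r x| + |ε * (1 / Z) * w x| := abs_add_le _ _
        _ = |1 - Z| * (1 / Z) * r x + ε * (1 / Z) * w x := by
            rw [abs_mul, abs_mul, abs_of_pos hz', abs_of_nonneg hx,
              abs_of_nonneg (by positivity : 0 ≤ ε * (1 / Z) * w x)]
        _ ≤ (ε + τ) * 2 * r x + ε * 2 * w x := by
            refine add_le_add ?_ ?_
            · refine mul_le_mul_of_nonneg_right ?_ hx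
              exact mul_le_mul hz hZ3 hz'.le (by positivity)
            · refine mul_le_mul_of_nonneg_right ?_ hw
              exact mul_le_mul_of_nonneg_left hZ3 hε.le
        _ = _ := by ring
    have i2 : Integrable (fun x => 2 * (ε + τ) * r x + 2 * ε * w x) m :=
      (ir.const_mul _).add (iw.const_mul _)
    calc ∫ x in Metric.closedBall o R,
        |(Metric.closedBall o R).indicator (sden r w ε Z) x - r x| ∂m ≤
        ∫ x in Metric.closedBall o R, (2 * (ε + τ) * r x + 2 * ε * w x) ∂m := by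
          refine setIntegral_mono_ae_restrict hi.abs.integrableOn i2.integrableOn ?_
          exact (ae_restrict_iff' hBm).mpr hb
      _ ≤ ∫ x, (2 * (ε + τ) * r x + 2 * ε * w x) ∂m := by
          refine setIntegral_le_integral i2 ?_
          filter_upwards [A.nonneg] with x hx
          have hw := (B.pos x).le
          simp only [Pi.zero_apply]
          positivity
      _ = 2 * (ε + τ) + 2 * ε := by
          rw [integral_add (ir.const_mul _) (iw.const_mul _), integral_const_mul,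
            integral_const_mul, A.mass, B.mass]
          ring
  have e2 : ∫ x in (Metric.closedBall o R)ᶜ,
      |(Metric.closedBall o R).indicator (sden r w ε Z) x - r x| ∂m ≤ τ := by
    refine le_trans ?_ t1
    refine setIntegral_mono_ae_restrict hi.abs.integrableOn
      (int_scale hR 2 A.mom).integrableOn ?_
    refine (ae_restrict_iff' hBm.compl).mpr ?_
    filter_upwards [A.nonneg] with x hx hxB
    rw [Set.indicator_of_notMem hxB, zero_sub, abs_neg, abs_of_nonneg hx]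
    have := dist_nonneg (x := x) (y := o)
    have h1 : 1 ≤ (R + dist x o) ^ 2 := by nlinarith
    nlinarith
  linarith

/-- approximation of both ends. -/
theorem approx (H : Hyp m k N) {o : X} {h Lam : ℝ} (hh : 0 < h) (hL : 0 < Lam)
    {ρ ρ' r r' w : X → ℝ} (hρ : BdDens m ρ) (hρ' : BdDens m ρ')
    (A : RData m o h ρ r) (A' : RData m o h ρ' r') (B : WData m o Lam w)
    (hfin : w2sq (dens m ρ) (dens m ρ') ≠ ⊤) {η : ℝ} (hη : 0 < η) :
    ∃ (s s' : X → ℝ) (μ ν : Measure X), IsProbabilityMeasure μ ∧ IsProbabilityMeasure ν ∧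
      (∀ f : X → ℝ, ∫ x, f x ∂μ = ∫ x, f x * s x ∂m) ∧
      (∀ f : X → ℝ, ∫ x, f x ∂ν = ∫ x, f x * s' x ∂m) ∧
      Integrable s m ∧ Integrable s' m ∧
      ∫ x, |s x - r x| ∂m ≤ η ∧ ∫ x, |s' x - r' x| ∂m ≤ η ∧ w2sq μ ν ≠ ⊤ ∧
      (1 - 2 * h * k - η) * (w2sq μ ν).toReal ≤
        (1 + η) * (w2sq (dens m ρ) (dens m ρ')).toReal + η := by
  -- choice of `ε`
  have hcont : ∀ c : ℝ, Tendsto (fun ε : ℝ => c * √ε) (𝓝[>] 0) (𝓝 0) := by
    intro c
    have h1 : Continuous (fun ε : ℝ => c * √ε) := by fun_prop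
    have h2 := (h1.tendsto 0).mono_left (nhdsWithin_le_nhds (s := Set.Ioi (0 : ℝ)))
    simpa using h2
  have hid : ∀ c : ℝ, Tendsto (fun ε : ℝ => c * ε) (𝓝[>] 0) (𝓝 0) := by
    intro c
    have h1 : Continuous (fun ε : ℝ => c * ε) := by fun_prop
    have h2 := (h1.tendsto 0).mono_left (nhdsWithin_le_nhds (s := Set.Ioi (0 : ℝ)))
    simpa using h2
  have hpos : ∀ᶠ ε : ℝ in 𝓝[>] 0, 0 < ε := self_mem_nhdsWithin
  obtain ⟨ε, hε, x1, x2, x3, x4⟩ := (hpos.and (((hcont (2 * h)).eventually_le_const hη).and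
    (((hcont (4 * h * Lam ^ 2)).eventually_le_const (by positivity : 0 < η / 3)).and
    (((hid 4).eventually_le_const (by positivity : 0 < η / 2)).and
    ((hid 1).eventually_le_const one_pos))))).exists
  have hε1 : ε ≤ 1 := by linarith
  set M₂ := ∫ x, (1 + dist x o) ^ 2 * w x ∂m with hM₂
  obtain ⟨τ, hτ, y1, y2, y3, y4⟩ := (hpos.and
    (((hid (40 * 8 + 8 * h + 4 * 8 * M₂)).eventually_le_const (by positivity : 0 < η / 3)).and
    (((hid 1).eventually_le_const hη).and
    (((hid 3).eventually_le_const (by positivity : 0 < η / 2)).and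
    ((hid 1).eventually_le_const one_pos))))).exists
  have hτ1 : τ ≤ 1 := by linarith
  set δ : ℝ := η / (24 * h) with hδ
  have hδ0 : 0 < δ := by positivity
  -- the radius
  obtain ⟨o1, R1, hS1⟩ := hρ.supp
  obtain ⟨o2, R2, hS2⟩ := hρ'.supp
  have gr1 : Integrable (fun x => (1 + dist x o) ^ 1 * minWeakGrad m r x) m := by
    simpa using A.gmom
  have gr2 : Integrable (fun x => (1 + dist x o) ^ 1 * minWeakGrad m r' x) m := by
    simpa using A'.gmom
  have T1 := (tail_tendsto 2 A.nonneg A.mom).eventually_le_const hτ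
  have T2 := (tail_tendsto 2 A'.nonneg A'.mom).eventually_le_const hτ
  have T3 := (tail_tendsto 2 (Filter.Eventually.of_forall fun x => (B.pos x).le)
    B.mom).eventually_le_const hτ
  have T4 := (tail_tendsto 1 (wg_nonneg H A.sob) gr1).eventually_le_const hτ
  have T5 := (tail_tendsto 1 (wg_nonneg H A'.sob) gr2).eventually_le_const hτ
  obtain ⟨a, ha⟩ := (T1.and (T2.and (T3.and (T4.and (T5.and
    ((eventually_ge_atTop (R1 + dist o1 o)).and (eventually_ge_atTop (R2 + dist o2 o)))))))).exists_forall_of_atTop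
  have ir := int_r H A
  have ir' := int_r H A'
  have iw := int_w H B
  obtain ⟨R, haR, hR, hrad⟩ := ContrTail.exists_radius (m := m) ((ir.add ir').add iw)
    (by
      filter_upwards [A.nonneg, A'.nonneg] with x h1 h2
      have := (B.pos x).le
      simp only [Pi.add_apply]; positivity) o hδ0 a
  obtain ⟨t1, t2, t3, t4, t5, t6, t7⟩ := ha R haR
  simp only [pow_one] at t4 t5
  have hS : ∀ x, x ∉ Metric.closedBall o R → ρ x = 0 ∧ ρ' x = 0 := by
    intro x hx
    have hx' : R < dist x o := by simpa [Metric.mem_closedBall] using hx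
    refine ⟨hS1 x fun hc => ?_, hS2 x fun hc => ?_⟩
    · have h1 : dist x o1 ≤ R1 := hc
      have := dist_triangle x o1 o
      linarith
    · have h1 : dist x o2 ≤ R2 := hc
      have := dist_triangle x o2 o
      linarith
  obtain ⟨Z₀, hZ₀⟩ : ∃ Z : ℝ, Z = ∫ x in Metric.closedBall o R, (r x + ε * w x) ∂m := ⟨_, rfl⟩
  obtain ⟨Z₁, hZ₁⟩ : ∃ Z : ℝ, Z = ∫ x in Metric.closedBall o R, (r' x + ε * w x) ∂m := ⟨_, rfl⟩
  obtain ⟨p0, p1, P0, P1, hW, hkey⟩ := key H hh hL hρ hρ' A A' B hε hε1 hτ1 hR hS hfin t1 t2 t3 t4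
    t5 hrad hZ₀ hZ₁
  -- constants
  have SS := side_of H (h := h) hR A B (pdata_zero H o hR)
  have SS' := side_of H (h := h) hR A' B (pdata_zero H o hR)
  obtain ⟨-, -, m2, m3⟩ := SS.mass_tail hR hε hε1 t1 t3 A.mass
  obtain ⟨-, -, n2, n3⟩ := SS'.mass_tail hR hε hε1 t2 t3 A'.mass
  rw [← hZ₀] at m2 m3
  rw [← hZ₁] at n2 n3
  obtain ⟨-, -, -, a2, b2, -⟩ := inv_diff hR hε hτ.le hτ1 m2 m3 n2 n3
  have hq : τ / (2 * R ^ 2) ≤ τ := by
    rw [div_le_iff₀ (by positivity)]
    have : 1 ≤ 2 * R ^ 2 := by nlinarith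
    nlinarith
  have hBm : MeasurableSet (Metric.closedBall o R) := Metric.isClosed_closedBall.measurableSet
  refine ⟨(Metric.closedBall o R).indicator (sden r w ε Z₀),
    (Metric.closedBall o R).indicator (sden r' w ε Z₁), _, _, P0, P1, ?_, ?_,
    (int_sden H A B).indicator hBm, (int_sden H A' B).indicator hBm, ?_, ?_, hW, ?_⟩
  · intro f
    rw [integral_ctrMu (int_sden H A B).aestronglyMeasurable (sden_nonneg A B hε p0),
      ← integral_indicator hBm]
    congr 1; funext x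
    by_cases hx : x ∈ Metric.closedBall o R
    · rw [Set.indicator_of_mem hx, Set.indicator_of_mem hx]
    · rw [Set.indicator_of_notMem hx, Set.indicator_of_notMem hx, mul_zero]
  · intro f
    rw [integral_ctrMu (int_sden H A' B).aestronglyMeasurable (sden_nonneg A' B hε p1),
      ← integral_indicator hBm]
    congr 1; funext x
    by_cases hx : x ∈ Metric.closedBall o R
    · rw [Set.indicator_of_mem hx, Set.indicator_of_mem hx]
    · rw [Set.indicator_of_notMem hx, Set.indicator_of_notMem hx, mul_zero]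
  · refine (l1_close H A B hε hτ.le hR t1 p0 m2 (by linarith) a2).trans ?_
    linarith
  · refine (l1_close H A' B hε hτ.le hR t2 p1 n2 (by linarith) b2).trans ?_
    linarith
  · have hD := ENNReal.toReal_nonneg (a := w2sq (dens m ρ) (dens m ρ'))
    have hW0 := ENNReal.toReal_nonneg (a := w2sq
      (ctrMu m (Metric.closedBall o R) (sden r w ε Z₀))
      (ctrMu m (Metric.closedBall o R) (sden r' w ε Z₁)))
    have z1 : 4 * h * (2 * δ) = η / 3 := by rw [hδ]; field_simp; norm_num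
    rw [z1] at hkey
    have z2 := mul_le_mul_of_nonneg_right x1 hW0
    have z3 : τ * (w2sq (dens m ρ) (dens m ρ')).toReal ≤
        η * (w2sq (dens m ρ) (dens m ρ')).toReal :=
      mul_le_mul_of_nonneg_right (by linarith) hD
    have z4 : (40 * 8 + 8 * h + 4 * 8 * M₂) * τ = τ * (40 * 8 + 8 * h + 4 * 8 * M₂) := by ring
    rw [z4] at y1
    linarith

theorem rdata_of (H : Hyp m k N) {h₀ : ℝ}
    (hJ : ∀ h, 0 < h → h ≤ h₀ → ∀ f : X → ℝ, MemLp f 2 m → BddSupp m f → ∀ o : X,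
      Integrable (fun x => (1 + dist x o ^ 2) * |J m h f x|) m ∧
      Integrable (fun x => (1 + dist x o) * minWeakGrad m (J m h f) x) m ∧
      ∫ x, J m h f x ∂m = ∫ x, f x ∂m ∧
      ∀ φ : X → ℝ, (∃ A : ℝ, ∀ x x', |φ x - φ x'| ≤ A * dist x x' * (1 + dist x o + dist x' o)) →
        Integrable (fun x => gradPairing m φ (J m h f) x) m ∧
        h * ∫ x, gradPairing m φ (J m h f) x ∂m + ∫ x, φ x * J m h f x ∂m =
          ∫ x, φ x * f x ∂m)
    {h : ℝ} (hh : 0 < h) (hh0 : h ≤ h₀) {ρ : X → ℝ} (hρ : BdDens m ρ) (o : X) :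
    RData m o h ρ (J m h ρ) := by
  obtain ⟨C, hC⟩ := hρ.bdd
  obtain ⟨o1, R1, hS⟩ := hρ.supp
  have hi := bdDens_integrable hρ
  have hL2 : MemLp ρ 2 m := by
    rw [memLp_two_iff_integrable_sq hρ.meas.aestronglyMeasurable]
    refine (hi.const_mul C).mono' (hρ.meas.pow_const 2).aestronglyMeasurable ?_
    refine Filter.Eventually.of_forall fun x => ?_
    rw [Real.norm_of_nonneg (sq_nonneg _), sq]
    exact mul_le_mul_of_nonneg_right (hC x) (hρ.nonneg x)
  have hsupp : BddSupp m ρ := ⟨o1, R1, Filter.Eventually.of_forall hS⟩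
  have hV : BddLip (fun _ : X => (0 : ℝ)) :=
    ⟨⟨0, fun x => by simp⟩, 0, LipschitzWith.const 0⟩
  obtain ⟨j1, j2, j3, j4⟩ := hJ h hh hh0 ρ hL2 hsupp o
  have hnn : ∀ᵐ x ∂m, 0 ≤ J m h ρ x :=
    Jr_nonneg H hV hh hL2 (Filter.Eventually.of_forall hρ.nonneg)
  have hsob : IsSobolev m (J m h ρ) := Jr_sob H hV hh hL2
  refine ⟨hsob.2.1, hnn, ?_, ?_, j2, ?_, fun φ hφ => (j4 φ hφ).2⟩
  · refine ⟨max C 0, ?_⟩
    exact Jr_le_const H hV hh hL2 (le_max_right _ _)
      (Filter.Eventually.of_forall fun x => (hC x).trans (le_max_left _ _))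
  · refine (j1.const_mul 2).mono' ?_ ?_
    · have h1 : Continuous (fun x : X => (1 + dist x o) ^ 2) := by fun_prop
      exact h1.aestronglyMeasurable.mul (aesm_of_sobLoc H hsob.2.1)
    · filter_upwards [hnn] with x hx
      rw [Real.norm_of_nonneg (mul_nonneg (sq_nonneg _) hx), abs_of_nonneg hx]
      have h1 : (1 + dist x o) ^ 2 ≤ 2 * (1 + dist x o ^ 2) := by
        nlinarith [sq_nonneg (1 - dist x o)]
      nlinarith [mul_le_mul_of_nonneg_right h1 hx]
  · rw [j3, hρ.int]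

/-- the contraction, for given data. -/
theorem contraction_aux (H : Hyp m k N) {o : X} {h Lam : ℝ} (hh : 0 < h) (h2 : 2 * h * k < 1)
    (hL : 0 < Lam) {ρ ρ' r r' w : X → ℝ} (hρ : BdDens m ρ) (hρ' : BdDens m ρ')
    (A : RData m o h ρ r) (A' : RData m o h ρ' r') (B : WData m o Lam w) :
    ENNReal.ofReal (1 - 2 * h * k) * w2sq (dens m r) (dens m r') ≤
      w2sq (dens m ρ) (dens m ρ') := by
  by_cases hfin : w2sq (dens m ρ) (dens m ρ') = ⊤
  · rw [hfin]; exact le_top
  set D := (w2sq (dens m ρ) (dens m ρ')).toReal with hD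
  have hη : ∀ n : ℕ, 0 < 1 / ((n : ℝ) + 1) := fun n => by positivity
  choose s s' μ ν hμ hν hfμ hfν hs hs' hcl hcl' hW hle using
    fun n : ℕ => approx H hh hL hρ hρ' A A' B hfin (hη n)
  have hprob : ∀ {o : X} {ρ r : X → ℝ}, RData m o h ρ r → IsProbabilityMeasure (dens m r) := by
    intro o ρ r A
    rw [dens_eq_ctrMu]
    refine ctrMu_prob (int_r H A).integrableOn A.nonneg ?_
    rw [Measure.restrict_univ, A.mass]
  have hint : ∀ {o : X} {ρ r : X → ℝ}, RData m o h ρ r → ∀ f : X → ℝ,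
      ∫ x, f x ∂(dens m r) = ∫ x, f x * r x ∂m := by
    intro o ρ r A f
    rw [dens_eq_ctrMu, integral_ctrMu (int_r H A).aestronglyMeasurable A.nonneg,
      Measure.restrict_univ]
  have hη0 : Tendsto (fun n : ℕ => 1 / ((n : ℝ) + 1)) atTop (𝓝 0) :=
    tendsto_one_div_add_atTop_nhds_zero_nat
  set M : ℕ → ProbabilityMeasure X := fun n => ⟨μ n, hμ n⟩ with hMdef
  set M' : ℕ → ProbabilityMeasure X := fun n => ⟨ν n, hν n⟩ with hM'def
  set Q : ProbabilityMeasure X := ⟨dens m r, hprob A⟩ with hQ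
  set Q' : ProbabilityMeasure X := ⟨dens m r', hprob A'⟩ with hQ'
  have hlim : Tendsto M atTop (𝓝 Q) :=
    tendsto_of_l1 (m := m) (s := s) (r := r) (fun n f => hfμ n f) (hint A) hs (int_r H A)
      (squeeze_zero (fun n => integral_nonneg fun x => abs_nonneg _) hcl hη0)
  have hlim' : Tendsto M' atTop (𝓝 Q') :=
    tendsto_of_l1 (m := m) (s := s') (r := r') (fun n f => hfν n f) (hint A') hs' (int_r H A')
      (squeeze_zero (fun n => integral_nonneg fun x => abs_nonneg _) hcl' hη0)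
  have ha : 0 < 1 - 2 * h * k := by linarith
  have hbound : ∀ c : ℝ, D / (1 - 2 * h * k) < c →
      w2sq (dens m r) (dens m r') ≤ ENNReal.ofReal c := by
    intro c hc
    have hlim2 : Tendsto (fun n : ℕ => ((1 + 1 / ((n : ℝ) + 1)) * D + 1 / ((n : ℝ) + 1)) /
        (1 - 2 * h * k - 1 / ((n : ℝ) + 1))) atTop (𝓝 (D / (1 - 2 * h * k))) := by
      have h1 : Tendsto (fun n : ℕ => (1 + 1 / ((n : ℝ) + 1)) * D + 1 / ((n : ℝ) + 1)) atTop
          (𝓝 ((1 + 0) * D + 0)) := ((hη0.const_add 1).mul_const D).add hη0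
      have h2 : Tendsto (fun n : ℕ => 1 - 2 * h * k - 1 / ((n : ℝ) + 1)) atTop
          (𝓝 (1 - 2 * h * k - 0)) := hη0.const_sub _
      have h3 := h1.div h2 (by linarith)
      have e : ((1 + 0) * D + 0) / (1 - 2 * h * k - 0) = D / (1 - 2 * h * k) := by simp
      rw [e] at h3
      exact h3
    have hev := hlim2.eventually_lt_const hc
    have hev2 : ∀ᶠ n : ℕ in atTop, 0 < 1 - 2 * h * k - 1 / ((n : ℝ) + 1) := by
      have h2 : Tendsto (fun n : ℕ => 1 - 2 * h * k - 1 / ((n : ℝ) + 1)) atTop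
          (𝓝 (1 - 2 * h * k - 0)) := hη0.const_sub _
      exact h2.eventually_const_lt (by linarith)
    refine w2sq_lsc hlim hlim' ?_
    filter_upwards [hev, hev2] with n h1 h2
    have h3 := hle n
    have h4 : (w2sq (μ n) (ν n)).toReal ≤ ((1 + 1 / ((n : ℝ) + 1)) * D + 1 / ((n : ℝ) + 1)) /
        (1 - 2 * h * k - 1 / ((n : ℝ) + 1)) := by
      rw [le_div_iff₀ h2, mul_comm]
      exact h3
    have h5 : w2sq (μ n) (ν n) = ENNReal.ofReal (w2sq (μ n) (ν n)).toReal :=
      (ENNReal.ofReal_toReal (hW n)).symm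
    change w2sq (μ n) (ν n) ≤ ENNReal.ofReal c
    rw [h5]
    exact ENNReal.ofReal_le_ofReal (by linarith)
  have hfinal : w2sq (dens m r) (dens m r') ≤ ENNReal.ofReal (D / (1 - 2 * h * k)) := by
    refine le_of_forall_gt_imp_ge_of_dense fun c hc => ?_
    by_cases hct : c = ⊤
    · rw [hct]; exact le_top
    · have h1 : D / (1 - 2 * h * k) < c.toReal := by
        rwa [ENNReal.ofReal_lt_iff_lt_toReal (div_nonneg ENNReal.toReal_nonneg ha.le) hct] at hc
      have := hbound _ h1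
      rwa [ENNReal.ofReal_toReal hct] at this
  calc ENNReal.ofReal (1 - 2 * h * k) * w2sq (dens m r) (dens m r') ≤
      ENNReal.ofReal (1 - 2 * h * k) * ENNReal.ofReal (D / (1 - 2 * h * k)) := by gcongr
    _ = ENNReal.ofReal D := by
        rw [← ENNReal.ofReal_mul ha.le]
        congr 1; field_simp
    _ = w2sq (dens m ρ) (dens m ρ') := ENNReal.ofReal_toReal hfin

end Contr

variable {X : Type*} [MetricSpace X] [ProperSpace X] [MeasurableSpace X] [BorelSpace X]
  {m : Measure X} [IsLocallyFiniteMeasure m] [m.IsOpenPosMeasure] {k N : ℝ}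

/-- [C1] `W₂`-contraction of the resolvent. -/
theorem C1 (H : Hyp m k N) : ∃ h0 : ℝ, 0 < h0 ∧ 4 * h0 * k ≤ 1 ∧ ∀ h, 0 < h → h ≤ h0 →
    ∀ ρ ρ' : X → ℝ, BdDens m ρ → BdDens m ρ' →
      ENNReal.ofReal (1 - 2 * h * k) * w2sq (dens m (J m h ρ)) (dens m (J m h ρ')) ≤
        w2sq (dens m ρ) (dens m ρ') := by
  obtain ⟨h₁, hh1, hJ⟩ := J_mass H
  have hk := H.kpos
  refine ⟨min h₁ (1 / (4 * k)), lt_min hh1 (by positivity), ?_, ?_⟩
  · have h1 : min h₁ (1 / (4 * k)) ≤ 1 / (4 * k) := min_le_right _ _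
    rw [le_div_iff₀ (by positivity)] at h1
    linarith
  · intro h hh hle ρ ρ' hρ hρ'
    have h1 : h ≤ h₁ := hle.trans (min_le_left _ _)
    have h2 : h ≤ 1 / (4 * k) := hle.trans (min_le_right _ _)
    have h3 : 2 * h * k < 1 := by
      rw [le_div_iff₀ (by positivity)] at h2
      linarith
    obtain ⟨o, -, -⟩ := hρ.supp
    obtain ⟨Lam, w, hL, hb, hlow, hmom, hint, hsob, hgrad⟩ := ContrTail.exists_w H o
    have B : Contr.WData m o Lam w := by
      obtain ⟨C, hC⟩ := hb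
      exact ⟨hsob, fun x => (hC x).1, ⟨C, fun x => (hC x).2⟩, hlow, hmom, hint, hgrad⟩
    exact Contr.contraction_aux H hh h3 hL hρ hρ' (Contr.rdata_of H hJ hh h1 hρ o)
      (Contr.rdata_of H hJ hh h1 hρ' o) B

/-- the contraction in the form of the cross-module interface. -/
theorem contraction (H : Hyp m k N) : ∃ h₀ : ℝ, 0 < h₀ ∧ ∀ h, 0 < h → h ≤ h₀ → 2 * h * k < 1 →
    ∀ ρ ρ' : X → ℝ, MemLp ρ 2 m → MemLp ρ' 2 m → BddSupp m ρ → BddSupp m ρ' →
      (∃ M : ℝ, ∀ᵐ x ∂m, ρ x ≤ M ∧ ρ' x ≤ M) → 0 ≤ᵐ[m] ρ → 0 ≤ᵐ[m] ρ' →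
      ∫ x, ρ x ∂m = 1 → ∫ x, ρ' x ∂m = 1 →
      ENNReal.ofReal (1 - 2 * h * k) * w2sq (dens m (J m h ρ)) (dens m (J m h ρ')) ≤
        w2sq (dens m ρ) (dens m ρ') := by
  obtain ⟨h0, hh0, h4, hC⟩ := C1 H
  refine ⟨h0, hh0, ?_⟩
  intro h hh hle _ ρ ρ' hρ hρ' hs hs' hM hn hn' hi hi'
  obtain ⟨M, hM⟩ := hM
  -- good representatives
  have rep : ∀ ρ : X → ℝ, MemLp ρ 2 m → BddSupp m ρ → (∀ᵐ x ∂m, ρ x ≤ M) → 0 ≤ᵐ[m] ρ →
      ∫ x, ρ x ∂m = 1 → ∃ ρ₁ : X → ℝ, ρ =ᵐ[m] ρ₁ ∧ BdDens m ρ₁ := by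
    intro ρ hρ hs hM hn hi
    obtain ⟨o, R, hS⟩ := hs
    have hBm : MeasurableSet (Metric.closedBall o R) := Metric.isClosed_closedBall.measurableSet
    set g := hρ.1.mk ρ with hg
    have hgm : Measurable g := hρ.1.stronglyMeasurable_mk.measurable
    have hgae : ρ =ᵐ[m] g := hρ.1.ae_eq_mk
    set ρ₁ : X → ℝ := (Metric.closedBall o R).indicator (fun x => max 0 (min (g x) (max M 0)))
      with hρ₁
    have hae : ρ =ᵐ[m] ρ₁ := by
      filter_upwards [hgae, hM, hn, hS] with x h1 h2 h3 h4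
      simp only [Pi.zero_apply] at h3
      by_cases hx : x ∈ Metric.closedBall o R
      · rw [hρ₁, Set.indicator_of_mem hx, ← h1, min_eq_left (h2.trans (le_max_left _ _)),
          max_eq_right h3]
      · rw [hρ₁, Set.indicator_of_notMem hx, h4 hx]
    refine ⟨ρ₁, hae, ?_, ?_, ?_, ?_, ?_⟩
    · exact (measurable_const.max (hgm.min measurable_const)).indicator hBm
    · intro x
      rw [hρ₁]
      exact Set.indicator_nonneg (fun y _ => le_max_left _ _) x
    · refine ⟨max M 0, fun x => ?_⟩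
      rw [hρ₁]
      refine Set.indicator_le' (fun y _ => ?_) (fun y _ => le_max_right _ _) x
      exact max_le (le_max_right _ _) (min_le_right _ _)
    · exact ⟨o, R, fun x hx => by rw [hρ₁, Set.indicator_of_notMem hx]⟩
    · rw [← hi]; exact (integral_congr_ae hae).symm
  obtain ⟨ρ₁, e1, d1⟩ := rep ρ hρ hs (hM.mono fun x hx => hx.1) hn hi
  obtain ⟨ρ₂, e2, d2⟩ := rep ρ' hρ' hs' (hM.mono fun x hx => hx.2) hn' hi'
  have hV : BddLip (fun _ : X => (0 : ℝ)) :=
    ⟨⟨0, fun x => by simp⟩, 0, LipschitzWith.const 0⟩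
  have dc : ∀ {f g : X → ℝ}, f =ᵐ[m] g → dens m f = dens m g := by
    intro f g hfg
    unfold dens
    refine withDensity_congr_ae ?_
    filter_upwards [hfg] with x hx
    rw [hx]
  have j1 : dens m (J m h ρ) = dens m (J m h ρ₁) := dc (Jr_congr H hV hh hρ e1)
  have j2 : dens m (J m h ρ') = dens m (J m h ρ₂) := dc (Jr_congr H hV hh hρ' e2)
  rw [j1, j2, dc e1, dc e2]
  exact hC h hh hle ρ₁ ρ₂ d1 d2

end Crest.Agent.R242
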