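import Crest.Agent.R242.Defs

/-!
Row 242, block C1 (contraction of the resolvent in `W₂`): the bookkeeping inequalities.
-/

set_option autoImplicit false
set_option linter.unusedSectionVars false

open MeasureTheory Filter Set
open scoped ENNReal NNReal Topology

noncomputable section

namespace Crest.Agent.R242.Contr

variable {X : Type*} [MetricSpace X] [MeasurableSpace X] [BorelSpace X] {m : Measure X}

/-- Everything attached to one end (potential `φ`, density `r = J_h ρ`, weight `w`, pairings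
`p = ⟨φ,r⟩`, `pw = ⟨φ,w⟩`, gradients `g = |∇φ|`, `gr = |∇r|`). -/
structure Side (m : Measure X) (o : X) (R C₀ h Lam : ℝ) (φ r w p pw g gr ρ : X → ℝ) : Prop where
  φm : AEStronglyMeasurable φ m
  φb : ∀ᵐ x ∂m, |φ x| ≤ C₀ * (R + dist x o) ^ 2
  r0 : ∀ᵐ x ∂m, 0 ≤ r x
  w0 : ∀ᵐ x ∂m, 0 ≤ w x
  rint : Integrable (fun x => (R + dist x o) ^ 2 * r x) m
  wint : Integrable (fun x => (R + dist x o) ^ 2 * w x) m
  grint : Integrable (fun x => (R + dist x o) * gr x) m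
  rm : AEStronglyMeasurable r m
  wm : AEStronglyMeasurable w m
  gr0 : ∀ᵐ x ∂m, 0 ≤ gr x
  g0 : ∀ᵐ x ∂m, 0 ≤ g x
  gb : ∀ᵐ x ∂m, g x ≤ R + dist x o
  gm : AEStronglyMeasurable g m
  pm : AEStronglyMeasurable p m
  pwm : AEStronglyMeasurable pw m
  pb : ∀ᵐ x ∂m, |p x| ≤ g x * gr x
  pwb : ∀ᵐ x ∂m, |pw x| ≤ g x * (Lam * w x)
  wone : ∫ x, w x ∂m = 1
  weak : h * (∫ x, p x ∂m) + ∫ x, φ x * r x ∂m = ∫ x, φ x * ρ x ∂m

namespace Side

variable {o : X} {R C₀ h Lam : ℝ} {φ r w p pw g gr ρ : X → ℝ}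

theorem one_le {R : ℝ} (hR : 1 ≤ R) (x o : X) : 1 ≤ R + dist x o := by
  have := dist_nonneg (x := x) (y := o); linarith

theorem int_w (S : Side m o R C₀ h Lam φ r w p pw g gr ρ) (hR : 1 ≤ R) : Integrable w m := by
  refine S.wint.mono' S.wm ?_
  filter_upwards [S.w0] with x hx
  have h1 := one_le hR x o
  rw [Real.norm_of_nonneg hx]
  nlinarith [mul_nonneg hx (sq_nonneg (R + dist x o - 1)), mul_nonneg hx (by linarith : (0:ℝ) ≤ R + dist x o - 1)]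

theorem int_r (S : Side m o R C₀ h Lam φ r w p pw g gr ρ) (hR : 1 ≤ R) : Integrable r m := by
  refine S.rint.mono' S.rm ?_
  filter_upwards [S.r0] with x hx
  have h1 := one_le hR x o
  rw [Real.norm_of_nonneg hx]
  nlinarith [mul_nonneg hx (sq_nonneg (R + dist x o - 1)), mul_nonneg hx (by linarith : (0:ℝ) ≤ R + dist x o - 1)]

theorem int_φr (S : Side m o R C₀ h Lam φ r w p pw g gr ρ) : Integrable (fun x => φ x * r x) m := by
  refine (S.rint.const_mul C₀).mono' (S.φm.mul S.rm) ?_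
  filter_upwards [S.r0, S.φb] with x hx hφ
  rw [norm_mul, Real.norm_eq_abs, Real.norm_of_nonneg hx]
  nlinarith [mul_le_mul_of_nonneg_right hφ hx]

theorem int_φw (S : Side m o R C₀ h Lam φ r w p pw g gr ρ) : Integrable (fun x => φ x * w x) m := by
  refine (S.wint.const_mul C₀).mono' (S.φm.mul S.wm) ?_
  filter_upwards [S.w0, S.φb] with x hx hφ
  rw [norm_mul, Real.norm_eq_abs, Real.norm_of_nonneg hx]
  nlinarith [mul_le_mul_of_nonneg_right hφ hx]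

theorem int_p (S : Side m o R C₀ h Lam φ r w p pw g gr ρ) : Integrable p m := by
  refine S.grint.mono' S.pm ?_
  filter_upwards [S.pb, S.gb, S.gr0] with x hp hg hgr
  rw [Real.norm_eq_abs]
  exact hp.trans (mul_le_mul_of_nonneg_right hg hgr)

theorem int_pw (S : Side m o R C₀ h Lam φ r w p pw g gr ρ) (hR : 1 ≤ R) (hL : 0 ≤ Lam) :
    Integrable pw m := by
  refine (S.wint.const_mul Lam).mono' S.pwm ?_
  filter_upwards [S.pwb, S.gb, S.w0, S.g0] with x hp hg hw hg0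
  rw [Real.norm_eq_abs]
  refine hp.trans ?_
  have h1 := one_le hR x o
  have h2 : g x ≤ (R + dist x o) ^ 2 := by nlinarith
  nlinarith [mul_le_mul_of_nonneg_right h2 (mul_nonneg hL hw)]

theorem int_ggr (S : Side m o R C₀ h Lam φ r w p pw g gr ρ) :
    Integrable (fun x => g x ^ 2 * r x) m := by
  refine S.rint.mono' ((S.gm.pow 2).mul S.rm) ?_
  filter_upwards [S.gb, S.r0, S.g0] with x hg hr hg0
  have h0 : 0 ≤ g x ^ 2 * r x := mul_nonneg (sq_nonneg _) hr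
  rw [Real.norm_of_nonneg h0]
  exact mul_le_mul_of_nonneg_right (pow_le_pow_left₀ hg0 hg 2) hr

theorem int_ggw (S : Side m o R C₀ h Lam φ r w p pw g gr ρ) :
    Integrable (fun x => g x ^ 2 * w x) m := by
  refine S.wint.mono' ((S.gm.pow 2).mul S.wm) ?_
  filter_upwards [S.gb, S.w0, S.g0] with x hg hr hg0
  have h0 : 0 ≤ g x ^ 2 * w x := mul_nonneg (sq_nonneg _) hr
  rw [Real.norm_of_nonneg h0]
  exact mul_le_mul_of_nonneg_right (pow_le_pow_left₀ hg0 hg 2) hr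

/-- the one-sided inequality. -/
theorem main (S : Side m o R C₀ h Lam φ r w p pw g gr ρ) (hR : 1 ≤ R) (hL : 0 ≤ Lam)
    (hh : 0 ≤ h) {ε Z : ℝ} (hε : 0 < ε) (hZ : 0 < Z) :
    (∫ x in Metric.closedBall o R, φ x * ((r x + ε * w x) / Z) ∂m) +
      h * (∫ x in Metric.closedBall o R, (p x + ε * pw x) / Z ∂m) -
      ε / Z * (∫ x, φ x * w x ∂m) -
      h * (√ε / 2) * (∫ x in Metric.closedBall o R, g x ^ 2 * ((r x + ε * w x) / Z) ∂m) -
      h * Lam ^ 2 * √ε / (2 * Z) -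
      (1 / Z) * (C₀ * (∫ x in (Metric.closedBall o R)ᶜ, (R + dist x o) ^ 2 * (r x + ε * w x) ∂m) +
        h * ∫ x in (Metric.closedBall o R)ᶜ, (R + dist x o) * gr x ∂m) ≤
    (1 / Z) * ∫ x, φ x * ρ x ∂m := by
  set B := Metric.closedBall o R with hB
  have hBm : MeasurableSet B := Metric.isClosed_closedBall.measurableSet
  have hse : 0 < √ε := Real.sqrt_pos.mpr hε
  have hss : √ε * √ε = ε := Real.mul_self_sqrt hε.le
  -- integrability
  have i1 := S.int_φr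
  have i2 := S.int_φw
  have i3 := S.int_p
  have i4 := S.int_pw hR hL
  have i5 := S.int_ggr
  have i6 := S.int_ggw
  have i7 := S.int_w hR
  -- value part
  have v1 : (∫ x in B, φ x * ((r x + ε * w x) / Z) ∂m) =
      (1 / Z) * ((∫ x in B, φ x * r x ∂m) + ε * ∫ x in B, φ x * w x ∂m) := by
    rw [← integral_const_mul, ← integral_add i1.integrableOn (i2.integrableOn.const_mul ε),
      ← integral_const_mul]
    congr 1; funext x; field_simp
  have v2 : (∫ x in B, (p x + ε * pw x) / Z ∂m) =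
      (1 / Z) * ((∫ x in B, p x ∂m) + ε * ∫ x in B, pw x ∂m) := by
    rw [← integral_const_mul, ← integral_add i3.integrableOn (i4.integrableOn.const_mul ε),
      ← integral_const_mul]
    congr 1; funext x; field_simp
  have v3 : (∫ x in B, g x ^ 2 * ((r x + ε * w x) / Z) ∂m) =
      (1 / Z) * ((∫ x in B, g x ^ 2 * r x ∂m) + ε * ∫ x in B, g x ^ 2 * w x ∂m) := by
    rw [← integral_const_mul, ← integral_add i5.integrableOn (i6.integrableOn.const_mul ε),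
      ← integral_const_mul]
    congr 1; funext x; field_simp
  have s1 := integral_add_compl hBm i1
  have s2 := integral_add_compl hBm i2
  have s3 := integral_add_compl hBm i3
  -- tails
  have t1 : |(∫ x in Bᶜ, φ x * r x ∂m) + ε * ∫ x in Bᶜ, φ x * w x ∂m| ≤
      C₀ * (∫ x in Bᶜ, (R + dist x o) ^ 2 * (r x + ε * w x) ∂m) := by
    rw [← integral_const_mul, ← integral_add i1.integrableOn (i2.integrableOn.const_mul ε),
      ← integral_const_mul]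
    refine (abs_integral_le_integral_abs).trans ?_
    refine integral_mono_ae ((i1.add (i2.const_mul ε)).abs.integrableOn) ?_ ?_
    · have : Integrable (fun x => C₀ * ((R + dist x o) ^ 2 * (r x + ε * w x))) m := by
        have := (S.rint.add (S.wint.const_mul ε)).const_mul C₀
        refine this.congr (Filter.Eventually.of_forall fun x => ?_)
        simp only [Pi.add_apply]; ring
      exact this.integrableOn
    · refine ae_restrict_of_ae ?_
      filter_upwards [S.φb, S.r0, S.w0] with x hφ hr hw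
      have e1 : φ x * r x + ε * (φ x * w x) = φ x * (r x + ε * w x) := by ring
      have h0 : 0 ≤ r x + ε * w x := by positivity
      rw [e1, abs_mul, abs_of_nonneg h0]
      nlinarith [mul_le_mul_of_nonneg_right hφ h0]
  have t2 : |∫ x in Bᶜ, p x ∂m| ≤ ∫ x in Bᶜ, (R + dist x o) * gr x ∂m := by
    refine (abs_integral_le_integral_abs).trans ?_
    refine integral_mono_ae (i3.abs.integrableOn) S.grint.integrableOn ?_
    refine ae_restrict_of_ae ?_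
    filter_upwards [S.pb, S.gb, S.gr0] with x hp hg hgr
    exact hp.trans (mul_le_mul_of_nonneg_right hg hgr)
  -- the pairing with w in the ball
  have t3 : ε * |∫ x in B, pw x ∂m| ≤ √ε / 2 * (ε * ∫ x in B, g x ^ 2 * w x ∂m) +
      Lam ^ 2 * √ε / 2 := by
    have a1 : |∫ x in B, pw x ∂m| ≤ √ε / 2 * (∫ x in B, g x ^ 2 * w x ∂m) +
        Lam ^ 2 / (2 * √ε) * ∫ x in B, w x ∂m := by
      rw [← integral_const_mul, ← integral_const_mul,
        ← integral_add (i6.integrableOn.const_mul _) (i7.integrableOn.const_mul _)]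
      refine (abs_integral_le_integral_abs).trans ?_
      refine integral_mono_ae (i4.abs.integrableOn)
        ((i6.const_mul _).add (i7.const_mul _)).integrableOn ?_
      refine ae_restrict_of_ae ?_
      filter_upwards [S.pwb, S.w0, S.g0] with x hp hw hg0
      refine hp.trans ?_
      have key : g x * Lam ≤ √ε / 2 * g x ^ 2 + Lam ^ 2 / (2 * √ε) := by
        have : √ε / 2 * g x ^ 2 + Lam ^ 2 / (2 * √ε) - g x * Lam =
            (√ε * g x - Lam) ^ 2 / (2 * √ε) := by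
          field_simp
          ring
        have h2 : 0 ≤ (√ε * g x - Lam) ^ 2 / (2 * √ε) := by positivity
        linarith
      calc g x * (Lam * w x) = (g x * Lam) * w x := by ring
        _ ≤ (√ε / 2 * g x ^ 2 + Lam ^ 2 / (2 * √ε)) * w x := mul_le_mul_of_nonneg_right key hw
        _ = _ := by ring
    have a2 : ∫ x in B, w x ∂m ≤ 1 := by
      rw [← S.wone]
      exact setIntegral_le_integral i7 S.w0
    have a3 : Lam ^ 2 / (2 * √ε) * ∫ x in B, w x ∂m ≤ Lam ^ 2 / (2 * √ε) := by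
      have : 0 ≤ Lam ^ 2 / (2 * √ε) := by positivity
      nlinarith
    have a4 : ε * (Lam ^ 2 / (2 * √ε)) = Lam ^ 2 * √ε / 2 := by
      have hd : ε / √ε = √ε := Real.div_sqrt
      calc ε * (Lam ^ 2 / (2 * √ε)) = (ε / √ε) * Lam ^ 2 / 2 := by field_simp
        _ = _ := by rw [hd]; ring
    calc ε * |∫ x in B, pw x ∂m| ≤ ε * (√ε / 2 * (∫ x in B, g x ^ 2 * w x ∂m) +
          Lam ^ 2 / (2 * √ε)) := mul_le_mul_of_nonneg_left (by linarith) hε.le
      _ = √ε / 2 * (ε * ∫ x in B, g x ^ 2 * w x ∂m) + ε * (Lam ^ 2 / (2 * √ε)) := by ring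
      _ = _ := by rw [a4]
  have t4 : 0 ≤ ∫ x in B, g x ^ 2 * r x ∂m := by
    refine integral_nonneg_of_ae (ae_restrict_of_ae ?_)
    filter_upwards [S.r0] with x hx
    exact mul_nonneg (sq_nonneg _) hx
  -- assemble
  rw [v1, v2, v3, ← S.weak]
  have k1 := abs_le.mp t1
  have k2 := abs_le.mp t2
  have k3 : -(√ε / 2 * (ε * ∫ x in B, g x ^ 2 * w x ∂m) + Lam ^ 2 * √ε / 2) ≤
      -(ε * ∫ x in B, pw x ∂m) := by
    have := le_abs_self (∫ x in B, pw x ∂m)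
    nlinarith
  have e2 : h * Lam ^ 2 * √ε / (2 * Z) = (1 / Z) * (h * (Lam ^ 2 * √ε / 2)) := by field_simp
  have e3 : ε / Z = (1 / Z) * ε := by ring
  rw [e2, e3]
  have hZ' : 0 < 1 / Z := by positivity
  -- common factor
  have goal' : ((∫ x in B, φ x * r x ∂m) + ε * ∫ x in B, φ x * w x ∂m) +
      h * ((∫ x in B, p x ∂m) + ε * ∫ x in B, pw x ∂m) - ε * (∫ x, φ x * w x ∂m) -
      h * (√ε / 2) * ((∫ x in B, g x ^ 2 * r x ∂m) + ε * ∫ x in B, g x ^ 2 * w x ∂m) -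
      h * (Lam ^ 2 * √ε / 2) -
      (C₀ * (∫ x in Bᶜ, (R + dist x o) ^ 2 * (r x + ε * w x) ∂m) +
        h * ∫ x in Bᶜ, (R + dist x o) * gr x ∂m) ≤
      h * (∫ x, p x ∂m) + ∫ x, φ x * r x ∂m := by
    rw [← s1, ← s2, ← s3]
    have b1 : 0 ≤ h * (√ε / 2) * (∫ x in B, g x ^ 2 * r x ∂m) := by positivity
    have b2 : h * (ε * ∫ x in B, pw x ∂m) ≤ h * (√ε / 2 * (ε * ∫ x in B, g x ^ 2 * w x ∂m) +
        Lam ^ 2 * √ε / 2) := mul_le_mul_of_nonneg_left (by linarith) hh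
    have b3 : h * (-∫ x in Bᶜ, p x ∂m) ≤ h * ∫ x in Bᶜ, (R + dist x o) * gr x ∂m :=
      mul_le_mul_of_nonneg_left (by linarith [k2.1]) hh
    have k11 := k1.1
    clear k1 k2 k3 t1 t2 t3 t4 s1 s2 s3 v1 v2 v3
    generalize (∫ x in Bᶜ, p x ∂m) = p2 at *
    generalize (∫ x in B, p x ∂m) = p1 at *
    generalize (∫ x in B, pw x ∂m) = pw1 at *
    generalize (∫ x in B, φ x * r x ∂m) = a1 at *
    generalize (∫ x in Bᶜ, φ x * r x ∂m) = a2 at *
    generalize (∫ x in B, φ x * w x ∂m) = c1 at *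
    generalize (∫ x in Bᶜ, φ x * w x ∂m) = c2 at *
    generalize (∫ x in B, g x ^ 2 * r x ∂m) = G1 at *
    generalize (∫ x in B, g x ^ 2 * w x ∂m) = G2 at *
    generalize (∫ x in Bᶜ, (R + dist x o) ^ 2 * (r x + ε * w x) ∂m) = T at *
    generalize (∫ x in Bᶜ, (R + dist x o) * gr x ∂m) = U at *
    linarith
  have := mul_le_mul_of_nonneg_left goal' hZ'.le
  calc _ = (1 / Z) * (((∫ x in B, φ x * r x ∂m) + ε * ∫ x in B, φ x * w x ∂m) +
      h * ((∫ x in B, p x ∂m) + ε * ∫ x in B, pw x ∂m) - ε * (∫ x, φ x * w x ∂m) -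
      h * (√ε / 2) * ((∫ x in B, g x ^ 2 * r x ∂m) + ε * ∫ x in B, g x ^ 2 * w x ∂m) -
      h * (Lam ^ 2 * √ε / 2) -
      (C₀ * (∫ x in Bᶜ, (R + dist x o) ^ 2 * (r x + ε * w x) ∂m) +
        h * ∫ x in Bᶜ, (R + dist x o) * gr x ∂m)) := by ring
    _ ≤ _ := this

/-- mass outside the ball. -/
theorem mass_tail (S : Side m o R C₀ h Lam φ r w p pw g gr ρ) (hR : 1 ≤ R) {ε τ : ℝ}
    (hε : 0 < ε) (hε1 : ε ≤ 1)
    (h1 : ∫ x in (Metric.closedBall o R)ᶜ, (R + dist x o) ^ 2 * r x ∂m ≤ τ)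
    (h2 : ∫ x in (Metric.closedBall o R)ᶜ, (R + dist x o) ^ 2 * w x ∂m ≤ τ)
    (hr : ∫ x, r x ∂m = 1) :
    (∫ x in (Metric.closedBall o R)ᶜ, (R + dist x o) ^ 2 * (r x + ε * w x) ∂m ≤ 2 * τ) ∧
    0 ≤ τ ∧
    (∫ x in Metric.closedBall o R, (r x + ε * w x) ∂m) ≤ 1 + ε ∧
    1 + ε - τ / (2 * R ^ 2) ≤ ∫ x in Metric.closedBall o R, (r x + ε * w x) ∂m := by
  set B := Metric.closedBall o R with hB
  have hBm : MeasurableSet B := Metric.isClosed_closedBall.measurableSet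
  have i1 := S.int_r hR
  have i2 := S.int_w hR
  have i3 : Integrable (fun x => r x + ε * w x) m := i1.add (i2.const_mul ε)
  have h20 : 0 ≤ ∫ x in Bᶜ, (R + dist x o) ^ 2 * w x ∂m := by
    refine integral_nonneg_of_ae (ae_restrict_of_ae ?_)
    filter_upwards [S.w0] with x hx
    exact mul_nonneg (sq_nonneg _) hx
  have hτ : 0 ≤ τ := h20.trans h2
  have e1 : ∫ x in Bᶜ, (R + dist x o) ^ 2 * (r x + ε * w x) ∂m =
      (∫ x in Bᶜ, (R + dist x o) ^ 2 * r x ∂m) + ε * ∫ x in Bᶜ, (R + dist x o) ^ 2 * w x ∂m := by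
    rw [← integral_const_mul, ← integral_add S.rint.integrableOn (S.wint.integrableOn.const_mul ε)]
    congr 1; funext x; ring
  have e2 : ∫ x in Bᶜ, (R + dist x o) ^ 2 * (r x + ε * w x) ∂m ≤ 2 * τ := by
    rw [e1]; nlinarith
  have e3 : ∫ x, (r x + ε * w x) ∂m = 1 + ε := by
    rw [integral_add i1 (i2.const_mul ε), integral_const_mul, hr, S.wone, mul_one]
  have e4 := integral_add_compl hBm i3
  have e5 : 0 ≤ ∫ x in Bᶜ, (r x + ε * w x) ∂m := by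
    refine integral_nonneg_of_ae (ae_restrict_of_ae ?_)
    filter_upwards [S.w0, S.r0] with x hx hx'
    simp only [Pi.zero_apply]
    positivity
  have e6 : (4 * R ^ 2) * ∫ x in Bᶜ, (r x + ε * w x) ∂m ≤
      ∫ x in Bᶜ, (R + dist x o) ^ 2 * (r x + ε * w x) ∂m := by
    rw [← integral_const_mul]
    refine setIntegral_mono_ae_restrict (i3.integrableOn.const_mul _) ?_ ?_
    · have : Integrable (fun x => (R + dist x o) ^ 2 * (r x + ε * w x)) m := by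
        have := (S.rint.add (S.wint.const_mul ε))
        refine this.congr (Filter.Eventually.of_forall fun x => ?_)
        simp only [Pi.add_apply]; ring
      exact this.integrableOn
    · refine (ae_restrict_iff' hBm.compl).mpr ?_
      filter_upwards [S.w0, S.r0] with x hx hx' hxB
      have hd : R < dist x o := by
        rw [hB] at hxB
        simpa [Metric.mem_closedBall] using hxB
      have h0 : 0 ≤ r x + ε * w x := by positivity
      refine mul_le_mul_of_nonneg_right ?_ h0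
      nlinarith
  refine ⟨e2, hτ, by linarith, ?_⟩
  have h4 : 0 < 4 * R ^ 2 := by positivity
  have e7 : ∫ x in Bᶜ, (r x + ε * w x) ∂m ≤ τ / (2 * R ^ 2) := by
    rw [le_div_iff₀ (by positivity)]
    nlinarith
  linarith

end Side

/-- arithmetic of the normalising constants. -/
theorem inv_diff {Z₀ Z₁ R ε τ : ℝ} (hR : 1 ≤ R) (hε : 0 < ε) (hτ : 0 ≤ τ) (hτ1 : τ ≤ 1)
    (h0 : Z₀ ≤ 1 + ε) (h0' : 1 + ε - τ / (2 * R ^ 2) ≤ Z₀)
    (h1 : Z₁ ≤ 1 + ε) (h1' : 1 + ε - τ / (2 * R ^ 2) ≤ Z₁) :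
    0 < Z₀ ∧ 0 < Z₁ ∧ 1 / Z₀ ≤ 1 + τ ∧ 1 / Z₀ ≤ 2 ∧ 1 / Z₁ ≤ 2 ∧
      |1 / Z₁ - 1 / Z₀| * R ^ 2 ≤ 2 * τ := by
  have hR2 : 1 ≤ R ^ 2 := by nlinarith
  have hq : τ / (2 * R ^ 2) ≤ τ / 2 := by
    apply div_le_div_of_nonneg_left hτ (by norm_num) (by linarith)
  have hz0 : 1 - τ / 2 ≤ Z₀ := by linarith
  have hz1 : 1 - τ / 2 ≤ Z₁ := by linarith
  have p0 : 0 < Z₀ := by linarith
  have p1 : 0 < Z₁ := by linarith
  have hd : |Z₀ - Z₁| ≤ τ / (2 * R ^ 2) := by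
    rw [abs_le]; constructor <;> linarith
  refine ⟨p0, p1, ?_, ?_, ?_, ?_⟩
  · rw [div_le_iff₀ p0]; nlinarith
  · rw [div_le_iff₀ p0]; nlinarith
  · rw [div_le_iff₀ p1]; nlinarith
  · have e : 1 / Z₁ - 1 / Z₀ = (Z₀ - Z₁) / (Z₀ * Z₁) := by field_simp
    rw [e, abs_div, abs_of_pos (mul_pos p0 p1), div_mul_eq_mul_div, div_le_iff₀ (mul_pos p0 p1)]
    have h3 : |Z₀ - Z₁| * R ^ 2 ≤ τ / 2 := by
      calc |Z₀ - Z₁| * R ^ 2 ≤ τ / (2 * R ^ 2) * R ^ 2 :=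
            mul_le_mul_of_nonneg_right hd (by positivity)
        _ = τ / 2 := by field_simp
    have h4 : 1 / 4 ≤ Z₀ * Z₁ := by nlinarith
    nlinarith

/-- the final arithmetic. -/
theorem arith {V0 V1 P0 P1 G0 G1 F0 F1 Q0 Q1 T0 T1 U0 U1 C₀ h Lam k ε τ W D M₂ e R a b s : ℝ}
    (hC : 0 ≤ C₀) (hh : 0 ≤ h) (hε : 0 < ε) (hε1 : ε ≤ 1) (hτ : 0 ≤ τ)
    (hD : 0 ≤ D) (hM₂ : 0 ≤ M₂) (hse : 0 ≤ s) (ha0 : 0 < a) (hb0 : 0 < b)
    (a1 : a ≤ 1 + τ) (a2 : a ≤ 2) (b2 : b ≤ 2) (hab : |b - a| * R ^ 2 ≤ 2 * τ)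
    (hval : V0 + V1 = W / 2) (hE : -(k * W + 2 * e) ≤ P0 + P1) (hG : G0 ≤ W) (hG' : G1 ≤ W)
    (hdual : Q0 + Q1 ≤ D / 2) (hψρ : |Q1| ≤ C₀ * (4 * R ^ 2))
    (w1 : F0 + F1 ≤ 2 * C₀ * τ) (w2 : |F1| ≤ C₀ * (M₂ * R ^ 2))
    (m1 : T0 ≤ 2 * τ) (n1 : T1 ≤ 2 * τ) (t4 : U0 ≤ τ) (t5 : U1 ≤ τ)
    (M0 : V0 + h * P0 - ε * a * F0 - h * (s / 2) * G0 - h * Lam ^ 2 * s / 2 * a -
      a * (C₀ * T0 + h * U0) ≤ a * Q0)
    (M1 : V1 + h * P1 - ε * b * F1 - h * (s / 2) * G1 - h * Lam ^ 2 * s / 2 * b -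
      b * (C₀ * T1 + h * U1) ≤ b * Q1) :
    (1 - 2 * h * k - 2 * h * s) * W ≤ (1 + τ) * D + 4 * h * e + 4 * h * Lam ^ 2 * s +
      τ * (40 * C₀ + 8 * h + 4 * C₀ * M₂) := by
  have f1 : h * (-(k * W + 2 * e)) ≤ h * (P0 + P1) := mul_le_mul_of_nonneg_left hE hh
  have f2 : h * (s / 2) * G0 ≤ h * (s / 2) * W := mul_le_mul_of_nonneg_left hG (by positivity)
  have f3 : h * (s / 2) * G1 ≤ h * (s / 2) * W := mul_le_mul_of_nonneg_left hG' (by positivity)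
  have f4 : h * Lam ^ 2 * s / 2 * a ≤ h * Lam ^ 2 * s / 2 * 2 :=
    mul_le_mul_of_nonneg_left a2 (by positivity)
  have f5 : h * Lam ^ 2 * s / 2 * b ≤ h * Lam ^ 2 * s / 2 * 2 :=
    mul_le_mul_of_nonneg_left b2 (by positivity)
  have f6 : a * (C₀ * T0 + h * U0) ≤ 2 * (C₀ * (2 * τ) + h * τ) := by
    calc a * (C₀ * T0 + h * U0) ≤ a * (C₀ * (2 * τ) + h * τ) := by
          refine mul_le_mul_of_nonneg_left ?_ ha0.le
          exact add_le_add (mul_le_mul_of_nonneg_left m1 hC) (mul_le_mul_of_nonneg_left t4 hh)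
      _ ≤ 2 * (C₀ * (2 * τ) + h * τ) := mul_le_mul_of_nonneg_right a2 (by positivity)
  have f7 : b * (C₀ * T1 + h * U1) ≤ 2 * (C₀ * (2 * τ) + h * τ) := by
    calc b * (C₀ * T1 + h * U1) ≤ b * (C₀ * (2 * τ) + h * τ) := by
          refine mul_le_mul_of_nonneg_left ?_ hb0.le
          exact add_le_add (mul_le_mul_of_nonneg_left n1 hC) (mul_le_mul_of_nonneg_left t5 hh)
      _ ≤ 2 * (C₀ * (2 * τ) + h * τ) := mul_le_mul_of_nonneg_right b2 (by positivity)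
  have f8 : a * Q0 + b * Q1 ≤ (1 + τ) * (D / 2) + 2 * τ * (4 * C₀) := by
    have e1 : a * (Q0 + Q1) ≤ (1 + τ) * (D / 2) := by
      calc a * (Q0 + Q1) ≤ a * (D / 2) := mul_le_mul_of_nonneg_left hdual ha0.le
        _ ≤ (1 + τ) * (D / 2) := mul_le_mul_of_nonneg_right a1 (by positivity)
    have e2 : (b - a) * Q1 ≤ 2 * τ * (4 * C₀) := by
      calc (b - a) * Q1 ≤ |b - a| * |Q1| := by rw [← abs_mul]; exact le_abs_self _
        _ ≤ |b - a| * (C₀ * (4 * R ^ 2)) := mul_le_mul_of_nonneg_left hψρ (abs_nonneg _)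
        _ = (|b - a| * R ^ 2) * (4 * C₀) := by ring
        _ ≤ 2 * τ * (4 * C₀) := mul_le_mul_of_nonneg_right hab (by positivity)
    have e3 : a * Q0 + b * Q1 = a * (Q0 + Q1) + (b - a) * Q1 := by ring
    rw [e3]; exact add_le_add e1 e2
  have f9 : ε * a * F0 + ε * b * F1 ≤ 4 * C₀ * τ + 2 * τ * (C₀ * M₂) := by
    have e1 : ε * a * (F0 + F1) ≤ 2 * (2 * C₀ * τ) := by
      calc ε * a * (F0 + F1) ≤ ε * a * (2 * C₀ * τ) := mul_le_mul_of_nonneg_left w1 (by positivity)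
        _ ≤ 2 * (2 * C₀ * τ) := by
          refine mul_le_mul_of_nonneg_right ?_ (by positivity)
          nlinarith
    have e2 : ε * ((b - a) * F1) ≤ 2 * τ * (C₀ * M₂) := by
      calc ε * ((b - a) * F1) ≤ ε * (|b - a| * |F1|) := by
            refine mul_le_mul_of_nonneg_left ?_ hε.le
            rw [← abs_mul]; exact le_abs_self _
        _ ≤ 1 * (|b - a| * |F1|) := mul_le_mul_of_nonneg_right hε1 (by positivity)
        _ ≤ 1 * (|b - a| * (C₀ * (M₂ * R ^ 2))) := by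
            refine mul_le_mul_of_nonneg_left ?_ (by norm_num)
            exact mul_le_mul_of_nonneg_left w2 (abs_nonneg _)
        _ = (|b - a| * R ^ 2) * (C₀ * M₂) := by ring
        _ ≤ 2 * τ * (C₀ * M₂) := mul_le_mul_of_nonneg_right hab (by positivity)
    have e3 : ε * a * F0 + ε * b * F1 = ε * a * (F0 + F1) + ε * ((b - a) * F1) := by ring
    rw [e3]; linarith
  linarith

section Two

variable {o : X} {R C₀ h Lam k : ℝ} {φ ψ r r' w p pw q qw g g' gr gr' ρ ρ' : X → ℝ}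

theorem pair_w (S₀ : Side m o R C₀ h Lam φ r w p pw g gr ρ)
    (S₁ : Side m o R C₀ h Lam ψ r' w q qw g' gr' ρ') (hC : 0 ≤ C₀) {τ : ℝ}
    (t3 : ∫ x in (Metric.closedBall o R)ᶜ, (R + dist x o) ^ 2 * w x ∂m ≤ τ)
    (hneg : ∀ x ∈ Metric.closedBall o R, φ x + ψ x ≤ 0) :
    (∫ x, φ x * w x ∂m) + (∫ x, ψ x * w x ∂m) ≤ 2 * C₀ * τ := by
  set B := Metric.closedBall o R with hB
  have hBm : MeasurableSet B := Metric.isClosed_closedBall.measurableSet
  have i0 := S₀.int_φw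
  have i1 := S₁.int_φw
  have i01 : Integrable (fun x => φ x * w x + ψ x * w x) m := i0.add i1
  rw [← integral_add i0 i1, ← integral_add_compl hBm i01]
  have z1 : ∫ x in B, (φ x * w x + ψ x * w x) ∂m ≤ 0 := by
    refine setIntegral_nonpos_of_ae_restrict ?_
    refine (ae_restrict_iff' hBm).mpr ?_
    filter_upwards [S₀.w0] with x hx hxB
    have := hneg x hxB
    simp only [Pi.zero_apply]
    nlinarith
  have z2 : ∫ x in Bᶜ, (φ x * w x + ψ x * w x) ∂m ≤ 2 * C₀ * τ := by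
    calc ∫ x in Bᶜ, (φ x * w x + ψ x * w x) ∂m ≤
        ∫ x in Bᶜ, 2 * C₀ * ((R + dist x o) ^ 2 * w x) ∂m := by
          refine setIntegral_mono_ae_restrict i01.integrableOn
            (S₀.wint.const_mul _).integrableOn ?_
          refine ae_restrict_of_ae ?_
          filter_upwards [S₀.φb, S₁.φb, S₀.w0] with x hx hx' hw
          have k1 := mul_le_mul_of_nonneg_right ((le_abs_self _).trans hx) hw
          have k2 := mul_le_mul_of_nonneg_right ((le_abs_self _).trans hx') hw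
          linarith
      _ = 2 * C₀ * ∫ x in Bᶜ, (R + dist x o) ^ 2 * w x ∂m := integral_const_mul _ _
      _ ≤ 2 * C₀ * τ := mul_le_mul_of_nonneg_left t3 (by positivity)
  linarith

theorem abs_pair_w (S₁ : Side m o R C₀ h Lam ψ r' w q qw g' gr' ρ') (hC : 0 ≤ C₀) {M₂ : ℝ}
    (hM : ∫ x, (R + dist x o) ^ 2 * w x ∂m ≤ M₂ * R ^ 2) :
    |∫ x, ψ x * w x ∂m| ≤ C₀ * (M₂ * R ^ 2) := by
  have i1 := S₁.int_φw
  calc |∫ x, ψ x * w x ∂m| ≤ ∫ x, |ψ x * w x| ∂m := abs_integral_le_integral_abs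
    _ ≤ ∫ x, C₀ * ((R + dist x o) ^ 2 * w x) ∂m := by
      refine integral_mono_ae i1.abs (S₁.wint.const_mul _) ?_
      filter_upwards [S₁.φb, S₁.w0] with x hx hw
      have k1 := mul_le_mul_of_nonneg_right hx hw
      rw [abs_mul, abs_of_nonneg hw]
      linarith
    _ = C₀ * ∫ x, (R + dist x o) ^ 2 * w x ∂m := integral_const_mul _ _
    _ ≤ C₀ * (M₂ * R ^ 2) := mul_le_mul_of_nonneg_left hM hC

/-- the two-sided inequality: pure bookkeeping. -/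
theorem two_sided
    (S₀ : Side m o R C₀ h Lam φ r w p pw g gr ρ)
    (S₁ : Side m o R C₀ h Lam ψ r' w q qw g' gr' ρ')
    (hR : 1 ≤ R) (hL : 0 ≤ Lam) (hC : 0 ≤ C₀) (hh : 0 ≤ h)
    {ε τ W D M₂ e : ℝ} (hε : 0 < ε) (hε1 : ε ≤ 1) (hτ1 : τ ≤ 1) (hD : 0 ≤ D) (hM₂ : 0 ≤ M₂)
    (hr : ∫ x, r x ∂m = 1) (hr' : ∫ x, r' x ∂m = 1)
    {Z₀ Z₁ : ℝ} (hZ₀ : Z₀ = ∫ x in Metric.closedBall o R, (r x + ε * w x) ∂m)
    (hZ₁ : Z₁ = ∫ x in Metric.closedBall o R, (r' x + ε * w x) ∂m)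
    (t1 : ∫ x in (Metric.closedBall o R)ᶜ, (R + dist x o) ^ 2 * r x ∂m ≤ τ)
    (t2 : ∫ x in (Metric.closedBall o R)ᶜ, (R + dist x o) ^ 2 * r' x ∂m ≤ τ)
    (t3 : ∫ x in (Metric.closedBall o R)ᶜ, (R + dist x o) ^ 2 * w x ∂m ≤ τ)
    (t4 : ∫ x in (Metric.closedBall o R)ᶜ, (R + dist x o) * gr x ∂m ≤ τ)
    (t5 : ∫ x in (Metric.closedBall o R)ᶜ, (R + dist x o) * gr' x ∂m ≤ τ)
    (hM : ∫ x, (R + dist x o) ^ 2 * w x ∂m ≤ M₂ * R ^ 2)
    (hval : (∫ x in Metric.closedBall o R, φ x * ((r x + ε * w x) / Z₀) ∂m) +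
      (∫ x in Metric.closedBall o R, ψ x * ((r' x + ε * w x) / Z₁) ∂m) = W / 2)
    (hE : -(k * W + 2 * e) ≤ (∫ x in Metric.closedBall o R, (p x + ε * pw x) / Z₀ ∂m) +
      (∫ x in Metric.closedBall o R, (q x + ε * qw x) / Z₁ ∂m))
    (hG : (∫ x in Metric.closedBall o R, g x ^ 2 * ((r x + ε * w x) / Z₀) ∂m) ≤ W)
    (hG' : (∫ x in Metric.closedBall o R, g' x ^ 2 * ((r' x + ε * w x) / Z₁) ∂m) ≤ W)
    (hdual : (∫ x, φ x * ρ x ∂m) + (∫ x, ψ x * ρ' x ∂m) ≤ D / 2)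
    (hψρ : |∫ x, ψ x * ρ' x ∂m| ≤ C₀ * (4 * R ^ 2))
    (hneg : ∀ x ∈ Metric.closedBall o R, φ x + ψ x ≤ 0) :
    (1 - 2 * h * k - 2 * h * √ε) * W ≤ (1 + τ) * D + 4 * h * e + 4 * h * Lam ^ 2 * √ε +
      τ * (40 * C₀ + 8 * h + 4 * C₀ * M₂) := by
  obtain ⟨m1, hτ, m2, m3⟩ := S₀.mass_tail hR hε hε1 t1 t3 hr
  obtain ⟨n1, -, n2, n3⟩ := S₁.mass_tail hR hε hε1 t2 t3 hr'
  rw [← hZ₀] at m2 m3
  rw [← hZ₁] at n2 n3
  obtain ⟨p0, p1, a1, a2, b2, ab⟩ := inv_diff hR hε hτ hτ1 m2 m3 n2 n3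
  have M0 := S₀.main hR hL hh hε p0
  have M1 := S₁.main hR hL hh hε p1
  have w1 := pair_w S₀ S₁ hC t3 hneg
  have w2 := abs_pair_w S₁ hC hM
  rw [show ε / Z₀ = ε * (1 / Z₀) by ring,
    show h * Lam ^ 2 * √ε / (2 * Z₀) = h * Lam ^ 2 * √ε / 2 * (1 / Z₀) by field_simp] at M0
  rw [show ε / Z₁ = ε * (1 / Z₁) by ring,
    show h * Lam ^ 2 * √ε / (2 * Z₁) = h * Lam ^ 2 * √ε / 2 * (1 / Z₁) by field_simp] at M1
  exact arith hC hh hε hε1 hτ hD hM₂ (Real.sqrt_nonneg _) (by positivity) (by positivity)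
    a1 a2 b2 ab hval hE hG hG' hdual hψρ w1 w2 m1 n1 t4 t5 M0 M1

end Two

end Crest.Agent.R242.Contr
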