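import Mathlib

/-!
Row 242: weak convergence of probability measures: lower semicontinuity, closed conditions,
Prokhorov extraction. (helper475)
-/

set_option autoImplicit false
set_option linter.unusedSectionVars false

open MeasureTheory Filter Set TopologicalSpace
open scoped ENNReal NNReal Topology BoundedContinuousFunction

noncomputable section

namespace Crest.Agent.R242.WC

variable {E : Type*} [TopologicalSpace E] [MeasurableSpace E] [BorelSpace E]

/-- the mass of an open set is lower semicontinuous. -/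
theorem lowerSemicontinuous_measure_open [HasOuterApproxClosed E] {G : Set E} (hG : IsOpen G) :
    LowerSemicontinuous (fun P : ProbabilityMeasure E => (P : Measure E) G) := by
  intro P
  refine lowerSemicontinuousAt_iff_le_liminf.2 ?_
  exact ProbabilityMeasure.le_liminf_measure_open_of_tendsto (L := 𝓝 P) tendsto_id hG

theorem isClosed_ae_mem [HasOuterApproxClosed E] {F : Set E} (hF : IsClosed F) :
    IsClosed {P : ProbabilityMeasure E | ∀ᵐ x ∂(P : Measure E), x ∈ F} := by
  have h1 : {P : ProbabilityMeasure E | ∀ᵐ x ∂(P : Measure E), x ∈ F} =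
      (fun P : ProbabilityMeasure E => (P : Measure E) Fᶜ) ⁻¹' (Iic 0) := by
    ext P
    simp only [mem_preimage, mem_Iic, nonpos_iff_eq_zero]
    rfl
  rw [h1]
  exact (lowerSemicontinuous_measure_open hF.isOpen_compl).isClosed_preimage 0

/-- staircase approximation of an extended nonnegative real. -/
def stair (δ : ℝ≥0∞) : ℕ → ℝ≥0∞ → ℝ≥0∞
  | 0, _ => 0
  | N + 1, a => stair δ N a + (if (N + 1 : ℕ) * δ < a then δ else 0)

lemma stair_le (δ : ℝ≥0∞) (N : ℕ) (a : ℝ≥0∞) : stair δ N a ≤ min a (N * δ) := by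
  induction N with
  | zero => simp [stair]
  | succ N ih =>
    rw [stair]
    have h1 : stair δ N a ≤ a := ih.trans (min_le_left _ _)
    have h2 : stair δ N a ≤ N * δ := ih.trans (min_le_right _ _)
    by_cases h : ((N + 1 : ℕ) : ℝ≥0∞) * δ < a
    · rw [if_pos h]
      have h3 : stair δ N a + δ ≤ ((N + 1 : ℕ) : ℝ≥0∞) * δ := by
        rw [Nat.cast_succ, add_mul, one_mul]
        gcongr
      exact le_min (h3.trans h.le) h3
    · rw [if_neg h, add_zero]
      refine le_min h1 (h2.trans ?_)
      gcongr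
      simp

lemma le_stair_add (δ : ℝ≥0∞) (N : ℕ) (a : ℝ≥0∞) :
    min a ((N + 1 : ℕ) * δ) ≤ stair δ N a + δ := by
  induction N with
  | zero => simp [stair]
  | succ N ih =>
    rw [stair]
    by_cases h : ((N + 1 : ℕ) : ℝ≥0∞) * δ < a
    · rw [if_pos h]
      rw [min_eq_right h.le] at ih
      refine (min_le_right _ _).trans ?_
      rw [Nat.cast_succ (N + 1), add_mul, one_mul]
      gcongr
    · rw [if_neg h, add_zero]
      push Not at h
      rw [min_eq_left h] at ih
      exact (min_le_left _ _).trans ih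

lemma lintegral_stair {f : E → ℝ≥0∞} (hf : Measurable f) (δ : ℝ≥0∞) (N : ℕ) (μ : Measure E) :
    ∫⁻ x, stair δ N (f x) ∂μ =
      ∑ k ∈ Finset.range N, δ * μ {x | ((k + 1 : ℕ) : ℝ≥0∞) * δ < f x} ∧
    Measurable (fun x => stair δ N (f x)) := by
  induction N with
  | zero => simp [stair]
  | succ N ih =>
    have hm : MeasurableSet {x | ((N + 1 : ℕ) : ℝ≥0∞) * δ < f x} :=
      measurableSet_lt measurable_const hf
    have h1 : (fun x => if ((N + 1 : ℕ) : ℝ≥0∞) * δ < f x then δ else 0) =
        {x | ((N + 1 : ℕ) : ℝ≥0∞) * δ < f x}.indicator (fun _ => δ) := by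
      ext x
      simp [indicator]
    have hm2 : Measurable (fun x => if ((N + 1 : ℕ) : ℝ≥0∞) * δ < f x then δ else 0) := by
      rw [h1]
      exact measurable_const.indicator hm
    simp only [stair]
    refine ⟨?_, ih.2.add hm2⟩
    rw [lintegral_add_left ih.2, ih.1, Finset.sum_range_succ, h1, lintegral_indicator_const hm]

/-- lower semicontinuity of integrals of lower semicontinuous functions. -/
theorem lowerSemicontinuous_lintegral [HasOuterApproxClosed E] {f : E → ℝ≥0∞}
    (hf : LowerSemicontinuous f) :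
    LowerSemicontinuous (fun P : ProbabilityMeasure E => ∫⁻ x, f x ∂(P : Measure E)) := by
  intro P₀ c hc
  have hfm : Measurable f := hf.measurable
  -- truncation
  have h1 : ∫⁻ x, f x ∂(P₀ : Measure E) = ⨆ n : ℕ, ∫⁻ x, min (f x) n ∂(P₀ : Measure E) := by
    rw [← lintegral_iSup]
    · refine lintegral_congr fun x => ?_
      refine le_antisymm ?_ (iSup_le fun n => min_le_left _ _)
      refine le_of_forall_lt fun b hb => ?_
      obtain ⟨n, hn⟩ := ENNReal.exists_nat_gt (ne_top_of_lt hb)
      exact (lt_min hb hn).trans_le (le_iSup (fun n : ℕ => min (f x) n) n)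
    · intro n
      exact hfm.min measurable_const
    · intro i j hij x
      exact min_le_min_left _ (by exact_mod_cast hij)
  simp only [h1] at hc
  obtain ⟨n, hn⟩ := lt_iSup_iff.1 hc
  have hcfin : c ≠ ⊤ := ne_top_of_lt hn
  obtain ⟨δ, hδ0, hδ⟩ : ∃ δ : ℝ≥0, 0 < δ ∧ c + δ < ∫⁻ x, min (f x) n ∂(P₀ : Measure E) :=
    ENNReal.lt_iff_exists_add_pos_lt.1 hn
  obtain ⟨N, hN⟩ : ∃ N : ℕ, (n : ℝ≥0∞) ≤ (N + 1 : ℕ) * (δ : ℝ≥0∞) := by
    obtain ⟨N, hN⟩ := exists_nat_gt ((n : ℝ≥0) / δ)
    refine ⟨N, ?_⟩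
    have : (n : ℝ≥0) ≤ (N + 1 : ℕ) * δ := by
      rw [div_lt_iff₀ hδ0] at hN
      refine hN.le.trans ?_
      gcongr
      simp
    exact_mod_cast this
  have h2 : ∫⁻ x, min (f x) n ∂(P₀ : Measure E) ≤
      (∫⁻ x, stair δ N (f x) ∂(P₀ : Measure E)) + δ := by
    calc ∫⁻ x, min (f x) n ∂(P₀ : Measure E)
        ≤ ∫⁻ x, (stair δ N (f x) + δ) ∂(P₀ : Measure E) := by
          refine lintegral_mono fun x => ?_
          exact (min_le_min_left _ hN).trans (le_stair_add δ N (f x))
      _ = (∫⁻ x, stair δ N (f x) ∂(P₀ : Measure E)) + δ := by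
          rw [lintegral_add_left (lintegral_stair hfm δ N (P₀ : Measure E)).2]
          simp
  have h3 : c < ∫⁻ x, stair δ N (f x) ∂(P₀ : Measure E) := by
    have := hδ.trans_le h2
    exact lt_of_add_lt_add_right this
  -- the staircase functional is lower semicontinuous
  have h4 : LowerSemicontinuous (fun P : ProbabilityMeasure E =>
      ∑ k ∈ Finset.range N, (δ : ℝ≥0∞) *
        (P : Measure E) {x | ((k + 1 : ℕ) : ℝ≥0∞) * δ < f x}) := by
    refine lowerSemicontinuous_sum fun k _ => ?_
    have hopen : IsOpen {x | ((k + 1 : ℕ) : ℝ≥0∞) * δ < f x} :=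
      hf.isOpen_preimage _
    have h5 := lowerSemicontinuous_measure_open hopen
    intro P
    refine lowerSemicontinuousAt_iff_le_liminf.2 ?_
    have h6 := (lowerSemicontinuousAt_iff_le_liminf.1 (h5 P))
    calc (δ : ℝ≥0∞) * (P : Measure E) {x | ((k + 1 : ℕ) : ℝ≥0∞) * δ < f x}
        ≤ δ * liminf (fun P : ProbabilityMeasure E =>
            (P : Measure E) {x | ((k + 1 : ℕ) : ℝ≥0∞) * δ < f x}) (𝓝 P) := by gcongr
      _ = _ := by
          rw [ENNReal.liminf_const_mul_of_ne_top]
          exact ENNReal.coe_ne_top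
  rw [(lintegral_stair hfm δ N (P₀ : Measure E)).1] at h3
  filter_upwards [h4 P₀ c h3] with P hP
  refine hP.trans_le ?_
  rw [← (lintegral_stair hfm δ N (P : Measure E)).1]
  exact lintegral_mono fun x => (stair_le δ N (f x)).trans (min_le_left _ _)

/-- lower semicontinuity along any filter. -/
theorem lintegral_le_liminf [HasOuterApproxClosed E] {f : E → ℝ≥0∞}
    (hf : LowerSemicontinuous f) {ι : Type*} {l : Filter ι} {P : ι → ProbabilityMeasure E}
    {Q : ProbabilityMeasure E} (h : Tendsto P l (𝓝 Q)) :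
    ∫⁻ x, f x ∂(Q : Measure E) ≤ liminf (fun n => ∫⁻ x, f x ∂(P n : Measure E)) l := by
  refine le_of_forall_lt fun c hc => ?_
  obtain ⟨b, hb1, hb2⟩ := exists_between hc
  refine hb1.trans_le ?_
  refine le_liminf_of_le (by isBoundedDefault) ?_
  filter_upwards [h.eventually (lowerSemicontinuous_lintegral hf Q b hb2)] with n hn using hn.le

theorem lintegral_le_liminf_of_lsc [HasOuterApproxClosed E] {f : E → ℝ≥0∞}
    (hf : LowerSemicontinuous f) {P : ℕ → ProbabilityMeasure E} {Q : ProbabilityMeasure E}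
    (h : Tendsto P atTop (𝓝 Q)) :
    ∫⁻ x, f x ∂(Q : Measure E) ≤ liminf (fun n => ∫⁻ x, f x ∂(P n : Measure E)) atTop :=
  lintegral_le_liminf hf h

theorem isClosed_lintegral_le [HasOuterApproxClosed E] {f : E → ℝ≥0∞}
    (hf : LowerSemicontinuous f) (c : ℝ≥0∞) :
    IsClosed {P : ProbabilityMeasure E | ∫⁻ x, f x ∂(P : Measure E) ≤ c} :=
  (lowerSemicontinuous_lintegral hf).isClosed_preimage c

/-- domination by a fixed measure is closed. -/
theorem isClosed_le_measure {Y : Type*} [MetricSpace Y] [ProperSpace Y] [MeasurableSpace Y]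
    [BorelSpace Y] {m : Measure Y} [IsLocallyFiniteMeasure m] (C : ℝ≥0) :
    IsClosed {P : ProbabilityMeasure Y | (P : Measure Y) ≤ (C : ℝ≥0∞) • m} := by
  have hreg : ((C : ℝ≥0∞) • m).OuterRegular := by
    have : m.OuterRegular := inferInstance
    exact Measure.OuterRegular.smul m ENNReal.coe_ne_top
  have : {P : ProbabilityMeasure Y | (P : Measure Y) ≤ (C : ℝ≥0∞) • m} =
      ⋂ (G : Set Y) (_ : IsOpen G),
        (fun P : ProbabilityMeasure Y => (P : Measure Y) G) ⁻¹' (Iic (((C : ℝ≥0∞) • m) G)) := by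
    ext P
    simp only [mem_iInter, mem_preimage, mem_Iic]
    constructor
    · intro h G _
      exact h G
    · intro h
      refine Measure.le_iff.2 fun A _ => ?_
      rw [Set.measure_eq_iInf_isOpen A ((C : ℝ≥0∞) • m)]
      refine le_iInf fun U => le_iInf fun hAU => le_iInf fun hU => ?_
      exact (measure_mono hAU).trans (h U hU)
  rw [this]
  exact isClosed_iInter fun G => isClosed_iInter fun hG =>
    (lowerSemicontinuous_measure_open hG).isClosed_preimage _

/-- Prokhorov: extraction of a weakly convergent subsequence. -/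
theorem exists_subseq_tendsto {E : Type*} [TopologicalSpace E] [MetrizableSpace E]
    [SecondCountableTopology E] [MeasurableSpace E] [BorelSpace E]
    (P : ℕ → ProbabilityMeasure E)
    (hP : ∀ ε : ℝ≥0∞, 0 < ε → ∃ K : Set E, IsCompact K ∧ ∀ n, (P n : Measure E) Kᶜ ≤ ε) :
    ∃ (Q : ProbabilityMeasure E) (φ : ℕ → ℕ), StrictMono φ ∧
      Tendsto (fun n => P (φ n)) atTop (𝓝 Q) := by
  have hT : IsTightMeasureSet {x | ∃ Q ∈ range P, (Q : Measure E) = x} := by
    rw [isTightMeasureSet_iff_exists_isCompact_measure_compl_le]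
    intro ε hε
    obtain ⟨K, hK, h⟩ := hP ε hε
    refine ⟨K, hK, ?_⟩
    rintro _ ⟨_, ⟨n, rfl⟩, rfl⟩
    exact h n
  have hcomp : IsCompact (closure (range P)) := isCompact_closure_of_isTightMeasureSet hT
  obtain ⟨Q, -, φ, hφ, hφt⟩ := hcomp.tendsto_subseq (x := P) fun n => subset_closure
    (mem_range_self n)
  exact ⟨Q, φ, hφ, hφt⟩

/-- a closed tight set of probability measures is compact. -/
theorem isCompact_of_tight {E : Type*} [TopologicalSpace E] [MetrizableSpace E]
    [SecondCountableTopology E] [MeasurableSpace E] [BorelSpace E]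
    {S : Set (ProbabilityMeasure E)} (hS : IsClosed S)
    (hP : ∀ ε : ℝ≥0∞, 0 < ε → ∃ K : Set E, IsCompact K ∧ ∀ P ∈ S, (P : Measure E) Kᶜ ≤ ε) :
    IsCompact S := by
  have hT : IsTightMeasureSet {x | ∃ Q ∈ S, (Q : Measure E) = x} := by
    rw [isTightMeasureSet_iff_exists_isCompact_measure_compl_le]
    intro ε hε
    obtain ⟨K, hK, h⟩ := hP ε hε
    refine ⟨K, hK, ?_⟩
    rintro _ ⟨Q, hQ, rfl⟩
    exact h Q hQ
  have hcomp : IsCompact (closure S) := isCompact_closure_of_isTightMeasureSet hT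
  rwa [hS.closure_eq] at hcomp

/-- closed + concentrated on a fixed compact set is compact. -/
theorem isCompact_of_ae_mem_compact {E : Type*} [TopologicalSpace E] [MetrizableSpace E]
    [SecondCountableTopology E] [MeasurableSpace E] [BorelSpace E]
    {S : Set (ProbabilityMeasure E)} (hS : IsClosed S) {K : Set E} (hK : IsCompact K)
    (hP : ∀ P ∈ S, ∀ᵐ x ∂(P : Measure E), x ∈ K) :
    IsCompact S := by
  refine isCompact_of_tight hS fun ε _ => ⟨K, hK, fun P hPS => ?_⟩
  have : (P : Measure E) Kᶜ = 0 := hP P hPS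
  rw [this]
  exact zero_le

end Crest.Agent.R242.WC
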