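import Mathlib
import Crest.Prelude.Def_SyntheticRicci
import Crest.Agent.R242.Defs
import Crest.Agent.R242.WeakConv

/-!
Row 242: topology of the space of curves (proofs for CurveTop, helper475).
-/

set_option autoImplicit false
set_option linter.unusedSectionVars false

open MeasureTheory Filter Set TopologicalSpace
open scoped ENNReal NNReal Topology BoundedContinuousFunction
open Crest.GeometryTopology.SyntheticRicci

noncomputable section

namespace Crest.Agent.R242.CT

section Top

variable {X : Type*} [MetricSpace X]

/-- curves are the same as continuous maps. -/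
def uHomeo : UCurve X ≃ₜ C(unitInterval, X) where
  toFun := UCurve.toMap
  invFun f := ⟨f⟩
  left_inv _ := rfl
  right_inv _ := rfl
  continuous_toFun := continuous_induced_dom
  continuous_invFun := continuous_induced_rng.2 continuous_id

theorem continuous_toMap : Continuous (UCurve.toMap : UCurve X → C(unitInterval, X)) :=
  continuous_induced_dom

theorem instT2UCurve : T2Space (UCurve X) := uHomeo.symm.t2Space

theorem instMetrizableUCurve : MetrizableSpace (UCurve X) :=
  uHomeo.isEmbedding.metrizableSpace

theorem instSecondCountableUCurve [SecondCountableTopology X] :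
    SecondCountableTopology (UCurve X) :=
  uHomeo.secondCountableTopology

theorem instPolishUCurve [CompleteSpace X] [SecondCountableTopology X] :
    PolishSpace (UCurve X) :=
  uHomeo.isClosedEmbedding.polishSpace

/-- joint continuity of the evaluation. -/
theorem continuous_ev₂ : Continuous fun p : UCurve X × unitInterval => p.1.toMap p.2 :=
  (continuous_toMap.comp continuous_fst).eval continuous_snd

theorem continuous_ev (t : unitInterval) : Continuous fun γ : UCurve X => γ.toMap t :=
  continuous_ev₂.comp (Continuous.prodMk_left t)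

theorem continuous_ext₂ : Continuous fun p : UCurve X × ℝ => p.1.ext p.2 := by
  have : Continuous fun p : UCurve X × ℝ =>
      ((p.1, projIcc (0 : ℝ) 1 zero_le_one p.2) : UCurve X × unitInterval) :=
    continuous_fst.prodMk (continuous_projIcc.comp continuous_snd)
  exact continuous_ev₂.comp this

theorem continuous_ext (t : ℝ) : Continuous fun γ : UCurve X => γ.ext t :=
  continuous_ext₂.comp (Continuous.prodMk_left t)

theorem continuous_ext_right (γ : UCurve X) : Continuous γ.ext :=
  continuous_ext₂.comp (Continuous.prodMk_right γ)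

theorem ext_coe (γ : UCurve X) (t : unitInterval) : γ.ext (t : ℝ) = γ.toMap t := by
  unfold UCurve.ext
  rw [projIcc_val]

theorem ext_eq_of_mem (γ : UCurve X) {t : ℝ} (ht : t ∈ Icc (0 : ℝ) 1) :
    γ.ext t = γ.toMap ⟨t, ht⟩ := by
  unfold UCurve.ext
  rw [projIcc_of_mem _ ht]

theorem ucurve_ext {γ γ' : UCurve X} (h : ∀ t, γ.toMap t = γ'.toMap t) : γ = γ' := by
  cases γ; cases γ'
  congr 1
  exact ContinuousMap.ext h

theorem continuous_subCurve (a b : ℝ) : Continuous (subCurve a b : UCurve X → UCurve X) := by
  refine continuous_induced_rng.2 ?_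
  exact (ContinuousMap.continuous_precomp (subI a b)).comp continuous_toMap

/-- convergence of curves = uniform convergence. -/
theorem tendsto_ucurve_iff {ι : Type*} {l : Filter ι} {F : ι → UCurve X} {γ : UCurve X} :
    Tendsto F l (𝓝 γ) ↔ TendstoUniformly (fun i t => (F i).toMap t) γ.toMap l := by
  have h1 : Tendsto F l (𝓝 γ) ↔ Tendsto (fun i => (F i).toMap) l (𝓝 γ.toMap) :=
    (uHomeo (X := X)).isInducing.tendsto_nhds_iff
  rw [h1]
  exact ContinuousMap.tendsto_iff_tendstoUniformly

/-- geodesics are closed. -/
theorem isClosed_csGeodesic : IsClosed {γ : UCurve X | IsCSGeodesic γ} := by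
  have : {γ : UCurve X | IsCSGeodesic γ} = ⋂ (s : unitInterval) (t : unitInterval),
      {γ : UCurve X | dist (γ.toMap s) (γ.toMap t) =
        |(s : ℝ) - (t : ℝ)| * dist (γ.toMap 0) (γ.toMap 1)} := by
    ext γ
    simp only [IsCSGeodesic, mem_iInter, mem_ofPred_eq]
  rw [this]
  refine isClosed_iInter fun s => isClosed_iInter fun t => isClosed_eq ?_ ?_
  · exact (continuous_ev s).dist (continuous_ev t)
  · exact continuous_const.mul ((continuous_ev 0).dist (continuous_ev 1))

/-- Arzela-Ascoli: a family of curves in a compact set with a common modulus of continuity. -/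
theorem isCompact_modulus {K : Set X} (hK : IsCompact K) {ω : ℝ → ℝ}
    (hω : Tendsto ω (𝓝[≥] 0) (𝓝 0)) :
    IsCompact {γ : UCurve X | (∀ t, γ.toMap t ∈ K) ∧
      ∀ s t : unitInterval, dist (γ.toMap s) (γ.toMap t) ≤ ω |(s : ℝ) - t|} := by
  set A : Set (unitInterval →ᵇ X) := {f | (∀ t, f t ∈ K) ∧
    ∀ s t : unitInterval, dist (f s) (f t) ≤ ω |(s : ℝ) - t|} with hA
  have hAc : IsCompact A := by
    refine BoundedContinuousFunction.arzela_ascoli₂ K hK A ?_ ?_ ?_
    · have : A = (⋂ t : unitInterval, {f | f t ∈ K}) ∩
          ⋂ (s : unitInterval) (t : unitInterval), {f | dist (f s) (f t) ≤ ω |(s : ℝ) - t|} := by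
        ext f
        simp only [hA, mem_iInter, mem_ofPred_eq, mem_inter_iff]
      rw [this]
      refine IsClosed.inter (isClosed_iInter fun t => ?_)
        (isClosed_iInter fun s => isClosed_iInter fun t => ?_)
      · exact hK.isClosed.preimage (continuous_eval_const t)
      · exact isClosed_le ((continuous_eval_const s).dist (continuous_eval_const t))
          continuous_const
    · intro f x hf
      exact hf.1 x
    · intro t₀
      rw [Metric.equicontinuousAt_iff_right]
      intro ε hε
      have h1 : ∀ᶠ r in 𝓝[≥] (0 : ℝ), ω r < ε := hω.eventually (gt_mem_nhds hε)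
      have h2 : Tendsto (fun t : unitInterval => |(t₀ : ℝ) - t|) (𝓝 t₀) (𝓝[≥] 0) := by
        refine tendsto_nhdsWithin_iff.2 ⟨?_, Eventually.of_forall fun t => mem_Ici.2 (abs_nonneg _)⟩
        have : Continuous (fun t : unitInterval => |(t₀ : ℝ) - t|) := by fun_prop
        have := this.tendsto t₀
        simpa using this
      filter_upwards [h2.eventually h1] with t ht f
      exact (f.2.2 t₀ t).trans_lt ht
  have hcont : Continuous (fun f : unitInterval →ᵇ X => (⟨f.toContinuousMap⟩ : UCurve X)) := by
    refine continuous_induced_rng.2 ?_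
    exact (ContinuousMap.isometryEquivBoundedOfCompact unitInterval X).symm.continuous
  have := hAc.image hcont
  convert this using 1
  ext γ
  constructor
  · rintro ⟨h1, h2⟩
    exact ⟨BoundedContinuousFunction.mkOfCompact γ.toMap, ⟨h1, h2⟩, rfl⟩
  · rintro ⟨f, ⟨h1, h2⟩, rfl⟩
    exact ⟨h1, h2⟩

/-- curves starting in a compact set with a Hoelder 1/2 bound. -/
theorem isCompact_hoelder [ProperSpace X] {K : Set X} (hK : IsCompact K) (A : ℝ) :
    IsCompact {γ : UCurve X | γ.toMap 0 ∈ K ∧
      ∀ s t : unitInterval, dist (γ.toMap s) (γ.toMap t) ^ 2 ≤ A * |(s : ℝ) - t|} := by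
  have hK' : IsCompact (Metric.cthickening (Real.sqrt A) K) := hK.cthickening
  have hω : Tendsto (fun r : ℝ => Real.sqrt (A * r)) (𝓝[≥] 0) (𝓝 0) := by
    have : Continuous (fun r : ℝ => Real.sqrt (A * r)) := by fun_prop
    have h2 := this.tendsto 0
    simp only [mul_zero, Real.sqrt_zero] at h2
    exact h2.mono_left nhdsWithin_le_nhds
  have h1 := isCompact_modulus hK' hω
  refine h1.of_isClosed_subset ?_ ?_
  · have : {γ : UCurve X | γ.toMap 0 ∈ K ∧
        ∀ s t : unitInterval, dist (γ.toMap s) (γ.toMap t) ^ 2 ≤ A * |(s : ℝ) - t|} =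
        {γ : UCurve X | γ.toMap 0 ∈ K} ∩ ⋂ (s : unitInterval) (t : unitInterval),
          {γ : UCurve X | dist (γ.toMap s) (γ.toMap t) ^ 2 ≤ A * |(s : ℝ) - t|} := by
      ext γ
      simp only [mem_iInter, mem_ofPred_eq, mem_inter_iff]
    rw [this]
    refine (hK.isClosed.preimage (continuous_ev 0)).inter
      (isClosed_iInter fun s => isClosed_iInter fun t => ?_)
    exact isClosed_le (((continuous_ev s).dist (continuous_ev t)).pow 2) continuous_const
  · rintro γ ⟨h0, h2⟩
    have h3 : ∀ s t : unitInterval, dist (γ.toMap s) (γ.toMap t) ≤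
        Real.sqrt (A * |(s : ℝ) - t|) := fun s t => Real.le_sqrt_of_sq_le (h2 s t)
    refine ⟨fun t => ?_, h3⟩
    refine Metric.mem_cthickening_of_dist_le _ (γ.toMap 0) _ _ h0 ?_
    refine (h3 t 0).trans ?_
    have hA : 0 ≤ A := by
      have := h2 0 1
      have h4 : |((0 : unitInterval) : ℝ) - ((1 : unitInterval) : ℝ)| = 1 := by simp
      rw [h4, mul_one] at this
      exact (sq_nonneg _).trans this
    refine Real.sqrt_le_sqrt ?_
    have h5 : |(t : ℝ) - ((0 : unitInterval) : ℝ)| ≤ 1 := by
      simp only [Icc.coe_zero, sub_zero]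
      rw [abs_of_nonneg t.2.1]
      exact t.2.2
    calc A * |(t : ℝ) - ((0 : unitInterval) : ℝ)| ≤ A * 1 := mul_le_mul_of_nonneg_left h5 hA
      _ = A := mul_one A

/-- geodesics with endpoints in a compact set. -/
theorem isCompact_csGeodesic [ProperSpace X] {K L : Set X} (hK : IsCompact K)
    (hL : IsCompact L) :
    IsCompact {γ : UCurve X | γ.toMap 0 ∈ K ∧ γ.toMap 1 ∈ L ∧ IsCSGeodesic γ} := by
  obtain ⟨C, hC⟩ : ∃ C : ℝ, ∀ x ∈ K, ∀ y ∈ L, dist x y ≤ C := by
    obtain ⟨C, hC⟩ := (hK.prod hL).exists_bound_of_continuousOn
      (f := fun p : X × X => dist p.1 p.2) (by fun_prop)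
    refine ⟨C, fun x hx y hy => ?_⟩
    have := hC (x, y) ⟨hx, hy⟩
    simpa using this
  have h1 := isCompact_hoelder hK (C ^ 2)
  refine h1.of_isClosed_subset ?_ ?_
  · exact (hK.isClosed.preimage (continuous_ev 0)).inter
      ((hL.isClosed.preimage (continuous_ev 1)).inter isClosed_csGeodesic)
  · rintro γ ⟨h0, h2, hg⟩
    refine ⟨h0, fun s t => ?_⟩
    rw [hg s t, mul_pow, mul_comm]
    have h3 : |(s : ℝ) - t| ≤ 1 := by
      rw [abs_le]
      constructor <;> linarith [s.2.1, s.2.2, t.2.1, t.2.2]
    have h4 : |(s : ℝ) - t| ^ 2 ≤ |(s : ℝ) - t| := by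
      nlinarith [abs_nonneg ((s : ℝ) - t)]
    exact mul_le_mul (pow_le_pow_left₀ dist_nonneg (hC _ h0 _ h2) 2) h4 (by positivity)
      (by positivity)

end Top

section Meas

variable {X : Type*} [MetricSpace X] [MeasurableSpace X] [BorelSpace X]

theorem measurable_ev₂ [SecondCountableTopology X] :
    Measurable fun p : UCurve X × unitInterval => p.1.toMap p.2 := by
  have := instSecondCountableUCurve (X := X)
  exact continuous_ev₂.measurable

theorem measurable_ext₂ [SecondCountableTopology X] :
    Measurable fun p : UCurve X × ℝ => p.1.ext p.2 := by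
  have := instSecondCountableUCurve (X := X)
  exact continuous_ext₂.measurable

theorem measurable_endpoints [SecondCountableTopology X] :
    Measurable fun γ : UCurve X => (γ.toMap 0, γ.toMap 1) :=
  (continuous_ev 0).measurable.prodMk (continuous_ev 1).measurable

theorem map_fst_endpointLaw [SecondCountableTopology X] (P : Measure (UCurve X)) :
    (endpointLaw P).map Prod.fst = timeMarginal P 0 := by
  unfold endpointLaw timeMarginal
  rw [Measure.map_map measurable_fst measurable_endpoints]
  rfl

theorem map_snd_endpointLaw [SecondCountableTopology X] (P : Measure (UCurve X)) :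
    (endpointLaw P).map Prod.snd = timeMarginal P 1 := by
  unfold endpointLaw timeMarginal
  rw [Measure.map_map measurable_snd measurable_endpoints]
  rfl

theorem continuous_tmP (t : unitInterval) :
    Continuous (fun P : ProbabilityMeasure (UCurve X) =>
      P.map (continuous_ev (X := X) t).measurable.aemeasurable) :=
  ProbabilityMeasure.continuous_map (continuous_ev t)

theorem continuous_elP [SecondCountableTopology X] :
    Continuous (fun P : ProbabilityMeasure (UCurve X) =>
      P.map (measurable_endpoints (X := X)).aemeasurable) :=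
  ProbabilityMeasure.continuous_map ((continuous_ev 0).prodMk (continuous_ev 1))

/-- for fixed `P`, the marginals depend continuously on time. -/
theorem continuous_time_tmP (P : ProbabilityMeasure (UCurve X)) :
    Continuous fun t : unitInterval =>
      P.map (continuous_ev (X := X) t).measurable.aemeasurable := by
  rw [continuous_iff_continuousAt]
  intro t₀
  rw [ContinuousAt, ProbabilityMeasure.tendsto_iff_forall_integral_tendsto]
  intro f
  have h1 : ∀ t : unitInterval, ∫ x, f x ∂((P.map (continuous_ev (X := X)
      t).measurable.aemeasurable : ProbabilityMeasure X) : Measure X) =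
      ∫ γ, f (γ.toMap t) ∂(P : Measure (UCurve X)) := by
    intro t
    exact integral_map (continuous_ev t).measurable.aemeasurable
      f.continuous.aestronglyMeasurable
  simp only [h1]
  refine tendsto_integral_filter_of_dominated_convergence (fun _ => ‖f‖) ?_ ?_ ?_ ?_
  · exact Eventually.of_forall fun t =>
      (f.continuous.comp (continuous_ev t)).aestronglyMeasurable
  · exact Eventually.of_forall fun t => Eventually.of_forall fun γ => f.norm_coe_le_norm _
  · exact integrable_const _
  · exact Eventually.of_forall fun γ =>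
      ((f.continuous.comp γ.toMap.continuous).tendsto t₀)

end Meas

end Crest.Agent.R242.CT
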