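import Crest.Agent.R242.Pair
import Crest.Agent.R242.SobLip

/-!
Row 242, part F: cut-offs of `F`, the pairing inequality `hcalc` of `Fin.F_ineq`.
-/

set_option autoImplicit false
set_option linter.unusedSectionVars false
set_option linter.unusedVariables false

open MeasureTheory Filter Set
open scoped ENNReal NNReal Topology
open Crest.GeometryTopology.SyntheticRicci

noncomputable section

namespace Crest.Agent.R242
namespace Fin

variable {X : Type*} [MetricSpace X] [ProperSpace X] [MeasurableSpace X] [BorelSpace X]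
  {m : Measure X} [IsLocallyFiniteMeasure m] [m.IsOpenPosMeasure]
  {k N h₀ δ d : ℝ} {o : X} {F f : X → ℝ}

/-- cut-off of a bounded Lipschitz function (e.g. `f = χ F`, `χ x = max 0 (min 1 (n + 1 - dist x o))`) -/
theorem exists_cut {MF : ℝ} {LF : ℝ≥0} (hF : ∀ x, |F x| ≤ MF) (hL : LipschitzWith LF F) (o : X)
    (n : ℕ) : ∃ f : X → ℝ, LipschitzWith (LF + MF.toNNReal) f ∧ (∀ x, |f x| ≤ MF) ∧
      HasCompactSupport f ∧ ∀ x ∈ Metric.closedBall o (n : ℝ), f x = F x := by
  obtain ⟨χ, hχL, hχc, hχ01, hχ1, -⟩ := exists_cutoff o (R := (n : ℝ)) (r := 1)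
    (Nat.cast_nonneg n) one_pos
  have hM : 0 ≤ MF := (abs_nonneg _).trans (hF o)
  have hχL' : ∀ x y, |χ x - χ y| ≤ dist x y := by
    intro x y
    have := hχL.dist_le_mul x y
    rwa [div_one, Real.toNNReal_one, NNReal.coe_one, one_mul, Real.dist_eq] at this
  refine ⟨fun x => χ x * F x, ?_, ?_, hχc.mul_right, ?_⟩
  · refine LipschitzWith.of_dist_le_mul fun x y => ?_
    have h1 := hL.dist_le_mul x y
    rw [Real.dist_eq] at h1 ⊢
    have h2 : χ x * F x - χ y * F y = χ x * (F x - F y) + F y * (χ x - χ y) := by ring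
    rw [h2, NNReal.coe_add, Real.coe_toNNReal _ hM, add_mul]
    refine (abs_add_le _ _).trans (add_le_add ?_ ?_)
    · rw [abs_mul, abs_of_nonneg (hχ01 x).1]
      calc χ x * |F x - F y| ≤ 1 * |F x - F y| :=
            mul_le_mul_of_nonneg_right (hχ01 x).2 (abs_nonneg _)
        _ ≤ LF * dist x y := by rw [one_mul]; exact h1
    · rw [abs_mul]
      exact mul_le_mul (hF y) (hχL' x y) (abs_nonneg _) hM
  · intro x
    rw [abs_mul, abs_of_nonneg (hχ01 x).1]
    calc χ x * |F x| ≤ 1 * |F x| := mul_le_mul_of_nonneg_right (hχ01 x).2 (abs_nonneg _)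
      _ ≤ MF := by rw [one_mul]; exact hF x
  · intro x hx
    simp only [hχ1 x hx, one_mul]

/-- Lipschitz with compact support implies `W^{1,2}` -/
theorem sob_of_lip_hcs (H : Hyp m k N) {L : ℝ≥0} (hf : LipschitzWith L f)
    (hs : HasCompactSupport f) : IsSobolev m f :=
  isSobolev_of_lipschitz_hasCompactSupport H.fin hf hs

/-- the pairing inequality `hcalc` -/
theorem calc_ineq (H : Hyp m k N) {LF Lf : ℝ≥0} (hF : LipschitzWith LF F)
    (hf : LipschitzWith Lf f) (hfs : IsSobolev m f)
    (hwF : ∀ᵐ x ∂m, minWeakGrad m F x ≤ LF) (hwf : ∀ᵐ x ∂m, minWeakGrad m f x ≤ Lf)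
    {u w : X → ℝ} (hu : IsSobolev m u)
    (hw : ∀ᵐ x ∂m, minWeakGrad m u x ≤ w x) (c : ℝ) :
    ∀ᵐ x ∂m, c * gradPairing m F u x ≤ (1 / 2) * minWeakGrad m u x ^ 2
      - (1 / 2) * minWeakGrad m (fun y => u y - c * f y) x ^ 2 + (1 / 2) * (c ^ 2 * (Lf : ℝ) ^ 2)
      + |c| * ({x | f x ≠ F x}.indicator (fun x => ((LF : ℝ) + Lf) * w x) x) := by
  have hFS : IsSobolevLoc m F := sobLoc_of_lipschitz H hF
  have hfS : IsSobolevLoc m f := hfs.2.1
  have huS : IsSobolevLoc m u := hu.2.1
  have hcf : IsSobolevLoc m (fun y => c * f y) := sobLoc_smul H c hfS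
  have hself1 := gp_self H hcf
  have hself2 := gp_self H hfS
  have e1 := wg_sub_sq H huS hcf
  have e2 := gp_smul_right H c huS hfS
  have e3 := gp_comm H huS hfS
  have e4 := gp_smul_left H c hfS hcf
  have e5 := gp_smul_right H c hfS hfS
  have e6 := gp_local_left H hfS hFS huS
  filter_upwards [e1, e2, e3, e4, e5, e6, hself1, hself2, gp_abs_le H hFS huS,
    gp_abs_le H hfS huS, hwF, hwf, hw, wg_nonneg H huS, wg_nonneg H hfS, wg_nonneg H hFS]
    with x e1 e2 e3 e4 e5 e6 s1 s2 a1 a2 b1 b2 b3 n1 n2 n3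
  -- the square of the gradient of `c f`
  have hsq : minWeakGrad m (fun y => c * f y) x ^ 2 = c ^ 2 * minWeakGrad m f x ^ 2 := by
    rw [← s1, e4, e5, s2]; ring
  rw [e1, e2, hsq, e3]
  have hf2 : c ^ 2 * minWeakGrad m f x ^ 2 ≤ c ^ 2 * (Lf : ℝ) ^ 2 := by gcongr
  have hmain : c * gradPairing m F u x ≤ c * gradPairing m f u x +
      |c| * ({x | f x ≠ F x}.indicator (fun x => ((LF : ℝ) + Lf) * w x) x) := by
    by_cases hx : f x = F x
    · rw [← e6 hx]
      have : x ∉ {x | f x ≠ F x} := fun h => h hx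
      rw [Set.indicator_of_notMem this, mul_zero, add_zero]
    · have hx' : x ∈ {x | f x ≠ F x} := hx
      rw [Set.indicator_of_mem hx']
      have h1 : c * gradPairing m F u x - c * gradPairing m f u x ≤
          |c| * (|gradPairing m F u x| + |gradPairing m f u x|) := by
        calc c * gradPairing m F u x - c * gradPairing m f u x
            = c * (gradPairing m F u x - gradPairing m f u x) := by ring
          _ ≤ |c * (gradPairing m F u x - gradPairing m f u x)| := le_abs_self _
          _ = |c| * |gradPairing m F u x - gradPairing m f u x| := abs_mul _ _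
          _ ≤ |c| * (|gradPairing m F u x| + |gradPairing m f u x|) := by
              gcongr; exact abs_sub _ _
      have h2 : |gradPairing m F u x| + |gradPairing m f u x| ≤ ((LF : ℝ) + Lf) * w x := by
        calc |gradPairing m F u x| + |gradPairing m f u x|
            ≤ minWeakGrad m F x * minWeakGrad m u x + minWeakGrad m f x * minWeakGrad m u x :=
              add_le_add a1 a2
          _ ≤ LF * w x + Lf * w x := by
              gcongr
          _ = _ := by ring
      have h3 : |c| * (|gradPairing m F u x| + |gradPairing m f u x|) ≤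
          |c| * (((LF : ℝ) + Lf) * w x) := by gcongr
      linarith
  nlinarith [hmain, hf2]

end Fin
end Crest.Agent.R242
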