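import Crest.Agent.R242.PtInst

/-!
Row 242, part F: the second half of `CutInst` (owner helper41): the majorant `wpt` of
`wg (pt s)`, and the convergence of the cut-off error functions.
-/

set_option autoImplicit false
set_option linter.unusedSectionVars false
set_option linter.unusedVariables false

open MeasureTheory Filter Set
open scoped ENNReal NNReal Topology
open Crest.GeometryTopology.SyntheticRicci

noncomputable section

namespace Crest.Agent.R242
namespace Fin

variable {X : Type*} [MetricSpace X] [ProperSpace X] [MeasurableSpace X] [BorelSpace X]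
  {m : Measure X} [IsLocallyFiniteMeasure m] [m.IsOpenPosMeasure]
  {k N h₀ δ d : ℝ} {o : X} {F f : X → ℝ}

/-- the majorant of `wg (pt s)`, independent of `s` -/
def wpt (m : Measure X) (δ d : ℝ) (o : X) (x : X) : ℝ :=
  √(18 * d ^ 2 * J m δ ((Metric.closedBall o (5 * d / 2)).indicator fun _ => (1 : ℝ)) x)

omit [m.IsOpenPosMeasure] in
theorem ballInd_memLp (R c : ℝ) :
    MemLp ((Metric.closedBall o R).indicator fun _ : X => c) 2 m :=
  memLp_indicator_const 2 measurableSet_closedBall c (Or.inr measure_closedBall_lt_top.ne)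

omit [m.IsOpenPosMeasure] in
theorem ballInd_integrable (R c : ℝ) :
    Integrable ((Metric.closedBall o R).indicator fun _ : X => c) m :=
  (integrable_indicator_iff measurableSet_closedBall).mpr
    (integrableOn_const (by exact measure_closedBall_lt_top.ne))

theorem J_ballInd_nonneg (H : Hyp m k N) (hδ : 0 < δ) (R : ℝ) :
    ∀ᵐ x ∂m, 0 ≤ J m δ ((Metric.closedBall o R).indicator fun _ => (1 : ℝ)) x := by
  refine Jr_nonneg H pt_bddLip_zero hδ (ballInd_memLp R 1) (Eventually.of_forall fun x => ?_)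
  exact indicator_nonneg (fun _ _ => zero_le_one) x

theorem J_ballInd_le_one (H : Hyp m k N) (hδ : 0 < δ) (R : ℝ) :
    ∀ᵐ x ∂m, J m δ ((Metric.closedBall o R).indicator fun _ => (1 : ℝ)) x ≤ 1 := by
  refine Jr_le_const H pt_bddLip_zero hδ (ballInd_memLp R 1) zero_le_one
    (Eventually.of_forall fun x => ?_)
  by_cases hx : x ∈ Metric.closedBall o R
  · rw [indicator_of_mem hx]
  · rw [indicator_of_notMem hx]; exact zero_le_one

theorem wpt_memLp (H : Hyp m k N) (hδ : 0 < δ) : MemLp (wpt m δ d o) 2 m := by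
  have h1 : MemLp (J m δ ((Metric.closedBall o (5 * d / 2)).indicator fun _ => (1 : ℝ))) 2 m :=
    Jr_memLp H pt_bddLip_zero hδ (ballInd_memLp _ 1)
  have h2 : Integrable (J m δ ((Metric.closedBall o (5 * d / 2)).indicator fun _ => (1 : ℝ))) m :=
    (Jr_l1 H pt_bddLip_zero hδ (ballInd_memLp _ 1) (ballInd_integrable _ 1)).1
  have hm : AEStronglyMeasurable (wpt m δ d o) m :=
    Real.continuous_sqrt.comp_aestronglyMeasurable (h1.1.const_mul (18 * d ^ 2))
  rw [memLp_two_iff_integrable_sq hm]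
  refine (h2.const_mul (18 * d ^ 2)).congr ?_
  filter_upwards [J_ballInd_nonneg (o := o) H hδ (5 * d / 2)] with x hx
  unfold wpt
  rw [Real.sq_sqrt (by positivity)]

theorem wpt_bdd (H : Hyp m k N) (hδ : 0 < δ) : ∀ᵐ x ∂m, |wpt m δ d o x| ≤ 5 * |d| := by
  filter_upwards [J_ballInd_le_one (o := o) H hδ (5 * d / 2)] with x hx
  unfold wpt
  rw [abs_of_nonneg (Real.sqrt_nonneg _)]
  refine Real.sqrt_le_iff.mpr ⟨by positivity, ?_⟩
  rw [mul_pow, sq_abs]
  have h1 : 18 * d ^ 2 * J m δ ((Metric.closedBall o (5 * d / 2)).indicator fun _ => (1 : ℝ)) x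
      ≤ 18 * d ^ 2 * 1 := mul_le_mul_of_nonneg_left hx (by positivity)
  nlinarith [sq_nonneg d]

omit [ProperSpace X] [MeasurableSpace X] [BorelSpace X] in
/-- the descending slope vanishes where the function vanishes locally -/
theorem descSlope_eq_zero_of_eventually {g : X → ℝ} {x : X} (h : ∀ᶠ y in 𝓝 x, g y = 0) :
    descSlope g x = 0 := by
  have hx : g x = 0 := h.self_of_nhds
  have h1 : (fun y => ENNReal.ofReal ((g x - g y) / dist y x)) =ᶠ[𝓝[≠] x] fun _ => 0 := by
    filter_upwards [h.filter_mono nhdsWithin_le_nhds] with y hy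
    rw [hx, hy]; simp
  unfold descSlope
  rw [limsup_congr h1]
  by_cases hb : (𝓝[≠] x).NeBot
  · exact limsup_const 0
  · rw [Filter.not_neBot] at hb
    rw [hb]
    simp [Filter.limsup_bot]

theorem wg_ptf_le_wpt (H : Hyp m k N) (hδ : 0 < δ) (hδk : 4 * δ * k ≤ 1) (hd : 0 ≤ d)
    (hslope : ∀ (f : X → ℝ) (L : ℝ≥0), LipschitzWith L f →
      ∀ᵐ x ∂m, ENNReal.ofReal (minWeakGrad m f x) ≤ descSlope f x)
    (hbe : ∀ f : X → ℝ, IsSobolev m f → MemLp (fun x => minWeakGrad m f x ^ 2) 2 m →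
      ∀ᵐ x ∂m, minWeakGrad m (J m δ f) x ^ 2 ≤
        (1 - 2 * δ * k)⁻¹ * J m δ (fun x => minWeakGrad m f x ^ 2) x)
    {s : ℝ} (hs : s ∈ Icc (0 : ℝ) 1) :
    ∀ᵐ x ∂m, minWeakGrad m (ptf m δ d o s) x ≤ wpt m δ d o x := by
  have hc : (1 : ℝ) / 2 ≤ 1 - 2 * δ * k := by linarith
  have hc0 : 0 < 1 - 2 * δ * k := by linarith
  have hinv : (1 - 2 * δ * k)⁻¹ ≤ 2 := by
    rw [inv_le_comm₀ hc0 (by norm_num)]
    linarith
  have hsob : IsSobolev m (hopfLax (cone o d) s : X → ℝ) := psi_sob H hd hs.1 hs.2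
  have hwgL : ∀ᵐ x ∂m, minWeakGrad m (hopfLax (cone o d) s) x ≤ 3 * d := by
    filter_upwards [hslope _ _ (psi_lip (o := o) hd hs.1)] with x hx
    have h1 := hx.trans (descSlope_le_of_lipschitz (psi_lip (o := o) hd hs.1) x)
    have h2 : ENNReal.ofReal (minWeakGrad m (hopfLax (cone o d) s) x) ≤
        ENNReal.ofReal (3 * d) := by
      exact h1
    exact (ENNReal.ofReal_le_ofReal_iff (by positivity)).mp h2
  have hB2 : B2 m (fun x => minWeakGrad m (hopfLax (cone o d) s) x ^ 2) :=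
    Fin.B2_wg_sq hsob hwgL
  -- the gradient vanishes off the ball
  have hptw : (fun x => minWeakGrad m (hopfLax (cone o d) s) x ^ 2) ≤ᵐ[m]
      fun x => 9 * d ^ 2 * ((Metric.closedBall o (5 * d / 2)).indicator fun _ => (1 : ℝ)) x := by
    filter_upwards [hwgL, Fin.wg_nonneg hsob, hslope _ _ (psi_lip (o := o) hd hs.1)]
      with x hx1 hx2 hx3
    by_cases hx : x ∈ Metric.closedBall o (5 * d / 2)
    · rw [indicator_of_mem hx, mul_one]
      nlinarith
    · rw [indicator_of_notMem hx, mul_zero]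
      have h1 : ∀ᶠ y in 𝓝 x, hopfLax (cone o d) s y = 0 := by
        filter_upwards [Metric.isClosed_closedBall.isOpen_compl.mem_nhds hx] with y hy
        exact psi_zero hd hs.1 hs.2 hy
      rw [descSlope_eq_zero_of_eventually h1, nonpos_iff_eq_zero, ENNReal.ofReal_eq_zero] at hx3
      have h2 : minWeakGrad m (hopfLax (cone o d) s) x = 0 := le_antisymm hx3 hx2
      rw [h2]; norm_num
  have h1 := hbe _ hsob hB2.1
  have h2 : J m δ (fun x => minWeakGrad m (hopfLax (cone o d) s) x ^ 2) ≤ᵐ[m]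
      J m δ (fun x => 9 * d ^ 2 *
        ((Metric.closedBall o (5 * d / 2)).indicator fun _ => (1 : ℝ)) x) :=
    Jr_mono H pt_bddLip_zero hδ hB2.1 ((ballInd_memLp (5 * d / 2) 1).const_mul _) hptw
  have h3 := Jr_smul H pt_bddLip_zero hδ (9 * d ^ 2) (ballInd_memLp (m := m) (o := o) (5 * d / 2) 1)
  filter_upwards [h1, h2, h3, J_ballInd_nonneg (o := o) H hδ (5 * d / 2)] with x hx1 hx2 hx3 hx4
  refine Real.le_sqrt_of_sq_le (hx1.trans ?_)
  have hx3' : J m δ (fun x => 9 * d ^ 2 *
      ((Metric.closedBall o (5 * d / 2)).indicator fun _ => (1 : ℝ)) x) x =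
      9 * d ^ 2 * J m δ ((Metric.closedBall o (5 * d / 2)).indicator fun _ => (1 : ℝ)) x := hx3
  rw [hx3'] at hx2
  calc (1 - 2 * δ * k)⁻¹ * J m δ (fun x => minWeakGrad m (hopfLax (cone o d) s) x ^ 2) x
      ≤ (1 - 2 * δ * k)⁻¹ * (9 * d ^ 2 *
          J m δ ((Metric.closedBall o (5 * d / 2)).indicator fun _ => (1 : ℝ)) x) :=
        mul_le_mul_of_nonneg_left hx2 (inv_nonneg.mpr hc0.le)
    _ ≤ 2 * (9 * d ^ 2 *
          J m δ ((Metric.closedBall o (5 * d / 2)).indicator fun _ => (1 : ℝ)) x) :=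
        mul_le_mul_of_nonneg_right hinv (by positivity)
    _ = 18 * d ^ 2 *
          J m δ ((Metric.closedBall o (5 * d / 2)).indicator fun _ => (1 : ℝ)) x := by ring

/-- the error functions tend to `0` in `L²` -/
theorem cut_tendsto {w : X → ℝ} (hw : MemLp w 2 m) {fn : ℕ → X → ℝ} (hfn : ∀ n, Measurable (fn n))
    (hF : Measurable F) (h : ∀ n : ℕ, ∀ x ∈ Metric.closedBall o (n : ℝ), fn n x = F x) (c : ℝ) :
    Tendsto (fun n => ∫ x, ({x | fn n x ≠ F x}.indicator (fun x => c * w x) x) ^ 2 ∂m)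
      atTop (𝓝 0) := by
  have h0 : ∫ x : X, (0 : ℝ) ∂m = 0 := integral_zero _ _
  have hcw : MemLp (fun x => c * w x) 2 m := hw.const_mul c
  rw [← h0]
  refine tendsto_integral_of_dominated_convergence (fun x => (c * w x) ^ 2) ?_ ?_ ?_ ?_
  · intro n
    have hS : MeasurableSet {x | fn n x ≠ F x} :=
      (measurableSet_eq_fun (hfn n) hF).compl
    exact (hcw.1.indicator hS).pow 2
  · exact (memLp_two_iff_integrable_sq hcw.1).mp hcw
  · intro n
    refine Eventually.of_forall fun x => ?_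
    rw [Real.norm_of_nonneg (sq_nonneg _)]
    by_cases hx : x ∈ {x | fn n x ≠ F x}
    · rw [indicator_of_mem hx]
    · rw [indicator_of_notMem hx]
      simpa using sq_nonneg (c * w x)
  · refine Eventually.of_forall fun x => ?_
    refine tendsto_const_nhds.congr' ?_
    obtain ⟨n₀, hn₀⟩ := exists_nat_ge (dist x o)
    filter_upwards [eventually_ge_atTop n₀] with n hn
    have hx : x ∉ {x | fn n x ≠ F x} := by
      rw [Set.mem_ofPred_eq, not_not]
      refine h n x ?_
      rw [Metric.mem_closedBall]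
      exact hn₀.trans (Nat.cast_le.mpr hn)
    rw [indicator_of_notMem hx]
    norm_num

end Fin
end Crest.Agent.R242
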