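import Crest.Agent.R242.CutA
import Crest.Agent.R242.CutB

/-!
Row 242, part F: cut-offs of `F` (`CutA`), the pairing inequality `hcalc` of `Fin.F_ineq`
(`CutA`), the error functions `g_n` (`CutB`).
-/
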