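import Crest.Agent.R242.Defs

/-!
Row 242, part D: auxiliary lemmas on `L^p` convergence of genuine functions.
-/

set_option autoImplicit false

open MeasureTheory Filter Set
open scoped ENNReal NNReal Topology
open Crest.GeometryTopology.SyntheticRicci

noncomputable section

namespace Crest.Agent.R242

section LpTo

variable {X : Type*} [MeasurableSpace X] {m : Measure X}

/-- convergence of genuine functions in `L^p`. -/
def LpTo (m : Measure X) (p : ℝ≥0∞) (f : ℕ → X → ℝ) (g : X → ℝ) : Prop :=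
  Tendsto (fun n => eLpNorm (fun x => f n x - g x) p m) atTop (𝓝 0)

theorem LpTo.add {p : ℝ≥0∞} (hp : 1 ≤ p) {f g : ℕ → X → ℝ} {f' g' : X → ℝ}
    (hf : ∀ n, AEStronglyMeasurable (f n) m) (hf' : AEStronglyMeasurable f' m)
    (hg : ∀ n, AEStronglyMeasurable (g n) m) (hg' : AEStronglyMeasurable g' m)
    (h1 : LpTo m p f f') (h2 : LpTo m p g g') :
    LpTo m p (fun n x => f n x + g n x) (fun x => f' x + g' x) := by
  unfold LpTo at *
  have h3 := h1.add h2
  simp only [add_zero] at h3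
  refine tendsto_of_tendsto_of_tendsto_of_le_of_le tendsto_const_nhds h3 (fun _ => zero_le) ?_
  intro n
  have : (fun x => f n x + g n x - (f' x + g' x)) =
      (fun x => f n x - f' x) + (fun x => g n x - g' x) := by
    funext x; simp only [Pi.add_apply]; ring
  simp only [this]
  exact eLpNorm_add_le ((hf n).sub hf') ((hg n).sub hg') hp

theorem LpTo.bdd_mul {p : ℝ≥0∞} {f : ℕ → X → ℝ} {f' E : X → ℝ} {C : ℝ}
    (hE : ∀ᵐ x ∂m, |E x| ≤ C) (h1 : LpTo m p f f') :
    LpTo m p (fun n x => E x * f n x) (fun x => E x * f' x) := by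
  unfold LpTo at *
  have h3 : Tendsto (fun n => ENNReal.ofReal C * eLpNorm (fun x => f n x - f' x) p m) atTop
      (𝓝 0) := by
    have := ENNReal.Tendsto.const_mul (a := ENNReal.ofReal C) h1 (Or.inr ENNReal.ofReal_ne_top)
    simpa using this
  refine tendsto_of_tendsto_of_tendsto_of_le_of_le tendsto_const_nhds h3 (fun _ => zero_le) ?_
  intro n
  refine eLpNorm_le_mul_eLpNorm_of_ae_le_mul ?_ p
  filter_upwards [hE] with x hx
  have : E x * f n x - E x * f' x = E x * (f n x - f' x) := by ring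
  rw [this, norm_mul]
  exact mul_le_mul_of_nonneg_right (by simpa using hx) (norm_nonneg _)

theorem LpTo.congr {p : ℝ≥0∞} {f g : ℕ → X → ℝ} {f' g' : X → ℝ}
    (h : ∀ n, f n =ᵐ[m] g n) (h' : f' =ᵐ[m] g') (h1 : LpTo m p f f') : LpTo m p g g' := by
  unfold LpTo at *
  refine h1.congr fun n => ?_
  refine eLpNorm_congr_ae ?_
  filter_upwards [h n, h'] with x hx hx'
  rw [hx, hx']

/-- domination: if `|g n - g'| ≤ |f n|` and `f n → 0`. -/
theorem LpTo.of_le {p : ℝ≥0∞} {f : ℕ → X → ℝ} {g : ℕ → X → ℝ} {g' : X → ℝ}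
    (h : ∀ n, ∀ᵐ x ∂m, |g n x - g' x| ≤ f n x)
    (h1 : Tendsto (fun n => eLpNorm (f n) p m) atTop (𝓝 0)) : LpTo m p g g' := by
  unfold LpTo
  refine tendsto_of_tendsto_of_tendsto_of_le_of_le tendsto_const_nhds h1 (fun _ => zero_le) ?_
  intro n
  refine eLpNorm_mono_ae ?_
  filter_upwards [h n] with x hx
  rw [Real.norm_eq_abs, Real.norm_eq_abs]
  exact hx.trans (le_abs_self _)

theorem eLpNorm_mul_le_mul {p q r : ℝ≥0∞} [ENNReal.HolderTriple p q r] {a b : X → ℝ}
    (ha : AEStronglyMeasurable a m) (hb : AEStronglyMeasurable b m) :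
    eLpNorm (fun x => a x * b x) r m ≤ eLpNorm a p m * eLpNorm b q m := by
  have := eLpNorm_le_eLpNorm_mul_eLpNorm'_of_norm (p := p) (q := q) (r := r) ha hb
    (fun s t : ℝ => s * t) 1 (Eventually.of_forall fun x => by simp)
  simpa using this

theorem tendsto_eLpNorm_mul_zero {p q r : ℝ≥0∞} [ENNReal.HolderTriple p q r]
    {a b : ℕ → X → ℝ} {B : ℝ≥0∞} (hB : B ≠ ⊤)
    (ha : ∀ n, AEStronglyMeasurable (a n) m) (hb : ∀ n, AEStronglyMeasurable (b n) m)
    (h1 : Tendsto (fun n => eLpNorm (a n) p m) atTop (𝓝 0))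
    (h2 : ∀ n, eLpNorm (b n) q m ≤ B) :
    Tendsto (fun n => eLpNorm (fun x => a n x * b n x) r m) atTop (𝓝 0) := by
  have h3 : Tendsto (fun n => eLpNorm (a n) p m * B) atTop (𝓝 0) := by
    have := ENNReal.Tendsto.mul_const (b := B) h1 (Or.inr hB)
    simpa using this
  refine tendsto_of_tendsto_of_tendsto_of_le_of_le tendsto_const_nhds h3 (fun _ => zero_le) ?_
  intro n
  have := eLpNorm_mul_le_mul (p := p) (q := q) (r := r) (ha n) (hb n)
  exact this.trans (mul_le_mul_right (h2 n) _)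

theorem tendsto_eLpNorm_add_zero {p : ℝ≥0∞} (hp : 1 ≤ p)
    {a b : ℕ → X → ℝ}
    (ha : ∀ n, AEStronglyMeasurable (a n) m) (hb : ∀ n, AEStronglyMeasurable (b n) m)
    (h1 : Tendsto (fun n => eLpNorm (a n) p m) atTop (𝓝 0))
    (h2 : Tendsto (fun n => eLpNorm (b n) p m) atTop (𝓝 0)) :
    Tendsto (fun n => eLpNorm (fun x => a n x + b n x) p m) atTop (𝓝 0) := by
  have h3 := h1.add h2
  simp only [add_zero] at h3
  refine tendsto_of_tendsto_of_tendsto_of_le_of_le tendsto_const_nhds h3 (fun _ => zero_le) ?_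
  intro n
  exact eLpNorm_add_le (ha n) (hb n) hp

theorem LpTo.mul {p q r : ℝ≥0∞} [ENNReal.HolderTriple p q r] (hr : 1 ≤ r)
    {f g : ℕ → X → ℝ} {f' g' : X → ℝ}
    (hf : ∀ n, AEStronglyMeasurable (f n) m) (hf' : MemLp f' p m)
    (hg : ∀ n, AEStronglyMeasurable (g n) m) (hg' : MemLp g' q m)
    (h1 : LpTo m p f f') (h2 : LpTo m q g g') :
    LpTo m r (fun n x => f n x * g n x) (fun x => f' x * g' x) := by
  have e1 : Tendsto (fun n => eLpNorm (fun x => f n x - f' x) p m
      * eLpNorm (fun x => g n x - g' x) q m) atTop (𝓝 0) := by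
    have := ENNReal.Tendsto.mul h1 (Or.inr ENNReal.zero_ne_top) h2 (Or.inr ENNReal.zero_ne_top)
    simpa using this
  have e2 : Tendsto (fun n => eLpNorm (fun x => f n x - f' x) p m
      * eLpNorm g' q m) atTop (𝓝 0) := by
    have := ENNReal.Tendsto.mul_const (b := eLpNorm g' q m) h1 (Or.inr hg'.2.ne)
    simpa using this
  have e3 : Tendsto (fun n => eLpNorm f' p m * eLpNorm (fun x => g n x - g' x) q m)
      atTop (𝓝 0) := by
    have := ENNReal.Tendsto.const_mul (a := eLpNorm f' p m) h2 (Or.inr hf'.2.ne)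
    simpa using this
  have e4 := (e1.add e2).add e3
  simp only [add_zero] at e4
  unfold LpTo
  refine tendsto_of_tendsto_of_tendsto_of_le_of_le tendsto_const_nhds e4 (fun _ => zero_le) ?_
  intro n
  have hd : (fun x => f n x * g n x - f' x * g' x) =
      ((fun x => (f n x - f' x) * (g n x - g' x)) +
        (fun x => (f n x - f' x) * g' x)) + (fun x => f' x * (g n x - g' x)) := by
    funext x; simp only [Pi.add_apply]; ring
  have ma : AEStronglyMeasurable (fun x => f n x - f' x) m := (hf n).sub hf'.1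
  have mb : AEStronglyMeasurable (fun x => g n x - g' x) m := (hg n).sub hg'.1
  have m1 : AEStronglyMeasurable (fun x => (f n x - f' x) * (g n x - g' x)) m := ma.mul mb
  have m2 : AEStronglyMeasurable (fun x => (f n x - f' x) * g' x) m := ma.mul hg'.1
  have m3 : AEStronglyMeasurable (fun x => f' x * (g n x - g' x)) m := hf'.1.mul mb
  show eLpNorm (fun x => f n x * g n x - f' x * g' x) r m ≤ _
  rw [hd]
  refine (eLpNorm_add_le (m1.add m2) m3 hr).trans ?_
  refine add_le_add ((eLpNorm_add_le m1 m2 hr).trans (add_le_add ?_ ?_)) ?_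
  · exact eLpNorm_mul_le_mul ma mb
  · exact eLpNorm_mul_le_mul ma hg'.1
  · exact eLpNorm_mul_le_mul hf'.1 mb

theorem LpTo.tendsto_integral {f : ℕ → X → ℝ} {f' : X → ℝ}
    (hf : ∀ n, Integrable (f n) m) (hf' : Integrable f' m) (h : LpTo m 1 f f') :
    Tendsto (fun n => ∫ x, f n x ∂m) atTop (𝓝 (∫ x, f' x ∂m)) := by
  refine tendsto_integral_of_L1' f' hf'.1 (Eventually.of_forall hf) ?_
  exact h

/-- bounded functions converging in `L²`, tested against an `L¹` function. -/
theorem tendsto_integral_L1_mul_bdd {f ψ : X → ℝ} {ψn : ℕ → X → ℝ} {B : ℝ}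
    (hf : Integrable f m) (hψn : ∀ n, AEStronglyMeasurable (ψn n) m)
    (hψ : AEStronglyMeasurable ψ m) (hb : ∀ n, ∀ᵐ x ∂m, |ψn n x| ≤ B)
    {p : ℝ≥0∞} (hp : p ≠ 0) (h : LpTo m p ψn ψ) :
    Tendsto (fun n => ∫ x, f x * ψn n x ∂m) atTop (𝓝 (∫ x, f x * ψ x ∂m)) := by
  refine tendsto_of_subseq_tendsto fun ns hns => ?_
  have h1 : TendstoInMeasure m (fun n => ψn (ns n)) atTop ψ := by
    refine tendstoInMeasure_of_tendsto_eLpNorm hp (fun n => hψn _) hψ ?_
    exact h.comp hns
  obtain ⟨ms, -, hms⟩ := h1.exists_seq_tendsto_ae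
  refine ⟨ms, ?_⟩
  refine tendsto_integral_of_dominated_convergence (fun x => |f x| * B) ?_
    (hf.abs.mul_const B) ?_ ?_
  · exact fun n => hf.1.mul (hψn _)
  · intro n
    filter_upwards [hb (ns (ms n))] with x hx
    rw [norm_mul, Real.norm_eq_abs, Real.norm_eq_abs]
    exact mul_le_mul_of_nonneg_left hx (abs_nonneg _)
  · filter_upwards [hms] with x hx
    exact hx.const_mul _

/-- bounded factors converging in `L²`, other factor converging in `L¹`. -/
theorem tendsto_integral_L1_mul_bdd' {f ψ : X → ℝ} {fn ψn : ℕ → X → ℝ} {B : ℝ}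
    (hfn : ∀ n, Integrable (fn n) m) (hf : Integrable f m)
    (hψn : ∀ n, AEStronglyMeasurable (ψn n) m)
    (hψ : AEStronglyMeasurable ψ m) (hb : ∀ n, ∀ᵐ x ∂m, |ψn n x| ≤ B)
    (h0 : LpTo m 1 fn f)
    {p : ℝ≥0∞} (hp : p ≠ 0) (h : LpTo m p ψn ψ) :
    Tendsto (fun n => ∫ x, fn n x * ψn n x ∂m) atTop (𝓝 (∫ x, f x * ψ x ∂m)) := by
  have h1 := tendsto_integral_L1_mul_bdd hf hψn hψ hb hp h
  have h2 : Tendsto (fun n => ∫ x, (fn n x - f x) * ψn n x ∂m) atTop (𝓝 0) := by
    have h3 : LpTo m 1 (fun n x => (fn n x - f x) * ψn n x) (fun _ => 0) := by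
      unfold LpTo at h0 ⊢
      have h3 : Tendsto (fun n => ENNReal.ofReal B * eLpNorm (fun x => fn n x - f x) 1 m) atTop
          (𝓝 0) := by
        have := ENNReal.Tendsto.const_mul (a := ENNReal.ofReal B) h0
          (Or.inr ENNReal.ofReal_ne_top)
        simpa using this
      refine tendsto_of_tendsto_of_tendsto_of_le_of_le tendsto_const_nhds h3
        (fun _ => zero_le) ?_
      intro n
      refine eLpNorm_le_mul_eLpNorm_of_ae_le_mul ?_ 1
      filter_upwards [hb n] with x hx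
      rw [sub_zero, norm_mul, mul_comm]
      exact mul_le_mul_of_nonneg_right (by simpa using hx) (norm_nonneg _)
    have h4 := h3.tendsto_integral (fun n => ?_) (integrable_zero _ _ _)
    · simpa using h4
    · exact ((hfn n).sub hf).mul_bdd (hψn n) (by simpa using hb n)
  have h5 := h1.add h2
  rw [add_zero] at h5
  refine h5.congr fun n => ?_
  rw [← integral_add]
  · congr 1; funext x; ring
  · exact hf.mul_bdd (hψn n) (by simpa using hb n)
  · exact ((hfn n).sub hf).mul_bdd (hψn n) (by simpa using hb n)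

end LpTo

end Crest.Agent.R242
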