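import Crest.Agent.R242.GamA0
import Crest.Agent.R242.Sob2Lip

/-!
# Row 242, PART G: G2 (regularisation, pointwise operator `Jc`), G4 (weak Bochner),
G5 (`wg f ^ 2 ∈ W^{1,2}`), G6 (Gagliardo-Nirenberg type inequality). Owner helper589.
-/

set_option autoImplicit false
set_option linter.unusedSectionVars false

open MeasureTheory Filter Set
open scoped ENNReal NNReal Topology
open Crest.GeometryTopology.SyntheticRicci

noncomputable section

namespace Crest.Agent.R242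

variable {X : Type*} [MetricSpace X] [ProperSpace X] [MeasurableSpace X] [BorelSpace X]
  {m : Measure X} [IsLocallyFiniteMeasure m] [m.IsOpenPosMeasure] {k N h₀ h : ℝ}
  {f g φ ψ : X → ℝ}

/-- a function with `∫ q F ≤ c ∫ q` for all indicators `q` is at most `c`. -/
theorem gamA_ae_le_const {F : X → ℝ} (hF : Integrable F m) {c : ℝ}
    (hc : ∀ s, MeasurableSet s → m s < ∞ → ∫ x in s, F x ∂m ≤ c * (m s).toReal) :
    ∀ᵐ x ∂m, F x ≤ c := by
  have h1 : 0 ≤ᵐ[m] fun x => c - F x := by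
    refine ae_nonneg_of_forall_setIntegral_nonneg_of_sigmaFinite ?_ ?_
    · intro s hs hms
      exact (integrableOn_const (hs := hms.ne) (by simp)).sub hF.integrableOn
    · intro s hs hms
      have hci : Integrable (fun _ : X => c) (m.restrict s) :=
        integrableOn_const (hs := hms.ne) (by simp)
      rw [integral_sub hci hF.integrableOn]
      have := hc s hs hms
      simp only [integral_const, smul_eq_mul, measureReal_def, Measure.restrict_apply_univ]
      rw [mul_comm]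
      linarith
  filter_upwards [h1] with x hx
  simp only [Pi.zero_apply] at hx
  linarith

theorem gamA_c_le (GJ : GoodJ m k h₀) (hk : 0 < k) (hh0 : h ≤ h₀) :
    0 < 1 - 2 * h * k ∧ (1 - 2 * h * k)⁻¹ ≤ 2 := by
  have h1 := GJ.small
  have h2 : 2 * h * k ≤ 1 / 2 := by nlinarith
  have h3 : 1 / 2 ≤ 1 - 2 * h * k := by linarith
  refine ⟨by linarith, ?_⟩
  rw [inv_le_comm₀ (by linarith) (by norm_num)]
  linarith

theorem wg_JJ_sq_le (H : Hyp m k N) (C : Calc m) (GJ : GoodJ m k h₀) (hh : 0 < h) (hh0 : h ≤ h₀)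
    (hf : MemLp f 2 m) {M : ℝ} (hM : ∀ᵐ x ∂m, |f x| ≤ M) :
    ∀ᵐ x ∂m, minWeakGrad m (J m h (J m h f)) x ^ 2 ≤ M ^ 2 / h := by
  obtain ⟨hc0, hc2⟩ := gamA_c_le GJ H.kpos hh0
  have hus := gamA_sob C hh hf
  have hjus := gamA_sob C hh hus.1
  refine gamA_ae_le_const (integrable_wg_sq H hjus) fun s hs hms => ?_
  set q : X → ℝ := s.indicator fun _ => 1 with hq
  have hq0 : 0 ≤ᵐ[m] q := Eventually.of_forall fun x => indicator_nonneg (fun _ _ => zero_le_one) x
  have hq1 : Integrable q m := (integrable_indicator_iff hs).2 (integrableOn_const (hs := hms.ne) (by simp))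
  have hqb : ∀ᵐ x ∂m, |q x| ≤ 1 := Eventually.of_forall fun x => by
    by_cases hx : x ∈ s <;> simp [hq, hx]
  have hb := GJ.be h hh hh0 (J m h f) hus q hq0 (memLp_one_iff_integrable.2 hq1)
    (gamA_memLp_top hq1.1 ⟨1, hqb⟩)
  have hk := gamA_key H C hh hf hM hq0 hq1 ⟨1, hqb⟩
  have hqi : ∫ x, q x ∂m = (m s).toReal := by
    rw [hq, integral_indicator hs, integral_const, measureReal_restrict_apply_univ]
    simp [measureReal_def]
  have hl : ∫ x in s, minWeakGrad m (J m h (J m h f)) x ^ 2 ∂m =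
      ∫ x, q x * minWeakGrad m (J m h (J m h f)) x ^ 2 ∂m := by
    rw [← integral_indicator hs]
    refine integral_congr_ae (Eventually.of_forall fun x => ?_)
    by_cases hx : x ∈ s <;> simp [hq, hx]
  rw [hl]
  refine hb.trans ?_
  have hms0 : 0 ≤ (m s).toReal := ENNReal.toReal_nonneg
  calc (1 - 2 * h * k)⁻¹ * ∫ x, J m h q x * minWeakGrad m (J m h f) x ^ 2 ∂m
      ≤ (1 - 2 * h * k)⁻¹ * (M ^ 2 / (2 * h) * ∫ x, q x ∂m) := by
        refine mul_le_mul_of_nonneg_left hk (inv_nonneg.2 hc0.le)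
    _ ≤ 2 * (M ^ 2 / (2 * h) * ∫ x, q x ∂m) := by
        refine mul_le_mul_of_nonneg_right hc2 ?_
        rw [hqi]; positivity
    _ = M ^ 2 / h * (m s).toReal := by
        rw [hqi]; field_simp

theorem wg_JJ_le (H : Hyp m k N) (C : Calc m) (GJ : GoodJ m k h₀) (hh : 0 < h) (hh0 : h ≤ h₀)
    (hf : MemLp f 2 m) {M : ℝ} (hM : ∀ᵐ x ∂m, |f x| ≤ M) :
    ∀ᵐ x ∂m, minWeakGrad m (J m h (J m h f)) x ≤ M / Real.sqrt h := by
  filter_upwards [wg_JJ_sq_le H C GJ hh hh0 hf hM, hM] with x hx hMx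
  have hM0 : 0 ≤ M := (abs_nonneg _).trans hMx
  refine (Real.le_sqrt_of_sq_le hx).trans (le_of_eq ?_)
  rw [Real.sqrt_div (sq_nonneg M), Real.sqrt_sq hM0]

/-- Bakry-Emery for a weight `q ≥ 0` in `L² ∩ L^∞`. -/
theorem be_l2 (H : Hyp m k N) (C : Calc m) (GJ : GoodJ m k h₀) (hh : 0 < h) (hh0 : h ≤ h₀)
    (hf : IsSobolev m f) {q : X → ℝ} (hq0 : 0 ≤ᵐ[m] q) (hq : MemLp q 2 m)
    (hqb : ∃ B : ℝ, ∀ᵐ x ∂m, |q x| ≤ B) :
    ∫ x, q x * minWeakGrad m (J m h f) x ^ 2 ∂m ≤
      (1 - 2 * h * k)⁻¹ * ∫ x, J m h q x * minWeakGrad m f x ^ 2 ∂m := by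
  obtain ⟨hc0, hc2⟩ := gamA_c_le GJ H.kpos hh0
  obtain ⟨B, hB⟩ := hqb
  have hjf := gamA_sob C hh hf.1
  have hJq := gamA_memLp C hh hq
  have hJB := gamA_abs_le C hh hq hB
  by_cases hX : Nonempty X
  swap
  · rw [not_nonempty_iff] at hX
    have hm0 : m = 0 := by
      ext s _
      rw [Set.eq_empty_of_isEmpty s]; simp
    simp [hm0]
  obtain ⟨o⟩ := hX
  set qn : ℕ → X → ℝ := fun n => (Metric.closedBall o (n : ℝ)).indicator q with hqn
  have hle : ∀ n, ∀ᵐ x ∂m, |qn n x| ≤ B := fun n => by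
    filter_upwards [hB] with x hx
    by_cases hxs : x ∈ Metric.closedBall o (n : ℝ)
    · simpa [hqn, hxs] using hx
    · simpa [hqn, hxs] using (abs_nonneg _).trans hx
  have hstep : ∀ n, ∫ x, qn n x * minWeakGrad m (J m h f) x ^ 2 ∂m ≤
      (1 - 2 * h * k)⁻¹ * ∫ x, J m h q x * minWeakGrad m f x ^ 2 ∂m := by
    intro n
    have hs : MeasurableSet (Metric.closedBall o (n : ℝ)) := Metric.isClosed_closedBall.measurableSet
    have hqn2 : MemLp (qn n) 2 m := hq.indicator hs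
    have hqn0 : 0 ≤ᵐ[m] qn n := by
      filter_upwards [hq0] with x hx
      by_cases hxs : x ∈ Metric.closedBall o (n : ℝ)
      · simpa [hqn, hxs] using hx
      · simp [hqn, hxs]
    have hqn1 : Integrable (qn n) m := by
      rw [hqn, integrable_indicator_iff hs]
      have : IsFiniteMeasure (m.restrict (Metric.closedBall o (n : ℝ))) :=
        ⟨by rw [Measure.restrict_apply_univ]
            exact (isCompact_closedBall o (n : ℝ)).measure_lt_top⟩
      exact (hq.restrict _).integrable one_le_two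
    have hb := GJ.be h hh hh0 f hf (qn n) hqn0 (memLp_one_iff_integrable.2 hqn1)
      (gamA_memLp_top hqn1.1 ⟨B, hle n⟩)
    refine hb.trans ?_
    refine mul_le_mul_of_nonneg_left ?_ (inv_nonneg.2 hc0.le)
    have hmono : J m h (qn n) ≤ᵐ[m] J m h q := by
      refine gamA_mono C hh hqn2 hq ?_
      filter_upwards [hq0] with x hx
      by_cases hxs : x ∈ Metric.closedBall o (n : ℝ)
      · simp [hqn, hxs]
      · simpa [hqn, hxs] using hx
    refine integral_mono_ae ?_ ?_ ?_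
    · have := gamA_int_mul (integrable_wg_sq H hf) (gamA_memLp C hh hqn2).1
        ⟨B, gamA_abs_le C hh hqn2 (hle n)⟩
      simpa only [mul_comm] using this
    · have := gamA_int_mul (integrable_wg_sq H hf) hJq.1 ⟨B, hJB⟩
      simpa only [mul_comm] using this
    · filter_upwards [hmono] with x hx
      exact mul_le_mul_of_nonneg_right hx (sq_nonneg _)
  have hlim : Tendsto (fun n => ∫ x, qn n x * minWeakGrad m (J m h f) x ^ 2 ∂m) atTop
      (𝓝 (∫ x, q x * minWeakGrad m (J m h f) x ^ 2 ∂m)) := by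
    refine tendsto_integral_of_dominated_convergence
      (fun x => B * minWeakGrad m (J m h f) x ^ 2) (fun n => ?_)
      ((integrable_wg_sq H hjf).const_mul B) (fun n => ?_) ?_
    · exact ((hq.1.indicator Metric.isClosed_closedBall.measurableSet).mul
        (integrable_wg_sq H hjf).1)
    · filter_upwards [hle n] with x hx
      rw [Real.norm_eq_abs, abs_mul, abs_of_nonneg (sq_nonneg (minWeakGrad m (J m h f) x))]
      exact mul_le_mul_of_nonneg_right hx (sq_nonneg _)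
    · refine Eventually.of_forall fun x => ?_
      refine tendsto_const_nhds.congr' ?_
      filter_upwards [eventually_ge_atTop ⌈dist x o⌉₊] with n hn
      have : x ∈ Metric.closedBall o (n : ℝ) := by
        rw [Metric.mem_closedBall]
        exact (Nat.le_ceil _).trans (by exact_mod_cast hn)
      simp [hqn, this]
  exact le_of_tendsto' hlim hstep

/-! ## G4 -/

/-- continuity of the pairing in the second slot. -/
theorem gamA_tendsto_gp (H : Hyp m k N) {ι : Type*} {l : Filter ι} {gn : ι → X → ℝ}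
    (hf : IsSobolev m f) (hg : IsSobolev m g) (hgn : ∀ᶠ i in l, IsSobolev m (gn i))
    (hlim : Tendsto (fun i => ∫ x, minWeakGrad m (fun x => gn i x - g x) x ^ 2 ∂m) l (𝓝 0))
    {q : X → ℝ} (hq : AEStronglyMeasurable q m) (hqb : ∃ B : ℝ, ∀ᵐ x ∂m, |q x| ≤ B) :
    Tendsto (fun i => ∫ x, q x * gradPairing m f (gn i) x ∂m) l
      (𝓝 (∫ x, q x * gradPairing m f g x ∂m)) := by
  obtain ⟨B, hB⟩ := hqb
  have hb : ∀ᶠ i in l, |∫ x, q x * gradPairing m f (gn i) x ∂m - ∫ x, q x * gradPairing m f g x ∂m| ≤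
      |B| * (Real.sqrt (∫ x, minWeakGrad m f x ^ 2 ∂m) *
        Real.sqrt (∫ x, minWeakGrad m (fun x => gn i x - g x) x ^ 2 ∂m)) := by
    filter_upwards [hgn] with i hi
    have hs := sob_sub H hi hg
    have i1 : Integrable (fun x => q x * gradPairing m f (gn i) x) m := by
      simpa only [mul_comm] using gamA_int_mul (integrable_gp H hf hi) hq ⟨B, hB⟩
    have i2 : Integrable (fun x => q x * gradPairing m f g x) m := by
      simpa only [mul_comm] using gamA_int_mul (integrable_gp H hf hg) hq ⟨B, hB⟩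
    rw [← integral_sub i1 i2]
    refine (abs_integral_le_integral_abs).trans ?_
    refine le_trans ?_ (mul_le_mul_of_nonneg_left (gamA_cs hf.2.2 hs.2.2) (abs_nonneg B))
    rw [← integral_const_mul]
    refine integral_mono_ae (i1.sub i2).abs ?_ ?_
    · exact ((hf.2.2.integrable_mul hs.2.2).abs.const_mul _)
    · filter_upwards [hB, gp_sub_right H hf.2.1 hi.2.1 hg.2.1, gp_abs_le H hf.2.1 hs.2.1]
        with x h1 h2 h3
      have e : q x * gradPairing m f (gn i) x - q x * gradPairing m f g x =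
          q x * gradPairing m f (fun x => gn i x - g x) x := by
        rw [h2]; ring
      simp only [e]
      rw [abs_mul]
      exact mul_le_mul (h1.trans (le_abs_self _)) (h3.trans (le_abs_self _)) (abs_nonneg _)
        (abs_nonneg _)
  have h0 : Tendsto (fun i => |B| * (Real.sqrt (∫ x, minWeakGrad m f x ^ 2 ∂m) *
        Real.sqrt (∫ x, minWeakGrad m (fun x => gn i x - g x) x ^ 2 ∂m))) l (𝓝 0) := by
    have := ((hlim.sqrt).const_mul (Real.sqrt (∫ x, minWeakGrad m f x ^ 2 ∂m))).const_mul |B|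
    simpa using this
  rw [tendsto_iff_dist_tendsto_zero]
  refine squeeze_zero' (Eventually.of_forall fun _ => dist_nonneg) ?_ h0
  filter_upwards [hb] with i hi
  rw [Real.dist_eq]
  exact hi

/-- there is a sequence `h_n → 0` along which `J_{h_n} ψ → ψ` almost everywhere. -/
theorem gamA_exists_seq (C : Calc m) (hψ : MemLp ψ 2 m) (h₀pos : 0 < h₀) :
    ∃ hn : ℕ → ℝ, (∀ n, 0 < hn n) ∧ (∀ n, hn n ≤ h₀) ∧ Tendsto hn atTop (𝓝[>] 0) ∧
      ∀ᵐ x ∂m, Tendsto (fun n => J m (hn n) ψ x) atTop (𝓝 (ψ x)) := by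
  set a : ℕ → ℝ := fun n => h₀ / ((n : ℝ) + 1) with ha
  have ha0 : ∀ n, 0 < a n := fun n => by positivity
  have hale : ∀ n, a n ≤ h₀ := fun n => by
    rw [ha]
    exact div_le_self h₀pos.le (by have : (0:ℝ) ≤ n := n.cast_nonneg; linarith)
  have hat : Tendsto a atTop (𝓝[>] 0) := by
    rw [tendsto_nhdsWithin_iff]
    refine ⟨?_, Eventually.of_forall fun n => ha0 n⟩
    have := (tendsto_one_div_add_atTop_nhds_zero_nat (𝕜 := ℝ)).const_mul h₀
    simpa [ha, div_eq_mul_inv] using this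
  have h1 := (gamA_tendsto_l2 C hψ).comp hat
  have h2 : Tendsto (fun n => eLpNorm (J m (a n) ψ - ψ) 2 m) atTop (𝓝 0) := by
    have h3 : ∀ n, eLpNorm (J m (a n) ψ - ψ) 2 m =
        ENNReal.ofReal (Real.sqrt (∫ x, (J m (a n) ψ x - ψ x) ^ 2 ∂m)) := by
      intro n
      have hm : MemLp (J m (a n) ψ - ψ) 2 m := (gamA_memLp C (ha0 n) hψ).sub hψ
      rw [hm.eLpNorm_eq_integral_rpow_norm two_ne_zero ENNReal.ofNat_ne_top]
      congr 1
      rw [Real.sqrt_eq_rpow]
      congr 1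
      · refine integral_congr_ae (Eventually.of_forall fun x => ?_)
        simp
      · norm_num
    simp_rw [h3]
    have := (ENNReal.continuous_ofReal.tendsto _).comp (h1.sqrt)
    simpa [Function.comp_def] using this
  have h4 : TendstoInMeasure m (fun n => J m (a n) ψ) atTop ψ :=
    tendstoInMeasure_of_tendsto_eLpNorm two_ne_zero
      (fun n => (gamA_memLp C (ha0 n) hψ).1) hψ.1 h2
  obtain ⟨ns, hns, hlim⟩ := h4.exists_seq_tendsto_ae
  exact ⟨fun i => a (ns i), fun i => ha0 _, fun i => hale _, hat.comp hns.tendsto_atTop, hlim⟩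

/-- G4. -/
theorem weak_bochner (H : Hyp m k N) (C : Calc m) (GJ : GoodJ m k h₀)
    (hf : IsWeakLaplacian m f g) (hg : IsSobolev m g) (hφ : IsWeakLaplacian m φ ψ)
    (hφ0 : 0 ≤ᵐ[m] φ) (hφb : ∃ B : ℝ, ∀ᵐ x ∂m, |φ x| ≤ B) (hψb : ∃ B : ℝ, ∀ᵐ x ∂m, |ψ x| ≤ B) :
    ∫ x, (gradPairing m f g x - k * minWeakGrad m f x ^ 2) * φ x ∂m ≤
      1 / 2 * ∫ x, minWeakGrad m f x ^ 2 * ψ x ∂m := by
  have hfs := hf.1
  have hφs := hφ.1
  have hψ := hφ.2.1
  obtain ⟨B, hB⟩ := hφb
  obtain ⟨B', hB'⟩ := hψb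
  obtain ⟨hn, hn0, hnle, hnt, hnae⟩ := gamA_exists_seq C hψ GJ.pos
  have iw := integrable_wg_sq H hfs
  have i1 : Integrable (fun x => φ x * minWeakGrad m f x ^ 2) m := by
    simpa only [mul_comm] using gamA_int_mul iw hφs.1.1 ⟨B, hB⟩
  have i2 : Integrable (fun x => φ x * gradPairing m f g x) m := by
    simpa only [mul_comm] using gamA_int_mul (integrable_gp H hfs hg) hφs.1.1 ⟨B, hB⟩
  -- the inequality for fixed `h`
  have hstep : ∀ n, ∫ x, φ x * gradPairing m f (J m (hn n) g) x ∂m ≤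
      (1 - 2 * hn n * k)⁻¹ * (k * ∫ x, φ x * minWeakGrad m f x ^ 2 ∂m +
        1 / 2 * ∫ x, J m (hn n) ψ x * minWeakGrad m f x ^ 2 ∂m) := by
    intro n
    set t := hn n with ht
    have ht0 : 0 < t := hn0 n
    obtain ⟨hc0, hc2⟩ := gamA_c_le GJ H.kpos (hnle n)
    rw [← ht] at hc0 hc2
    have hb := be_l2 H C GJ ht0 (hnle n) hfs hφ0 hφs.1 ⟨B, hB⟩
    have hJg := gamA_sob C ht0 hg.1
    have htJg := sob_smul H t hJg
    have hJψ := gamA_memLp C ht0 hψ
    have hJψb := gamA_abs_le C ht0 hψ hB'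
    have i3 : Integrable (fun x => φ x * gradPairing m f (J m t g) x) m := by
      simpa only [mul_comm] using gamA_int_mul (integrable_gp H hfs hJg) hφs.1.1 ⟨B, hB⟩
    have i4 : Integrable (fun x => J m t ψ x * minWeakGrad m f x ^ 2) m := by
      simpa only [mul_comm] using gamA_int_mul iw hJψ.1 ⟨B', hJψb⟩
    -- lower bound of the left side
    have hJf : J m t f =ᵐ[m] fun x => f x + t * J m t g x := by
      filter_upwards [gamA_J_sub C ht0 hf] with x hx
      linarith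
    have hsJf := gamA_sob C ht0 hfs.1
    have hwc : ∀ᵐ x ∂m, minWeakGrad m (J m t f) x ^ 2 =
        minWeakGrad m (fun x => f x + t * J m t g x) x ^ 2 := by
      filter_upwards [gp_self H hsJf.2.1, gp_self H (sob_add H hfs htJg).2.1,
        gp_congr H hsJf.2.1 hsJf.2.1 hJf hJf] with x h1 h2 h3
      rw [← h1, ← h2, h3]
    have hl : ∫ x, φ x * minWeakGrad m f x ^ 2 ∂m +
        2 * t * ∫ x, φ x * gradPairing m f (J m t g) x ∂m ≤
        ∫ x, φ x * minWeakGrad m (J m t f) x ^ 2 ∂m := by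
      rw [← integral_const_mul, ← integral_add i1 (i3.const_mul _)]
      refine integral_mono_ae (i1.add (i3.const_mul _)) ?_ ?_
      · simpa only [mul_comm] using gamA_int_mul (integrable_wg_sq H hsJf) hφs.1.1 ⟨B, hB⟩
      · filter_upwards [hφ0, hwc, wg_add_sq H hfs.2.1 htJg.2.1,
          gp_smul_right H t hfs.2.1 hJg.2.1] with x h1 h2 h3 h4
        simp only [Pi.zero_apply] at h1
        rw [h2, h3, h4]
        have := mul_nonneg h1 (sq_nonneg (minWeakGrad m (fun y => t * J m t g y) x))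
        nlinarith
    have hJφ : J m t φ =ᵐ[m] fun x => φ x + t * J m t ψ x := by
      filter_upwards [gamA_J_sub C ht0 hφ] with x hx
      linarith
    have hr : ∫ x, J m t φ x * minWeakGrad m f x ^ 2 ∂m =
        ∫ x, φ x * minWeakGrad m f x ^ 2 ∂m + t * ∫ x, J m t ψ x * minWeakGrad m f x ^ 2 ∂m := by
      rw [← integral_const_mul, ← integral_add i1 (i4.const_mul _)]
      refine integral_congr_ae ?_
      filter_upwards [hJφ] with x hx
      rw [hx]; ring
    rw [hr] at hb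
    set c := (1 - 2 * t * k)⁻¹ with hc
    have hcc : c * (1 - 2 * t * k) = 1 := inv_mul_cancel₀ hc0.ne'
    set A := ∫ x, φ x * minWeakGrad m f x ^ 2 ∂m
    set P := ∫ x, φ x * gradPairing m f (J m t g) x ∂m
    set D := ∫ x, J m t ψ x * minWeakGrad m f x ^ 2 ∂m
    have h5 : A + 2 * t * P ≤ c * (A + t * D) := hl.trans hb
    have h6 : c - 1 = 2 * t * k * c := by linarith
    have h7 : 2 * t * P ≤ 2 * t * (c * (k * A + 1 / 2 * D)) := by
      have : c * (A + t * D) - A = 2 * t * (c * (k * A + 1 / 2 * D)) := by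
        calc c * (A + t * D) - A = (c - 1) * A + c * t * D := by ring
          _ = 2 * t * k * c * A + c * t * D := by rw [h6]
          _ = _ := by ring
      linarith
    exact le_of_mul_le_mul_left h7 (by positivity)
  have hl1 : Tendsto (fun n => ∫ x, φ x * gradPairing m f (J m (hn n) g) x ∂m) atTop
      (𝓝 (∫ x, φ x * gradPairing m f g x ∂m)) :=
    gamA_tendsto_gp H hfs hg (Eventually.of_forall fun n => gamA_sob C (hn0 n) hg.1)
      ((gamA_tendsto_sob C hg).comp hnt) hφs.1.1 ⟨B, hB⟩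
  have hl2 : Tendsto (fun n => ∫ x, J m (hn n) ψ x * minWeakGrad m f x ^ 2 ∂m) atTop
      (𝓝 (∫ x, ψ x * minWeakGrad m f x ^ 2 ∂m)) := by
    refine tendsto_integral_of_dominated_convergence (fun x => |B'| * minWeakGrad m f x ^ 2)
      (fun n => ?_) (iw.const_mul _) (fun n => ?_) ?_
    · exact (gamA_memLp C (hn0 n) hψ).1.mul iw.1
    · filter_upwards [gamA_abs_le C (hn0 n) hψ hB'] with x hx
      rw [Real.norm_eq_abs, abs_mul, abs_of_nonneg (sq_nonneg (minWeakGrad m f x))]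
      exact mul_le_mul_of_nonneg_right (hx.trans (le_abs_self _)) (sq_nonneg _)
    · filter_upwards [hnae] with x hx
      exact hx.mul_const _
  have hn0' : Tendsto hn atTop (𝓝 0) := tendsto_nhds_of_tendsto_nhdsWithin hnt
  have hl3 : Tendsto (fun n => (1 - 2 * hn n * k)⁻¹) atTop (𝓝 1) := by
    have : Tendsto (fun n => 1 - 2 * hn n * k) atTop (𝓝 (1 - 2 * 0 * k)) :=
      tendsto_const_nhds.sub ((hn0'.const_mul 2).mul_const k)
    have h2 := this.inv₀ (by norm_num)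
    simpa using h2
  have hfinal := le_of_tendsto_of_tendsto' hl1
    (hl3.mul ((tendsto_const_nhds (x := k * ∫ x, φ x * minWeakGrad m f x ^ 2 ∂m)).add
      (hl2.const_mul (1 / 2)))) hstep
  have e1 : ∫ x, (gradPairing m f g x - k * minWeakGrad m f x ^ 2) * φ x ∂m =
      ∫ x, φ x * gradPairing m f g x ∂m - k * ∫ x, φ x * minWeakGrad m f x ^ 2 ∂m := by
    rw [← integral_const_mul, ← integral_sub i2 (i1.const_mul _)]
    refine integral_congr_ae (Eventually.of_forall fun x => ?_)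
    simp only
    ring
  have e2 : ∫ x, minWeakGrad m f x ^ 2 * ψ x ∂m = ∫ x, ψ x * minWeakGrad m f x ^ 2 ∂m := by
    simp only [mul_comm]
  rw [e1, e2]
  linarith

/-! ## G5 -/

theorem gamA_closed (C : Calc m) {un : ℕ → X → ℝ} (hun : ∀ n, IsSobolev m (un n))
    (hf : MemLp f 2 m) (hlim : Tendsto (fun n => ∫ x, (un n x - f x) ^ 2 ∂m) atTop (𝓝 0))
    {A : ℝ} (hA : ∀ n, ∫ x, minWeakGrad m (un n) x ^ 2 ∂m ≤ A) :
    IsSobolev m f ∧ ∫ x, minWeakGrad m f x ^ 2 ∂m ≤ A := by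
  have h1 : Tendsto (fun n => eLpNorm (fun x => un n x - f x) 2 m) atTop (𝓝 0) := by
    have h3 : ∀ n, eLpNorm (fun x => un n x - f x) 2 m =
        ENNReal.ofReal (Real.sqrt (∫ x, (un n x - f x) ^ 2 ∂m)) := by
      intro n
      have hm : MemLp (fun x => un n x - f x) 2 m := (hun n).1.sub hf
      rw [hm.eLpNorm_eq_integral_rpow_norm two_ne_zero ENNReal.ofNat_ne_top]
      congr 1
      rw [Real.sqrt_eq_rpow]
      congr 1
      · refine integral_congr_ae (Eventually.of_forall fun x => ?_)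
        simp
      · norm_num
    simp_rw [h3]
    have := (ENNReal.continuous_ofReal.tendsto _).comp (hlim.sqrt)
    simpa [Function.comp_def] using this
  have := C.closed un f (fun _ => 1) A A hun hf h1 hA measurable_const (fun _ => zero_le_one)
    ⟨1, fun _ => le_rfl⟩ (fun n => by simpa using hA n)
  simpa using this

/-- `wg f ^ 2` is in `L²` when `wg f` is bounded. -/
theorem gamA_w_memLp (H : Hyp m k N) (hf : IsSobolev m f)
    (hL : ∃ L : ℝ, ∀ᵐ x ∂m, minWeakGrad m f x ≤ L) :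
    MemLp (fun x => minWeakGrad m f x ^ 2) 2 m ∧
      ∃ B : ℝ, ∀ᵐ x ∂m, |minWeakGrad m f x ^ 2| ≤ B := by
  obtain ⟨L, hL⟩ := hL
  have hb : ∀ᵐ x ∂m, |minWeakGrad m f x ^ 2| ≤ L ^ 2 := by
    filter_upwards [hL, wg_nonneg H hf.2.1] with x h1 h2
    rw [abs_of_nonneg (sq_nonneg _)]
    exact pow_le_pow_left₀ h2 h1 2
  exact ⟨gamA_memLp_two (integrable_wg_sq H hf) ⟨_, hb⟩, _, hb⟩

/-- `⟨f,g⟩ - k wg f ^ 2` is in `L²` when `wg f` is bounded. -/
theorem gamA_F_memLp (H : Hyp m k N) (hf : IsSobolev m f) (hg : IsSobolev m g)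
    (hL : ∃ L : ℝ, ∀ᵐ x ∂m, minWeakGrad m f x ≤ L) :
    MemLp (fun x => gradPairing m f g x - k * minWeakGrad m f x ^ 2) 2 m := by
  have hw := (gamA_w_memLp H hf hL).1
  obtain ⟨L, hL⟩ := hL
  have h1 : MemLp (gradPairing m f g) 2 m := by
    refine MemLp.of_le (hg.2.2.const_mul L) (aesm_gp H hf.2.1 hg.2.1) ?_
    filter_upwards [hL, gp_abs_le H hf.2.1 hg.2.1, wg_nonneg H hg.2.1, wg_nonneg H hf.2.1]
      with x h1 h2 h3 h4
    rw [Real.norm_eq_abs, Real.norm_eq_abs, abs_mul, abs_of_nonneg h3]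
    exact h2.trans (mul_le_mul_of_nonneg_right (h1.trans (le_abs_self _)) h3)
  exact h1.sub (hw.const_mul k)

theorem sob_wg_sq (H : Hyp m k N) (C : Calc m) (GJ : GoodJ m k h₀)
    (hf : IsWeakLaplacian m f g) (hg : IsSobolev m g)
    (hL : ∃ L : ℝ, ∀ᵐ x ∂m, minWeakGrad m f x ≤ L) :
    IsSobolev m (fun x => minWeakGrad m f x ^ 2) := by
  obtain ⟨hw, B, hB⟩ := gamA_w_memLp H hf.1 hL
  have hF := gamA_F_memLp H hf.1 hg hL
  set w : X → ℝ := fun x => minWeakGrad m f x ^ 2 with hwdef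
  set F : X → ℝ := fun x => gradPairing m f g x - k * minWeakGrad m f x ^ 2 with hFdef
  have hw0 : 0 ≤ᵐ[m] w := Eventually.of_forall fun x => sq_nonneg _
  obtain ⟨hn, hn0, hnle, hnt, -⟩ := gamA_exists_seq C hw GJ.pos
  refine (gamA_closed C (un := fun n => J m (hn n) w) (fun n => gamA_sob C (hn0 n) hw) hw
    ((gamA_tendsto_l2 C hw).comp hnt)
    (A := 2 * (Real.sqrt (∫ x, F x ^ 2 ∂m) * Real.sqrt (∫ x, w x ^ 2 ∂m))) fun n => ?_).1
  set t := hn n with ht
  have ht0 : 0 < t := hn0 n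
  have hlap := gamA_lap C ht0 hw
  have hJs := gamA_sob C ht0 hw
  have hJb := gamA_abs_le C ht0 hw hB
  have hJ0 := gamA_nonneg C ht0 hw hw0
  have hG4 := weak_bochner H C GJ hf hg hlap hJ0 ⟨B, hJb⟩ ⟨(B + B) / t, by
    filter_upwards [hJb, hB] with x h1 h2
    rw [abs_div, abs_of_pos ht0]
    gcongr
    exact (abs_sub _ _).trans (add_le_add h1 h2)⟩
  have hE := hlap.2.2 (J m t w) hJs
  have i1 : Integrable (fun x => w x * ((J m t w x - w x) / t)) m := hw.integrable_mul hlap.2.1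
  have i2 : Integrable (fun x => ((J m t w x - w x) / t) * J m t w x) m :=
    hlap.2.1.integrable_mul hJs.1
  have hle : ∫ x, w x * ((J m t w x - w x) / t) ∂m ≤
      ∫ x, ((J m t w x - w x) / t) * J m t w x ∂m := by
    refine integral_mono i1 i2 fun x => ?_
    simp only
    have : (J m t w x - w x) / t * J m t w x - w x * ((J m t w x - w x) / t) =
        (J m t w x - w x) ^ 2 / t := by ring
    have h2 : 0 ≤ (J m t w x - w x) ^ 2 / t := by positivity
    linarith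
  have hEE : ∫ x, minWeakGrad m (J m t w) x ^ 2 ∂m =
      -∫ x, ((J m t w x - w x) / t) * J m t w x ∂m := by
    rw [← hE]
    exact integral_congr_ae (Eventually.mono (gp_self H hJs.2.1) fun x hx => hx.symm)
  have hCS := gamA_abs_integral_le hF hJs.1
  have hJl := Real.sqrt_le_sqrt (gamA_l2 C ht0 hw)
  have h3 : -(∫ x, F x * J m t w x ∂m) ≤
      Real.sqrt (∫ x, F x ^ 2 ∂m) * Real.sqrt (∫ x, w x ^ 2 ∂m) := by
    refine (neg_le_abs _).trans (hCS.trans ?_)
    exact mul_le_mul_of_nonneg_left hJl (Real.sqrt_nonneg _)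
  rw [hEE]
  have hG4' : ∫ x, F x * J m t w x ∂m ≤ 1 / 2 * ∫ x, w x * ((J m t w x - w x) / t) ∂m := hG4
  linarith

theorem bochner_sob (H : Hyp m k N) (C : Calc m) (GJ : GoodJ m k h₀)
    (hf : IsWeakLaplacian m f g) (hg : IsSobolev m g)
    (hL : ∃ L : ℝ, ∀ᵐ x ∂m, minWeakGrad m f x ≤ L)
    (hφ : IsSobolev m φ) (hφ0 : 0 ≤ᵐ[m] φ) (hφb : ∃ B : ℝ, ∀ᵐ x ∂m, |φ x| ≤ B) :
    ∫ x, (gradPairing m f g x - k * minWeakGrad m f x ^ 2) * φ x ∂m ≤
      -(1 / 2) * ∫ x, gradPairing m (fun x => minWeakGrad m f x ^ 2) φ x ∂m := by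
  obtain ⟨hw, B, hB⟩ := gamA_w_memLp H hf.1 hL
  have hF := gamA_F_memLp H hf.1 hg hL
  have hws := sob_wg_sq H C GJ hf hg hL
  set w : X → ℝ := fun x => minWeakGrad m f x ^ 2 with hwdef
  set F : X → ℝ := fun x => gradPairing m f g x - k * minWeakGrad m f x ^ 2 with hFdef
  obtain ⟨hn, hn0, hnle, hnt, -⟩ := gamA_exists_seq C hφ.1 GJ.pos
  obtain ⟨B', hB'⟩ := hφb
  have hstep : ∀ n, ∫ x, F x * J m (hn n) φ x ∂m ≤
      -(1 / 2) * ∫ x, gradPairing m w (J m (hn n) φ) x ∂m := by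
    intro n
    set t := hn n with ht
    have ht0 : 0 < t := hn0 n
    have hlap := gamA_lap C ht0 hφ.1
    have hJs := gamA_sob C ht0 hφ.1
    have hJb := gamA_abs_le C ht0 hφ.1 hB'
    have hJ0 := gamA_nonneg C ht0 hφ.1 hφ0
    have hG4 := weak_bochner H C GJ hf hg hlap hJ0 ⟨B', hJb⟩ ⟨(B' + B') / t, by
      filter_upwards [hJb, hB'] with x h1 h2
      rw [abs_div, abs_of_pos ht0]
      gcongr
      exact (abs_sub _ _).trans (add_le_add h1 h2)⟩
    have hE := hlap.2.2 w hws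
    have hc : ∫ x, gradPairing m w (J m t φ) x ∂m = ∫ x, gradPairing m (J m t φ) w x ∂m :=
      integral_congr_ae (gp_comm H hws.2.1 hJs.2.1)
    rw [hc, hE]
    refine hG4.trans (le_of_eq ?_)
    have : ∫ x, minWeakGrad m f x ^ 2 * ((J m t φ x - φ x) / t) ∂m =
        ∫ x, (J m t φ x - φ x) / t * w x ∂m := by
      refine integral_congr_ae (Eventually.of_forall fun x => ?_)
      simp only [hwdef]
      ring
    rw [this]
    ring
  have hl1 : Tendsto (fun n => ∫ x, F x * J m (hn n) φ x ∂m) atTop (𝓝 (∫ x, F x * φ x ∂m)) := by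
    have h0 : Tendsto (fun n => Real.sqrt (∫ x, F x ^ 2 ∂m) *
        Real.sqrt (∫ x, (J m (hn n) φ x - φ x) ^ 2 ∂m)) atTop (𝓝 0) := by
      have := (((gamA_tendsto_l2 C hφ.1).comp hnt).sqrt).const_mul (Real.sqrt (∫ x, F x ^ 2 ∂m))
      simpa [Function.comp_def] using this
    rw [tendsto_iff_dist_tendsto_zero]
    refine squeeze_zero (fun _ => dist_nonneg) (fun n => ?_) h0
    have hJ := gamA_memLp C (hn0 n) hφ.1
    have i1 : Integrable (fun x => F x * J m (hn n) φ x) m := hF.integrable_mul hJ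
    have i2 : Integrable (fun x => F x * φ x) m := hF.integrable_mul hφ.1
    rw [Real.dist_eq, ← integral_sub i1 i2]
    have := gamA_abs_integral_le hF (hJ.sub hφ.1)
    simp only [Pi.sub_apply] at this
    refine le_trans (le_of_eq ?_) this
    congr 1
    refine integral_congr_ae (Eventually.of_forall fun x => ?_)
    simp only
    ring
  have hl2 : Tendsto (fun n => ∫ x, gradPairing m w (J m (hn n) φ) x ∂m) atTop
      (𝓝 (∫ x, gradPairing m w φ x ∂m)) := by
    have := gamA_tendsto_gp H (l := atTop) (gn := fun n => J m (hn n) φ) (q := fun _ => 1) hws hφ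
      (Eventually.of_forall fun n => gamA_sob C (hn0 n) hφ.1)
      ((gamA_tendsto_sob C hφ).comp hnt) aestronglyMeasurable_const ⟨1, by simp⟩
    simpa using this
  exact le_of_tendsto_of_tendsto' hl1 (hl2.const_mul _) hstep

/-! ## G6 -/

/-- `∫ |∇J_h g|² = (1/h) ∫ (g - J_h g) J_h g`. -/
theorem gamA_energy_J (H : Hyp m k N) (C : Calc m) (hh : 0 < h) (hg : MemLp g 2 m) :
    h * ∫ x, minWeakGrad m (J m h g) x ^ 2 ∂m = ∫ x, J m h g x * (g x - J m h g x) ∂m := by
  have hs := gamA_sob C hh hg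
  have e := gamA_eq C hh hg hs
  have e1 : ∫ x, gradPairing m (J m h g) (J m h g) x ∂m = ∫ x, minWeakGrad m (J m h g) x ^ 2 ∂m :=
    integral_congr_ae (gp_self H hs.2.1)
  rw [e1] at e
  have i1 : Integrable (fun x => g x * J m h g x) m := hg.integrable_mul hs.1
  have i2 : Integrable (fun x => J m h g x * J m h g x) m := hs.1.integrable_mul hs.1
  have e2 : ∫ x, J m h g x * (g x - J m h g x) ∂m =
      ∫ x, g x * J m h g x ∂m - ∫ x, J m h g x * J m h g x ∂m := by
    rw [← integral_sub i1 i2]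
    refine integral_congr_ae (Eventually.of_forall fun x => ?_)
    simp only
    ring
  rw [e2]
  linarith

/-- `J_h (1 - J_h) ≤ 2 (J_h - J_{2h})` as quadratic forms. -/
theorem gamA_dyadic (H : Hyp m k N) (C : Calc m) (hh : 0 < h) (hg : MemLp g 2 m) :
    ∫ x, J m h g x * (g x - J m h g x) ∂m ≤
      2 * (∫ x, g x * J m h g x ∂m - ∫ x, g x * J m (2 * h) g x ∂m) := by
  have h2 : 0 < 2 * h := by positivity
  have hp := gamA_sob C hh hg
  have hq := gamA_sob C h2 hg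
  have hr := gamA_sob C h2 hp.1
  have hres : J m h g =ᵐ[m] J m (2 * h) (fun x => 2 * g x - J m h g x) := by
    have := C.Jr_resolvent (h' := 2 * h) gamA_bddM hh h2 hg
    refine this.trans ?_
    rw [← J]
    refine Eventually.of_forall fun x => ?_
    congr 1
    ext y
    have h3 : 2 * h / h = 2 := by field_simp
    rw [h3]
    change 2 * g y + (1 - 2) * J m h g y = _
    ring
  have hres2 : J m h g =ᵐ[m] fun x => 2 * J m (2 * h) g x - J m (2 * h) (J m h g) x := by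
    refine hres.trans ((gamA_sub C h2 (hg.const_mul 2) hp.1).trans ?_)
    filter_upwards [gamA_smul C h2 2 hg] with x hx
    rw [hx]
  -- `∫ J_{2h} p (g - p) ≥ 0`
  set p := J m h g with hpdef
  set r := J m (2 * h) p with hrdef
  have e1 := gamA_eq C hh hg hr
  have e2 := gamA_eq C h2 hp.1 hp
  have e3 := gamA_eq C h2 hp.1 hr
  rw [← hpdef] at e1
  rw [← hrdef] at e2 e3
  have hc : ∫ x, gradPairing m p r x ∂m = ∫ x, gradPairing m r p x ∂m :=
    integral_congr_ae (gp_comm H hp.2.1 hr.2.1)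
  have hrr : 0 ≤ ∫ x, gradPairing m r r x ∂m := by
    rw [integral_congr_ae (gp_self H hr.2.1)]
    exact integral_nonneg fun x => sq_nonneg _
  have i1 : Integrable (fun x => r x * p x) m := hr.1.integrable_mul hp.1
  have i2 : Integrable (fun x => p x * p x) m := hp.1.integrable_mul hp.1
  have i3 : Integrable (fun x => r x * r x) m := hr.1.integrable_mul hr.1
  have i4 : Integrable (fun x => p x * r x) m := hp.1.integrable_mul hr.1
  have i5 : Integrable (fun x => g x * r x) m := hg.integrable_mul hr.1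
  have i6 : Integrable (fun x => g x * p x) m := hg.integrable_mul hp.1
  have i7 : Integrable (fun x => g x * J m (2 * h) g x) m := hg.integrable_mul hq.1
  have hcm : ∫ x, r x * p x ∂m = ∫ x, p x * r x ∂m := by simp only [mul_comm]
  have hsq : 0 ≤ ∫ x, p x * p x ∂m - 2 * ∫ x, p x * r x ∂m + ∫ x, r x * r x ∂m := by
    have : ∫ x, (p x - r x) ^ 2 ∂m =
        ∫ x, p x * p x ∂m - 2 * ∫ x, p x * r x ∂m + ∫ x, r x * r x ∂m := by
      have i24 : Integrable (fun x => p x * p x - 2 * (p x * r x)) m := i2.sub (i4.const_mul 2)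
      rw [← integral_const_mul, ← integral_sub i2 (i4.const_mul 2), ← integral_add i24 i3]
      refine integral_congr_ae (Eventually.of_forall fun x => ?_)
      simp only
      ring
    rw [← this]
    exact integral_nonneg fun x => sq_nonneg _
  have hErp : 0 ≤ ∫ x, gradPairing m r p x ∂m := by
    have h5 : 2 * h * (∫ x, gradPairing m r p x ∂m - ∫ x, gradPairing m r r x ∂m) =
        ∫ x, p x * p x ∂m - 2 * ∫ x, p x * r x ∂m + ∫ x, r x * r x ∂m := by
      linarith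
    have h6 : 0 ≤ 2 * h * (∫ x, gradPairing m r p x ∂m - ∫ x, gradPairing m r r x ∂m) :=
      h5 ▸ hsq
    have h7 := nonneg_of_mul_nonneg_right h6 h2
    linarith
  have hkey : 0 ≤ ∫ x, g x * r x ∂m - ∫ x, p x * r x ∂m := by
    have : ∫ x, g x * r x ∂m - ∫ x, p x * r x ∂m = h * ∫ x, gradPairing m r p x ∂m := by
      rw [← hc]; linarith
    rw [this]; positivity
  -- conclusion
  have hsym : ∫ x, g x * J m (2 * h) p x ∂m = ∫ x, J m (2 * h) g x * p x ∂m :=
    (gamA_symm C h2 hg hp.1).symm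
  have hl : ∫ x, p x * (g x - p x) ∂m = ∫ x, g x * p x ∂m - ∫ x, p x * p x ∂m := by
    rw [← integral_sub i6 i2]
    refine integral_congr_ae (Eventually.of_forall fun x => ?_)
    simp only
    ring
  have hgr : ∫ x, g x * p x ∂m = 2 * ∫ x, g x * J m (2 * h) g x ∂m - ∫ x, g x * r x ∂m := by
    rw [← integral_const_mul, ← integral_sub (i7.const_mul 2) i5]
    refine integral_congr_ae ?_
    filter_upwards [hres2] with x hx
    rw [hx]; ring
  have hpr : ∫ x, p x * p x ∂m = 2 * ∫ x, J m (2 * h) g x * p x ∂m - ∫ x, p x * r x ∂m := by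
    have i8 : Integrable (fun x => J m (2 * h) g x * p x) m := hq.1.integrable_mul hp.1
    rw [← integral_const_mul, ← integral_sub (i8.const_mul 2) i4]
    refine integral_congr_ae ?_
    filter_upwards [hres2] with x hx
    nth_rewrite 2 [hx]
    ring
  rw [hl]
  rw [← hrdef] at hsym
  linarith

/-- `E(f - J_h f) = h ∫ J_h g (g - J_h g)` for `g = Δ f`. -/
theorem gamA_energy_sub (H : Hyp m k N) (C : Calc m) (hh : 0 < h) (hf : IsWeakLaplacian m f g) :
    ∫ x, minWeakGrad m (fun x => f x - J m h f x) x ^ 2 ∂m =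
      h * ∫ x, J m h g x * (g x - J m h g x) ∂m := by
  have hJg := gamA_sob C hh hf.2.1
  have hJf := gamA_sob C hh hf.1.1
  have hs := sob_sub H hf.1 hJf
  have hs' := sob_smul H (-h) hJg
  have he : (fun x => f x - J m h f x) =ᵐ[m] fun x => -h * J m h g x := by
    filter_upwards [gamA_J_sub C hh hf] with x hx
    linarith
  rw [← gamA_energy_J H C hh hf.2.1, ← integral_const_mul, ← integral_const_mul]
  refine integral_congr_ae ?_
  filter_upwards [gp_self H hs.2.1, gp_congr H hs.2.1 hs.2.1 he he, gp_self H hJg.2.1,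
    gp_smul_left H (-h) hJg.2.1 hs'.2.1, gp_smul_right H (-h) hJg.2.1 hJg.2.1] with x h1 h2 h3 h4 h5
  rw [← h1, h2, h4, h5, h3]
  ring

theorem gamA_wg_add_sq_le (H : Hyp m k N) (hf : IsSobolevLoc m f) (hg : IsSobolevLoc m g) :
    ∀ᵐ x ∂m, minWeakGrad m (fun y => f y + g y) x ^ 2 ≤
      2 * minWeakGrad m f x ^ 2 + 2 * minWeakGrad m g x ^ 2 := by
  filter_upwards [wg_add_sq H hf hg, gp_le H hf hg] with x h1 h2
  rw [h1]; linarith

theorem gamA_energy_sub_JJ (H : Hyp m k N) (C : Calc m) (hh : 0 < h) (hf : IsSobolev m f) :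
    ∫ x, minWeakGrad m (fun x => f x - J m h (J m h f) x) x ^ 2 ∂m ≤
      4 * ∫ x, minWeakGrad m (fun x => f x - J m h f x) x ^ 2 ∂m := by
  have hJf := gamA_sob C hh hf.1
  have hJJf := gamA_sob C hh hJf.1
  have hd := sob_sub H hf hJf
  have hJd := gamA_sob C hh hd.1
  have hs := sob_sub H hf hJJf
  have he : (fun x => f x - J m h (J m h f) x) =ᵐ[m]
      fun x => (f x - J m h f x) + J m h (fun x => f x - J m h f x) x := by
    filter_upwards [gamA_sub C hh hf.1 hJf.1] with x hx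
    rw [hx]; ring
  have hE := gamA_energy_le C hh hd
  have h1 : ∫ x, minWeakGrad m (fun x => f x - J m h (J m h f) x) x ^ 2 ∂m ≤
      ∫ x, (2 * minWeakGrad m (fun x => f x - J m h f x) x ^ 2 +
        2 * minWeakGrad m (J m h (fun x => f x - J m h f x)) x ^ 2) ∂m := by
    refine integral_mono_ae (integrable_wg_sq H hs)
      (((integrable_wg_sq H hd).const_mul 2).add ((integrable_wg_sq H hJd).const_mul 2)) ?_
    filter_upwards [gp_self H hs.2.1, gp_congr H hs.2.1 hs.2.1 he he,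
      gp_self H (sob_add H hd hJd).2.1, gamA_wg_add_sq_le H hd.2.1 hJd.2.1] with x h1 h2 h3 h4
    rw [← h1, h2, h3]
    exact h4
  rw [integral_add ((integrable_wg_sq H hd).const_mul 2) ((integrable_wg_sq H hJd).const_mul 2),
    integral_const_mul, integral_const_mul] at h1
  linarith

/-- partial sums of the dyadic energies. -/
theorem gamA_sum_le (H : Hyp m k N) (C : Calc m) (h₀pos : 0 < h₀) (hg : MemLp g 2 m) (n : ℕ) :
    ∑ j ∈ Finset.range n, ∫ x, J m (h₀ / 2 ^ j) g x * (g x - J m (h₀ / 2 ^ j) g x) ∂m ≤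
      2 * ∫ x, g x ^ 2 ∂m := by
  have ha : ∀ t, 0 < t → 0 ≤ ∫ x, g x * J m t g x ∂m ∧
      ∫ x, g x * J m t g x ∂m ≤ ∫ x, g x ^ 2 ∂m := by
    intro t ht
    have hs := gamA_sob C ht hg
    have e := gamA_energy_J H C ht hg
    have i1 : Integrable (fun x => g x * J m t g x) m := hg.integrable_mul hs.1
    have i2 : Integrable (fun x => J m t g x ^ 2) m := hs.1.integrable_sq
    have e2 : ∫ x, J m t g x * (g x - J m t g x) ∂m =
        ∫ x, g x * J m t g x ∂m - ∫ x, J m t g x ^ 2 ∂m := by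
      rw [← integral_sub i1 i2]
      refine integral_congr_ae (Eventually.of_forall fun x => ?_)
      simp only
      ring
    rw [e2] at e
    have h1 : 0 ≤ ∫ x, minWeakGrad m (J m t g) x ^ 2 ∂m := integral_nonneg fun x => sq_nonneg _
    have h2 : 0 ≤ ∫ x, J m t g x ^ 2 ∂m := integral_nonneg fun x => sq_nonneg _
    have h3 : 0 ≤ t * ∫ x, minWeakGrad m (J m t g) x ^ 2 ∂m := by positivity
    refine ⟨by linarith, ?_⟩
    have h4 := gamA_abs_integral_le hg hs.1
    have h5 := Real.sqrt_le_sqrt (gamA_l2 C ht hg)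
    calc ∫ x, g x * J m t g x ∂m ≤ |∫ x, g x * J m t g x ∂m| := le_abs_self _
      _ ≤ Real.sqrt (∫ x, g x ^ 2 ∂m) * Real.sqrt (∫ x, J m t g x ^ 2 ∂m) := h4
      _ ≤ Real.sqrt (∫ x, g x ^ 2 ∂m) * Real.sqrt (∫ x, g x ^ 2 ∂m) := by gcongr
      _ = ∫ x, g x ^ 2 ∂m := Real.mul_self_sqrt (integral_nonneg fun x => sq_nonneg _)
  have htel : ∀ n : ℕ, ∑ j ∈ Finset.range n,
      ∫ x, J m (h₀ / 2 ^ j) g x * (g x - J m (h₀ / 2 ^ j) g x) ∂m ≤
      2 * (∫ x, g x * J m (2 * (h₀ / 2 ^ n)) g x ∂m - ∫ x, g x * J m (2 * h₀) g x ∂m) := by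
    intro n
    induction n with
    | zero => simp
    | succ n ih =>
      rw [Finset.sum_range_succ]
      have h1 := gamA_dyadic H C (h := h₀ / 2 ^ n) (by positivity) hg
      have h2 : 2 * (h₀ / 2 ^ (n + 1)) = h₀ / 2 ^ n := by
        rw [pow_succ]; field_simp
      rw [h2]
      linarith
  have h1 := htel n
  have h2 := (ha (2 * (h₀ / 2 ^ n)) (by positivity)).2
  have h3 := (ha (2 * h₀) (by positivity)).1
  linarith

/-- G6: `wg f ∈ L⁴` for `f ∈ D(Δ) ∩ L^∞`. -/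
theorem wg_pow_four (H : Hyp m k N) (C : Calc m) (GJ : GoodJ m k h₀)
    (hf : IsWeakLaplacian m f g) {M : ℝ} (hM : ∀ᵐ x ∂m, |f x| ≤ M) :
    Integrable (fun x => minWeakGrad m f x ^ 4) m ∧
      ∫ x, minWeakGrad m f x ^ 4 ∂m ≤
        M ^ 2 * (256 * ∫ x, g x ^ 2 ∂m + 4 / h₀ * ∫ x, minWeakGrad m f x ^ 2 ∂m) := by
  have h₀pos := GJ.pos
  have hG0 : 0 ≤ ∫ x, g x ^ 2 ∂m := integral_nonneg fun x => sq_nonneg _
  have hW0 : 0 ≤ ∫ x, minWeakGrad m f x ^ 2 ∂m := integral_nonneg fun x => sq_nonneg _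
  have hmeas : AEStronglyMeasurable (fun x => minWeakGrad m f x ^ 4) m :=
    (aesm_wg H hf.1.2.1).pow 4
  rcases le_or_gt M 0 with hM0 | hM0
  · -- trivial case
    have h0 : ∀ᵐ x ∂m, minWeakGrad m f x = 0 := by
      filter_upwards [hM, wg_eq_zero_of_eq H hf.1.2.1 0] with x h1 h2
      exact h2 (abs_eq_zero.1 (le_antisymm (h1.trans hM0) (abs_nonneg _)))
    have h1 : (fun x => minWeakGrad m f x ^ 4) =ᵐ[m] fun _ => 0 := by
      filter_upwards [h0] with x hx
      rw [hx]; norm_num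
    refine ⟨(integrable_congr h1).2 (integrable_zero _ _ _), ?_⟩
    rw [integral_congr_ae h1, integral_zero]
    positivity
  -- main case
  set Λ : ℝ := 4 * M ^ 2 / h₀ with hΛ
  have hΛ0 : 0 < Λ := by positivity
  set t : ℕ → ℝ := fun j => h₀ / 2 ^ j with ht
  have ht0 : ∀ j, 0 < t j := fun j => by positivity
  have htle : ∀ j, t j ≤ h₀ := fun j => div_le_self h₀pos.le (one_le_pow₀ (by norm_num))
  set D : ℕ → X → ℝ := fun j => minWeakGrad m (fun x => f x - J m (t j) (J m (t j) f) x) with hD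
  have hsD : ∀ j, IsSobolev m (fun x => f x - J m (t j) (J m (t j) f) x) := fun j =>
    sob_sub H hf.1 (gamA_sob C (ht0 j) (gamA_memLp C (ht0 j) hf.1.1))
  -- pointwise bound
  have hpt : ∀ᵐ x ∂m, ENNReal.ofReal (minWeakGrad m f x ^ 4) ≤
      ENNReal.ofReal (Λ * minWeakGrad m f x ^ 2) +
        ∑' j, ENNReal.ofReal (32 * M ^ 2 / t j * D j x ^ 2) := by
    have hall : ∀ᵐ x ∂m, ∀ j, minWeakGrad m f x ≤
        minWeakGrad m (J m (t j) (J m (t j) f)) x + D j x ∧
        minWeakGrad m (J m (t j) (J m (t j) f)) x ^ 2 ≤ M ^ 2 / t j ∧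
        0 ≤ minWeakGrad m (J m (t j) (J m (t j) f)) x ∧ 0 ≤ D j x := by
      rw [ae_all_iff]
      intro j
      have hJJ := gamA_sob C (ht0 j) (gamA_memLp C (ht0 j) hf.1.1)
      have he : f =ᵐ[m] fun x => J m (t j) (J m (t j) f) x +
          (f x - J m (t j) (J m (t j) f) x) := Eventually.of_forall fun x => by ring
      filter_upwards [wg_JJ_sq_le H C GJ (ht0 j) (htle j) hf.1.1 hM, wg_nonneg H hJJ.2.1,
        wg_nonneg H (hsD j).2.1, gp_self H hf.1.2.1, gp_congr H hf.1.2.1 hf.1.2.1 he he,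
        gp_self H (sob_add H hJJ (hsD j)).2.1, wg_add_sq H hJJ.2.1 (hsD j).2.1,
        gp_abs_le H hJJ.2.1 (hsD j).2.1, wg_nonneg H hf.1.2.1]
        with x h1 h2 h3 h4 h5 h6 h7 h8 h9
      refine ⟨?_, h1, h2, h3⟩
      refine abs_le_of_sq_le_sq' ?_ (add_nonneg h2 h3) |>.2
      rw [← h4, h5, h6, h7]
      have := (le_abs_self _).trans h8
      nlinarith
    filter_upwards [hall, wg_nonneg H hf.1.2.1] with x hx hx0
    set y := minWeakGrad m f x with hy
    rcases lt_or_ge (y ^ 2) Λ with hlt | hge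
    · refine le_add_right (ENNReal.ofReal_le_ofReal ?_)
      nlinarith [sq_nonneg y]
    · refine le_add_left ?_
      obtain ⟨j, hj1, hj2⟩ := exists_nat_pow_near (x := y ^ 2 / Λ) (y := 2)
        ((one_le_div hΛ0).2 hge) one_lt_two
      refine le_trans ?_ (ENNReal.le_tsum j)
      refine ENNReal.ofReal_le_ofReal ?_
      obtain ⟨h1, h2, h3, h4⟩ := hx j
      set a := minWeakGrad m (J m (t j) (J m (t j) f)) x
      set d := D j x
      rw [le_div_iff₀ hΛ0] at hj1
      rw [div_lt_iff₀ hΛ0] at hj2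
      have h5 : 2 ^ j * Λ = 4 * (M ^ 2 / t j) := by
        simp only [hΛ, ht]; field_simp
      have h6 : a ≤ y / 2 := by
        have : a ^ 2 ≤ (y / 2) ^ 2 := by nlinarith
        exact (abs_le_of_sq_le_sq' this (by positivity)).2
      have h7 : y ≤ 2 * d := by linarith
      have h8 : y ^ 2 ≤ 4 * d ^ 2 := by nlinarith
      have h9 : y ^ 2 ≤ 8 * (M ^ 2 / t j) := by
        have e2 : (2 : ℝ) ^ (j + 1) = 2 * 2 ^ j := by ring
        rw [e2] at hj2
        nlinarith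
      have h10 : 0 ≤ M ^ 2 / t j := div_nonneg (sq_nonneg _) (ht0 j).le
      calc y ^ 4 = y ^ 2 * y ^ 2 := by ring
        _ ≤ (8 * (M ^ 2 / t j)) * (4 * d ^ 2) := by
            apply mul_le_mul h9 h8 (sq_nonneg _) (by positivity)
        _ = 32 * M ^ 2 / t j * d ^ 2 := by ring
  -- integrate
  have hs : ∀ j, ∫⁻ x, ENNReal.ofReal (32 * M ^ 2 / t j * D j x ^ 2) ∂m ≤
      ENNReal.ofReal (128 * M ^ 2 *
        ∫ x, J m (t j) g x * (g x - J m (t j) g x) ∂m) := by
    intro j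
    have hc : 0 ≤ 32 * M ^ 2 / t j := div_nonneg (by positivity) (ht0 j).le
    rw [← ofReal_integral_eq_lintegral_ofReal ((integrable_wg_sq H (hsD j)).const_mul _)
      (Eventually.of_forall fun x => mul_nonneg hc (sq_nonneg _))]
    refine ENNReal.ofReal_le_ofReal ?_
    rw [integral_const_mul]
    have h1 := gamA_energy_sub_JJ H C (ht0 j) hf.1
    rw [gamA_energy_sub H C (ht0 j) hf] at h1
    calc 32 * M ^ 2 / t j * ∫ x, D j x ^ 2 ∂m
        ≤ 32 * M ^ 2 / t j * (4 * (t j * ∫ x, J m (t j) g x * (g x - J m (t j) g x) ∂m)) :=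
          mul_le_mul_of_nonneg_left h1 hc
      _ = _ := by
        have := (ht0 j).ne'
        field_simp
        ring
  have hsum : ∑' j, ∫⁻ x, ENNReal.ofReal (32 * M ^ 2 / t j * D j x ^ 2) ∂m ≤
      ENNReal.ofReal (256 * M ^ 2 * ∫ x, g x ^ 2 ∂m) := by
    refine ENNReal.tsum_le_of_sum_range_le fun n => ?_
    refine (Finset.sum_le_sum fun j _ => hs j).trans ?_
    rw [← ENNReal.ofReal_sum_of_nonneg]
    · refine ENNReal.ofReal_le_ofReal ?_
      rw [← Finset.mul_sum]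
      have := gamA_sum_le H C h₀pos hf.2.1 n
      have h2 : 0 ≤ 128 * M ^ 2 := by positivity
      calc _ ≤ 128 * M ^ 2 * (2 * ∫ x, g x ^ 2 ∂m) := mul_le_mul_of_nonneg_left this h2
        _ = _ := by ring
    · intro j _
      have : 0 ≤ ∫ x, J m (t j) g x * (g x - J m (t j) g x) ∂m := by
        rw [← gamA_energy_J H C (ht0 j) hf.2.1]
        exact mul_nonneg (ht0 j).le (integral_nonneg fun x => sq_nonneg _)
      positivity
  have htot : ∫⁻ x, ENNReal.ofReal (minWeakGrad m f x ^ 4) ∂m ≤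
      ENNReal.ofReal (Λ * ∫ x, minWeakGrad m f x ^ 2 ∂m) +
        ENNReal.ofReal (256 * M ^ 2 * ∫ x, g x ^ 2 ∂m) := by
    refine (lintegral_mono_ae hpt).trans ?_
    rw [lintegral_add_left', lintegral_tsum]
    · refine add_le_add (le_of_eq ?_) hsum
      rw [← integral_const_mul]
      exact (ofReal_integral_eq_lintegral_ofReal ((integrable_wg_sq H hf.1).const_mul _)
        (Eventually.of_forall fun x => by positivity)).symm
    · intro j
      exact (((integrable_wg_sq H (hsD j)).const_mul _).1.aemeasurable).ennreal_ofReal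
    · exact (((integrable_wg_sq H hf.1).const_mul _).1.aemeasurable).ennreal_ofReal
  rw [← ENNReal.ofReal_add (by positivity) (by positivity)] at htot
  have hint : Integrable (fun x => minWeakGrad m f x ^ 4) m := by
    refine ⟨hmeas, ?_⟩
    rw [hasFiniteIntegral_iff_ofReal (Eventually.of_forall fun x => by positivity)]
    exact htot.trans_lt ENNReal.ofReal_lt_top
  refine ⟨hint, ?_⟩
  rw [← ofReal_integral_eq_lintegral_ofReal hint (Eventually.of_forall fun x => by positivity),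
    ENNReal.ofReal_le_ofReal_iff (by positivity)] at htot
  refine htot.trans (le_of_eq ?_)
  rw [hΛ]
  ring

/-! ### the pointwise operator `Jc` -/

section Jc

theorem gamA_isWUG (hf : IsSobolevLoc m f) : IsWUGLoc m f (minWeakGrad m f) := by
  have h : ∃ D : X → ℝ, IsMinWUGLoc m f D := hf.2
  have : minWeakGrad m f = Classical.choose h := by
    unfold minWeakGrad
    rw [dif_pos h]
  rw [this]
  exact (Classical.choose_spec h).1

theorem gamA_eq_of_ae {u v : X → ℝ} (hu : Continuous u) (hv : Continuous v) (h : u =ᵐ[m] v) :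
    u = v :=
  (Continuous.ae_eq_iff_eq m hu hv).1 h

theorem gamA_le_of_ae {u v : X → ℝ} (hu : Continuous u) (hv : Continuous v)
    (h : ∀ᵐ x ∂m, u x ≤ v x) (x : X) : u x ≤ v x := by
  have h1 : (fun x => max (u x) (v x)) = v := by
    refine gamA_eq_of_ae (m := m) (hu.max hv) hv ?_
    filter_upwards [h] with y hy
    exact max_eq_right hy
  calc u x ≤ max (u x) (v x) := le_max_left _ _
    _ = v x := congrFun h1 x

variable [IsUnifLocDoublingMeasure m]

/-- `Jc m h f` is the Lipschitz representative of `J_h J_h f`. -/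
theorem Jc_spec (H : Hyp m k N) (C : Calc m) (GJ : GoodJ m k h₀) (hgeo : HasBddGeoPlans m)
    (hh : 0 < h) (hh0 : h ≤ h₀) (hf : MemLp f 2 m) {M : ℝ} (hM : ∀ᵐ x ∂m, |f x| ≤ M) :
    Jc m h f =ᵐ[m] J m h (J m h f) ∧
      LipschitzWith (Real.toNNReal (M / Real.sqrt h)) (Jc m h f) := by
  have hs := gamA_sob C hh (gamA_memLp C hh hf)
  obtain ⟨v, hv, hve⟩ := exists_lip_rep (L := Real.toNNReal (M / Real.sqrt h)) H.fin hgeo hs.2.1.1
    (gamA_isWUG hs.2.1) (Eventually.mono (wg_JJ_le H C GJ hh hh0 hf hM) fun x hx =>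
      hx.trans (Real.le_coe_toNNReal _))
  have hex : ∃ g : X → ℝ, Continuous g ∧ g =ᵐ[m] J m h (J m h f) := ⟨v, hv.continuous, hve⟩
  have hJc : Jc m h f = Classical.choose hex := by
    unfold Jc
    rw [dif_pos hex]
  obtain ⟨h1, h2⟩ := Classical.choose_spec hex
  rw [← hJc] at h1 h2
  have h3 : Jc m h f = v := gamA_eq_of_ae h1 hv.continuous (h2.trans hve.symm)
  exact ⟨h2, h3 ▸ hv⟩

theorem Jc_congr (hfg : f =ᵐ[m] g) : Jc m h f = Jc m h g := by
  have : J m h f = J m h g := gamA_congr hfg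
  unfold Jc
  rw [this]

theorem Jc_continuous (H : Hyp m k N) (C : Calc m) (GJ : GoodJ m k h₀) (hgeo : HasBddGeoPlans m)
    (hh : 0 < h) (hh0 : h ≤ h₀) (hf : MemLp f 2 m) (hfb : ∃ M : ℝ, ∀ᵐ x ∂m, |f x| ≤ M) :
    Continuous (Jc m h f) := by
  obtain ⟨M, hM⟩ := hfb
  exact (Jc_spec H C GJ hgeo hh hh0 hf hM).2.continuous

theorem Jc_ae (H : Hyp m k N) (C : Calc m) (GJ : GoodJ m k h₀) (hgeo : HasBddGeoPlans m)
    (hh : 0 < h) (hh0 : h ≤ h₀) (hf : MemLp f 2 m) (hfb : ∃ M : ℝ, ∀ᵐ x ∂m, |f x| ≤ M) :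
    Jc m h f =ᵐ[m] J m h (J m h f) := by
  obtain ⟨M, hM⟩ := hfb
  exact (Jc_spec H C GJ hgeo hh hh0 hf hM).1

theorem Jc_mono (H : Hyp m k N) (C : Calc m) (GJ : GoodJ m k h₀) (hgeo : HasBddGeoPlans m)
    (hh : 0 < h) (hh0 : h ≤ h₀) (hf : MemLp f 2 m) (hfb : ∃ M : ℝ, ∀ᵐ x ∂m, |f x| ≤ M)
    (hg : MemLp g 2 m) (hgb : ∃ M : ℝ, ∀ᵐ x ∂m, |g x| ≤ M) (hfg : ∀ᵐ x ∂m, f x ≤ g x) (x : X) :
    Jc m h f x ≤ Jc m h g x := by
  refine gamA_le_of_ae (m := m) (Jc_continuous H C GJ hgeo hh hh0 hf hfb)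
    (Jc_continuous H C GJ hgeo hh hh0 hg hgb) ?_ x
  filter_upwards [Jc_ae H C GJ hgeo hh hh0 hf hfb, Jc_ae H C GJ hgeo hh hh0 hg hgb,
    gamA_mono C hh (gamA_memLp C hh hf) (gamA_memLp C hh hg) (gamA_mono C hh hf hg hfg)]
    with x h1 h2 h3
  rw [h1, h2]; exact h3

theorem Jc_add (H : Hyp m k N) (C : Calc m) (GJ : GoodJ m k h₀) (hgeo : HasBddGeoPlans m)
    (hh : 0 < h) (hh0 : h ≤ h₀) (hf : MemLp f 2 m) (hfb : ∃ M : ℝ, ∀ᵐ x ∂m, |f x| ≤ M)
    (hg : MemLp g 2 m) (hgb : ∃ M : ℝ, ∀ᵐ x ∂m, |g x| ≤ M) (x : X) :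
    Jc m h (fun y => f y + g y) x = Jc m h f x + Jc m h g x := by
  have hfg : MemLp (fun y => f y + g y) 2 m := hf.add hg
  have hfgb : ∃ M : ℝ, ∀ᵐ x ∂m, |f x + g x| ≤ M := by
    obtain ⟨M, hM⟩ := hfb
    obtain ⟨M', hM'⟩ := hgb
    refine ⟨M + M', ?_⟩
    filter_upwards [hM, hM'] with x h1 h2
    exact (abs_add_le _ _).trans (add_le_add h1 h2)
  have h1 : Jc m h (fun y => f y + g y) = fun x => Jc m h f x + Jc m h g x := by
    refine gamA_eq_of_ae (m := m) (Jc_continuous H C GJ hgeo hh hh0 hfg hfgb)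
      ((Jc_continuous H C GJ hgeo hh hh0 hf hfb).add (Jc_continuous H C GJ hgeo hh hh0 hg hgb)) ?_
    have e : J m h (J m h fun y => f y + g y) = J m h (fun x => J m h f x + J m h g x) :=
      gamA_congr (gamA_add C hh hf hg)
    filter_upwards [Jc_ae H C GJ hgeo hh hh0 hf hfb, Jc_ae H C GJ hgeo hh hh0 hg hgb,
      Jc_ae H C GJ hgeo hh hh0 hfg hfgb, gamA_add C hh (gamA_memLp C hh hf) (gamA_memLp C hh hg)]
      with x h1 h2 h3 h4
    rw [h1, h2, h3, e, h4]
  exact congrFun h1 x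

theorem Jc_smul (H : Hyp m k N) (C : Calc m) (GJ : GoodJ m k h₀) (hgeo : HasBddGeoPlans m)
    (hh : 0 < h) (hh0 : h ≤ h₀) (c : ℝ) (hf : MemLp f 2 m)
    (hfb : ∃ M : ℝ, ∀ᵐ x ∂m, |f x| ≤ M) (x : X) :
    Jc m h (fun y => c * f y) x = c * Jc m h f x := by
  have hcf : MemLp (fun y => c * f y) 2 m := hf.const_mul c
  have hcfb : ∃ M : ℝ, ∀ᵐ x ∂m, |c * f x| ≤ M := by
    obtain ⟨M, hM⟩ := hfb
    refine ⟨|c| * M, ?_⟩
    filter_upwards [hM] with x h1
    rw [abs_mul]
    exact mul_le_mul_of_nonneg_left h1 (abs_nonneg _)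
  have h1 : Jc m h (fun y => c * f y) = fun x => c * Jc m h f x := by
    refine gamA_eq_of_ae (m := m) (Jc_continuous H C GJ hgeo hh hh0 hcf hcfb)
      ((Jc_continuous H C GJ hgeo hh hh0 hf hfb).const_mul c) ?_
    have e : J m h (J m h fun y => c * f y) = J m h (fun x => c * J m h f x) :=
      gamA_congr (gamA_smul C hh c hf)
    filter_upwards [Jc_ae H C GJ hgeo hh hh0 hf hfb,
      Jc_ae H C GJ hgeo hh hh0 hcf hcfb, gamA_smul C hh c (gamA_memLp C hh hf)]
      with x h1 h3 h4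
    rw [h1, h3, e, h4]
  exact congrFun h1 x

theorem Jc_sub (H : Hyp m k N) (C : Calc m) (GJ : GoodJ m k h₀) (hgeo : HasBddGeoPlans m)
    (hh : 0 < h) (hh0 : h ≤ h₀) (hf : MemLp f 2 m) (hfb : ∃ M : ℝ, ∀ᵐ x ∂m, |f x| ≤ M)
    (hg : MemLp g 2 m) (hgb : ∃ M : ℝ, ∀ᵐ x ∂m, |g x| ≤ M) (x : X) :
    Jc m h (fun y => f y - g y) x = Jc m h f x - Jc m h g x := by
  have hng : MemLp (fun y => -1 * g y) 2 m := hg.const_mul (-1)
  have hngb : ∃ M : ℝ, ∀ᵐ x ∂m, |-1 * g x| ≤ M := by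
    obtain ⟨M, hM⟩ := hgb
    refine ⟨M, ?_⟩
    filter_upwards [hM] with x h1
    rwa [neg_one_mul, abs_neg]
  have e : (fun y => f y - g y) = fun y => f y + -1 * g y := by
    ext y; ring
  rw [e, Jc_add H C GJ hgeo hh hh0 hf hfb hng hngb, Jc_smul H C GJ hgeo hh hh0 (-1) hg hgb]
  ring

theorem Jc_le_const (H : Hyp m k N) (C : Calc m) (GJ : GoodJ m k h₀) (hgeo : HasBddGeoPlans m)
    (hh : 0 < h) (hh0 : h ≤ h₀) (hf : MemLp f 2 m) (hfb : ∃ M : ℝ, ∀ᵐ x ∂m, |f x| ≤ M)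
    {c : ℝ} (hc : 0 ≤ c) (hfc : ∀ᵐ x ∂m, f x ≤ c) (x : X) : Jc m h f x ≤ c := by
  refine gamA_le_of_ae (m := m) (u := Jc m h f) (v := fun _ => c)
    (Jc_continuous H C GJ hgeo hh hh0 hf hfb) continuous_const ?_ x
  filter_upwards [Jc_ae H C GJ hgeo hh hh0 hf hfb,
    gamA_le_const C hh (gamA_memLp C hh hf) hc (gamA_le_const C hh hf hc hfc)] with x h1 h2
  rw [h1]; exact h2

theorem Jc_nonneg (H : Hyp m k N) (C : Calc m) (GJ : GoodJ m k h₀) (hgeo : HasBddGeoPlans m)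
    (hh : 0 < h) (hh0 : h ≤ h₀) (hf : MemLp f 2 m) (hfb : ∃ M : ℝ, ∀ᵐ x ∂m, |f x| ≤ M)
    (hf0 : 0 ≤ᵐ[m] f) (x : X) : 0 ≤ Jc m h f x := by
  refine gamA_le_of_ae (m := m) (u := fun _ => 0) (v := Jc m h f) continuous_const
    (Jc_continuous H C GJ hgeo hh hh0 hf hfb) ?_ x
  filter_upwards [Jc_ae H C GJ hgeo hh hh0 hf hfb,
    gamA_nonneg C hh (gamA_memLp C hh hf) (gamA_nonneg C hh hf hf0)] with x h1 h2
  rw [h1]; exact h2

theorem Jc_abs_le (H : Hyp m k N) (C : Calc m) (GJ : GoodJ m k h₀) (hgeo : HasBddGeoPlans m)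
    (hh : 0 < h) (hh0 : h ≤ h₀) (hf : MemLp f 2 m) {M : ℝ} (hM : ∀ᵐ x ∂m, |f x| ≤ M) (x : X) :
    |Jc m h f x| ≤ M := by
  refine gamA_le_of_ae (m := m) (u := fun x => |Jc m h f x|) (v := fun _ => M)
    (Jc_continuous H C GJ hgeo hh hh0 hf ⟨M, hM⟩).abs continuous_const ?_ x
  filter_upwards [Jc_ae H C GJ hgeo hh hh0 hf ⟨M, hM⟩,
    gamA_abs_le C hh (gamA_memLp C hh hf) (gamA_abs_le C hh hf hM)] with x h1 h2
  rw [h1]; exact h2

/-- `∫ (Jc f)² ≤ ∫ f²`. -/
theorem Jc_l2 (H : Hyp m k N) (C : Calc m) (GJ : GoodJ m k h₀) (hgeo : HasBddGeoPlans m)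
    (hh : 0 < h) (hh0 : h ≤ h₀) (hf : MemLp f 2 m) (hfb : ∃ M : ℝ, ∀ᵐ x ∂m, |f x| ≤ M) :
    MemLp (Jc m h f) 2 m ∧ ∫ x, Jc m h f x ^ 2 ∂m ≤ ∫ x, f x ^ 2 ∂m := by
  have h1 := Jc_ae H C GJ hgeo hh hh0 hf hfb
  refine ⟨(memLp_congr_ae h1).2 (gamA_memLp C hh (gamA_memLp C hh hf)), ?_⟩
  have h2 : ∫ x, Jc m h f x ^ 2 ∂m = ∫ x, J m h (J m h f) x ^ 2 ∂m := by
    refine integral_congr_ae ?_
    filter_upwards [h1] with x hx
    rw [hx]
  rw [h2]
  exact (gamA_l2 C hh (gamA_memLp C hh hf)).trans (gamA_l2 C hh hf)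

/-- pointwise convergence from `L²` convergence of a bounded family. -/
theorem Jc_tendsto {ι : Type*} {l : Filter ι} (H : Hyp m k N) (C : Calc m) (GJ : GoodJ m k h₀)
    (hgeo : HasBddGeoPlans m) (hh : 0 < h) (hh0 : h ≤ h₀) {fn : ι → X → ℝ} {M : ℝ}
    (hfn : ∀ i, MemLp (fn i) 2 m) (hfnM : ∀ i, ∀ᵐ x ∂m, |fn i x| ≤ M)
    (hf : MemLp f 2 m) (hM : ∀ᵐ x ∂m, |f x| ≤ M)
    (hlim : Tendsto (fun i => ∫ x, (fn i x - f x) ^ 2 ∂m) l (𝓝 0)) (x : X) :
    Tendsto (fun i => Jc m h (fn i) x) l (𝓝 (Jc m h f x)) := by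
  rw [Metric.tendsto_nhds]
  intro ε hε
  set L : ℝ≥0 := Real.toNNReal ((M + M) / Real.sqrt h) with hL
  set r : ℝ := ε / (2 * (L + 1)) with hr
  have hL1 : (0 : ℝ) < L + 1 := by positivity
  have hr0 : 0 < r := by positivity
  have hball : 0 < (m (Metric.ball x r)).toReal :=
    ENNReal.toReal_pos (Metric.measure_ball_pos m x hr0).ne' (H.fin x r).ne
  set c : ℝ := (ε / 2) ^ 2 * (m (Metric.ball x r)).toReal with hc
  have hc0 : 0 < c := by positivity
  filter_upwards [hlim.eventually_lt_const hc0] with i hi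
  have hd : MemLp (fun y => fn i y - f y) 2 m := (hfn i).sub hf
  have hdM : ∀ᵐ y ∂m, |fn i y - f y| ≤ M + M := by
    filter_upwards [hfnM i, hM] with y h1 h2
    exact (abs_sub _ _).trans (add_le_add h1 h2)
  obtain ⟨-, hlip⟩ := Jc_spec H C GJ hgeo hh hh0 hd hdM
  obtain ⟨hmem, hle⟩ := Jc_l2 H C GJ hgeo hh hh0 hd ⟨_, hdM⟩
  rw [Real.dist_eq, ← Jc_sub H C GJ hgeo hh hh0 (hfn i) ⟨M, hfnM i⟩ hf ⟨M, hM⟩]
  set w := Jc m h fun y => fn i y - f y with hw
  by_contra hcon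
  push Not at hcon
  have hlow : ∀ y ∈ Metric.ball x r, ε / 2 ≤ |w y| := by
    intro y hy
    have h1 := hlip.dist_le_mul x y
    rw [Real.dist_eq] at h1
    have h2 : dist x y ≤ r := by
      rw [dist_comm]; exact (Metric.mem_ball.1 hy).le
    have h3 : (L : ℝ) * dist x y ≤ ε / 2 := by
      calc (L : ℝ) * dist x y ≤ (L + 1) * r :=
            mul_le_mul (by linarith) h2 dist_nonneg hL1.le
        _ = ε / 2 := by rw [hr]; field_simp
    have h4 : |w x| - |w y| ≤ |w x - w y| := abs_sub_abs_le_abs_sub _ _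
    linarith
  have h5 : c ≤ ∫ y in Metric.ball x r, w y ^ 2 ∂m := by
    have h6 : ∫ y in Metric.ball x r, (ε / 2) ^ 2 ∂m = c := by
      rw [setIntegral_const, smul_eq_mul, measureReal_def, hc]; ring
    rw [← h6]
    refine setIntegral_mono_on (integrableOn_const (hs := (H.fin x r).ne) (by simp))
      hmem.integrable_sq.integrableOn Metric.isOpen_ball.measurableSet fun y hy => ?_
    rw [← sq_abs (w y)]
    exact pow_le_pow_left₀ (by positivity) (hlow y hy) 2
  have h7 : ∫ y in Metric.ball x r, w y ^ 2 ∂m ≤ ∫ y, w y ^ 2 ∂m :=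
    setIntegral_le_integral hmem.integrable_sq (Eventually.of_forall fun y => sq_nonneg _)
  linarith

end Jc

end Crest.Agent.R242
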