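import Crest.Agent.R242.GamB3

/-!
# Row 242, part G8 (owner helper899)

Density of compactly supported test functions.
-/

set_option autoImplicit false
set_option linter.unusedSectionVars false

open MeasureTheory Filter Set
open scoped ENNReal NNReal Topology
open Crest.GeometryTopology.SyntheticRicci

noncomputable section

namespace Crest.Agent.R242

variable {X : Type*} [MetricSpace X] [ProperSpace X] [MeasurableSpace X] [BorelSpace X]
  {m : Measure X} [IsLocallyFiniteMeasure m] {k N : ℝ} {u v w g l : X → ℝ}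

theorem To0.congr_ae {ι : Type*} {F : Filter ι} {f f' : ι → X → ℝ} (hf : To0 m F f)
    (h : ∀ n, f n =ᵐ[m] f' n) : To0 m F f' := by
  refine Tendsto.congr (fun n => ?_) hf
  exact eLpNorm_congr_ae (h n)

/-- a continuous function is bounded everywhere by an almost everywhere bound. -/
theorem forall_le_of_ae_le [m.IsOpenPosMeasure] {f : X → ℝ} (hf : Continuous f) {c : ℝ}
    (h : ∀ᵐ x ∂m, f x ≤ c) (x : X) : f x ≤ c := by
  by_contra hcon
  push Not at hcon
  have hU : IsOpen {y | c < f y} := isOpen_lt continuous_const hf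
  have h1 : 0 < m {y | c < f y} := hU.measure_pos m ⟨x, hcon⟩
  have h2 : m {y | c < f y} = 0 := by
    have := ae_iff.1 h
    simpa [not_le] using this
  exact h1.ne' h2

/-- multiplication with cut-off functions converging to `1`. -/
theorem cut_to0 {o : X} {χ : ℕ → X → ℝ} (hχm : ∀ n, Measurable (χ n))
    (hχ : ∀ n x, 0 ≤ χ n x ∧ χ n x ≤ 1)
    (hχ1 : ∀ n : ℕ, ∀ x ∈ Metric.closedBall o ((n : ℝ) + 1), χ n x = 1) (hu : MemLp u 2 m) :
    To0 m atTop (fun n x => (χ n x - 1) * u x) := by
  refine to0_of_dominated hu (fun n => ?_) (fun n => ?_) ?_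
  · exact ((hχm n).sub_const 1).aestronglyMeasurable.mul hu.1
  · refine Eventually.of_forall fun x => ?_
    rw [abs_mul]
    refine mul_le_of_le_one_left (abs_nonneg _) ?_
    have := hχ n x
    rw [abs_le]; constructor <;> linarith [this.1, this.2]
  · refine Eventually.of_forall fun x => ?_
    refine tendsto_const_nhds.congr' ?_
    obtain ⟨n0, hn0⟩ := exists_nat_ge (dist x o)
    filter_upwards [eventually_ge_atTop n0] with n hn
    have h1 : x ∈ Metric.closedBall o ((n : ℝ) + 1) := by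
      rw [Metric.mem_closedBall]
      have : (n0 : ℝ) ≤ n := by exact_mod_cast hn
      linarith
    rw [hχ1 n x h1]; ring

/-- G8: approximation of `u ∈ D(Δ) ∩ L^∞` by compactly supported test functions. -/
theorem exists_test2_approx [m.IsOpenPosMeasure] (hfin : IsFiniteOnBalls m)
    (hH : IsInfHilbertian m) (C : Calc m)
    (G : CalcG m) (hu : IsWeakLaplacian m u g) {B : ℝ} (hB : ∀ᵐ x ∂m, |u x| ≤ B) :
    ∃ uj gj : ℕ → X → ℝ,
      (∀ j, Test2 m (uj j) (gj j) ∧ HasCompactSupport (uj j) ∧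
        (∃ M : ℝ, ∀ᵐ x ∂m, |gj j x| ≤ M) ∧ ∀ x, |uj j x| ≤ B) ∧
      (0 ≤ᵐ[m] u → ∀ j x, 0 ≤ uj j x) ∧
      Tendsto (fun j => eLpNorm (fun x => uj j x - u x) 2 m) atTop (𝓝 0) ∧
      Tendsto (fun j => eLpNorm (fun x => gj j x - g x) 2 m) atTop (𝓝 0) ∧
      Tendsto (fun j => eLpNorm (minWeakGrad m (fun x => uj j x - u x)) 2 m) atTop (𝓝 0) ∧
      Tendsto (fun j => eLpNorm (minWeakGrad m (fun x => uj j x - u x)) 4 m) atTop (𝓝 0) := by
  rcases isEmpty_or_nonempty X with hX | ⟨⟨o⟩⟩
  · have hm : m = 0 := Measure.eq_zero_of_isEmpty m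
    have e : g = u := by
      funext x; exact isEmptyElim x
    subst e
    refine ⟨fun _ => g, fun _ => g, fun j => ⟨⟨hu, hu.1, ⟨B, fun x => isEmptyElim x⟩, 0,
      fun x => isEmptyElim x⟩, HasCompactSupport.intro isCompact_empty (fun x => isEmptyElim x),
      ⟨0, by simp [hm]⟩, fun x => isEmptyElim x⟩, fun _ j x => isEmptyElim x, ?_, ?_, ?_, ?_⟩ <;>
    simp [hm]
  have : Nonempty X := ⟨o⟩
  have hB0 : 0 ≤ B := by
    obtain ⟨x, hx⟩ := hB.exists
    exact (abs_nonneg _).trans hx
  obtain ⟨h0, h0p, hg2⟩ := G.g2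
  obtain ⟨K, hK0, hcut⟩ := exists_test2_cutoff hfin hH C G
  obtain ⟨C6, hC6, hg6⟩ := G.g6
  set hn : ℕ → ℝ := fun n => h0 / ((n : ℝ) + 1) with hhn
  have hpos : ∀ n, 0 < hn n := fun n => by positivity
  have hle : ∀ n, hn n ≤ h0 := fun n => div_le_self h0p.le (by
    have : (0 : ℝ) ≤ n := n.cast_nonneg
    linarith)
  have hlimc : ∀ c : ℝ, Tendsto (fun n : ℕ => c / ((n : ℝ) + 1)) atTop (𝓝 0) := fun c => by
    have h1 := (tendsto_const_div_atTop_nhds_zero_nat c).comp (tendsto_add_atTop_nat 1)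
    refine h1.congr fun n => ?_
    simp
  have hlim : Tendsto hn atTop (𝓝 0) := hlimc h0
  choose v hv hvB using fun n => hg2 (hn n) (hpos n) (hle n) u B hu.1.1 hB
  choose χ gχ hχT hχc hχ01 hχ1 hχ0 hχL hgχ hgχ0 using
    fun n : ℕ => hcut o ((n : ℝ) + 1) (by
      have : (0 : ℝ) ≤ n := n.cast_nonneg
      linarith)
  set w : ℕ → X → ℝ := fun n => J m (hn n) (J m (hn n) g) with hw
  set c : ℕ → ℝ := fun n => K / ((n : ℝ) + 1) with hc
  have hc0 : ∀ n, 0 ≤ c n := fun n => by positivity
  have hcK : ∀ n, c n ≤ K := fun n => div_le_self hK0 (by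
    have : (0 : ℝ) ≤ n := n.cast_nonneg
    linarith)
  have hclim : Tendsto c atTop (𝓝 0) := hlimc K
  have hJu : ∀ n, MemLp (J m (hn n) u) 2 m := fun n => J_memLp C (hpos n) hu.1.1
  have hJg : ∀ n, MemLp (J m (hn n) g) 2 m := fun n => J_memLp C (hpos n) hu.2.1
  have hvlap : ∀ n, IsWeakLaplacian m (v n) (w n) := fun n =>
    isWeakLaplacian_congr C (isWLap_zero_iff.1 (C.isWLap_Jr bddM_zero (hpos n)
      (C.isWLap_Jr bddM_zero (hpos n) (isWLap_zero_iff.2 hu)))) (hv n).symm
      (Eventually.of_forall fun _ => rfl)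
  have hvT : ∀ n, Test2 m (v n) (w n) := fun n => ⟨hvlap n, J_sob C (hpos n) (hJg n), hvB n⟩
  have hJb : ∀ n, ∀ᵐ x ∂m, |J m (hn n) u x| ≤ B := fun n =>
    C.Jr_abs_le_const bddM_zero (hpos n) hu.1.1 hB
  have hJJb : ∀ n, ∀ᵐ x ∂m, |J m (hn n) (J m (hn n) u) x| ≤ B := fun n =>
    C.Jr_abs_le_const bddM_zero (hpos n) (hJu n) (hJb n)
  have hvc : ∀ n, Continuous (v n) := fun n => by
    obtain ⟨-, L, hL⟩ := hvB n
    exact hL.continuous
  have hvb : ∀ n x, |v n x| ≤ B := fun n => by
    refine forall_le_of_ae_le (m := m) (hvc n).abs ?_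
    filter_upwards [hv n, hJJb n] with x h1 h2
    rwa [h1]
  have hχm : ∀ n, Measurable (χ n) := fun n => (hχL n).continuous.measurable
  have hχa : ∀ n x, |χ n x| ≤ 1 := fun n x => by
    rw [abs_of_nonneg (hχ01 n x).1]; exact (hχ01 n x).2
  have hχa1 : ∀ n x, |χ n x - 1| ≤ 1 := fun n x => by
    have := hχ01 n x
    rw [abs_le]; constructor <;> linarith [this.1, this.2]
  have hwχ : ∀ n, ∀ᵐ x ∂m, minWeakGrad m (χ n) x ≤ c n := fun n => by
    have := (hχT n).bl.wg_le hfin (hχL n)
    rwa [Real.coe_toNNReal _ (hc0 n)] at this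
  have hwle : ∀ n, ∀ᵐ x ∂m, |w n x| ≤ 2 * B / hn n := fun n => by
    have h1 : IsWeakLaplacian m (J m (hn n) (J m (hn n) u))
        (fun x => (J m (hn n) (J m (hn n) u) x - J m (hn n) u x) / hn n) :=
      isWLap_zero_iff.1 (C.Jr_isWLap bddM_zero (hpos n) (hJu n))
    have h2 := isWeakLaplacian_unique C
      (isWeakLaplacian_congr C (hvlap n) (hv n) (Eventually.of_forall fun _ => rfl)) h1
    filter_upwards [h2, hJb n, hJJb n] with x h3 h4 h5
    rw [h3, abs_div, abs_of_pos (hpos n)]
    refine div_le_div_of_nonneg_right ?_ (hpos n).le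
    rw [abs_le] at h4 h5 ⊢
    constructor <;> linarith [h4.1, h4.2, h5.1, h5.2]
  have hgp : ∀ n, ∀ᵐ x ∂m, |gradPairing m (χ n) (v n) x| ≤ c n * minWeakGrad m (v n) x :=
    fun n => by
      filter_upwards [abs_gradPairing_le hfin hH ((hχT n).bl.sobLoc hfin) ((hvB n).sobLoc hfin),
        hwχ n, minWeakGrad_nonneg (m := m) (v n)] with x h1 h2 h3
      exact h1.trans (mul_le_mul_of_nonneg_right h2 h3)
  have huT : ∀ n, Test2 m (fun x => χ n x * v n x)
      (fun x => χ n x * w n x + v n x * gχ n x + 2 * gradPairing m (χ n) (v n) x) := fun n =>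
    (hχT n).mul hfin hH C G (hvT n)
  -- the basic convergences
  have E1 : To0 m atTop (fun n x => v n x - u x) :=
    (JJ_to0 C hpos hlim hu.1.1).congr_ae fun n => by
      filter_upwards [hv n] with x hx
      rw [hx]
  have E2 : To0 m atTop (fun n x => w n x - g x) := JJ_to0 C hpos hlim hu.2.1
  have hvu : ∀ n, IsSobolev m (fun x => v n x - u x) := fun n =>
    IsSobolev.sub hfin (hvlap n).1 hu.1
  have E3 : To0 m atTop (fun n => minWeakGrad m (fun x => v n x - u x)) :=
    (JJ_wg_to0 hfin C hpos hlim hu.1).congr_ae fun n => by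
      refine minWeakGrad_congr ?_
      filter_upwards [hv n] with x hx
      rw [hx]
  have hvn : ∀ n, eLpNorm (v n) 2 m ≤ eLpNorm u 2 m := fun n => by
    rw [eLpNorm_congr_ae (hv n)]
    exact (J_eLpNorm_le C (hpos n) (hJu n)).trans (J_eLpNorm_le C (hpos n) hu.1.1)
  have hwvn : ∀ n, eLpNorm (minWeakGrad m (v n)) 2 m ≤ eLpNorm (minWeakGrad m u) 2 m :=
    fun n => by
      rw [eLpNorm_congr_ae (minWeakGrad_congr (hv n))]
      exact (J_wg_eLpNorm_le C (hpos n) (J_sob C (hpos n) hu.1.1)).trans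
        (J_wg_eLpNorm_le C (hpos n) hu.1)
  -- `L²` convergence of `χ v`
  have F1 : To0 m atTop (fun n x => χ n x * v n x - u x) := by
    have h1 : To0 m atTop (fun n x => χ n x * (v n x - u x)) := E1.mono fun n =>
      Eventually.of_forall fun x => by
        rw [abs_mul]; exact mul_le_of_le_one_left (abs_nonneg _) (hχa n x)
    have h2 := cut_to0 hχm hχ01 hχ1 hu.1.1
    refine (h1.add h2 (fun n => (hχm n).aestronglyMeasurable.mul (hvu n).1.1)
      (fun n => ((hχm n).sub_const 1).aestronglyMeasurable.mul hu.1.1.1)).congr_ae fun n => ?_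
    refine Eventually.of_forall fun x => ?_
    simp only []; ring
  -- `L²` convergence of the Laplacians
  have mgp : ∀ n, MemLp (gradPairing m (χ n) (v n)) 2 m := fun n =>
    gp_memLp_of_lip hfin hH (hχT n).bl (hvlap n).1
  have F2 : To0 m atTop (fun n x =>
      χ n x * w n x + v n x * gχ n x + 2 * gradPairing m (χ n) (v n) x - g x) := by
    have h1 : To0 m atTop (fun n x => χ n x * (w n x - g x)) := E2.mono fun n =>
      Eventually.of_forall fun x => by
        rw [abs_mul]; exact mul_le_of_le_one_left (abs_nonneg _) (hχa n x)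
    have h2 := cut_to0 hχm hχ01 hχ1 hu.2.1
    have h3 : To0 m atTop (fun n x => v n x * gχ n x) :=
      to0_of_le_mul (c := c) (g := v) hu.1.1.2.ne hclim hvn fun n => by
        filter_upwards [hgχ n] with x hx
        rw [abs_mul, mul_comm]
        exact mul_le_mul_of_nonneg_right hx (abs_nonneg _)
    have h4 : To0 m atTop (fun n => gradPairing m (χ n) (v n)) :=
      to0_of_le_mul (c := c) (g := fun n => minWeakGrad m (v n)) hu.1.2.2.2.ne hclim hwvn
        fun n => by
          filter_upwards [hgp n] with x hx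
          exact hx.trans (mul_le_mul_of_nonneg_left (le_abs_self _) (hc0 n))
    have a1 : ∀ n, AEStronglyMeasurable (fun x => χ n x * (w n x - g x)) m := fun n =>
      (hχm n).aestronglyMeasurable.mul ((hvT n).sob.1.1.sub hu.2.1.1)
    have a2 : ∀ n, AEStronglyMeasurable (fun x => (χ n x - 1) * g x) m := fun n =>
      ((hχm n).sub_const 1).aestronglyMeasurable.mul hu.2.1.1
    have a3 : ∀ n, AEStronglyMeasurable (fun x => v n x * gχ n x) m := fun n =>
      (hvc n).measurable.aestronglyMeasurable.mul (hχT n).sob.1.1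
    have a4 : ∀ n, AEStronglyMeasurable (fun x => 2 * gradPairing m (χ n) (v n) x) m := fun n =>
      (mgp n).1.const_mul 2
    refine (((h1.add h2 a1 a2).add h3 (fun n => (a1 n).add (a2 n)) a3).add (h4.const_mul 2)
      (fun n => ((a1 n).add (a2 n)).add (a3 n)) a4).congr_ae fun n => ?_
    refine Eventually.of_forall fun x => ?_
    simp only []; ring
  -- convergence of the gradients
  have hu' : ∀ n, IsSobolev m (fun x => χ n x * v n x - u x) := fun n =>
    IsSobolev.sub hfin (huT n).lap.1 hu.1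
  have F3 : To0 m atTop (fun n => minWeakGrad m (fun x => χ n x * v n x - u x)) := by
    have h1 : To0 m atTop (fun n x => K * (v n x - u x)) := E1.const_mul K
    have h2 : To0 m atTop (fun n x => c n * u x) :=
      to0_of_le_mul (c := c) (g := fun _ => u) hu.1.1.2.ne hclim (fun n => le_rfl) fun n =>
        Eventually.of_forall fun x => by rw [abs_mul, abs_of_nonneg (hc0 n)]
    have h3 := cut_to0 hχm hχ01 hχ1 hu.1.2.2
    have b1 : To0 m atTop (fun n x => |K * (v n x - u x)|) :=
      h1.mono fun n => Eventually.of_forall fun x => by rw [abs_abs]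
    have b2 : To0 m atTop (fun n x => |c n * u x|) :=
      h2.mono fun n => Eventually.of_forall fun x => by rw [abs_abs]
    have b3 : To0 m atTop (fun n x => |(χ n x - 1) * minWeakGrad m u x|) :=
      h3.mono fun n => Eventually.of_forall fun x => by rw [abs_abs]
    have a1 : ∀ n, AEStronglyMeasurable (fun x => |K * (v n x - u x)|) m := fun n =>
      ((hvu n).1.1.const_mul K).norm
    have a2 : ∀ n, AEStronglyMeasurable (fun x => |c n * u x|) m := fun n =>
      (hu.1.1.1.const_mul (c n)).norm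
    have a3 : ∀ n, AEStronglyMeasurable (fun x => |(χ n x - 1) * minWeakGrad m u x|) m :=
      fun n => (((hχm n).sub_const 1).aestronglyMeasurable.mul hu.1.2.2.1).norm
    have a4 : ∀ n, AEStronglyMeasurable (minWeakGrad m (fun x => v n x - u x)) m := fun n =>
      (hvu n).2.2.1
    have hS := ((b1.add b2 a1 a2).add b3 (fun n => (a1 n).add (a2 n)) a3).add E3
      (fun n => ((a1 n).add (a2 n)).add (a3 n)) a4
    refine hS.mono fun n => ?_
    have hLB : LipOnBalls (χ n) := (hχT n).bl.lipOnBalls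
    have hLB1 : LipOnBalls (fun x => χ n x + (-1)) := by
      intro o' R'
      refine ⟨_, LipschitzWith.lipschitzOnWith (K := Real.toNNReal (K / ((n : ℝ) + 1))) ?_⟩
      refine LipschitzWith.of_dist_le_mul fun x y => ?_
      have := (hχL n).dist_le_mul x y
      rw [Real.dist_eq] at this ⊢
      have e : χ n x + -1 - (χ n y + -1) = χ n x - χ n y := by ring
      rwa [e]
    obtain ⟨s1, k1⟩ := IsSobolevLoc.mul_lipOnBalls hfin (hvu n).2.1 hLB
    obtain ⟨s2, k2⟩ := IsSobolevLoc.mul_lipOnBalls hfin hu.1.2.1 hLB1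
    have e : (fun x => χ n x * v n x - u x) =
        fun x => (v n x - u x) * χ n x + u x * (χ n x + (-1)) := by
      funext x; ring
    have k3 := minWeakGrad_add_le hfin s1 s2
    filter_upwards [k1, k2, k3, hwχ n, minWeakGrad_add_const (-1) (χ n) hfin,
      minWeakGrad_nonneg (m := m) (fun x => χ n x * v n x - u x),
      minWeakGrad_nonneg (m := m) (fun x => v n x - u x),
      minWeakGrad_nonneg (m := m) u, minWeakGrad_nonneg (m := m) (χ n)]
      with x q1 q2 q3 q4 q5 q6 q7 q8 q9
    rw [abs_of_nonneg q6, e]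
    rw [q5] at q2
    have t1 : |v n x - u x| * minWeakGrad m (χ n) x ≤ |K * (v n x - u x)| := by
      rw [abs_mul, abs_of_nonneg hK0, mul_comm]
      exact mul_le_mul_of_nonneg_right (q4.trans (hcK n)) (abs_nonneg _)
    have t2 : |χ n x| * minWeakGrad m (fun y => v n y - u y) x ≤
        minWeakGrad m (fun y => v n y - u y) x := mul_le_of_le_one_left q7 (hχa n x)
    have t3 : |u x| * minWeakGrad m (χ n) x ≤ |c n * u x| := by
      rw [abs_mul, abs_of_nonneg (hc0 n), mul_comm]
      exact mul_le_mul_of_nonneg_right q4 (abs_nonneg _)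
    have t4 : |χ n x + -1| * minWeakGrad m u x ≤ |(χ n x - 1) * minWeakGrad m u x| := by
      rw [abs_mul, abs_of_nonneg q8, ← sub_eq_add_neg]
    refine le_trans ?_ (le_abs_self _)
    linarith
  -- `L⁴` convergence of the gradients
  have F4 : Tendsto (fun n => eLpNorm (minWeakGrad m (fun x => χ n x * v n x - u x)) 4 m)
      atTop (𝓝 0) := by
    have hlapd : ∀ n, IsWeakLaplacian m (fun x => χ n x * v n x - u x) (fun x =>
        χ n x * w n x + v n x * gχ n x + 2 * gradPairing m (χ n) (v n) x - g x) := fun n => by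
      have h1 := C.isWLap_add bddM_zero (isWLap_zero_iff.2 (huT n).lap)
        (C.isWLap_smul bddM_zero (-1) (isWLap_zero_iff.2 hu))
      refine isWeakLaplacian_congr C (isWLap_zero_iff.1 h1) ?_ ?_
      · refine Eventually.of_forall fun x => ?_
        simp only []; ring
      · refine Eventually.of_forall fun x => ?_
        simp only []; ring
    have hbd : ∀ n, ∀ᵐ x ∂m, |χ n x * v n x - u x| ≤ 2 * B := fun n => by
      filter_upwards [hB] with x hx
      have h1 : |χ n x * v n x| ≤ B := by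
        rw [abs_mul]
        exact (mul_le_of_le_one_left (abs_nonneg _) (hχa n x)).trans (hvb n x)
      rw [abs_le] at h1 hx ⊢
      constructor <;> linarith [h1.1, h1.2, hx.1, hx.2]
    refine tendsto_eLpNorm_four (fun n => (hg6 _ _ _ (hlapd n) (hbd n)).1) ?_
    have h1 := (to0_iff (fun n => (hlapd n).2.1)).1 F2
    have h2 := (to0_iff (fun n => (hu' n).2.2)).1 F3
    have h3 := (h1.add h2).const_mul (C6 * (2 * B) ^ 2)
    rw [add_zero, mul_zero] at h3
    refine squeeze_zero (fun n => integral_nonneg fun x => by positivity)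
      (fun n => (hg6 _ _ _ (hlapd n) (hbd n)).2) h3
  refine ⟨fun n x => χ n x * v n x,
    fun n x => χ n x * w n x + v n x * gχ n x + 2 * gradPairing m (χ n) (v n) x,
    fun n => ⟨huT n, (hχc n).mul_right, ?_, fun x => ?_⟩, fun h n x => ?_, F1, F2, F3, F4⟩
  · obtain ⟨-, L, hL⟩ := hvB n
    refine ⟨2 * B / hn n + B * c n + 2 * (c n * L), ?_⟩
    filter_upwards [hwle n, hgχ n, hgp n, (hvB n).wg_le hfin hL] with x h1 h2 h3 h4
    have t1 : |χ n x * w n x| ≤ 2 * B / hn n := by
      rw [abs_mul]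
      exact (mul_le_of_le_one_left (abs_nonneg _) (hχa n x)).trans h1
    have t2 : |v n x * gχ n x| ≤ B * c n := by
      rw [abs_mul]
      exact mul_le_mul (hvb n x) h2 (abs_nonneg _) hB0
    have t3 : |2 * gradPairing m (χ n) (v n) x| ≤ 2 * (c n * L) := by
      rw [abs_mul, abs_of_pos (by norm_num : (0 : ℝ) < 2)]
      exact mul_le_mul_of_nonneg_left (h3.trans (mul_le_mul_of_nonneg_left h4 (hc0 n)))
        (by norm_num)
    exact (abs_add_le _ _).trans (add_le_add ((abs_add_le _ _).trans (add_le_add t1 t2)) t3)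
  · rw [abs_mul]
    exact (mul_le_of_le_one_left (abs_nonneg _) (hχa n x)).trans (hvb n x)
  · refine mul_nonneg (hχ01 n x).1 ?_
    have h1 : 0 ≤ᵐ[m] J m (hn n) u := C.Jr_nonneg bddM_zero (hpos n) hu.1.1 h
    have h2 : 0 ≤ᵐ[m] J m (hn n) (J m (hn n) u) := C.Jr_nonneg bddM_zero (hpos n) (hJu n) h1
    have h3 : - v n x ≤ 0 := by
      refine forall_le_of_ae_le (m := m) (hvc n).neg ?_ x
      filter_upwards [hv n, h2] with y h4 h5
      show - v n y ≤ 0
      rw [h4]
      have h6 : (0 : ℝ) ≤ J m (hn n) (J m (hn n) u) y := h5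
      linarith
    linarith

end Crest.Agent.R242
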