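import Crest.Agent.R242.DBoch
import Crest.Agent.R242.DaviesFin
import Crest.Agent.R242.GamA
import Crest.Agent.R242.GamB

/-!
# Row 242, PART D: instantiation of the structure `GFacts` (owner helper47)
-/

set_option autoImplicit false
set_option linter.unusedSectionVars false

open MeasureTheory Filter Set
open scoped ENNReal NNReal Topology
open Crest.GeometryTopology.SyntheticRicci

noncomputable section

namespace Crest.Agent.R242

variable {X : Type*} [MetricSpace X] [ProperSpace X] [MeasurableSpace X] [BorelSpace X]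
  {m : Measure X} [IsLocallyFiniteMeasure m] [m.IsOpenPosMeasure] {k N h₀ : ℝ}

/-- Change of weight for the Laplacian. -/
theorem IsWLap.toWeak (H : Hyp m k N)
    (hwl : ∀ (L : ℝ≥0) (f : X → ℝ), LipschitzWith L f → ∀ᵐ x ∂m, minWeakGrad m f x ≤ L)
    {V u l : X → ℝ} (hV : BddLip V) (hu : IsWLap m V u l) :
    IsWeakLaplacian m u (fun x => l x - gradPairing m V u x) := by
  obtain ⟨hV1, L, hL⟩ := id hV
  obtain ⟨Su, hl, hw⟩ := hu
  have hVl : IsSobolevLoc m V := hV.dSobLoc H
  have hul := sobLoc_sob Su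
  have hVu : MemLp (gradPairing m V u) 2 m := by
    refine MemLp.of_le_mul (c := (L : ℝ)) (memLp_wg Su) (aesm_gp H hVl hul) ?_
    filter_upwards [gp_abs_le H hVl hul, hwl L V hL, wg_nonneg H hul] with x h1 h2 h3
    rw [Real.norm_eq_abs, Real.norm_eq_abs, abs_of_nonneg h3]
    exact h1.trans (mul_le_mul_of_nonneg_right h2 h3)
  refine ⟨Su, hl.sub hVu, fun φ hφ => ?_⟩
  have hnV : BddLip (fun x => - V x) := by
    obtain ⟨B, hB⟩ := hV1
    exact ⟨⟨B, fun x => by rw [abs_neg]; exact hB x⟩, L, hL.neg⟩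
  have hE : BddLip (fun x => Real.exp (- V x)) := hnV.dExp
  have hEl := hE.dSobLoc H
  have hφl := sobLoc_sob hφ
  have hv : IsSobolev m (fun x => Real.exp (- V x) * φ x) := sob_bddLip_mul H hφ hE
  have h1 := hw _ hv
  rw [integral_wm hV.dBddM, integral_wm hV.dBddM] at h1
  have e1 : ∫ x, Real.exp (V x) * gradPairing m u (fun x => Real.exp (- V x) * φ x) x ∂m =
      ∫ x, (gradPairing m u φ x - gradPairing m V u x * φ x) ∂m := by
    refine integral_congr_ae ?_
    have nl : IsSobolevLoc m (fun x => - V x) := hnV.dSobLoc H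
    filter_upwards [gp_mul_right_gen H hul hEl hφl (sobLoc_sob hv),
      gp_comp_right H Real.contDiff_exp hul nl (locBdd_of_bdd hnV.dAeBdd),
      gp_neg_right H hul hVl, gp_comm H hVl hul] with x x1 x2 x3 x4
    have x2' : gradPairing m u (fun x => Real.exp (- V x)) x =
        Real.exp (- V x) * gradPairing m u (fun x => - V x) x := by
      rw [x2, Real.deriv_exp]
    rw [x1, x2', x3, ← x4]
    have h5 : Real.exp (V x) * Real.exp (- V x) = 1 := by
      rw [← Real.exp_add, add_neg_cancel, Real.exp_zero]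
    calc Real.exp (V x) * (Real.exp (- V x) * gradPairing m u φ x +
          φ x * (Real.exp (- V x) * -gradPairing m V u x))
        = (Real.exp (V x) * Real.exp (- V x)) *
          (gradPairing m u φ x - gradPairing m V u x * φ x) := by ring
      _ = _ := by rw [h5, one_mul]
  have e2 : ∫ x, Real.exp (V x) * (l x * (Real.exp (- V x) * φ x)) ∂m = ∫ x, l x * φ x ∂m := by
    refine integral_congr_ae (Eventually.of_forall fun x => ?_)
    have h5 : Real.exp (V x) * Real.exp (- V x) = 1 := by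
      rw [← Real.exp_add, add_neg_cancel, Real.exp_zero]
    show Real.exp (V x) * (l x * (Real.exp (- V x) * φ x)) = l x * φ x
    calc Real.exp (V x) * (l x * (Real.exp (- V x) * φ x))
        = (Real.exp (V x) * Real.exp (- V x)) * (l x * φ x) := by ring
      _ = _ := by rw [h5, one_mul]
  rw [e1, e2] at h1
  have i1 : Integrable (fun x => gradPairing m V u x * φ x) m := int_mul_L2 hVu (memLp_sob hφ)
  have i2 : Integrable (fun x => l x * φ x) m := int_mul_L2 hl (memLp_sob hφ)
  have i3 : Integrable (gradPairing m u φ) m := integrable_gp H Su hφ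
  rw [integral_sub i3 i1] at h1
  have e3 : ∫ x, (l x - gradPairing m V u x) * φ x ∂m =
      ∫ x, l x * φ x ∂m - ∫ x, gradPairing m V u x * φ x ∂m := by
    rw [← integral_sub i2 i1]
    congr 1; funext x; ring
  rw [e3]
  linarith

theorem memLp_four_of_integrable_pow {f : X → ℝ} (hf : AEStronglyMeasurable f m)
    (hi : Integrable (fun x => f x ^ 4) m) : MemLp f 4 m := by
  have h4 : (4 : ℝ≥0∞) ≠ 0 := by norm_num
  have h4' : (4 : ℝ≥0∞) ≠ ⊤ := by norm_num
  rw [← integrable_norm_rpow_iff hf h4 h4']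
  refine hi.congr (Eventually.of_forall fun x => ?_)
  have e : ((4 : ℝ≥0∞).toReal) = ((4 : ℕ) : ℝ) := by norm_num
  show f x ^ 4 = ‖f x‖ ^ ((4 : ℝ≥0∞).toReal)
  rw [e, Real.rpow_natCast, Real.norm_eq_abs]
  exact (Even.pow_abs (by decide) _).symm

theorem gFacts_of (H : Hyp m k N) (C : Calc m) (GJ : GoodJ m k h₀) (CG : CalcG m) :
    GFacts m k := by
  have hwl : ∀ (L : ℝ≥0) (f : X → ℝ), LipschitzWith L f → ∀ᵐ x ∂m, minWeakGrad m f x ≤ L := by
    intro L f hL
    have hLB : LipOnBalls f := fun _ _ => ⟨L, hL.lipschitzOnWith⟩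
    filter_upwards [minWeakGrad_le_of_lipschitzOnWith H.fin hLB isOpen_univ
      (L := L) (hL.lipschitzOnWith (s := univ))] with x hx using hx (mem_univ x)
  have hwt : ∀ u g : X → ℝ, Test2 m u g → ∃ L : ℝ, ∀ᵐ x ∂m, minWeakGrad m u x ≤ L := by
    intro u g hu
    obtain ⟨L, hL⟩ := hu.bl.2
    exact ⟨L, hwl L u hL⟩
  refine ⟨hwl, ?_, ?_, ?_, ?_, ?_⟩
  · intro u g hu
    exact sob_wg_sq H C GJ hu.lap hu.sob (hwt u g hu)
  · intro u g hu φ hφ hφb hφ0
    exact bochner_sob H C GJ hu.lap hu.sob (hwt u g hu) hφ hφ0 hφb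
  · intro V u l hV hu
    exact hu.toWeak H hwl hV
  · intro u g hu hb
    obtain ⟨B, hB⟩ := hb
    exact memLp_four_of_integrable_pow (aesm_wg H (sobLoc_sob hu.1))
      (wg_pow_four H C GJ hu hB).1
  · intro u g B hu hB
    exact exists_test2_approx H.fin H.hilb C CG hu hB

end Crest.Agent.R242
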