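import Crest.Agent.R242.DIterE

/-!
Row 242 (S0375), DIter, final statements: `D6_time` (time regularity) and `D4_space` (localised
gradient estimate).
-/

set_option autoImplicit false
set_option linter.unusedSectionVars false

open MeasureTheory Filter Set
open scoped ENNReal NNReal Topology
open Crest.GeometryTopology.SyntheticRicci

noncomputable section

namespace Crest.Agent.R242

variable {X : Type*} [MetricSpace X] [ProperSpace X] [MeasurableSpace X] [BorelSpace X]
  {m : Measure X} [IsLocallyFiniteMeasure m] [m.IsOpenPosMeasure] {k N : ℝ}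
  {V : X → ℝ} {P : ℝ → (X → ℝ) → (X → ℝ)}

theorem di_sq_le_of_le {a b : ℝ} (ha : 0 ≤ a) (hab : a ≤ b) : a ^ 2 ≤ b ^ 2 :=
  pow_le_pow_left₀ ha hab 2

/-- [D6] time regularity. -/
theorem D6_time (H : Hyp m k N) (hV : BddLip V) {LV : ℝ} (hLV : 0 ≤ LV)
    (hVL : ∀ᵐ x ∂m, minWeakGrad m V x ≤ LV) {ε B : ℝ} {G : X → ℝ} (hε : 0 < ε)
    (S : SemigroupSpec m V P) (hOS : ∀ h : ℝ, 0 < h → OneStep m V G ε k h) (hGm : Measurable G)
    (hGB : ∀ x, |G x| ≤ B) {z : X → ℝ} (hz : IsSobolev m z) {Cz : ℝ} (hCz : 0 ≤ Cz)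
    (hzC : ∀ᵐ x ∂m, |z x| ≤ Cz) {Lz : ℝ} (hLz : 0 ≤ Lz)
    (hzL : ∀ᵐ x ∂m, minWeakGrad m z x ≤ Lz) {θ₁ θ₂ : ℝ} (h1 : 0 ≤ θ₁) (h12 : θ₁ ≤ θ₂) {δ : ℝ}
    (hδ : 0 < δ) :
    ∀ᵐ x ∂m, |J m δ (J m δ (fun y => P (ε * θ₂) z y - P (ε * θ₁) z y)) x| ≤
      (θ₂ - θ₁) * (ε * (LV * (Lz * Real.exp ((B + ε * k) * θ₂)) + 2 * Cz / δ)) := by
  have hzm : MemLp z 2 m := hz.1
  have hm2 : MemLp (P (ε * θ₂) z) 2 m := S.memLp _ (mul_nonneg hε.le (h1.trans h12)) z hzm
  have hm1 : MemLp (P (ε * θ₁) z) 2 m := S.memLp _ (mul_nonneg hε.le h1) z hzm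
  have hmd : MemLp (fun y => P (ε * θ₂) z y - P (ε * θ₁) z y) 2 m := hm2.sub hm1
  rcases h12.eq_or_lt with h0 | hlt
  · subst h0
    have h2 : ∀ᵐ x ∂m, |P (ε * θ₁) z x - P (ε * θ₁) z x| ≤ 0 :=
      Eventually.of_forall fun x => by simp
    have h3 := di_J_abs_le H hδ (di_J_memLp H hδ hmd) (di_J_abs_le H hδ hmd h2)
    filter_upwards [h3] with x hx
    simpa using hx
  set z1 := P (ε * θ₁) z with hz1
  have hz1s : IsSobolev m z1 := (S.sob _ (mul_nonneg hε.le h1) z hz).1
  have hz1b : ∀ᵐ x ∂m, |z1 x| ≤ Cz := di_P_abs_le S (mul_nonneg hε.le h1) hzm hCz hzC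
  set a := B + ε * k with ha
  have hzL2 : ∀ᵐ x ∂m, minWeakGrad m z x ^ 2 ≤ Lz ^ 2 := by
    filter_upwards [hzL, wg_nonneg H hz.2.1] with x a1 a2
    exact di_sq_le_of_le a2 a1
  have hz1L := di_wg_P_sq_le H hV hε S hOS hGm hGB hz ⟨Cz, hzC⟩ hzL2 h1
  set θ := θ₂ - θ₁ with hθ
  have hθ0 : 0 < θ := sub_pos.2 hlt
  set t := ε * θ with ht
  have ht0 : 0 < t := mul_pos hε hθ0
  set D1 := Lz ^ 2 * Real.exp (2 * a * θ₁) with hD1
  have hD10 : 0 ≤ D1 := by positivity
  -- convergence of the iterates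
  have hstep : ∀ n : ℕ, t / ((n : ℝ) + 1) = ε * (θ / ((n : ℝ) + 1)) := fun n => by
    rw [ht]; ring
  have hexpo := di_expo H hV S hz1s.1 ht0
  obtain ⟨C, hC0, hC⟩ := di_n2_le_wm (m := m) hV
  set fn : ℕ → X → ℝ := fun n => J m δ (J m δ (fun y => itJ m V (t / ((n : ℝ) + 1)) (n + 1) z1 y
    - z1 y)) with hfn
  have htn : ∀ n : ℕ, 0 < t / ((n : ℝ) + 1) := fun n => by positivity
  have hmn : ∀ n : ℕ, MemLp (fun y => itJ m V (t / ((n : ℝ) + 1)) (n + 1) z1 y - z1 y) 2 m :=
    fun n => (itJ_memLp H hV (htn n) hz1s.1 (n + 1)).sub hz1s.1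
  have hmP : MemLp (fun y => P t z1 y - z1 y) 2 m := (S.memLp t ht0.le z1 hz1s.1).sub hz1s.1
  have hlim : Tendsto (fun n => n2 m (fun x => fn n x -
      J m δ (J m δ (fun y => P t z1 y - z1 y)) x)) atTop (𝓝 0) := by
    have hb : ∀ n, n2 m (fun x => fn n x - J m δ (J m δ (fun y => P t z1 y - z1 y)) x) ≤
        C * n2 (wm m V) (fun x => itJ m V (t / ((n : ℝ) + 1)) (n + 1) z1 x - P t z1 x) := by
      intro n
      have e0 := wm_zero (m := m)
      have b1 := di_n2_Jr_sub H (di_bl0 (X := X)) hδ (di_J_memLp H hδ (hmn n))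
        (di_J_memLp H hδ hmP)
      have b2 := di_n2_Jr_sub H (di_bl0 (X := X)) hδ (hmn n) hmP
      rw [e0] at b1 b2
      have b3 : (fun x => (itJ m V (t / ((n : ℝ) + 1)) (n + 1) z1 x - z1 x) -
          (P t z1 x - z1 x)) = fun x => itJ m V (t / ((n : ℝ) + 1)) (n + 1) z1 x - P t z1 x := by
        funext x; ring
      rw [b3] at b2
      refine (b1.trans b2).trans (hC _ ?_)
      exact (itJ_memLp H hV (htn n) hz1s.1 (n + 1)).sub (S.memLp t ht0.le z1 hz1s.1)
    refine squeeze_zero (fun n => n2_nonneg) hb ?_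
    have := hexpo.const_mul C
    rwa [mul_zero] at this
  -- the bound for each n
  set Mn : ℕ → ℝ := fun n =>
    Real.sqrt (D1 * ((1 - 2 * (θ / ((n : ℝ) + 1)) * a) ^ (n + 1))⁻¹) with hMn
  have hMlim : Tendsto Mn atTop (𝓝 (Lz * Real.exp (a * θ₂))) := by
    have b1 := (di_tendsto_pow_inv a θ).const_mul D1
    have b2 := (Real.continuous_sqrt.tendsto _).comp b1
    have b3 : Real.sqrt (D1 * Real.exp (2 * a * θ)) = Lz * Real.exp (a * θ₂) := by
      rw [hD1, mul_assoc, ← Real.exp_add, Real.sqrt_mul (sq_nonneg _), Real.sqrt_sq hLz]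
      congr 1
      have : 2 * a * θ₁ + 2 * a * θ = 2 * (a * θ₂) := by rw [hθ]; ring
      rw [this, di_sqrt_exp]
    rw [b3] at b2
    exact b2
  have hbound : ∀ᶠ n : ℕ in atTop, ∀ᵐ x ∂m, |fn n x| ≤
      t * (LV * Mn n + 2 * Cz / δ) := by
    filter_upwards [di_small_step a θ] with n hn
    have hhn : 0 < θ / ((n : ℝ) + 1) := by positivity
    by_cases hX : Nonempty X
    swap
    · exact Eventually.of_forall fun x => (hX ⟨x⟩).elim
    obtain ⟨x0⟩ := hX
    have hB0 : 0 ≤ B := (abs_nonneg _).trans (hGB x0)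
    have ha0 : 0 ≤ a := by
      have := H.kpos
      positivity
    have hρ1 : 0 < 1 - 2 * (θ / ((n : ℝ) + 1)) * a := by linarith
    have hρ2 : 1 - 2 * (θ / ((n : ℝ) + 1)) * a ≤ 1 := by
      have : 0 ≤ 2 * (θ / ((n : ℝ) + 1)) * a := by positivity
      linarith
    have hM : ∀ j ≤ n + 1, ∀ᵐ x ∂m,
        minWeakGrad m (itJ m V (t / ((n : ℝ) + 1)) j z1) x ≤ Mn n := by
      intro j hj
      have b1 := di_wg_itJ_sq_le H hV hε hhn (hOS _ hhn) hGm hGB hn hz1s ⟨Cz, hz1b⟩ hz1L j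
      rw [← hstep n] at b1
      filter_upwards [b1] with x b2
      apply Real.le_sqrt_of_sq_le
      refine b2.trans ?_
      refine mul_le_mul_of_nonneg_left ?_ hD10
      exact inv_anti₀ (pow_pos hρ1 _) (pow_le_pow_of_le_one hρ1.le hρ2 hj)
    have b3 := di_JJ_sub H hV hLV hVL (htn n) hz1s.1 hz1b (n + 1) hM hδ
    filter_upwards [b3] with x hx
    refine hx.trans (le_of_eq ?_)
    push_cast
    field_simp
  have hClim : Tendsto (fun n => t * (LV * Mn n + 2 * Cz / δ)) atTop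
      (𝓝 (t * (LV * (Lz * Real.exp (a * θ₂)) + 2 * Cz / δ))) :=
    (((hMlim.const_mul LV).add_const _).const_mul t)
  have hfnm : ∀ n, MemLp (fn n) 2 m := fun n => di_J_memLp H hδ (di_J_memLp H hδ (hmn n))
  have hfin := di_bound_limit hfnm (di_J_memLp H hδ (di_J_memLp H hδ hmP)) hlim hClim hbound
  -- rewrite with the semigroup property
  have hsem : (fun y => P (ε * θ₂) z y - z1 y) =ᵐ[m] fun y => P t z1 y - z1 y := by
    have b1 := S.semig t (ε * θ₁) ht0.le (mul_nonneg hε.le h1) z hzm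
    have b2 : t + ε * θ₁ = ε * θ₂ := by rw [ht, hθ]; ring
    rw [b2] at b1
    filter_upwards [b1] with x hx
    rw [hx]
  have hcongr : J m δ (J m δ (fun y => P (ε * θ₂) z y - z1 y)) =
      J m δ (J m δ (fun y => P t z1 y - z1 y)) := by
    have b1 : J m δ (fun y => P (ε * θ₂) z y - z1 y) = J m δ (fun y => P t z1 y - z1 y) :=
      Jr_congr' (di_bl0 (X := X)).bddM hsem
    rw [b1]
  rw [hcongr]
  filter_upwards [hfin] with x hx
  refine hx.trans (le_of_eq ?_)
  rw [ht]; ring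

/-- [D4'] localised gradient estimate. -/
theorem D4_space (H : Hyp m k N) (hV : BddLip V) {LV : ℝ} (hLV : 0 ≤ LV)
    (hVL : ∀ᵐ x ∂m, minWeakGrad m V x ≤ LV) {ε B : ℝ} {G : X → ℝ} (hε : 0 < ε)
    (S : SemigroupSpec m V P) (hOS : ∀ h : ℝ, 0 < h → OneStep m V G ε k h) (hGm : Measurable G)
    (hGB : ∀ x, |G x| ≤ B) {z : X → ℝ} (hz : IsSobolev m z)
    (hzb : ∃ C : ℝ, ∀ᵐ x ∂m, |z x| ≤ C) {D : ℝ} (hD : 0 ≤ D)
    (hzL : ∀ᵐ x ∂m, minWeakGrad m z x ^ 2 ≤ D) {v : X → ℝ} {c lam Lv : ℝ}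
    (hv : IsSobolev m v) (hv1 : Integrable v m) (hv0 : 0 ≤ᵐ[m] v) (hvc : ∀ᵐ x ∂m, v x ≤ c)
    (hc : 0 ≤ c) (hLv : 0 ≤ Lv) (hvL : ∀ᵐ x ∂m, minWeakGrad m v x ≤ Lv)
    (hGv : ∀ᵐ x ∂m, G x ≤ lam + c - v x) {θ : ℝ} (hθ : 0 ≤ θ) {δ : ℝ} (hδ : 0 < δ) :
    ∀ᵐ x ∂m, J m δ (J m δ (fun y => minWeakGrad m (P (ε * θ) z) y ^ 2)) x ≤
      Real.exp (2 * (lam + ε * k) * θ) *
          J m δ (J m δ (P (ε * θ) (fun y => minWeakGrad m z y ^ 2))) x +
        2 * (D * Real.exp (2 * (B + ε * k) * θ)) * Real.exp (2 * |lam + ε * k| * θ) * θ *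
          (c - J m δ (J m δ v) x +
            θ * (ε * (LV * (Lv * Real.exp ((B + ε * k) * θ)) + 2 * c / δ))) := by
  set t := ε * θ with ht
  have ht0' : 0 ≤ t := mul_nonneg hε.le hθ
  set aB := B + ε * k with haB
  set a := lam + ε * k with ha
  have hPz : IsSobolev m (P t z) := (S.sob t ht0' z hz).1
  have hzi : Integrable (fun y => minWeakGrad m z y ^ 2) m := integrable_wg_sq H hz
  have hz2 : MemLp (fun y => minWeakGrad m z y ^ 2) 2 m :=
    di_memLp_two_of_bdd hzi (Eventually.of_forall fun x => sq_nonneg _) hzL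
  have hPzi : Integrable (fun y => minWeakGrad m (P t z) y ^ 2) m := integrable_wg_sq H hPz
  have hPzL := di_wg_P_sq_le H hV hε S hOS hGm hGB hz hzb hzL hθ
  have hPz2 : MemLp (fun y => minWeakGrad m (P t z) y ^ 2) 2 m :=
    di_memLp_two_of_bdd hPzi (Eventually.of_forall fun x => sq_nonneg _) hPzL
  rcases hθ.eq_or_lt with h0 | hθ0
  · -- θ = 0
    have ht00 : t = 0 := by rw [ht, ← h0, mul_zero]
    have b1 : (fun y => minWeakGrad m (P t z) y ^ 2) =ᵐ[m] fun y => minWeakGrad m z y ^ 2 := by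
      have c1 : P t z =ᵐ[m] z := by rw [ht00]; exact S.zero z hz.1
      have c3 := gp_self H hPz.2.1
      have c4 := gp_self H hz.2.1
      have c5 : gradPairing m (P t z) (P t z) =ᵐ[m] gradPairing m z z :=
        gp_congr H hPz.2.1 hPz.2.1 c1 c1
      filter_upwards [c3, c4, c5] with x a1 a2 a3
      rw [← a1, a3, a2]
    have b2 : P t (fun y => minWeakGrad m z y ^ 2) =ᵐ[m] fun y => minWeakGrad m z y ^ 2 := by
      rw [ht00]; exact S.zero _ hz2
    have b3 : J m δ (J m δ (fun y => minWeakGrad m (P t z) y ^ 2)) =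
        J m δ (J m δ (P t (fun y => minWeakGrad m z y ^ 2))) := by
      have c1 : J m δ (fun y => minWeakGrad m (P t z) y ^ 2) =
          J m δ (P t (fun y => minWeakGrad m z y ^ 2)) :=
        Jr_congr' (di_bl0 (X := X)).bddM (b1.trans b2.symm)
      rw [c1]
    rw [b3, ← h0]
    exact Eventually.of_forall fun x => by simp
  have ht0 : 0 < t := mul_pos hε hθ0
  by_cases hX : Nonempty X
  swap
  · exact Eventually.of_forall fun x => (hX ⟨x⟩).elim
  obtain ⟨x0⟩ := hX
  have hB0 : 0 ≤ B := (abs_nonneg _).trans (hGB x0)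
  have haB0 : 0 ≤ aB := by
    have := H.kpos
    positivity
  have hstep : ∀ n : ℕ, t / ((n : ℝ) + 1) = ε * (θ / ((n : ℝ) + 1)) := fun n => by
    rw [ht]; ring
  have htn : ∀ n : ℕ, 0 < t / ((n : ℝ) + 1) := fun n => by positivity
  obtain ⟨A, hA⟩ := di_energy_bdd H hV hz
  set C1n : ℕ → ℝ := fun n => D * ((1 - 2 * (θ / ((n : ℝ) + 1)) * aB) ^ (n + 1))⁻¹ with hC1n
  set Mn : ℕ → ℝ := fun n =>
    Real.sqrt (Lv ^ 2 * ((1 - 2 * (θ / ((n : ℝ) + 1)) * aB) ^ (n + 1))⁻¹) with hMn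
  set rn : ℕ → ℝ := fun n => ((1 - 2 * (θ / ((n : ℝ) + 1)) * a) ^ (n + 1))⁻¹ with hrn
  set sn : ℕ → ℝ := fun n => ((1 - 2 * (θ / ((n : ℝ) + 1)) * |a|) ^ (n + 1))⁻¹ with hsn
  have hC1lim : Tendsto C1n atTop (𝓝 (D * Real.exp (2 * aB * θ))) :=
    (di_tendsto_pow_inv aB θ).const_mul D
  have hMlim : Tendsto Mn atTop (𝓝 (Lv * Real.exp (aB * θ))) := by
    have b1 := (di_tendsto_pow_inv aB θ).const_mul (Lv ^ 2)
    have b2 := (Real.continuous_sqrt.tendsto _).comp b1
    have b3 : Real.sqrt (Lv ^ 2 * Real.exp (2 * aB * θ)) = Lv * Real.exp (aB * θ) := by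
      rw [Real.sqrt_mul (sq_nonneg _), Real.sqrt_sq hLv]
      congr 1
      have : 2 * aB * θ = 2 * (aB * θ) := by ring
      rw [this, di_sqrt_exp]
    rw [b3] at b2
    exact b2
  have hrlim : Tendsto rn atTop (𝓝 (Real.exp (2 * a * θ))) := di_tendsto_pow_inv a θ
  have hslim : Tendsto sn atTop (𝓝 (Real.exp (2 * |a| * θ))) := di_tendsto_pow_inv |a| θ
  have hvL2 : ∀ᵐ x ∂m, minWeakGrad m v x ^ 2 ≤ Lv ^ 2 := by
    filter_upwards [hvL, wg_nonneg H hv.2.1] with x a1 a2
    exact di_sq_le_of_le a2 a1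
  have hvabs : ∀ᵐ x ∂m, |v x| ≤ c := by
    filter_upwards [hv0, hvc] with x a1 a2
    rw [abs_of_nonneg a1]; exact a2
  have hv2 : MemLp v 2 m := hv.1
  -- the test inequality
  set K' : ℝ := LV * (Lv * Real.exp (aB * θ)) + 2 * c / δ with hK'
  set C2 : ℝ := 2 * (D * Real.exp (2 * aB * θ)) * Real.exp (2 * |a| * θ) * θ with hC2
  have hJJv1 : Integrable (J m δ (J m δ v)) m := (di_JJ_l1 H hδ hv2 hv1).1
  have hPz1 : Integrable (P t (fun y => minWeakGrad m z y ^ 2)) m := (S.l1 t ht0' _ hz2 hzi).1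
  have hPz2' : MemLp (P t (fun y => minWeakGrad m z y ^ 2)) 2 m := S.memLp t ht0' _ hz2
  have hF1 : Integrable (J m δ (J m δ (fun y => minWeakGrad m (P t z) y ^ 2))) m :=
    (di_JJ_l1 H hδ hPz2 hPzi).1
  have hF2 : Integrable (J m δ (J m δ (P t (fun y => minWeakGrad m z y ^ 2)))) m :=
    (di_JJ_l1 H hδ hPz2' hPz1).1
  have key := di_ae_le_of_test (m := m) (di_bl0 (X := X))
    (F₁ := J m δ (J m δ (fun y => minWeakGrad m (P t z) y ^ 2)))
    (F₂ := fun x => Real.exp (2 * a * θ) *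
      J m δ (J m δ (P t (fun y => minWeakGrad m z y ^ 2))) x - C2 * J m δ (J m δ v) x)
    (C := C2 * (c + θ * (ε * K'))) hF1 ((hF2.const_mul _).sub (hJJv1.const_mul _))
    (fun ψ hψ2 hψ1 hψb hψ0 => by
      rw [wm_zero]
      obtain ⟨φ, hφ2, hφ1, hφb, hφ0, hφF, hφle⟩ := di_testfn H hV hδ hψ2 hψ1 hψb hψ0
      set Ψ := ∫ x, ψ x ∂m with hΨ
      set Y := ∫ x, J m δ (J m δ v) x * ψ x ∂m with hY
      have hΨ0 : 0 ≤ Ψ := integral_nonneg_of_ae hψ0
      -- the quantities
      set dn : ℕ → ℝ := fun n => n2 (wm m V) (fun x => Jr m V (t / ((n : ℝ) + 1)) φ x - φ x)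
        with hdn
      have hdlim : Tendsto dn atTop (𝓝 0) :=
        (di_Jr_tendsto_n2 H hV hφ2).comp (di_tendsto_step ht0)
      set In : ℕ → ℝ := fun n => ∫ x, minWeakGrad m z x ^ 2 *
        itJ m V (t / ((n : ℝ) + 1)) (n + 1) φ x ∂(wm m V) with hIn
      have hIlim : Tendsto In atTop (𝓝 (∫ x, minWeakGrad m z x ^ 2 * P t φ x ∂(wm m V))) := by
        rw [tendsto_iff_dist_tendsto_zero]
        have hexpo := di_expo H hV S hφ2 ht0
        refine squeeze_zero (fun n => dist_nonneg) (fun n => ?_)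
          (g := fun n : ℕ => n2 (wm m V) (fun y => minWeakGrad m z y ^ 2) *
            n2 (wm m V) (fun x => itJ m V (t / ((n : ℝ) + 1)) (n + 1) φ x - P t φ x)) ?_
        · rw [Real.dist_eq]
          have i1 : Integrable (fun x => minWeakGrad m z x ^ 2 *
              itJ m V (t / ((n : ℝ) + 1)) (n + 1) φ x) (wm m V) :=
            ((di_mem hV).2 hz2).integrable_mul
              ((di_mem hV).2 (itJ_memLp H hV (htn n) hφ2 (n + 1)))
          have i2 : Integrable (fun x => minWeakGrad m z x ^ 2 * P t φ x) (wm m V) :=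
            ((di_mem hV).2 hz2).integrable_mul ((di_mem hV).2 (S.memLp t ht0' φ hφ2))
          have e1 : In n - ∫ x, minWeakGrad m z x ^ 2 * P t φ x ∂(wm m V) =
              ∫ x, minWeakGrad m z x ^ 2 *
                (itJ m V (t / ((n : ℝ) + 1)) (n + 1) φ x - P t φ x) ∂(wm m V) := by
            rw [hIn, ← integral_sub i1 i2]
            exact integral_congr_ae (Eventually.of_forall fun x => by ring)
          rw [e1]
          exact n2_cs ((di_mem hV).2 hz2) ((di_mem hV).2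
            ((itJ_memLp H hV (htn n) hφ2 (n + 1)).sub (S.memLp t ht0' φ hφ2)))
        · have := hexpo.const_mul (n2 (wm m V) (fun y => minWeakGrad m z y ^ 2))
          rwa [mul_zero] at this
      -- right hand sides
      set Rn : ℕ → ℝ := fun n => rn n * In n + sn n * (2 * θ * (|a| *
        (Real.sqrt (C1n n * En m V z z) * dn n) +
          C1n n * (c * Ψ - Y + ε * θ * (LV * Mn n + 2 * c / δ) * Ψ))) with hRn
      set R : ℝ := Real.exp (2 * a * θ) * (∫ x, minWeakGrad m z x ^ 2 * P t φ x ∂(wm m V)) +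
        Real.exp (2 * |a| * θ) * (2 * θ * (|a| *
        (Real.sqrt (D * Real.exp (2 * aB * θ) * En m V z z) * 0) +
          D * Real.exp (2 * aB * θ) * (c * Ψ - Y + ε * θ * K' * Ψ))) with hR
      have hRlim : Tendsto Rn atTop (𝓝 R) := by
        refine (hrlim.mul hIlim).add (hslim.mul ((Tendsto.add ?_ ?_).const_mul (2 * θ)))
        · refine (Tendsto.mul ?_ hdlim).const_mul |a|
          exact (Real.continuous_sqrt.tendsto _).comp (hC1lim.mul_const _)
        · refine hC1lim.mul ((Tendsto.mul_const Ψ ?_).const_add (c * Ψ - Y))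
          exact ((hMlim.const_mul LV).add_const _).const_mul (ε * θ)
      -- finite n
      have hfinite : ∀ᶠ n : ℕ in atTop,
          ∫ x, minWeakGrad m (itJ m V (t / ((n : ℝ) + 1)) (n + 1) z) x ^ 2 * φ x ∂(wm m V) ≤
            Rn n := by
        filter_upwards [di_small_step aB θ, di_small_step |a| θ] with n hn1 hn2
        have hhn : 0 < θ / ((n : ℝ) + 1) := by positivity
        have hρ1 : 0 < 1 - 2 * (θ / ((n : ℝ) + 1)) * aB := by linarith
        have hρ2 : 1 - 2 * (θ / ((n : ℝ) + 1)) * aB ≤ 1 := by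
          have : 0 ≤ 2 * (θ / ((n : ℝ) + 1)) * aB := by positivity
          linarith
        have hC1n0 : 0 ≤ C1n n := by
          simp only [hC1n]
          have := pow_pos hρ1 (n + 1)
          positivity
        have hzC : ∀ j ≤ n + 1, ∀ᵐ x ∂m,
            minWeakGrad m (itJ m V (ε * (θ / ((n : ℝ) + 1))) j z) x ^ 2 ≤ C1n n := by
          intro j hj
          have b1 := di_wg_itJ_sq_le H hV hε hhn (hOS _ hhn) hGm hGB hn1 hz hzb hzL j
          filter_upwards [b1] with x b2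
          refine b2.trans (mul_le_mul_of_nonneg_left ?_ hD)
          exact inv_anti₀ (pow_pos hρ1 _) (pow_le_pow_of_le_one hρ1.le hρ2 hj)
        have hvM : ∀ j ≤ n + 1, ∀ᵐ x ∂m,
            minWeakGrad m (itJ m V (t / ((n : ℝ) + 1)) j v) x ≤ Mn n := by
          intro j hj
          have b1 := di_wg_itJ_sq_le H hV hε hhn (hOS _ hhn) hGm hGB hn1 hv ⟨c, hvabs⟩ hvL2 j
          rw [← hstep n] at b1
          filter_upwards [b1] with x b2
          apply Real.le_sqrt_of_sq_le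
          refine b2.trans (mul_le_mul_of_nonneg_left ?_ (sq_nonneg _))
          exact inv_anti₀ (pow_pos hρ1 _) (pow_le_pow_of_le_one hρ1.le hρ2 hj)
        have hfin := di_D4_finite H hV hε hhn (hOS _ hhn) hGm hGB hz hzb hv2 hvc hc hGv (n + 1)
          hC1n0 hzC hn2 hφ2 hφ1 hφb hφ0
        rw [← hstep n] at hfin
        refine hfin.trans ?_
        have hs0 : 0 ≤ sn n := by
          simp only [hsn]
          have : 0 < 1 - 2 * (θ / ((n : ℝ) + 1)) * |a| := by linarith
          have := pow_pos this (n + 1)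
          positivity
        -- bound of the sum
        have hsum : ∑ i ∈ Finset.range (n + 1), 2 * (θ / ((n : ℝ) + 1)) *
            (|a| * (Real.sqrt (C1n n * En m V z z) *
              n2 (wm m V) (fun x => Jr m V (t / ((n : ℝ) + 1)) φ x - φ x)) +
            C1n n * (c * ∫ x, φ x ∂(wm m V) -
              ∫ x, itJ m V (t / ((n : ℝ) + 1)) (i + 1) v x * φ x ∂(wm m V))) ≤
            2 * θ * (|a| * (Real.sqrt (C1n n * En m V z z) * dn n) +
              C1n n * (c * Ψ - Y + ε * θ * (LV * Mn n + 2 * c / δ) * Ψ)) := by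
          have hterm : ∀ i ∈ Finset.range (n + 1), 2 * (θ / ((n : ℝ) + 1)) *
            (|a| * (Real.sqrt (C1n n * En m V z z) *
              n2 (wm m V) (fun x => Jr m V (t / ((n : ℝ) + 1)) φ x - φ x)) +
            C1n n * (c * ∫ x, φ x ∂(wm m V) -
              ∫ x, itJ m V (t / ((n : ℝ) + 1)) (i + 1) v x * φ x ∂(wm m V))) ≤
            2 * (θ / ((n : ℝ) + 1)) * (|a| * (Real.sqrt (C1n n * En m V z z) * dn n) +
              C1n n * (c * Ψ - Y + ε * θ * (LV * Mn n + 2 * c / δ) * Ψ)) := by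
            intro i hi
            have hi' : i + 1 ≤ n + 1 := by
              have := Finset.mem_range.1 hi
              omega
            refine mul_le_mul_of_nonneg_left ?_ (by positivity)
            refine add_le_add le_rfl (mul_le_mul_of_nonneg_left ?_ hC1n0)
            have hvi := itJ_memLp H hV (htn n) hv2 (i + 1)
            have b1 : c * ∫ x, φ x ∂(wm m V) ≤ c * Ψ := mul_le_mul_of_nonneg_left hφle hc
            have b2 : ∫ x, itJ m V (t / ((n : ℝ) + 1)) (i + 1) v x * φ x ∂(wm m V) =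
                ∫ x, J m δ (J m δ (itJ m V (t / ((n : ℝ) + 1)) (i + 1) v)) x * ψ x ∂m := by
              rw [hφF, di_JJ_symm H hδ hvi hψ2]
            have b3 := di_JJ_sub H hV hLV hVL (htn n) hv2 hvabs (i + 1)
              (fun j hj => hvM j (hj.trans hi')) hδ
            have b4 : J m δ (J m δ (fun y => itJ m V (t / ((n : ℝ) + 1)) (i + 1) v y - v y))
                =ᵐ[m] fun x => J m δ (J m δ (itJ m V (t / ((n : ℝ) + 1)) (i + 1) v)) x -
                  J m δ (J m δ v) x := by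
              have c1 := Jr_sub H (di_bl0 (X := X)) hδ hvi hv2
              have c2 := Jr_congr H (di_bl0 (X := X)) hδ (di_J_memLp H hδ (hvi.sub hv2)) c1
              exact c2.trans (Jr_sub H (di_bl0 (X := X)) hδ (di_J_memLp H hδ hvi)
                (di_J_memLp H hδ hv2))
            have b5 : Y - ε * θ * (LV * Mn n + 2 * c / δ) * Ψ ≤
                ∫ x, J m δ (J m δ (itJ m V (t / ((n : ℝ) + 1)) (i + 1) v)) x * ψ x ∂m := by
              have i1 : Integrable (fun x => J m δ (J m δ v) x * ψ x) m :=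
                (di_J_memLp H hδ (di_J_memLp H hδ hv2)).integrable_mul hψ2
              have i2 : Integrable (fun x =>
                  J m δ (J m δ (itJ m V (t / ((n : ℝ) + 1)) (i + 1) v)) x * ψ x) m :=
                (di_J_memLp H hδ (di_J_memLp H hδ hvi)).integrable_mul hψ2
              rw [hY, hΨ, ← integral_const_mul, ← integral_sub i1 (hψ1.const_mul _)]
              refine integral_mono_ae (i1.sub (hψ1.const_mul _)) i2 ?_
              filter_upwards [b3, b4, hψ0] with x c1 c2 c3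
              have c3' : 0 ≤ ψ x := c3
              rw [c2] at c1
              have c4 := (abs_le.1 c1).1
              have c5 : ((i + 1 : ℕ) : ℝ) * (t / ((n : ℝ) + 1) * (LV * Mn n + 2 * c / δ)) ≤
                  ε * θ * (LV * Mn n + 2 * c / δ) := by
                have hK0 : 0 ≤ LV * Mn n + 2 * c / δ := by
                  have : 0 ≤ Mn n := Real.sqrt_nonneg _
                  positivity
                have c6 : ((i + 1 : ℕ) : ℝ) ≤ (n : ℝ) + 1 := by exact_mod_cast hi'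
                have hn0 : (0 : ℝ) < (n : ℝ) + 1 := by positivity
                calc ((i + 1 : ℕ) : ℝ) * (t / ((n : ℝ) + 1) * (LV * Mn n + 2 * c / δ)) ≤
                    ((n : ℝ) + 1) * (t / ((n : ℝ) + 1) * (LV * Mn n + 2 * c / δ)) :=
                      mul_le_mul_of_nonneg_right c6 (by positivity)
                  _ = t * (LV * Mn n + 2 * c / δ) := by field_simp
              have c7 : J m δ (J m δ v) x - ε * θ * (LV * Mn n + 2 * c / δ) ≤
                  J m δ (J m δ (itJ m V (t / ((n : ℝ) + 1)) (i + 1) v)) x := by linarith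
              have c8 := mul_le_mul_of_nonneg_right c7 c3'
              rw [sub_mul] at c8
              exact c8
            rw [b2]
            linarith
          refine (Finset.sum_le_sum hterm).trans (le_of_eq ?_)
          rw [Finset.sum_const, Finset.card_range, nsmul_eq_mul]
          have hn0 : ((n : ℝ) + 1) ≠ 0 := by positivity
          push_cast
          field_simp
        exact add_le_add le_rfl (mul_le_mul_of_nonneg_left hsum hs0)
      -- limit
      have hlimit : ∫ x, minWeakGrad m (P t z) x ^ 2 * φ x ∂(wm m V) ≤ R := by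
        refine le_of_forall_pos_le_add fun η hη => ?_
        have hev : ∀ᶠ n : ℕ in atTop,
            ∫ x, minWeakGrad m (itJ m V (t / ((n : ℝ) + 1)) (n + 1) z) x ^ 2 * φ x ∂(wm m V) ≤
              R + η := by
          have b1 := (tendsto_order.1 hRlim).2 (R + η) (by linarith)
          filter_upwards [hfinite, b1] with n c1 c2
          exact c1.trans c2.le
        exact (di_closed H hV (un := fun n : ℕ => itJ m V (t / ((n : ℝ) + 1)) (n + 1) z)
          (fun n => itJ_sob H hV (htn n) hz (n + 1)) hPz.1 (di_expo H hV S hz.1 ht0)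
          (fun n => hA _ (htn n) (n + 1)) hφ2.aestronglyMeasurable hφ0 hφb hev).2
      -- rewriting
      have e1 : ∫ x, J m δ (J m δ (fun y => minWeakGrad m (P t z) y ^ 2)) x * ψ x ∂m =
          ∫ x, minWeakGrad m (P t z) x ^ 2 * φ x ∂(wm m V) := by
        rw [hφF, di_JJ_symm H hδ hPz2 hψ2]
      have e2 : ∫ x, minWeakGrad m z x ^ 2 * P t φ x ∂(wm m V) =
          ∫ x, J m δ (J m δ (P t (fun y => minWeakGrad m z y ^ 2))) x * ψ x ∂m := by
        have c1 := S.symm t ht0' (fun y => minWeakGrad m z y ^ 2) φ hz2 hφ2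
        rw [← c1, hφF, di_JJ_symm H hδ hPz2' hψ2]
      have i1 : Integrable (fun x =>
          J m δ (J m δ (P t (fun y => minWeakGrad m z y ^ 2))) x * ψ x) m :=
        (di_J_memLp H hδ (di_J_memLp H hδ hPz2')).integrable_mul hψ2
      have i2 : Integrable (fun x => J m δ (J m δ v) x * ψ x) m :=
        (di_J_memLp H hδ (di_J_memLp H hδ hv2)).integrable_mul hψ2
      have e3 : ∫ x, (Real.exp (2 * a * θ) *
          J m δ (J m δ (P t (fun y => minWeakGrad m z y ^ 2))) x - C2 * J m δ (J m δ v) x) *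
            ψ x ∂m = Real.exp (2 * a * θ) *
          (∫ x, J m δ (J m δ (P t (fun y => minWeakGrad m z y ^ 2))) x * ψ x ∂m) - C2 * Y := by
        rw [hY, ← integral_const_mul, ← integral_const_mul,
          ← integral_sub (i1.const_mul _) (i2.const_mul _)]
        exact integral_congr_ae (Eventually.of_forall fun x => by ring)
      rw [e1, e3, ← e2]
      refine hlimit.trans (le_of_eq ?_)
      rw [hR, hC2]
      ring)
  filter_upwards [key] with x hx
  refine hx.trans (le_of_eq ?_)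
  rw [hC2]
  ring

end Crest.Agent.R242
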