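import Crest.Agent.R242.Res

/-!
Row 242 (S0375), DIter, part A: `L²` toolkit, iterates of the resolvent, exponential formula
`P_t f = lim J_{t/n}^n f`.
-/

set_option autoImplicit false
set_option linter.unusedSectionVars false

open MeasureTheory Filter Set
open scoped ENNReal NNReal Topology
open Crest.GeometryTopology.SyntheticRicci

noncomputable section

namespace Crest.Agent.R242

/-! ### `L²` norm of functions -/

section N2
variable {X : Type*} [MeasurableSpace X] {μ : Measure X} {f g : X → ℝ}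

/-- the `L²` norm as a real number. -/
def n2 (μ : Measure X) (f : X → ℝ) : ℝ := (eLpNorm f 2 μ).toReal

theorem n2_nonneg : 0 ≤ n2 μ f := ENNReal.toReal_nonneg

theorem n2_congr (h : f =ᵐ[μ] g) : n2 μ f = n2 μ g := by
  unfold n2; rw [eLpNorm_congr_ae h]

theorem n2_eq (hf : MemLp f 2 μ) : n2 μ f = ‖hf.toLp f‖ := (Lp.norm_toLp f hf).symm

theorem n2_cs_eq (hf : MemLp f 2 μ) (hg : MemLp g 2 μ) :
    ∫ x, f x * g x ∂μ = inner ℝ (hf.toLp f) (hg.toLp g) := by
  rw [L2.inner_def]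
  refine integral_congr_ae ?_
  filter_upwards [hf.coeFn_toLp, hg.coeFn_toLp] with x h1 h2
  rw [h1, h2]
  simp [mul_comm]

theorem n2_sq (hf : MemLp f 2 μ) : n2 μ f ^ 2 = ∫ x, f x ^ 2 ∂μ := by
  have h := n2_cs_eq hf hf
  rw [real_inner_self_eq_norm_sq, ← n2_eq hf] at h
  rw [← h]
  exact integral_congr_ae (Eventually.of_forall fun x => by simp [sq])

theorem n2_cs (hf : MemLp f 2 μ) (hg : MemLp g 2 μ) :
    |∫ x, f x * g x ∂μ| ≤ n2 μ f * n2 μ g := by
  rw [n2_cs_eq hf hg, n2_eq hf, n2_eq hg]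
  exact abs_real_inner_le_norm _ _

theorem n2_add_le (hf : MemLp f 2 μ) (hg : MemLp g 2 μ) :
    n2 μ (fun x => f x + g x) ≤ n2 μ f + n2 μ g := by
  have h1 := hf.add hg
  have h2 : n2 μ (fun x => f x + g x) = ‖h1.toLp (f + g)‖ := n2_eq h1
  rw [h2, n2_eq hf, n2_eq hg, MemLp.toLp_add hf hg]
  exact norm_add_le _ _

theorem n2_sub_le (hf : MemLp f 2 μ) (hg : MemLp g 2 μ) :
    n2 μ (fun x => f x - g x) ≤ n2 μ f + n2 μ g := by
  have h1 := hf.sub hg
  have h2 : n2 μ (fun x => f x - g x) = ‖h1.toLp (f - g)‖ := n2_eq h1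
  rw [h2, n2_eq hf, n2_eq hg, MemLp.toLp_sub hf hg]
  exact norm_sub_le _ _

theorem n2_smul (c : ℝ) (hf : MemLp f 2 μ) : n2 μ (fun x => c * f x) = |c| * n2 μ f := by
  have h1 := hf.const_smul c
  have h2 : n2 μ (fun x => c * f x) = ‖h1.toLp (c • f)‖ := n2_eq h1
  rw [h2, n2_eq hf, MemLp.toLp_const_smul c hf, norm_smul, Real.norm_eq_abs]

theorem n2_le_of_sq_le {C : ℝ} (hf : MemLp f 2 μ) (hC : 0 ≤ C) (h : ∫ x, f x ^ 2 ∂μ ≤ C ^ 2) :
    n2 μ f ≤ C := by
  rw [← n2_sq hf] at h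
  exact abs_le_of_sq_le_sq' h hC |>.2

theorem n2_le_of_dual {C : ℝ} (hf : MemLp f 2 μ) (h : ∫ x, f x * f x ∂μ ≤ C * n2 μ f) :
    n2 μ f ≤ max C 0 := by
  have h1 : ∫ x, f x * f x ∂μ = n2 μ f ^ 2 := by
    rw [n2_sq hf]; exact integral_congr_ae (Eventually.of_forall fun x => by simp [sq])
  rw [h1] at h
  rcases (n2_nonneg (μ := μ) (f := f)).eq_or_lt with h0 | h0
  · rw [← h0]; exact le_max_right _ _
  · have : n2 μ f ≤ C := by nlinarith
    exact this.trans (le_max_left _ _)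

/-- triangle inequality for differences. -/
theorem n2_sub_le_add {f g k : X → ℝ} (hf : MemLp f 2 μ) (hg : MemLp g 2 μ) (hk : MemLp k 2 μ) :
    n2 μ (fun x => f x - k x) ≤ n2 μ (fun x => f x - g x) + n2 μ (fun x => g x - k x) := by
  have h := n2_add_le (hf.sub hg) (hg.sub hk)
  have e : (fun x => (f - g) x + (g - k) x) = fun x => f x - k x := by
    funext x; simp
  rw [e] at h
  exact h

theorem n2_sub_comm (f g : X → ℝ) : n2 μ (fun x => f x - g x) = n2 μ (fun x => g x - f x) := by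
  unfold n2
  have : (fun x => f x - g x) = -(fun x => g x - f x) := by funext x; simp
  rw [this, eLpNorm_neg]

end N2

section Main

variable {X : Type*} [MetricSpace X] [ProperSpace X] [MeasurableSpace X] [BorelSpace X]
  {m : Measure X} [IsLocallyFiniteMeasure m] [m.IsOpenPosMeasure] {k N : ℝ}
  {V : X → ℝ} {h : ℝ} {f g u v : X → ℝ}

theorem di_mem (hV : BddLip V) : MemLp f 2 (wm m V) ↔ MemLp f 2 m := memLp_wm_iff hV.bddM f 2

theorem di_ae (hV : BddLip V) {p : X → Prop} : (∀ᵐ x ∂(wm m V), p x) ↔ ∀ᵐ x ∂m, p x := by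
  rw [Filter.Eventually, Filter.Eventually, ae_wm hV.bddM]

theorem di_aeeq (hV : BddLip V) (hfg : f =ᵐ[m] g) : f =ᵐ[wm m V] g := (di_ae hV).2 hfg

/-- contraction. -/
theorem di_n2_Jr (H : Hyp m k N) (hV : BddLip V) (hh : 0 < h) (hf : MemLp f 2 m) :
    n2 (wm m V) (Jr m V h f) ≤ n2 (wm m V) f := by
  refine n2_le_of_sq_le ((di_mem hV).2 (Jr_memLp H hV hh hf)) n2_nonneg ?_
  rw [n2_sq ((di_mem hV).2 hf)]
  have h1 := Jr_l2 H hV hh hf
  have h2 := En_nonneg H hV (Jr_sob H hV hh hf)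
  nlinarith [mul_nonneg hh.le h2]

theorem di_n2_Jr_sub (H : Hyp m k N) (hV : BddLip V) (hh : 0 < h) (hf : MemLp f 2 m)
    (hg : MemLp g 2 m) :
    n2 (wm m V) (fun x => Jr m V h f x - Jr m V h g x) ≤ n2 (wm m V) (fun x => f x - g x) := by
  have h1 := di_n2_Jr H hV hh (hf.sub hg)
  have h2 : Jr m V h (f - g) =ᵐ[wm m V] fun x => Jr m V h f x - Jr m V h g x :=
    di_aeeq hV (Jr_sub H hV hh hf hg)
  rw [n2_congr h2] at h1
  exact h1

/-! ### iterates -/

/-- iterated resolvent. -/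
def itJ (m : Measure X) (V : X → ℝ) (h : ℝ) (n : ℕ) (f : X → ℝ) : X → ℝ := (Jr m V h)^[n] f

@[simp] theorem itJ_zero : itJ m V h 0 f = f := rfl

theorem itJ_succ (n : ℕ) : itJ m V h (n + 1) f = Jr m V h (itJ m V h n f) :=
  Function.iterate_succ_apply' _ _ _

theorem itJ_succ' (n : ℕ) : itJ m V h (n + 1) f = itJ m V h n (Jr m V h f) :=
  Function.iterate_succ_apply _ _ _

theorem itJ_memLp (H : Hyp m k N) (hV : BddLip V) (hh : 0 < h) (hf : MemLp f 2 m) (n : ℕ) :
    MemLp (itJ m V h n f) 2 m := by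
  induction n with
  | zero => exact hf
  | succ n ih => rw [itJ_succ]; exact Jr_memLp H hV hh ih

theorem itJ_sob (H : Hyp m k N) (hV : BddLip V) (hh : 0 < h) (hf : IsSobolev m f) (n : ℕ) :
    IsSobolev m (itJ m V h n f) := by
  cases n with
  | zero => exact hf
  | succ n => rw [itJ_succ]; exact Jr_sob H hV hh (itJ_memLp H hV hh hf.1 n)

theorem itJ_congr (H : Hyp m k N) (hV : BddLip V) (hh : 0 < h) (hf : MemLp f 2 m)
    (hfg : f =ᵐ[m] g) (n : ℕ) : itJ m V h n f =ᵐ[m] itJ m V h n g := by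
  induction n with
  | zero => exact hfg
  | succ n ih =>
    rw [itJ_succ, itJ_succ]
    exact Jr_congr H hV hh (itJ_memLp H hV hh hf n) ih

theorem itJ_sub (H : Hyp m k N) (hV : BddLip V) (hh : 0 < h) (hf : MemLp f 2 m)
    (hg : MemLp g 2 m) (n : ℕ) :
    itJ m V h n (fun x => f x - g x) =ᵐ[m] fun x => itJ m V h n f x - itJ m V h n g x := by
  induction n with
  | zero => exact Filter.EventuallyEq.rfl
  | succ n ih =>
    rw [itJ_succ, itJ_succ, itJ_succ]
    exact (Jr_congr H hV hh (itJ_memLp H hV hh (hf.sub hg) n) ih).trans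
      (Jr_sub H hV hh (itJ_memLp H hV hh hf n) (itJ_memLp H hV hh hg n))

theorem itJ_nonneg (H : Hyp m k N) (hV : BddLip V) (hh : 0 < h) (hf : MemLp f 2 m)
    (h0 : 0 ≤ᵐ[m] f) (n : ℕ) : 0 ≤ᵐ[m] itJ m V h n f := by
  induction n with
  | zero => exact h0
  | succ n ih => rw [itJ_succ]; exact Jr_nonneg H hV hh (itJ_memLp H hV hh hf n) ih

theorem itJ_abs_le (H : Hyp m k N) (hV : BddLip V) (hh : 0 < h) (hf : MemLp f 2 m) {c : ℝ}
    (h0 : ∀ᵐ x ∂m, |f x| ≤ c) (n : ℕ) : ∀ᵐ x ∂m, |itJ m V h n f x| ≤ c := by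
  induction n with
  | zero => exact h0
  | succ n ih => rw [itJ_succ]; exact Jr_abs_le H hV hh (itJ_memLp H hV hh hf n) ih

theorem itJ_le_const (H : Hyp m k N) (hV : BddLip V) (hh : 0 < h) (hf : MemLp f 2 m) {c : ℝ}
    (hc : 0 ≤ c) (h0 : ∀ᵐ x ∂m, f x ≤ c) (n : ℕ) : ∀ᵐ x ∂m, itJ m V h n f x ≤ c := by
  induction n with
  | zero => exact h0
  | succ n ih => rw [itJ_succ]; exact Jr_le_const H hV hh (itJ_memLp H hV hh hf n) hc ih

theorem itJ_symm (H : Hyp m k N) (hV : BddLip V) (hh : 0 < h) (hf : MemLp f 2 m)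
    (hg : MemLp g 2 m) (n : ℕ) :
    ∫ x, itJ m V h n f x * g x ∂(wm m V) = ∫ x, f x * itJ m V h n g x ∂(wm m V) := by
  induction n generalizing g with
  | zero => rfl
  | succ n ih =>
    rw [itJ_succ, Jr_symm H hV hh (itJ_memLp H hV hh hf n) hg, ih (Jr_memLp H hV hh hg),
      itJ_succ']

theorem itJ_l1 (H : Hyp m k N) (hV : BddLip V) (hh : 0 < h) (hf : MemLp f 2 m)
    (hf1 : Integrable f m) (n : ℕ) : Integrable (itJ m V h n f) m ∧
      ∫ x, |itJ m V h n f x| ∂(wm m V) ≤ ∫ x, |f x| ∂(wm m V) := by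
  induction n with
  | zero => exact ⟨hf1, le_rfl⟩
  | succ n ih =>
    rw [itJ_succ]
    have h1 := Jr_l1 H hV hh (itJ_memLp H hV hh hf n) ih.1
    exact ⟨h1.1, h1.2.trans ih.2⟩

theorem itJ_n2 (H : Hyp m k N) (hV : BddLip V) (hh : 0 < h) (hf : MemLp f 2 m) (n : ℕ) :
    n2 (wm m V) (itJ m V h n f) ≤ n2 (wm m V) f := by
  induction n with
  | zero => exact le_rfl
  | succ n ih => rw [itJ_succ]; exact (di_n2_Jr H hV hh (itJ_memLp H hV hh hf n)).trans ih

theorem itJ_n2_sub (H : Hyp m k N) (hV : BddLip V) (hh : 0 < h) (hf : MemLp f 2 m)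
    (hg : MemLp g 2 m) (n : ℕ) :
    n2 (wm m V) (fun x => itJ m V h n f x - itJ m V h n g x) ≤
      n2 (wm m V) (fun x => f x - g x) := by
  have h1 := itJ_n2 H hV hh (hf.sub hg) n
  have h2 : itJ m V h n (f - g) =ᵐ[wm m V] fun x => itJ m V h n f x - itJ m V h n g x :=
    di_aeeq hV (itJ_sub H hV hh hf hg n)
  rw [n2_congr h2] at h1
  exact h1

theorem itJ_energy_le (H : Hyp m k N) (hV : BddLip V) (hh : 0 < h) (hf : IsSobolev m f) (n : ℕ) :
    En m V (itJ m V h n f) (itJ m V h n f) ≤ En m V f f := by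
  induction n with
  | zero => exact le_rfl
  | succ n ih => rw [itJ_succ]; exact (Jr_energy_le H hV hh (itJ_sob H hV hh hf n)).trans ih

theorem itJ_isWLap (H : Hyp m k N) (hV : BddLip V) (hh : 0 < h) (hu : IsWLap m V u g) (n : ℕ) :
    IsWLap m V (itJ m V h n u) (itJ m V h n g) := by
  induction n with
  | zero => exact hu
  | succ n ih => rw [itJ_succ, itJ_succ]; exact ih.Jr H hV hh

/-! ### the exponential formula -/

section Expo
variable {P : ℝ → (X → ℝ) → (X → ℝ)}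

theorem di_n2_P (hV : BddLip V) (S : SemigroupSpec m V P) {t : ℝ} (ht : 0 ≤ t)
    (hf : MemLp f 2 m) : n2 (wm m V) (P t f) ≤ n2 (wm m V) f := by
  refine n2_le_of_sq_le ((di_mem hV).2 (S.memLp t ht f hf)) n2_nonneg ?_
  rw [n2_sq ((di_mem hV).2 hf)]
  exact S.l2 t ht f hf

theorem di_P_sub (S : SemigroupSpec m V P) {t : ℝ} (ht : 0 ≤ t)
    (hf : MemLp f 2 m) (hg : MemLp g 2 m) :
    P t (fun x => f x - g x) =ᵐ[m] fun x => P t f x - P t g x := by
  have h1 := S.add t ht f (fun x => (-1) * g x) hf (hg.const_mul _)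
  have h2 := S.smul t ht (-1) g hg
  have h3 : (fun x => f x + (-1) * g x) = fun x => f x - g x := by funext x; ring
  rw [h3] at h1
  filter_upwards [h1, h2] with x h1 h2
  rw [h1, h2]; ring

theorem di_n2_P_sub (hV : BddLip V) (S : SemigroupSpec m V P) {t : ℝ} (ht : 0 ≤ t)
    (hf : MemLp f 2 m) (hg : MemLp g 2 m) :
    n2 (wm m V) (fun x => P t f x - P t g x) ≤ n2 (wm m V) (fun x => f x - g x) := by
  have h1 := di_n2_P hV S ht (hf.sub hg)
  have h2 : P t (f - g) =ᵐ[wm m V] fun x => P t f x - P t g x :=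
    di_aeeq hV (di_P_sub S ht hf hg)
  rw [n2_congr h2] at h1
  exact h1

/-- `|P_t u - u| ≤ t |L u|`. -/
theorem di_P_sub_self (hV : BddLip V) (S : SemigroupSpec m V P) (hu : IsWLap m V u g) {t : ℝ}
    (ht : 0 ≤ t) : n2 (wm m V) (fun x => P t u x - u x) ≤ t * n2 (wm m V) g := by
  have hum : MemLp u 2 m := hu.1.1
  have hgm : MemLp g 2 m := hu.2.1
  have hm : MemLp (fun x => P t u x - u x) 2 m := (S.memLp t ht u hum).sub hum
  obtain ⟨-, h2⟩ := S.gen_int u g hu t ht _ hm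
  have h3 : ∫ x, (P t u x - u x) * (P t u x - u x) ∂(wm m V) ≤
      t * n2 (wm m V) g * n2 (wm m V) (fun x => P t u x - u x) := by
    rw [h2]
    have h4 : ‖∫ s in (0 : ℝ)..t, ∫ x, P s g x * (P t u x - u x) ∂(wm m V)‖ ≤
        (n2 (wm m V) g * n2 (wm m V) (fun x => P t u x - u x)) * |t - 0| := by
      refine intervalIntegral.norm_integral_le_of_norm_le_const fun s hs => ?_
      rw [uIoc_of_le ht] at hs
      have hs0 : 0 ≤ s := hs.1.le
      have h5 := n2_cs ((di_mem hV).2 (S.memLp s hs0 g hgm)) ((di_mem hV).2 hm)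
      rw [Real.norm_eq_abs]
      refine h5.trans ?_
      exact mul_le_mul_of_nonneg_right (di_n2_P hV S hs0 hgm) n2_nonneg
    rw [sub_zero, abs_of_nonneg ht] at h4
    calc _ ≤ ‖∫ s in (0 : ℝ)..t, ∫ x, P s g x * (P t u x - u x) ∂(wm m V)‖ := le_abs_self _
      _ ≤ _ := h4
      _ = _ := by ring
  have h6 := n2_le_of_dual ((di_mem hV).2 hm) h3
  rwa [max_eq_left (mul_nonneg ht n2_nonneg)] at h6

/-- `|P_t u - u - t L u| ≤ t² |L² u|`. -/
theorem di_P_taylor (hV : BddLip V) (S : SemigroupSpec m V P) {g2 : X → ℝ}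
    (hu : IsWLap m V u g) (hg2 : IsWLap m V g g2) {t : ℝ} (ht : 0 ≤ t) :
    n2 (wm m V) (fun x => (P t u x - u x) - t * g x) ≤ t ^ 2 * n2 (wm m V) g2 := by
  have hum : MemLp u 2 m := hu.1.1
  have hgm : MemLp g 2 m := hu.2.1
  have hm : MemLp (fun x => (P t u x - u x) - t * g x) 2 m :=
    ((S.memLp t ht u hum).sub hum).sub (hgm.const_mul t)
  set q : X → ℝ := fun x => (P t u x - u x) - t * g x with hq
  obtain ⟨h1, h2⟩ := S.gen_int u g hu t ht q hm
  have hq' : MemLp q 2 (wm m V) := (di_mem hV).2 hm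
  have hgq : Integrable (fun x => g x * q x) (wm m V) :=
    ((di_mem hV).2 hgm).integrable_mul hq'
  have hPq : Integrable (fun x => (P t u x - u x) * q x) (wm m V) :=
    ((di_mem hV).2 ((S.memLp t ht u hum).sub hum)).integrable_mul hq'
  have h3 : ∫ x, q x * q x ∂(wm m V) =
      ∫ s in (0 : ℝ)..t, ((∫ x, P s g x * q x ∂(wm m V)) - ∫ x, g x * q x ∂(wm m V)) := by
    have e1 : (fun x => q x * q x) = fun x => (P t u x - u x) * q x - t * (g x * q x) := by
      funext x; simp only [hq]; ring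
    rw [e1, integral_sub hPq (hgq.const_mul t), integral_const_mul, h2,
      intervalIntegral.integral_sub h1 (by simp), intervalIntegral.integral_const]
    simp
  have h4 : ‖∫ s in (0 : ℝ)..t, ((∫ x, P s g x * q x ∂(wm m V)) - ∫ x, g x * q x ∂(wm m V))‖ ≤
      (t * n2 (wm m V) g2 * n2 (wm m V) q) * |t - 0| := by
    refine intervalIntegral.norm_integral_le_of_norm_le_const fun s hs => ?_
    rw [uIoc_of_le ht] at hs
    have hs0 : 0 ≤ s := hs.1.le
    have hsg := (di_mem hV).2 (S.memLp s hs0 g hgm)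
    have h5 : (∫ x, P s g x * q x ∂(wm m V)) - ∫ x, g x * q x ∂(wm m V) =
        ∫ x, (P s g x - g x) * q x ∂(wm m V) := by
      have hPs : Integrable (fun x => P s g x * q x) (wm m V) := hsg.integrable_mul hq'
      rw [← integral_sub hPs hgq]
      exact integral_congr_ae (Eventually.of_forall fun x => by ring)
    rw [h5, Real.norm_eq_abs]
    refine (n2_cs (hsg.sub ((di_mem hV).2 hgm)) hq').trans ?_
    refine mul_le_mul_of_nonneg_right ?_ n2_nonneg
    refine (di_P_sub_self hV S hg2 hs0).trans ?_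
    exact mul_le_mul_of_nonneg_right hs.2 n2_nonneg
  rw [sub_zero, abs_of_nonneg ht] at h4
  have h5 : ∫ x, q x * q x ∂(wm m V) ≤ (t ^ 2 * n2 (wm m V) g2) * n2 (wm m V) q := by
    rw [h3]
    calc _ ≤ _ := (le_abs_self _).trans h4
      _ = _ := by ring
  have h6 := n2_le_of_dual hq' h5
  rwa [max_eq_left (mul_nonneg (sq_nonneg t) n2_nonneg)] at h6

/-- `|J_h u - u - h L u| ≤ h² |L² u|`. -/
theorem di_J_taylor (H : Hyp m k N) (hV : BddLip V) (hh : 0 < h) {g2 : X → ℝ}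
    (hu : IsWLap m V u g) (hg2 : IsWLap m V g g2) :
    n2 (wm m V) (fun x => (Jr m V h u x - u x) - h * g x) ≤ h ^ 2 * n2 (wm m V) g2 := by
  have hg2m : MemLp g2 2 m := hg2.2.1
  have h1 := hu.Jr_sub H hV hh
  have h2 := hg2.Jr_sub H hV hh
  have h3 : (fun x => (Jr m V h u x - u x) - h * g x) =ᵐ[wm m V]
      fun x => h ^ 2 * Jr m V h g2 x := by
    refine (di_ae hV).2 ?_
    filter_upwards [h1, h2] with x h1 h2
    rw [h1]
    have : Jr m V h g x - g x = h * Jr m V h g2 x := h2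
    linear_combination h * this
  rw [n2_congr h3, n2_smul _ ((di_mem hV).2 (Jr_memLp H hV hh hg2m)), abs_of_nonneg (sq_nonneg h)]
  exact mul_le_mul_of_nonneg_left (di_n2_Jr H hV hh hg2m) (sq_nonneg h)

theorem di_JP (H : Hyp m k N) (hV : BddLip V) (hh : 0 < h) (S : SemigroupSpec m V P) {g2 : X → ℝ}
    (hu : IsWLap m V u g) (hg2 : IsWLap m V g g2) :
    n2 (wm m V) (fun x => Jr m V h u x - P h u x) ≤ 2 * h ^ 2 * n2 (wm m V) g2 := by
  have hum : MemLp u 2 m := hu.1.1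
  have hgm : MemLp g 2 m := hu.2.1
  have h1 := di_J_taylor H hV hh hu hg2
  have h2 := di_P_taylor hV S hu hg2 hh.le
  have hm1 : MemLp (fun x => (Jr m V h u x - u x) - h * g x) 2 (wm m V) :=
    (di_mem hV).2 (((Jr_memLp H hV hh hum).sub hum).sub (hgm.const_mul h))
  have hm2 : MemLp (fun x => (P h u x - u x) - h * g x) 2 (wm m V) :=
    (di_mem hV).2 (((S.memLp h hh.le u hum).sub hum).sub (hgm.const_mul h))
  have h3 := n2_sub_le hm1 hm2
  have e : (fun x => ((Jr m V h u x - u x) - h * g x) - ((P h u x - u x) - h * g x)) =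
      fun x => Jr m V h u x - P h u x := by funext x; ring
  rw [e] at h3
  linarith

theorem di_telescope (H : Hyp m k N) (hV : BddLip V) (hh : 0 < h) (S : SemigroupSpec m V P)
    {g2 : X → ℝ} (hu : IsWLap m V u g) (hg2 : IsWLap m V g g2) (n : ℕ) :
    n2 (wm m V) (fun x => itJ m V h n u x - P (n * h) u x) ≤
      n * (2 * h ^ 2 * n2 (wm m V) g2) := by
  have hum : MemLp u 2 m := hu.1.1
  have hg2m : MemLp g2 2 m := hg2.2.1
  induction n with
  | zero =>
    have h1 : (fun x => itJ m V h 0 u x - P ((0 : ℕ) * h) u x) =ᵐ[wm m V] fun _ => 0 := by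
      refine (di_ae hV).2 ?_
      have := S.zero u hum
      filter_upwards [this] with x hx
      simp only [itJ_zero, Nat.cast_zero, zero_mul]
      rw [hx]; ring
    rw [n2_congr h1]
    simp [n2]
  | succ n ih =>
    have hn : 0 ≤ (n : ℝ) * h := by positivity
    have hm1 := itJ_memLp H hV hh hum n
    have hm2 := S.memLp (n * h) hn u hum
    have h1 := di_n2_Jr_sub H hV hh hm1 hm2
    have hu' := S.gen u g hu (n * h) hn
    have hg' := S.gen g g2 hg2 (n * h) hn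
    have h2 := di_JP H hV hh S hu' hg'
    have h3 := di_n2_P hV S hn hg2m
    have hm3 : MemLp (Jr m V h (itJ m V h n u)) 2 (wm m V) :=
      (di_mem hV).2 (Jr_memLp H hV hh hm1)
    have hm4 : MemLp (Jr m V h (P (n * h) u)) 2 (wm m V) := (di_mem hV).2 (Jr_memLp H hV hh hm2)
    have hm5 : MemLp (P h (P (n * h) u)) 2 (wm m V) :=
      (di_mem hV).2 (S.memLp h hh.le _ hm2)
    have h4 := n2_sub_le_add hm3 hm4 hm5
    have h5 : (fun x => itJ m V h (n + 1) u x - P ((n + 1 : ℕ) * h) u x) =ᵐ[wm m V]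
        fun x => Jr m V h (itJ m V h n u) x - P h (P (n * h) u) x := by
      refine (di_ae hV).2 ?_
      have e : ((n + 1 : ℕ) : ℝ) * h = h + n * h := by push_cast; ring
      have h6 := S.semig h (n * h) hh.le hn u hum
      rw [e, itJ_succ]
      filter_upwards [h6] with x hx
      rw [hx]
    rw [n2_congr h5]
    have h7 : 2 * h ^ 2 * n2 (wm m V) (P (n * h) g2) ≤ 2 * h ^ 2 * n2 (wm m V) g2 :=
      mul_le_mul_of_nonneg_left h3 (by positivity)
    push_cast
    linarith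

/-- exponential formula. -/
theorem di_expo (H : Hyp m k N) (hV : BddLip V) (S : SemigroupSpec m V P)
    (hf : MemLp f 2 m) {t : ℝ} (ht : 0 < t) :
    Tendsto (fun n : ℕ => n2 (wm m V) (fun x => itJ m V (t / (n + 1)) (n + 1) f x - P t f x))
      atTop (𝓝 0) := by
  have hf' := (di_mem (m := m) hV).2 hf
  rw [Metric.tendsto_atTop]
  intro e he
  -- approximation by `J_a J_a f`
  have happ : ∃ a : ℝ, 0 < a ∧ n2 (wm m V) (fun x => f x - Jr m V a f x) < e / 8 := by
    obtain ⟨C, hC0, hC⟩ : ∃ C : ℝ, 0 < C ∧ ∀ q : X → ℝ, MemLp q 2 m →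
        ∫ x, q x ^ 2 ∂(wm m V) ≤ C * ∫ x, q x ^ 2 ∂m := by
      obtain ⟨B, hB⟩ := hV.1
      refine ⟨Real.exp B, Real.exp_pos _, fun q hq => ?_⟩
      rw [integral_wm hV.bddM, ← integral_const_mul]
      have hi : Integrable (fun x => q x ^ 2) m := hq.integrable_sq
      refine integral_mono_of_nonneg (Eventually.of_forall fun x => by positivity)
        (hi.const_mul _) (Eventually.of_forall fun x => ?_)
      refine mul_le_mul_of_nonneg_right ?_ (sq_nonneg _)
      exact Real.exp_le_exp.2 ((le_abs_self _).trans (hB x))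
    have h1 := Jr_tendsto_l2 H hV hf
    have h2 : ∀ᶠ a in 𝓝[>] (0 : ℝ), ∫ x, (Jr m V a f x - f x) ^ 2 ∂m < (e / 8) ^ 2 / (2 * C) :=
      (tendsto_order.1 h1).2 _ (by positivity)
    obtain ⟨a, ha, ha0⟩ := (h2.and self_mem_nhdsWithin).exists
    have ha0' : (0 : ℝ) < a := ha0
    refine ⟨a, ha0', ?_⟩
    have hm := (Jr_memLp H hV ha0' hf).sub hf
    have h3 := hC _ hm
    have h4 : n2 (wm m V) (fun x => Jr m V a f x - f x) ^ 2 =
        ∫ x, (Jr m V a f x - f x) ^ 2 ∂(wm m V) := n2_sq ((di_mem hV).2 hm)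
    rw [n2_sub_comm]
    have h5 : n2 (wm m V) (fun x => Jr m V a f x - f x) ^ 2 < (e / 8) ^ 2 := by
      rw [h4]
      calc _ ≤ C * ∫ x, (Jr m V a f x - f x) ^ 2 ∂m := h3
        _ ≤ C * ((e / 8) ^ 2 / (2 * C)) := mul_le_mul_of_nonneg_left ha.le hC0.le
        _ = (e / 8) ^ 2 / 2 := by field_simp
        _ < (e / 8) ^ 2 := by linarith [show 0 < (e / 8) ^ 2 by positivity]
    exact lt_of_pow_lt_pow_left₀ 2 (by positivity) h5
  obtain ⟨a, ha, hae⟩ := happ
  set w := Jr m V a f with hw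
  have hwm : MemLp w 2 m := Jr_memLp H hV ha hf
  set u := Jr m V a w with hu
  have hum : MemLp u 2 m := Jr_memLp H hV ha hwm
  have hL1 : IsWLap m V w (fun x => (w x - f x) / a) := Jr_isWLap H hV ha hf
  have hL2 : IsWLap m V u (fun x => (u x - w x) / a) := Jr_isWLap H hV ha hwm
  obtain ⟨g2, hg2⟩ : ∃ g2, IsWLap m V (fun x => (u x - w x) / a) g2 := by
    have h1 := (hL2.smul H hV a⁻¹).add H hV (hL1.smul H hV (-a⁻¹))
    refine ⟨_, h1.congr H hV (Eventually.of_forall fun x => ?_) Filter.EventuallyEq.rfl⟩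
    simp only
    field_simp
    ring
  have hfu : n2 (wm m V) (fun x => f x - u x) < e / 4 := by
    have h1 := n2_sub_le_add hf' ((di_mem hV).2 hwm) ((di_mem hV).2 hum)
    have h2 := di_n2_Jr_sub H hV ha hf hwm
    linarith
  -- choose n
  obtain ⟨n0, hn0⟩ := exists_nat_gt (8 * t ^ 2 * n2 (wm m V) g2 / e)
  refine ⟨n0, fun n hn => ?_⟩
  rw [Real.dist_eq, sub_zero, abs_of_nonneg n2_nonneg]
  have hnp : (0 : ℝ) < n + 1 := by positivity
  have hh : 0 < t / (n + 1) := by positivity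
  have h1 := di_telescope H hV hh S hL2 hg2 (n + 1)
  have e1 : ((n + 1 : ℕ) : ℝ) * (t / (n + 1)) = t := by push_cast; field_simp
  rw [e1] at h1
  have h2 : ((n + 1 : ℕ) : ℝ) * (2 * (t / (n + 1)) ^ 2 * n2 (wm m V) g2) ≤ e / 4 := by
    have e2 : ((n + 1 : ℕ) : ℝ) * (2 * (t / (n + 1)) ^ 2 * n2 (wm m V) g2) =
        (2 * t ^ 2 * n2 (wm m V) g2) / (n + 1) := by push_cast; field_simp
    rw [e2, div_le_iff₀ hnp]
    have h3 : (n0 : ℝ) ≤ n := by exact_mod_cast hn
    rw [div_lt_iff₀ he] at hn0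
    nlinarith
  have hJf := (di_mem hV).2 (itJ_memLp H hV hh hf (n + 1))
  have hJu := (di_mem hV).2 (itJ_memLp H hV hh hum (n + 1))
  have hPf := (di_mem hV).2 (S.memLp t ht.le f hf)
  have hPu := (di_mem hV).2 (S.memLp t ht.le u hum)
  have h3 := n2_sub_le_add hJf hJu hPf
  have h4 := n2_sub_le_add hJu hPu hPf
  have h5 := itJ_n2_sub H hV hh hf hum (n + 1)
  have h6 := di_n2_P_sub hV S ht.le hum hf
  rw [n2_sub_comm u f] at h6
  linarith

end Expo

end Main

end Crest.Agent.R242
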