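import Crest.Agent.R242.DIterA

/-!
Row 242 (S0375), DIter, part B: gradient bound for the iterates and for the semigroup from the
one step inequality.
-/

set_option autoImplicit false
set_option linter.unusedSectionVars false

open MeasureTheory Filter Set
open scoped ENNReal NNReal Topology
open Crest.GeometryTopology.SyntheticRicci

noncomputable section

namespace Crest.Agent.R242

variable {X : Type*} [MetricSpace X] [ProperSpace X] [MeasurableSpace X] [BorelSpace X]
  {m : Measure X} [IsLocallyFiniteMeasure m] [m.IsOpenPosMeasure] {k N : ℝ}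
  {V : X → ℝ} {h : ℝ} {f g u v : X → ℝ}

/-! ### integrability, test functions -/

theorem di_int (hV : BddLip V) {F φ : X → ℝ} (hF : Integrable F m)
    (hφ : AEStronglyMeasurable φ m) (hb : ∃ C : ℝ, ∀ᵐ x ∂m, |φ x| ≤ C) :
    Integrable (fun x => F x * φ x) (wm m V) := by
  obtain ⟨C, hC⟩ := hb
  rw [integrable_wm_iff hV.bddM]
  refine (hF.norm.const_mul C).mono' (hF.aestronglyMeasurable.mul hφ) ?_
  filter_upwards [hC] with x hx
  rw [norm_mul, mul_comm]
  exact mul_le_mul_of_nonneg_right (by simpa using hx) (norm_nonneg _)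

theorem di_int_wm (hV : BddLip V) {F : X → ℝ} (hF : Integrable F m) : Integrable F (wm m V) :=
  (integrable_wm_iff hV.bddM F).2 hF

theorem di_ae_le_of_test (hV : BddLip V) {F₁ F₂ : X → ℝ} {C : ℝ} (h1 : Integrable F₁ m)
    (h2 : Integrable F₂ m)
    (h : ∀ φ : X → ℝ, MemLp φ 2 m → Integrable φ m → (∃ B : ℝ, ∀ᵐ x ∂m, |φ x| ≤ B) →
      0 ≤ᵐ[m] φ →
      ∫ x, F₁ x * φ x ∂(wm m V) ≤ ∫ x, F₂ x * φ x ∂(wm m V) + C * ∫ x, φ x ∂(wm m V)) :
    ∀ᵐ x ∂m, F₁ x ≤ F₂ x + C := by
  obtain ⟨B, hB⟩ := hV.1
  have hVm : Measurable V := hV.bddM.1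
  have key : 0 ≤ᵐ[m] fun x => (F₂ x + C) - F₁ x := by
    refine ae_nonneg_of_forall_setIntegral_nonneg_of_sigmaFinite (fun s hs hsf => ?_)
      (fun s hs hsf => ?_)
    · exact (h2.integrableOn.add (integrableOn_const hsf.ne)).sub h1.integrableOn
    · set φ : X → ℝ := s.indicator (fun x => Real.exp (-V x)) with hφ
      have hφm : Measurable φ := (Real.measurable_exp.comp hVm.neg).indicator hs
      have hφb : ∀ x, |φ x| ≤ s.indicator (fun _ => Real.exp B) x := by
        intro x
        by_cases hx : x ∈ s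
        · rw [hφ, indicator_of_mem hx, indicator_of_mem hx, abs_of_pos (Real.exp_pos _)]
          exact Real.exp_le_exp.2 ((neg_le_abs _).trans (hB x))
        · rw [hφ, indicator_of_notMem hx, indicator_of_notMem hx]; simp
      have hφ2 : MemLp φ 2 m :=
        (memLp_indicator_const 2 hs (Real.exp B) (Or.inr hsf.ne)).mono'
          hφm.aestronglyMeasurable (Eventually.of_forall fun x => by simpa using hφb x)
      have hφ1 : Integrable φ m :=
        memLp_one_iff_integrable.1 ((memLp_indicator_const 1 hs (Real.exp B) (Or.inr hsf.ne)).mono'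
          hφm.aestronglyMeasurable (Eventually.of_forall fun x => by simpa using hφb x))
      have hφB : ∃ B' : ℝ, ∀ᵐ x ∂m, |φ x| ≤ B' := by
        refine ⟨Real.exp B, Eventually.of_forall fun x => (hφb x).trans ?_⟩
        exact indicator_le_self' (fun _ _ => (Real.exp_pos _).le) x
      have hφ0 : 0 ≤ᵐ[m] φ := Eventually.of_forall fun x =>
        indicator_nonneg (fun _ _ => (Real.exp_pos _).le) x
      have h3 := h φ hφ2 hφ1 hφB hφ0
      have e : ∀ F : X → ℝ, ∫ x, F x * φ x ∂(wm m V) = ∫ x in s, F x ∂m := by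
        intro F
        rw [integral_wm hV.bddM, ← integral_indicator hs]
        refine integral_congr_ae (Eventually.of_forall fun x => ?_)
        by_cases hx : x ∈ s
        · simp only [hφ, indicator_of_mem hx]
          rw [mul_comm (F x), ← mul_assoc, ← Real.exp_add]; simp
        · simp only [hφ, indicator_of_notMem hx]; simp
      have e1 : ∫ x, φ x ∂(wm m V) = ∫ x in s, (1 : ℝ) ∂m := by
        have := e (fun _ => 1)
        simpa using this
      rw [e, e, e1] at h3
      have h4 : ∫ x in s, ((F₂ x + C) - F₁ x) ∂m =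
          (∫ x in s, F₂ x ∂m) + C * (∫ x in s, (1 : ℝ) ∂m) - ∫ x in s, F₁ x ∂m := by
        rw [integral_sub _ h1.integrableOn, integral_add h2.integrableOn
          (integrableOn_const hsf.ne)]
        · congr 2
          rw [← integral_const_mul]; simp
        · exact h2.integrableOn.add (integrableOn_const hsf.ne)
      rw [h4]; linarith
  filter_upwards [key] with x hx
  simpa using hx

/-- closedness, for almost everywhere bounded weights. -/
theorem di_closed (H : Hyp m k N) (hV : BddLip V) {un : ℕ → X → ℝ} {f φ : X → ℝ} {A C : ℝ}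
    (hun : ∀ n, IsSobolev m (un n)) (hf : MemLp f 2 m)
    (hlim : Tendsto (fun n => n2 (wm m V) (fun x => un n x - f x)) atTop (𝓝 0))
    (hA : ∀ n, ∫ x, minWeakGrad m (un n) x ^ 2 ∂m ≤ A) (hφ : AEStronglyMeasurable φ m)
    (hφ0 : 0 ≤ᵐ[m] φ) (hφb : ∃ B : ℝ, ∀ᵐ x ∂m, |φ x| ≤ B)
    (hC : ∀ᶠ n in atTop, ∫ x, minWeakGrad m (un n) x ^ 2 * φ x ∂(wm m V) ≤ C) :
    IsSobolev m f ∧ ∫ x, minWeakGrad m f x ^ 2 * φ x ∂(wm m V) ≤ C := by
  obtain ⟨n₀, hn₀⟩ := eventually_atTop.1 hC
  obtain ⟨B, hB⟩ := hφb
  obtain ⟨BV, hBV⟩ := hV.1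
  have hVm : Measurable V := hV.bddM.1
  -- measurable weight
  set w : X → ℝ := fun x => Real.exp (V x) * max (min (hφ.mk φ x) B) 0 with hw
  have hwm : Measurable w :=
    (Real.measurable_exp.comp hVm).mul
      ((hφ.stronglyMeasurable_mk.measurable.min measurable_const).max measurable_const)
  have hw0 : ∀ x, 0 ≤ w x := fun x => mul_nonneg (Real.exp_pos _).le (le_max_right _ _)
  have hwB : ∃ B' : ℝ, ∀ x, w x ≤ B' := by
    refine ⟨Real.exp BV * max B 0, fun x => ?_⟩
    refine mul_le_mul (Real.exp_le_exp.2 ((le_abs_self _).trans (hBV x))) ?_ (le_max_right _ _)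
      (Real.exp_pos _).le
    exact max_le_max (min_le_right _ _) le_rfl
  have hwe : w =ᵐ[m] fun x => Real.exp (V x) * φ x := by
    filter_upwards [hφ.ae_eq_mk, hB, hφ0] with x h1 h2 h3
    simp only [hw]
    rw [← h1]
    have h3' : 0 ≤ φ x := h3
    rw [min_eq_left ((le_abs_self _).trans h2), max_eq_left h3']
  have key : ∀ q : X → ℝ, ∫ x, w x * minWeakGrad m q x ^ 2 ∂m =
      ∫ x, minWeakGrad m q x ^ 2 * φ x ∂(wm m V) := by
    intro q
    rw [integral_wm hV.bddM]
    refine integral_congr_ae ?_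
    filter_upwards [hwe] with x hx
    rw [hx]; ring
  have hlim' : Tendsto (fun n => eLpNorm (fun x => un (n + n₀) x - f x) 2 m) atTop (𝓝 0) := by
    have h1 : ∀ n, n2 (wm m V) (fun x => un n x - f x) =
        (eLpNorm (fun x => un n x - f x) 2 (wm m V)).toReal := fun n => rfl
    have hmem : ∀ n, MemLp (fun x => un n x - f x) 2 m := fun n => (hun n).1.sub hf
    -- compare the two measures
    obtain ⟨c, hc0, hc⟩ : ∃ c : ℝ, 0 < c ∧ ∀ q : X → ℝ, MemLp q 2 m →
        n2 m q ≤ c * n2 (wm m V) q := by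
      refine ⟨Real.exp (BV / 2), Real.exp_pos _, fun q hq => ?_⟩
      refine n2_le_of_sq_le hq (mul_nonneg (Real.exp_pos _).le n2_nonneg) ?_
      rw [mul_pow, n2_sq ((di_mem hV).2 hq), integral_wm hV.bddM, ← integral_const_mul]
      have hq2 : Integrable (fun x => q x ^ 2) m := hq.integrable_sq
      have hq3 : Integrable (fun x => Real.exp (V x) * q x ^ 2) m := by
        refine (hq2.const_mul (Real.exp BV)).mono'
          ((Real.measurable_exp.comp hVm).aestronglyMeasurable.mul hq2.aestronglyMeasurable) ?_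
        refine Eventually.of_forall fun x => ?_
        rw [norm_mul, Real.norm_of_nonneg (Real.exp_pos _).le, Real.norm_of_nonneg (sq_nonneg _)]
        exact mul_le_mul_of_nonneg_right
          (Real.exp_le_exp.2 ((le_abs_self _).trans (hBV x))) (sq_nonneg _)
      refine integral_mono hq2 (hq3.const_mul _) fun x => ?_
      have e1 : Real.exp (BV / 2) ^ 2 * (Real.exp (V x) * q x ^ 2) =
          Real.exp (BV + V x) * q x ^ 2 := by
        rw [← mul_assoc, ← Real.exp_nat_mul, ← Real.exp_add]; congr 2; push_cast; ring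
      simp only [e1]
      have : 1 ≤ Real.exp (BV + V x) := by
        apply Real.one_le_exp
        have := (neg_abs_le (V x))
        linarith [hBV x]
      nlinarith [sq_nonneg (q x)]
    have h2 : Tendsto (fun n => n2 m (fun x => un n x - f x)) atTop (𝓝 0) := by
      refine squeeze_zero (fun n => n2_nonneg) (fun n => hc _ (hmem n)) ?_
      have := hlim.const_mul c
      rwa [mul_zero] at this
    have h3 : Tendsto (fun n => ENNReal.ofReal (n2 m (fun x => un n x - f x))) atTop (𝓝 0) := by
      have := ENNReal.tendsto_ofReal h2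
      rwa [ENNReal.ofReal_zero] at this
    have h4 : (fun n => eLpNorm (fun x => un n x - f x) 2 m) =
        fun n => ENNReal.ofReal (n2 m (fun x => un n x - f x)) := by
      funext n
      exact (ENNReal.ofReal_toReal (hmem n).2.ne).symm
    rw [← h4] at h3
    exact h3.comp (tendsto_add_atTop_nat n₀)
  obtain ⟨h1, h2⟩ := (calc_of_hyp H).closed (fun n => un (n + n₀)) f w A C
    (fun n => hun _) hf hlim' (fun n => hA _) hwm hw0 hwB
    (fun n => by rw [key]; exact hn₀ _ (Nat.le_add_left _ _))
  rw [key] at h2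
  exact ⟨h1, h2⟩

end Crest.Agent.R242
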