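import Crest.Agent.R242.DIterB

/-!
Row 242 (S0375), DIter, part C: gradient bounds for the iterated resolvent and for the semigroup.
-/

set_option autoImplicit false
set_option linter.unusedSectionVars false

open MeasureTheory Filter Set
open scoped ENNReal NNReal Topology
open Crest.GeometryTopology.SyntheticRicci

noncomputable section

namespace Crest.Agent.R242

variable {X : Type*} [MetricSpace X] [ProperSpace X] [MeasurableSpace X] [BorelSpace X]
  {m : Measure X} [IsLocallyFiniteMeasure m] [m.IsOpenPosMeasure] {k N : ℝ}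
  {V : X → ℝ} {h : ℝ} {f g u v : X → ℝ}

/-- the one step inequality for the resolvent of the drifted operator `ε Δ + ⟨F, ·⟩`,
`V = F / ε`. -/
def OneStep (m : Measure X) (V G : X → ℝ) (ε k h : ℝ) : Prop :=
  ∀ z φ : X → ℝ, IsSobolev m z → (∃ C : ℝ, ∀ᵐ x ∂m, |z x| ≤ C) → MemLp φ 2 m →
    (∃ C : ℝ, ∀ᵐ x ∂m, |φ x| ≤ C) → 0 ≤ᵐ[m] φ →
    ∫ x, minWeakGrad m (Jr m V (ε * h) z) x ^ 2 * φ x ∂(wm m V) ≤
      ∫ x, minWeakGrad m z x ^ 2 * Jr m V (ε * h) φ x ∂(wm m V) +
      2 * h * ∫ x, (ε * k + G x) * minWeakGrad m (Jr m V (ε * h) z) x ^ 2 *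
        Jr m V (ε * h) φ x ∂(wm m V)

theorem di_int_l1 (hV : BddLip V) {φ : X → ℝ} {n : ℕ} (H : Hyp m k N) (hh : 0 < h)
    (hφ : MemLp φ 2 m) (hφ1 : Integrable φ m) (hφ0 : 0 ≤ᵐ[m] φ) :
    ∫ x, itJ m V h n φ x ∂(wm m V) ≤ ∫ x, φ x ∂(wm m V) := by
  have h1 := (itJ_l1 H hV hh hφ hφ1 n).2
  have e1 : ∫ x, |itJ m V h n φ x| ∂(wm m V) = ∫ x, itJ m V h n φ x ∂(wm m V) := by
    refine integral_congr_ae ((di_ae hV).2 ?_)
    filter_upwards [itJ_nonneg H hV hh hφ hφ0 n] with x hx
    exact abs_of_nonneg hx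
  have e2 : ∫ x, |φ x| ∂(wm m V) = ∫ x, φ x ∂(wm m V) := by
    refine integral_congr_ae ((di_ae hV).2 ?_)
    filter_upwards [hφ0] with x hx
    exact abs_of_nonneg hx
  rwa [e1, e2] at h1

/-- [a], one step: `wg (J z)² ≤ L0² / (1 - 2 h (B + ε k))`. -/
theorem di_wgJ_sq_le (H : Hyp m k N) (hV : BddLip V) {ε B : ℝ} {G : X → ℝ} (hε : 0 < ε)
    (hh : 0 < h) (hOS : OneStep m V G ε k h) (hGm : Measurable G) (hGB : ∀ x, |G x| ≤ B)
    (hρ : 2 * h * (B + ε * k) < 1) {z : X → ℝ} (hz : IsSobolev m z)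
    (hzb : ∃ C : ℝ, ∀ᵐ x ∂m, |z x| ≤ C) {D : ℝ}
    (hzL : ∀ᵐ x ∂m, minWeakGrad m z x ^ 2 ≤ D) :
    ∀ᵐ x ∂m, minWeakGrad m (Jr m V (ε * h) z) x ^ 2 ≤ D / (1 - 2 * h * (B + ε * k)) := by
  have hεh : 0 < ε * h := mul_pos hε hh
  have hJz : IsSobolev m (Jr m V (ε * h) z) := Jr_sob H hV hεh hz.1
  have hqi := integrable_wg_sq H hJz
  have hzi := integrable_wg_sq H hz
  set q : X → ℝ := fun x => minWeakGrad m (Jr m V (ε * h) z) x ^ 2 with hq
  set ρ := 2 * h * (B + ε * k) with hρd
  by_cases hX : Nonempty X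
  swap
  · exact Eventually.of_forall fun x => (hX ⟨x⟩).elim
  obtain ⟨x0⟩ := hX
  have hB0 : 0 ≤ B := (abs_nonneg _).trans (hGB x0)
  have hk0 : 0 < k := H.kpos
  have hρ0 : 0 ≤ ρ := by positivity
  have key := di_ae_le_of_test (m := m) hV (F₁ := q) (F₂ := fun _ => 0)
    (C := D / (1 - ρ)) hqi (integrable_zero _ _ _) (fun φ hφ2 hφ1 hφb hφ0 => by
      have hb := fun n => itJ_memLp H hV hεh hφ2 n
      have hbb : ∀ n, ∃ C : ℝ, ∀ᵐ x ∂m, |itJ m V (ε * h) n φ x| ≤ C := fun n => by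
        obtain ⟨C, hC⟩ := hφb
        exact ⟨C, itJ_abs_le H hV hεh hφ2 hC n⟩
      have hb0 := fun n => itJ_nonneg H hV hεh hφ2 hφ0 n
      have hqint : ∀ n, Integrable (fun x => q x * itJ m V (ε * h) n φ x) (wm m V) := fun n =>
        di_int hV hqi (hb n).aestronglyMeasurable (hbb n)
      -- the step
      have hstep : ∀ n, ∫ x, q x * itJ m V (ε * h) n φ x ∂(wm m V) ≤
          D * (∫ x, φ x ∂(wm m V)) +
            ρ * ∫ x, q x * itJ m V (ε * h) (n + 1) φ x ∂(wm m V) := by
        intro n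
        have h1 := hOS z (itJ m V (ε * h) n φ) hz hzb (hb n) (hbb n) (hb0 n)
        rw [← itJ_succ] at h1
        have h2 : ∫ x, minWeakGrad m z x ^ 2 * itJ m V (ε * h) (n + 1) φ x ∂(wm m V) ≤
            D * ∫ x, φ x ∂(wm m V) := by
          have i1 : Integrable (itJ m V (ε * h) (n + 1) φ) (wm m V) :=
            di_int_wm hV (itJ_l1 H hV hεh hφ2 hφ1 (n + 1)).1
          have h3 : ∫ x, minWeakGrad m z x ^ 2 * itJ m V (ε * h) (n + 1) φ x ∂(wm m V) ≤
              ∫ x, D * itJ m V (ε * h) (n + 1) φ x ∂(wm m V) := by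
            refine integral_mono_ae (di_int hV hzi (hb _).aestronglyMeasurable (hbb _))
              (i1.const_mul D) ((di_ae hV).2 ?_)
            filter_upwards [hzL, hb0 (n + 1)] with x h4 h5
            exact mul_le_mul_of_nonneg_right h4 h5
          rw [integral_const_mul] at h3
          refine h3.trans ?_
          have hD0 : 0 ≤ D ∨ ∀ᵐ x ∂m, False := by
            by_cases hD : 0 ≤ D
            · exact Or.inl hD
            · right
              filter_upwards [hzL] with x hx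
              exact hD ((sq_nonneg _).trans hx)
          rcases hD0 with hD0 | hF
          · exact mul_le_mul_of_nonneg_left (di_int_l1 hV H hεh hφ2 hφ1 hφ0) hD0
          · have e0 : ∀ F : X → ℝ, ∫ x, F x ∂(wm m V) = 0 := fun F => by
              have : F =ᵐ[wm m V] fun _ => 0 := (di_ae hV).2 (hF.mono fun x hx => hx.elim)
              rw [integral_congr_ae this]; simp
            rw [e0, e0]
        have h4 : ∫ x, (ε * k + G x) * q x * itJ m V (ε * h) (n + 1) φ x ∂(wm m V) ≤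
            (B + ε * k) * ∫ x, q x * itJ m V (ε * h) (n + 1) φ x ∂(wm m V) := by
          rw [← integral_const_mul]
          have i2 : Integrable (fun x => (ε * k + G x) * q x) m := by
            refine (hqi.norm.const_mul (B + ε * k)).mono'
              ((aestronglyMeasurable_const.add hGm.aestronglyMeasurable).mul
                hqi.aestronglyMeasurable) ?_
            refine Eventually.of_forall fun x => ?_
            rw [norm_mul]
            refine mul_le_mul_of_nonneg_right ?_ (norm_nonneg _)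
            rw [Real.norm_eq_abs]
            refine (abs_add_le _ _).trans ?_
            rw [abs_of_pos (mul_pos hε hk0)]
            linarith [hGB x]
          refine integral_mono_ae (di_int hV i2 (hb _).aestronglyMeasurable (hbb _))
            ((hqint (n + 1)).const_mul _) ((di_ae hV).2 ?_)
          filter_upwards [hb0 (n + 1)] with x h5
          have h5' : 0 ≤ itJ m V (ε * h) (n + 1) φ x := h5
          have h6 : ε * k + G x ≤ B + ε * k := by linarith [le_abs_self (G x), hGB x]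
          have h7 : 0 ≤ q x := sq_nonneg _
          have h8 : 0 ≤ q x * itJ m V (ε * h) (n + 1) φ x := mul_nonneg h7 h5'
          calc (ε * k + G x) * q x * itJ m V (ε * h) (n + 1) φ x
              = (ε * k + G x) * (q x * itJ m V (ε * h) (n + 1) φ x) := by ring
            _ ≤ (B + ε * k) * (q x * itJ m V (ε * h) (n + 1) φ x) :=
                mul_le_mul_of_nonneg_right h6 h8
        have h5 : 2 * h * ∫ x, (ε * k + G x) * q x * itJ m V (ε * h) (n + 1) φ x ∂(wm m V) ≤
            ρ * ∫ x, q x * itJ m V (ε * h) (n + 1) φ x ∂(wm m V) := by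
          have := mul_le_mul_of_nonneg_left h4 (by positivity : (0 : ℝ) ≤ 2 * h)
          calc _ ≤ _ := this
            _ = _ := by rw [hρd]; ring
        linarith
      -- iterate
      set S := D * ∫ x, φ x ∂(wm m V) with hS
      have hiter : ∀ n, (∫ x, q x * itJ m V (ε * h) 0 φ x ∂(wm m V)) - S / (1 - ρ) ≤
          ρ ^ n * ((∫ x, q x * itJ m V (ε * h) n φ x ∂(wm m V)) - S / (1 - ρ)) := by
        intro n
        induction n with
        | zero => simp
        | succ n ih =>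
          refine ih.trans ?_
          rw [pow_succ, mul_assoc]
          refine mul_le_mul_of_nonneg_left ?_ (pow_nonneg hρ0 n)
          have h1 := hstep n
          have h2 : S / (1 - ρ) = S + ρ * (S / (1 - ρ)) := by
            have : (1 - ρ) ≠ 0 := by linarith
            field_simp
            ring
          linarith
      obtain ⟨Cφ, hCφ⟩ := hφb
      have hbd : ∀ n, (∫ x, q x * itJ m V (ε * h) n φ x ∂(wm m V)) ≤
          |Cφ| * ∫ x, q x ∂(wm m V) := by
        intro n
        rw [← integral_const_mul]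
        refine integral_mono_ae (hqint n) ((di_int_wm hV hqi).const_mul _) ((di_ae hV).2 ?_)
        filter_upwards [itJ_abs_le H hV hεh hφ2 hCφ n] with x hx
        have h7 : 0 ≤ q x := sq_nonneg _
        have h8 : itJ m V (ε * h) n φ x ≤ |Cφ| :=
          (le_abs_self _).trans (hx.trans (le_abs_self _))
        calc q x * itJ m V (ε * h) n φ x ≤ q x * |Cφ| := mul_le_mul_of_nonneg_left h8 h7
          _ = |Cφ| * q x := mul_comm _ _
      have hlim : Tendsto (fun n : ℕ => ρ ^ n * (|Cφ| * (∫ x, q x ∂(wm m V)) - S / (1 - ρ)))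
          atTop (𝓝 (0 * (|Cφ| * (∫ x, q x ∂(wm m V)) - S / (1 - ρ)))) :=
        (tendsto_pow_atTop_nhds_zero_of_lt_one hρ0 hρ).mul_const _
      have h9 : (∫ x, q x * itJ m V (ε * h) 0 φ x ∂(wm m V)) - S / (1 - ρ) ≤ 0 := by
        rw [zero_mul] at hlim
        refine ge_of_tendsto' hlim fun n => (hiter n).trans ?_
        refine mul_le_mul_of_nonneg_left ?_ (pow_nonneg hρ0 n)
        linarith [hbd n]
      have e0 : ∫ x, (fun _ : X => (0 : ℝ)) x * φ x ∂(wm m V) = 0 := by simp
      rw [e0, zero_add]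
      have e1 : D / (1 - ρ) * ∫ x, φ x ∂(wm m V) = S / (1 - ρ) := by rw [hS]; ring
      rw [e1]
      simpa using h9)
  filter_upwards [key] with x hx
  simpa using hx

/-- [a], iterated. -/
theorem di_wg_itJ_sq_le (H : Hyp m k N) (hV : BddLip V) {ε B : ℝ} {G : X → ℝ} (hε : 0 < ε)
    (hh : 0 < h) (hOS : OneStep m V G ε k h) (hGm : Measurable G) (hGB : ∀ x, |G x| ≤ B)
    (hρ : 2 * h * (B + ε * k) < 1) {z : X → ℝ} (hz : IsSobolev m z)
    (hzb : ∃ C : ℝ, ∀ᵐ x ∂m, |z x| ≤ C) {D : ℝ}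
    (hzL : ∀ᵐ x ∂m, minWeakGrad m z x ^ 2 ≤ D) (n : ℕ) :
    ∀ᵐ x ∂m, minWeakGrad m (itJ m V (ε * h) n z) x ^ 2 ≤
      D * ((1 - 2 * h * (B + ε * k)) ^ n)⁻¹ := by
  have hεh : 0 < ε * h := mul_pos hε hh
  induction n with
  | zero => simpa using hzL
  | succ n ih =>
    obtain ⟨C, hC⟩ := hzb
    have h1 := di_wgJ_sq_le H hV hε hh hOS hGm hGB hρ (itJ_sob H hV hεh hz n)
      ⟨C, itJ_abs_le H hV hεh hz.1 hC n⟩ ih
    rw [itJ_succ]
    filter_upwards [h1] with x hx
    refine hx.trans (le_of_eq ?_)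
    rw [pow_succ, mul_inv, ← mul_assoc]
    rfl

/-- the energy with respect to the unweighted measure is bounded along the iterates. -/
theorem di_energy_bdd (H : Hyp m k N) (hV : BddLip V) {z : X → ℝ} (hz : IsSobolev m z) :
    ∃ A : ℝ, ∀ h : ℝ, 0 < h → ∀ n : ℕ, ∫ x, minWeakGrad m (itJ m V h n z) x ^ 2 ∂m ≤ A := by
  obtain ⟨BV, hBV⟩ := hV.1
  have hVm : Measurable V := hV.bddM.1
  refine ⟨Real.exp BV * En m V z z, fun h hh n => ?_⟩
  have hs := itJ_sob H hV hh hz n
  have h1 := itJ_energy_le H hV hh hz n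
  rw [En_self H hV hs, integral_wm hV.bddM] at h1
  have hi := integrable_wg_sq H hs
  have hi2 : Integrable (fun x => Real.exp (V x) * minWeakGrad m (itJ m V h n z) x ^ 2) m := by
    refine (hi.const_mul (Real.exp BV)).mono'
      ((Real.measurable_exp.comp hVm).aestronglyMeasurable.mul hi.aestronglyMeasurable) ?_
    refine Eventually.of_forall fun x => ?_
    rw [norm_mul, Real.norm_of_nonneg (Real.exp_pos _).le, Real.norm_of_nonneg (sq_nonneg _)]
    exact mul_le_mul_of_nonneg_right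
      (Real.exp_le_exp.2 ((le_abs_self _).trans (hBV x))) (sq_nonneg _)
  have h2 : ∫ x, minWeakGrad m (itJ m V h n z) x ^ 2 ∂m ≤
      Real.exp BV * ∫ x, Real.exp (V x) * minWeakGrad m (itJ m V h n z) x ^ 2 ∂m := by
    rw [← integral_const_mul]
    refine integral_mono hi (hi2.const_mul _) fun x => ?_
    have h3 : 1 ≤ Real.exp BV * Real.exp (V x) := by
      rw [← Real.exp_add]
      apply Real.one_le_exp
      linarith [neg_abs_le (V x), hBV x]
    have h4 := sq_nonneg (minWeakGrad m (itJ m V h n z) x)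
    simp only
    nlinarith
  exact h2.trans (mul_le_mul_of_nonneg_left h1 (Real.exp_pos _).le)

/-- `(1 - 2 (θ/(n+1)) a)^(n+1) → e^{-2 a θ}`. -/
theorem di_tendsto_pow (a θ : ℝ) :
    Tendsto (fun n : ℕ => (1 - 2 * (θ / ((n : ℝ) + 1)) * a) ^ (n + 1)) atTop
      (𝓝 (Real.exp (-(2 * a * θ)))) := by
  have h1 := Real.tendsto_one_add_div_pow_exp (-(2 * a * θ))
  have h2 := h1.comp (tendsto_add_atTop_nat 1)
  refine h2.congr fun n => ?_
  simp only [Function.comp]
  congr 1
  push_cast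
  ring

theorem di_tendsto_pow_inv (a θ : ℝ) :
    Tendsto (fun n : ℕ => ((1 - 2 * (θ / ((n : ℝ) + 1)) * a) ^ (n + 1))⁻¹) atTop
      (𝓝 (Real.exp (2 * a * θ))) := by
  have h1 := (di_tendsto_pow a θ).inv₀ (Real.exp_pos _).ne'
  rwa [Real.exp_neg, inv_inv] at h1

theorem di_small_step (a θ : ℝ) :
    ∀ᶠ n : ℕ in atTop, 2 * (θ / ((n : ℝ) + 1)) * a < 1 := by
  have h1 : Tendsto (fun n : ℕ => 2 * (θ / ((n : ℝ) + 1)) * a) atTop (𝓝 (2 * 0 * a)) := by
    have h2 : Tendsto (fun n : ℕ => θ / ((n : ℝ) + 1)) atTop (𝓝 0) :=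
      (tendsto_const_div_atTop_nhds_zero_nat θ).comp (tendsto_add_atTop_nat 1) |>.congr
        fun n => by simp [Function.comp]
    exact (h2.const_mul 2).mul_const a
  rw [mul_zero, zero_mul] at h1
  exact (tendsto_order.1 h1).2 1 one_pos

/-- [D4a] gradient bound for the semigroup. -/
theorem di_wg_P_sq_le (H : Hyp m k N) (hV : BddLip V) {ε B : ℝ} {G : X → ℝ} (hε : 0 < ε)
    {P : ℝ → (X → ℝ) → (X → ℝ)} (S : SemigroupSpec m V P)
    (hOS : ∀ h : ℝ, 0 < h → OneStep m V G ε k h) (hGm : Measurable G) (hGB : ∀ x, |G x| ≤ B)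
    {z : X → ℝ} (hz : IsSobolev m z)
    (hzb : ∃ C : ℝ, ∀ᵐ x ∂m, |z x| ≤ C) {D : ℝ}
    (hzL : ∀ᵐ x ∂m, minWeakGrad m z x ^ 2 ≤ D) {θ : ℝ} (hθ : 0 ≤ θ) :
    ∀ᵐ x ∂m, minWeakGrad m (P (ε * θ) z) x ^ 2 ≤ D * Real.exp (2 * (B + ε * k) * θ) := by
  rcases hθ.eq_or_lt with h0 | hθ0
  · subst h0
    have h1 := S.zero z hz.1
    have h2 : minWeakGrad m (P (ε * 0) z) =ᵐ[m] minWeakGrad m z := by
      have hz0 : IsSobolev m (P (ε * 0) z) := (S.sob (ε * 0) (by simp) z hz).1
      have h3 := gp_self H hz0.2.1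
      have h4 := gp_self H hz.2.1
      have h5 : gradPairing m (P (ε * 0) z) (P (ε * 0) z) =ᵐ[m] gradPairing m z z := by
        have h6 : P (ε * 0) z =ᵐ[m] z := by rw [mul_zero]; exact h1
        exact gp_congr H hz0.2.1 hz0.2.1 h6 h6
      filter_upwards [h3, h4, h5, wg_nonneg H hz0.2.1, wg_nonneg H hz.2.1] with x a1 a2 a3 a4 a5
      have : minWeakGrad m (P (ε * 0) z) x ^ 2 = minWeakGrad m z x ^ 2 := by
        rw [← a1, a3, a2]
      exact (pow_left_inj₀ a4 a5 two_ne_zero).1 this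
    filter_upwards [h2, hzL] with x h2 h3
    rw [h2]; simpa using h3
  set t := ε * θ with ht
  have ht0 : 0 < t := mul_pos hε hθ0
  set a := B + ε * k with ha
  have hstep : ∀ n : ℕ, t / ((n : ℝ) + 1) = ε * (θ / ((n : ℝ) + 1)) := fun n => by
    rw [ht]; ring
  have hexpo := di_expo H hV S hz.1 ht0
  have hPz : IsSobolev m (P t z) := (S.sob t ht0.le z hz).1
  obtain ⟨A, hA⟩ := di_energy_bdd H hV hz
  have hPi := integrable_wg_sq H hPz
  have hlimD : Tendsto (fun n : ℕ => D * ((1 - 2 * (θ / ((n : ℝ) + 1)) * a) ^ (n + 1))⁻¹) atTop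
      (𝓝 (D * Real.exp (2 * a * θ))) := (di_tendsto_pow_inv a θ).const_mul D
  have hmain : ∀ η : ℝ, 0 < η → ∀ᵐ x ∂m, minWeakGrad m (P t z) x ^ 2 ≤
      D * Real.exp (2 * a * θ) + η := by
    intro η hη
    have key := di_ae_le_of_test (m := m) hV (F₁ := fun x => minWeakGrad m (P t z) x ^ 2)
      (F₂ := fun _ => 0) (C := D * Real.exp (2 * a * θ) + η) hPi (integrable_zero _ _ _)
      (fun φ hφ2 hφ1 hφb hφ0 => by
        have hcl := di_closed H hV (un := fun n : ℕ => itJ m V (t / ((n : ℝ) + 1)) (n + 1) z)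
          (f := P t z) (φ := φ) (A := A)
          (C := (D * Real.exp (2 * a * θ) + η) * ∫ x, φ x ∂(wm m V))
          (fun n => itJ_sob H hV (by positivity) hz (n + 1)) hPz.1 hexpo
          (fun n => hA _ (by positivity) (n + 1)) hφ2.aestronglyMeasurable hφ0 hφb (by
            have h1 := (tendsto_order.1 hlimD).2 (D * Real.exp (2 * a * θ) + η) (by linarith)
            filter_upwards [h1, di_small_step a θ] with n h1 h2
            have hhn : 0 < θ / ((n : ℝ) + 1) := by positivity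
            have h3 := di_wg_itJ_sq_le H hV hε hhn (hOS _ hhn) hGm hGB h2 hz hzb hzL (n + 1)
            rw [← hstep n] at h3
            have hs := itJ_sob H hV (by positivity : 0 < t / ((n : ℝ) + 1)) hz (n + 1)
            rw [← integral_const_mul]
            refine integral_mono_ae (di_int hV (integrable_wg_sq H hs)
              hφ2.aestronglyMeasurable hφb) ((di_int_wm hV hφ1).const_mul _) ((di_ae hV).2 ?_)
            filter_upwards [h3, hφ0] with x h4 h5
            exact mul_le_mul_of_nonneg_right (h4.trans h1.le) h5)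
        have h6 := hcl.2
        have e0 : ∫ x, (fun _ : X => (0 : ℝ)) x * φ x ∂(wm m V) = 0 := by simp
        rw [e0, zero_add]
        exact h6)
    filter_upwards [key] with x hx
    simpa using hx
  have hall : ∀ᵐ x ∂m, ∀ n : ℕ, minWeakGrad m (P t z) x ^ 2 ≤
      D * Real.exp (2 * a * θ) + 1 / ((n : ℝ) + 1) :=
    ae_all_iff.2 fun n => hmain _ (by positivity)
  filter_upwards [hall] with x hx
  refine le_of_forall_pos_le_add fun η hη => ?_
  obtain ⟨n, hn⟩ := exists_nat_one_div_lt hη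
  exact (hx n).trans (by linarith)

end Crest.Agent.R242
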