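import Mathlib
import Crest.Agent.R242.DaviesFin

/-!
# Row 242: change of weight for the Laplacian, `L^V = Δ + ⟨∇V, ∇·⟩`
-/

set_option autoImplicit false
set_option linter.unusedSectionVars false

open MeasureTheory Filter Set
open scoped ENNReal NNReal Topology
open Crest.GeometryTopology.SyntheticRicci

noncomputable section

namespace Crest.Agent.R242

variable {X : Type*} [MetricSpace X] [ProperSpace X] [MeasurableSpace X] [BorelSpace X]
  {m : Measure X} [IsLocallyFiniteMeasure m] [m.IsOpenPosMeasure] {k N : ℝ}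

theorem resW_exp {V : X → ℝ} (hV : BddLip V) : BddLip (fun x => Real.exp (V x)) := by
  obtain ⟨⟨B, hB⟩, L, hL⟩ := hV
  have hle : ∀ x, V x ≤ B := fun x => (le_abs_self _).trans (hB x)
  refine ⟨⟨Real.exp B, fun x => ?_⟩, Real.toNNReal (Real.exp B) * L, ?_⟩
  · rw [abs_of_pos (Real.exp_pos _)]
    exact Real.exp_le_exp.mpr (hle x)
  · have key : ∀ x y, V y ≤ V x → Real.exp (V x) - Real.exp (V y) ≤ Real.exp B * (L * dist x y) := by
      intro x y hxy
      have h1 : Real.exp (V x) - Real.exp (V y) ≤ Real.exp (V x) * (V x - V y) := by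
        have := Real.add_one_le_exp (V y - V x)
        have h2 : Real.exp (V y) = Real.exp (V x) * Real.exp (V y - V x) := by
          rw [← Real.exp_add]; congr 1; ring
        rw [h2]
        nlinarith [Real.exp_pos (V x)]
      have h3 := hL.dist_le_mul x y
      rw [Real.dist_eq] at h3
      have h4 : V x - V y ≤ L * dist x y := (le_abs_self _).trans h3
      calc Real.exp (V x) - Real.exp (V y) ≤ Real.exp (V x) * (V x - V y) := h1
        _ ≤ Real.exp B * (V x - V y) :=
          mul_le_mul_of_nonneg_right (Real.exp_le_exp.mpr (hle x)) (sub_nonneg.mpr hxy)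
        _ ≤ Real.exp B * (L * dist x y) :=
          mul_le_mul_of_nonneg_left h4 (Real.exp_pos _).le
    refine LipschitzWith.of_dist_le_mul fun x y => ?_
    rw [Real.dist_eq]
    push_cast
    rw [Real.coe_toNNReal _ (Real.exp_pos _).le, mul_assoc]
    rcases le_total (V y) (V x) with h | h
    · rw [abs_of_nonneg (sub_nonneg.mpr (Real.exp_le_exp.mpr h))]
      exact key x y h
    · rw [abs_sub_comm, abs_of_nonneg (sub_nonneg.mpr (Real.exp_le_exp.mpr h)), dist_comm x y]
      exact key y x h

theorem resW_neg {V : X → ℝ} (hV : BddLip V) : BddLip (fun x => - V x) := by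
  obtain ⟨⟨B, hB⟩, L, hL⟩ := hV
  exact ⟨⟨B, fun x => by rw [abs_neg]; exact hB x⟩, L, hL.neg⟩

theorem resW_sobLoc (H : Hyp m k N) {V : X → ℝ} (hV : BddLip V) : IsSobolevLoc m V := by
  obtain ⟨-, L, hL⟩ := hV
  exact sobLoc_of_lipschitz H hL

theorem resW_locBdd {V : X → ℝ} (hV : BddLip V) : LocBdd m V := by
  obtain ⟨⟨B, hB⟩, -⟩ := hV
  exact fun _ _ => ⟨B, ae_of_all _ hB⟩

/-- `⟨V, u⟩ ∈ L²` for `V` Lipschitz, `u ∈ W^{1,2}`. -/
theorem resW_gp_memLp (H : Hyp m k N) {V : X → ℝ} (hV : BddLip V) {u : X → ℝ}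
    (hu : IsSobolev m u) : MemLp (gradPairing m V u) 2 m := by
  have hVs := resW_sobLoc H hV
  obtain ⟨-, L, hL⟩ := hV
  have hLB : LipOnBalls V := fun _ _ => ⟨L, hL.lipschitzOnWith⟩
  have h1 := minWeakGrad_le_of_lipschitzOnWith H.fin hLB isOpen_univ
    (L := L) (hL.lipschitzOnWith (s := univ))
  refine MemLp.of_le_mul (c := L) hu.2.2 (aesm_gp H hVs hu.2.1) ?_
  filter_upwards [h1, gp_abs_le H hVs hu.2.1, wg_nonneg H hu.2.1] with x e1 e2 e3
  rw [Real.norm_eq_abs, Real.norm_eq_abs, abs_of_nonneg e3]
  exact e2.trans (mul_le_mul_of_nonneg_right (e1 (mem_univ _)) e3)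

/-- `⟨u, ψ v⟩ = ψ ⟨u,v⟩ + v ψ ⟨V,u⟩` for `ψ = e^V`. -/
theorem resW_gp_exp (H : Hyp m k N) {V : X → ℝ} (hV : BddLip V) {u v : X → ℝ}
    (hu : IsSobolev m u) (hv : IsSobolev m v) :
    ∀ᵐ x ∂m, gradPairing m u (fun y => Real.exp (V y) * v y) x =
      Real.exp (V x) * gradPairing m u v x + v x * (Real.exp (V x) * gradPairing m V u x) := by
  have hE := resW_exp hV
  have hVs := resW_sobLoc H hV
  have hEs := resW_sobLoc H hE
  have hprod := sob_bddLip_mul H hv hE
  have h1 := gp_mul_right_gen H hu.2.1 hEs hv.2.1 hprod.2.1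
  have h2 := gp_comp_right H (φ := Real.exp) Real.contDiff_exp hu.2.1 hVs (resW_locBdd hV)
  have h3 := gp_comm H hu.2.1 hVs
  filter_upwards [h1, h2, h3] with x e1 e2 e3
  rw [e1, e2, e3, Real.deriv_exp]

/-- change of weight for the Laplacian. -/
theorem isWLap_iff (H : Hyp m k N) {V : X → ℝ} (hV : BddLip V) {u g : X → ℝ} :
    IsWLap m V u g ↔ IsWeakLaplacian m u (fun x => g x - gradPairing m V u x) := by
  have hM : BddM V := hV.bddM
  have hM' : BddM (fun x => - V x) := (resW_neg hV).bddM
  constructor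
  · intro h1
    have hg := h1.2.1
    have hgp := resW_gp_memLp H hV h1.1
    refine ⟨h1.1, hg.sub hgp, fun v hv => ?_⟩
    have hv' := sob_bddLip_mul H hv (resW_exp (resW_neg hV))
    have h2 := h1.2.2 _ hv'
    have h3 := resW_gp_exp H (resW_neg hV) h1.1 hv
    have h4 := gp_neg_left H (resW_sobLoc H hV) h1.1.2.1
    rw [integral_wm hM, integral_wm hM] at h2
    have e1 : ∫ x, Real.exp (V x) * gradPairing m u (fun y => Real.exp (- V y) * v y) x ∂m =
        ∫ x, (gradPairing m u v x - gradPairing m V u x * v x) ∂m := by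
      refine integral_congr_ae ?_
      filter_upwards [h3, h4] with x a1 a2
      rw [a1, a2]
      have : Real.exp (V x) * Real.exp (- V x) = 1 := by rw [← Real.exp_add]; simp
      calc _ = (Real.exp (V x) * Real.exp (- V x)) *
            (gradPairing m u v x - gradPairing m V u x * v x) := by ring
        _ = _ := by rw [this, one_mul]
    have e2 : ∫ x, Real.exp (V x) * (g x * (Real.exp (- V x) * v x)) ∂m = ∫ x, g x * v x ∂m := by
      refine integral_congr_ae (ae_of_all _ fun x => ?_)
      have : Real.exp (V x) * Real.exp (- V x) = 1 := by rw [← Real.exp_add]; simp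
      calc _ = (Real.exp (V x) * Real.exp (- V x)) * (g x * v x) := by ring
        _ = _ := by rw [this, one_mul]
    rw [e1, e2] at h2
    have hi1 : Integrable (gradPairing m u v) m := integrable_gp H h1.1 hv
    have hi2 : Integrable (fun x => gradPairing m V u x * v x) m := MemLp.integrable_mul hgp hv.1
    have hi3 : Integrable (fun x => g x * v x) m := MemLp.integrable_mul hg hv.1
    rw [integral_sub hi1 hi2] at h2
    have e3 : ∫ x, (g x - gradPairing m V u x) * v x ∂m =
        ∫ x, g x * v x ∂m - ∫ x, gradPairing m V u x * v x ∂m := by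
      rw [← integral_sub hi3 hi2]
      refine integral_congr_ae (ae_of_all _ fun x => ?_)
      simp only; ring
    rw [e3]
    linarith
  · intro h1
    have hgp := resW_gp_memLp H hV h1.1
    have hg : MemLp g 2 m := by
      have := h1.2.1.add hgp
      refine (memLp_congr_ae (ae_of_all _ fun x => ?_)).1 this
      simp
    refine ⟨h1.1, hg, fun v hv => ?_⟩
    have hv' := sob_bddLip_mul H hv (resW_exp hV)
    have h2 := h1.2.2 _ hv'
    have h3 := resW_gp_exp H hV h1.1 hv
    rw [integral_wm hM, integral_wm hM]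
    have hi1 : Integrable (fun x => Real.exp (V x) * gradPairing m u v x) m :=
      integrable_exp_mul hM (integrable_gp H h1.1 hv)
    have hi2 : Integrable (fun x => Real.exp (V x) * (gradPairing m V u x * v x)) m :=
      integrable_exp_mul hM (MemLp.integrable_mul hgp hv.1)
    have hi3 : Integrable (fun x => Real.exp (V x) * (g x * v x)) m :=
      integrable_exp_mul hM (MemLp.integrable_mul hg hv.1)
    have e1 : ∫ x, gradPairing m u (fun y => Real.exp (V y) * v y) x ∂m =
        ∫ x, Real.exp (V x) * gradPairing m u v x ∂m +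
          ∫ x, Real.exp (V x) * (gradPairing m V u x * v x) ∂m := by
      rw [← integral_add hi1 hi2]
      refine integral_congr_ae ?_
      filter_upwards [h3] with x a1
      rw [a1]; ring
    have e2 : ∫ x, (g x - gradPairing m V u x) * (Real.exp (V x) * v x) ∂m =
        ∫ x, Real.exp (V x) * (g x * v x) ∂m -
          ∫ x, Real.exp (V x) * (gradPairing m V u x * v x) ∂m := by
      rw [← integral_sub hi3 hi2]
      refine integral_congr_ae (ae_of_all _ fun x => ?_)
      simp only; ring
    rw [e1, e2] at h2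
    linarith

end Crest.Agent.R242
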