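import Crest.Agent.R242.DIterC
import Crest.Agent.R242.ResW

/-!
Row 242 (S0375), DIter, part D: time regularity at resolvent level, and the localised gradient
estimate after finitely many steps.
-/

set_option autoImplicit false
set_option linter.unusedSectionVars false

open MeasureTheory Filter Set
open scoped ENNReal NNReal Topology
open Crest.GeometryTopology.SyntheticRicci

noncomputable section

namespace Crest.Agent.R242

variable {X : Type*} [MetricSpace X] [ProperSpace X] [MeasurableSpace X] [BorelSpace X]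
  {m : Measure X} [IsLocallyFiniteMeasure m] [m.IsOpenPosMeasure] {k N : ℝ}
  {V : X → ℝ} {h : ℝ} {f g u v : X → ℝ}

theorem di_wg_add_le (H : Hyp m k N) (hf : IsSobolevLoc m f) (hg : IsSobolevLoc m g) :
    ∀ᵐ x ∂m, minWeakGrad m (fun y => f y + g y) x ≤ minWeakGrad m f x + minWeakGrad m g x := by
  filter_upwards [wg_add_sq H hf hg, gp_abs_le H hf hg, wg_nonneg H hf, wg_nonneg H hg]
    with x h1 h2 h3 h4
  have h5 := (abs_le.1 h2).2
  refine (abs_le_of_sq_le_sq' ?_ (add_nonneg h3 h4)).2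
  rw [h1]; nlinarith

theorem di_wg_smul (H : Hyp m k N) (c : ℝ) (hf : IsSobolevLoc m f) :
    ∀ᵐ x ∂m, minWeakGrad m (fun y => c * f y) x = |c| * minWeakGrad m f x := by
  have hs := sobLoc_smul H c hf
  filter_upwards [gp_self H hs, gp_smul_left H c hf hs, gp_smul_right H c hf hf, gp_self H hf,
    wg_nonneg H hs, wg_nonneg H hf] with x h1 h2 h3 h4 h5 h6
  rw [h1] at h2
  rw [h3, h4] at h2
  have h7 : minWeakGrad m (fun y => c * f y) x ^ 2 = (|c| * minWeakGrad m f x) ^ 2 := by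
    rw [h2, mul_pow, sq_abs]; ring
  exact (pow_left_inj₀ h5 (by positivity) two_ne_zero).1 h7

/-- `h ∑_{j<n} J^{j+1} v`. -/
def sumJ (m : Measure X) (V : X → ℝ) (h : ℝ) (n : ℕ) (v : X → ℝ) : X → ℝ :=
  fun x => ∑ j ∈ Finset.range n, h * itJ m V h (j + 1) v x

theorem sumJ_succ (n : ℕ) : sumJ m V h (n + 1) v =
    fun x => sumJ m V h n v x + h * itJ m V h (n + 1) v x := by
  funext x; simp [sumJ, Finset.sum_range_succ]

theorem sumJ_isWLap (H : Hyp m k N) (hV : BddLip V) (hh : 0 < h) (hv : MemLp v 2 m) (n : ℕ) :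
    IsWLap m V (sumJ m V h n v) (fun x => itJ m V h n v x - v x) := by
  induction n with
  | zero =>
    have h1 := (Jr_isWLap H hV hh hv).smul H hV 0
    refine h1.congr H hV (Eventually.of_forall fun x => ?_) (Eventually.of_forall fun x => ?_)
    · simp [sumJ]
    · simp
  | succ n ih =>
    have h1 := (Jr_isWLap H hV hh (itJ_memLp H hV hh hv n)).smul H hV h
    have h2 := ih.add H hV h1
    rw [sumJ_succ]
    refine h2.congr H hV (Eventually.of_forall fun x => ?_) (Eventually.of_forall fun x => ?_)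
    · simp [itJ_succ]
    · simp only [itJ_succ]
      field_simp
      ring

theorem sumJ_abs_le (H : Hyp m k N) (hV : BddLip V) (hh : 0 < h) (hv : MemLp v 2 m) {c : ℝ}
    (hc : ∀ᵐ x ∂m, |v x| ≤ c) (n : ℕ) : ∀ᵐ x ∂m, |sumJ m V h n v x| ≤ n * (h * c) := by
  induction n with
  | zero => exact Eventually.of_forall fun x => by simp [sumJ]
  | succ n ih =>
    rw [sumJ_succ]
    filter_upwards [ih, itJ_abs_le H hV hh hv hc (n + 1)] with x h1 h2
    refine (abs_add_le _ _).trans ?_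
    rw [abs_mul, abs_of_pos hh]
    have := mul_le_mul_of_nonneg_left h2 hh.le
    push_cast
    linarith

theorem sumJ_wg_le (H : Hyp m k N) (hV : BddLip V) (hh : 0 < h) (hv : MemLp v 2 m) {M : ℝ}
    (n : ℕ) (hM : ∀ j ≤ n, ∀ᵐ x ∂m, minWeakGrad m (itJ m V h j v) x ≤ M) :
    ∀ᵐ x ∂m, minWeakGrad m (sumJ m V h n v) x ≤ n * (h * M) := by
  induction n with
  | zero =>
    have h1 := di_wg_smul H 0 (Jr_sob H hV hh hv).2.1
    have e : sumJ m V h 0 v = fun y => 0 * Jr m V h v y := by funext x; simp [sumJ]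
    rw [e]
    filter_upwards [h1] with x hx
    rw [hx]; simp
  | succ n ih =>
    rw [sumJ_succ]
    have hs1 : IsSobolevLoc m (sumJ m V h n v) := (sumJ_isWLap H hV hh hv n).1.2.1
    have hs2 : IsSobolevLoc m (itJ m V h (n + 1) v) := by
      rw [itJ_succ]; exact (Jr_sob H hV hh (itJ_memLp H hV hh hv n)).2.1
    have hs3 := sobLoc_smul H h hs2
    filter_upwards [di_wg_add_le H hs1 hs3, di_wg_smul H h hs2, hM (n + 1) le_rfl,
      ih (fun j hj => hM j (hj.trans (Nat.le_succ n)))] with x h1 h2 h3 h4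
    rw [h2, abs_of_pos hh] at h1
    have := mul_le_mul_of_nonneg_left h3 hh.le
    push_cast
    linarith

theorem di_bl0 : BddLip (fun _ : X => (0 : ℝ)) :=
  ⟨⟨0, fun x => by simp⟩, 0, LipschitzWith.const 0⟩

theorem di_J_memLp (H : Hyp m k N) {δ : ℝ} (hδ : 0 < δ) (hf : MemLp f 2 m) : MemLp (J m δ f) 2 m :=
  Jr_memLp H di_bl0 hδ hf

theorem di_J_symm (H : Hyp m k N) {δ : ℝ} (hδ : 0 < δ) (hf : MemLp f 2 m) (hg : MemLp g 2 m) :
    ∫ x, J m δ f x * g x ∂m = ∫ x, f x * J m δ g x ∂m := by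
  have h1 := Jr_symm H (di_bl0 (X := X)) hδ hf hg
  rwa [wm_zero] at h1

theorem di_JJ_symm (H : Hyp m k N) {δ : ℝ} (hδ : 0 < δ) (hf : MemLp f 2 m) (hg : MemLp g 2 m) :
    ∫ x, J m δ (J m δ f) x * g x ∂m = ∫ x, f x * J m δ (J m δ g) x ∂m := by
  rw [di_J_symm H hδ (di_J_memLp H hδ hf) hg, di_J_symm H hδ hf (di_J_memLp H hδ hg)]

/-- [e], at resolvent level. -/
theorem di_JJ_sub (H : Hyp m k N) (hV : BddLip V) {LV : ℝ} (hLV : 0 ≤ LV)
    (hVL : ∀ᵐ x ∂m, minWeakGrad m V x ≤ LV) (hh : 0 < h) {v : X → ℝ} (hv : MemLp v 2 m) {c M : ℝ}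
    (hc : ∀ᵐ x ∂m, |v x| ≤ c) (n : ℕ)
    (hM : ∀ j ≤ n, ∀ᵐ x ∂m, minWeakGrad m (itJ m V h j v) x ≤ M) {δ : ℝ} (hδ : 0 < δ) :
    ∀ᵐ x ∂m, |J m δ (J m δ (fun y => itJ m V h n v y - v y)) x| ≤
      n * (h * (LV * M + 2 * c / δ)) := by
  set u := sumJ m V h n v with hu
  set g : X → ℝ := fun x => itJ m V h n v x - v x with hg
  have hW : IsWLap m V u g := sumJ_isWLap H hV hh hv n
  have hL : IsWeakLaplacian m u (fun x => g x - gradPairing m V u x) := (isWLap_iff H hV).1 hW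
  set D : X → ℝ := fun x => g x - gradPairing m V u x with hD
  have hL0 : IsWLap m (fun _ => 0) u D := isWLap_zero_iff.2 hL
  have hDm : MemLp D 2 m := hL.2.1
  have hgm : MemLp g 2 m := hW.2.1
  have hum : MemLp u 2 m := hW.1.1
  have hGm : MemLp (gradPairing m V u) 2 m := by
    have : gradPairing m V u = fun x => g x - D x := by funext x; simp [hD]
    rw [this]; exact hgm.sub hDm
  have hVs : IsSobolevLoc m V := by
    obtain ⟨-, L, hL⟩ := hV
    exact sobLoc_of_lipschitz H hL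
  have hsplit : g = fun x => D x + gradPairing m V u x := by funext x; simp [hD]
  -- first part
  have h1 : ∀ᵐ x ∂m, |J m δ (J m δ D) x| ≤ n * (h * (2 * c / δ)) := by
    have h2 := hL0.Jr_sub H di_bl0 hδ
    have h3 : ∀ᵐ x ∂m, |J m δ D x| ≤ n * (h * (2 * c / δ)) := by
      have h4 := sumJ_abs_le H hV hh hv hc n
      have h5 := Jr_abs_le H (di_bl0 (X := X)) hδ hum h4
      filter_upwards [h2, h4, h5] with x a1 a2 a3
      have a4 : δ * J m δ D x = Jr m (fun _ => 0) δ u x - u x := a1.symm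
      have a5 : |δ * J m δ D x| ≤ n * (h * c) + n * (h * c) := by
        rw [a4]; exact (abs_sub _ _).trans (add_le_add a3 a2)
      rw [abs_mul, abs_of_pos hδ] at a5
      have a6 : |J m δ D x| ≤ (n * (h * c) + n * (h * c)) / δ := by
        rw [le_div_iff₀ hδ]; linarith
      refine a6.trans (le_of_eq ?_)
      field_simp
      ring
    exact Jr_abs_le H (di_bl0 (X := X)) hδ (di_J_memLp H hδ hDm) h3
  -- second part
  have h2 : ∀ᵐ x ∂m, |J m δ (J m δ (gradPairing m V u)) x| ≤ n * (h * (LV * M)) := by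
    have h3 : ∀ᵐ x ∂m, |gradPairing m V u x| ≤ n * (h * (LV * M)) := by
      filter_upwards [gp_abs_le H hVs hW.1.2.1, hVL, sumJ_wg_le H hV hh hv n hM,
        wg_nonneg H hVs, wg_nonneg H hW.1.2.1] with x a1 a2 a3 a4 a5
      refine a1.trans ?_
      calc minWeakGrad m V x * minWeakGrad m u x ≤ LV * (n * (h * M)) :=
            mul_le_mul a2 a3 a5 hLV
        _ = n * (h * (LV * M)) := by ring
    exact Jr_abs_le H (di_bl0 (X := X)) hδ (di_J_memLp H hδ hGm)
      (Jr_abs_le H (di_bl0 (X := X)) hδ hGm h3)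
  have h3 : J m δ (J m δ g) =ᵐ[m] fun x => J m δ (J m δ D) x + J m δ (J m δ (gradPairing m V u)) x := by
    have a1 : J m δ g =ᵐ[m] fun x => J m δ D x + J m δ (gradPairing m V u) x := by
      have := Jr_add H (di_bl0 (X := X)) hδ hDm hGm
      rw [← hsplit] at this
      exact this
    have a2 := Jr_congr H (di_bl0 (X := X)) hδ (di_J_memLp H hδ hgm) a1
    exact a2.trans (Jr_add H (di_bl0 (X := X)) hδ (di_J_memLp H hδ hDm)
      (di_J_memLp H hδ hGm))
  filter_upwards [h1, h2, h3] with x a1 a2 a3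
  rw [a3]
  refine (abs_add_le _ _).trans ((add_le_add a1 a2).trans (le_of_eq ?_))
  ring

theorem di_memLp_two_of_bdd {Q : X → ℝ} {D : ℝ} (hQ : Integrable Q m) (h0 : 0 ≤ᵐ[m] Q)
    (hD : ∀ᵐ x ∂m, Q x ≤ D) : MemLp Q 2 m := by
  rw [memLp_two_iff_integrable_sq hQ.aestronglyMeasurable]
  refine (hQ.const_mul D).mono' (hQ.aestronglyMeasurable.pow 2) ?_
  filter_upwards [h0, hD] with x h1 h2
  have h1' : 0 ≤ Q x := h1
  rw [Real.norm_of_nonneg (sq_nonneg _), sq]
  exact mul_le_mul_of_nonneg_right h2 h1'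

/-- [d] after `n` steps. -/
theorem di_D4_finite (H : Hyp m k N) (hV : BddLip V) {ε : ℝ} {G : X → ℝ} (hε : 0 < ε)
    (hh : 0 < h) (hOS : OneStep m V G ε k h) (hGm : Measurable G) {B : ℝ} (hGB : ∀ x, |G x| ≤ B)
    {z : X → ℝ} (hz : IsSobolev m z)
    (hzb : ∃ C : ℝ, ∀ᵐ x ∂m, |z x| ≤ C) {v : X → ℝ} {c lam : ℝ} (hv : MemLp v 2 m)
    (hvc : ∀ᵐ x ∂m, v x ≤ c) (hc : 0 ≤ c)
    (hGv : ∀ᵐ x ∂m, G x ≤ lam + c - v x) (n : ℕ) {C1 : ℝ} (hC1 : 0 ≤ C1)
    (hzC : ∀ j ≤ n, ∀ᵐ x ∂m, minWeakGrad m (itJ m V (ε * h) j z) x ^ 2 ≤ C1)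
    (ha1 : 2 * h * |lam + ε * k| < 1) {φ : X → ℝ} (hφ2 : MemLp φ 2 m) (hφ1 : Integrable φ m)
    (hφb : ∃ C : ℝ, ∀ᵐ x ∂m, |φ x| ≤ C) (hφ0 : 0 ≤ᵐ[m] φ) :
    ∫ x, minWeakGrad m (itJ m V (ε * h) n z) x ^ 2 * φ x ∂(wm m V) ≤
      ((1 - 2 * h * (lam + ε * k)) ^ n)⁻¹ *
          ∫ x, minWeakGrad m z x ^ 2 * itJ m V (ε * h) n φ x ∂(wm m V) +
        ((1 - 2 * h * |lam + ε * k|) ^ n)⁻¹ * ∑ i ∈ Finset.range n, 2 * h *
          (|lam + ε * k| * (Real.sqrt (C1 * En m V z z) *
              n2 (wm m V) (fun x => Jr m V (ε * h) φ x - φ x)) +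
            C1 * (c * ∫ x, φ x ∂(wm m V) -
              ∫ x, itJ m V (ε * h) (i + 1) v x * φ x ∂(wm m V))) := by
  have hεh : 0 < ε * h := mul_pos hε hh
  set a := lam + ε * k with ha
  set δ' := Real.sqrt (C1 * En m V z z) * n2 (wm m V) (fun x => Jr m V (ε * h) φ x - φ x) with hδ'
  have hδ0 : 0 ≤ δ' := mul_nonneg (Real.sqrt_nonneg _) n2_nonneg
  set E : ℕ → ℝ := fun i => C1 * (c * ∫ x, φ x ∂(wm m V) -
    ∫ x, itJ m V (ε * h) (i + 1) v x * φ x ∂(wm m V)) with hE
  have hφm := fun i => itJ_memLp H hV hεh hφ2 i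
  have hφbb : ∀ i, ∃ C : ℝ, ∀ᵐ x ∂m, |itJ m V (ε * h) i φ x| ≤ C := fun i => by
    obtain ⟨C, hC⟩ := hφb
    exact ⟨C, itJ_abs_le H hV hεh hφ2 hC i⟩
  have hφn := fun i => itJ_nonneg H hV hεh hφ2 hφ0 i
  have hφi := fun i => (itJ_l1 H hV hεh hφ2 hφ1 i).1
  have hE0 : ∀ i, 0 ≤ E i := by
    intro i
    refine mul_nonneg hC1 (sub_nonneg.2 ?_)
    rw [← integral_const_mul]
    have hvm := itJ_memLp H hV hεh hv (i + 1)
    refine integral_mono_ae (((di_mem hV).2 hvm).integrable_mul ((di_mem hV).2 hφ2))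
      ((di_int_wm hV hφ1).const_mul c) ((di_ae hV).2 ?_)
    filter_upwards [itJ_le_const H hV hεh hv hc hvc (i + 1), hφ0] with x h1 h2
    exact mul_le_mul_of_nonneg_right h1 h2
  -- the quantities `A i`
  set A : ℕ → ℝ := fun i => ∫ x, minWeakGrad m (itJ m V (ε * h) (n - i) z) x ^ 2 *
    itJ m V (ε * h) i φ x ∂(wm m V) with hA
  have hstep : ∀ i < n, A i * (1 - 2 * h * a) ≤ A (i + 1) + 2 * h * (|a| * δ' + E i) := by
    intro i hi
    obtain ⟨j, hj⟩ : ∃ j, n - i = j + 1 := ⟨n - i - 1, by omega⟩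
    have hj' : n - (i + 1) = j := by omega
    have hzj : IsSobolev m (itJ m V (ε * h) j z) := itJ_sob H hV hεh hz j
    have hzj1 : IsSobolev m (itJ m V (ε * h) (j + 1) z) := itJ_sob H hV hεh hz (j + 1)
    obtain ⟨Cz, hCz⟩ := hzb
    have h1 := hOS (itJ m V (ε * h) j z) (itJ m V (ε * h) i φ) hzj
      ⟨Cz, itJ_abs_le H hV hεh hz.1 hCz j⟩ (hφm i) (hφbb i) (hφn i)
    rw [← itJ_succ, ← itJ_succ] at h1
    set Q : X → ℝ := fun x => minWeakGrad m (itJ m V (ε * h) (j + 1) z) x ^ 2 with hQ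
    have hQi : Integrable Q m := integrable_wg_sq H hzj1
    have hQC : ∀ᵐ x ∂m, Q x ≤ C1 := hzC (j + 1) (by omega)
    have hQ0 : ∀ x, 0 ≤ Q x := fun x => sq_nonneg _
    have hQ2 : MemLp Q 2 m := di_memLp_two_of_bdd hQi (Eventually.of_forall hQ0) hQC
    have hAi : A i = ∫ x, Q x * itJ m V (ε * h) i φ x ∂(wm m V) := by
      simp only [hA, hj, hQ]
    have hAi1 : A (i + 1) = ∫ x, minWeakGrad m (itJ m V (ε * h) j z) x ^ 2 *
        itJ m V (ε * h) (i + 1) φ x ∂(wm m V) := by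
      simp only [hA, hj']
    rw [← hAi, ← hAi1] at h1
    -- integrability
    have iQ : ∀ l, Integrable (fun x => Q x * itJ m V (ε * h) l φ x) (wm m V) := fun l =>
      di_int hV hQi (hφm l).aestronglyMeasurable (hφbb l)
    have iv : Integrable (fun x => (c - v x) * itJ m V (ε * h) (i + 1) φ x) (wm m V) := by
      have e1 : (fun x => (c - v x) * itJ m V (ε * h) (i + 1) φ x) =
          fun x => c * itJ m V (ε * h) (i + 1) φ x - v x * itJ m V (ε * h) (i + 1) φ x := by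
        funext x; ring
      rw [e1]
      exact ((di_int_wm hV (hφi _)).const_mul c).sub
        (((di_mem hV).2 hv).integrable_mul ((di_mem hV).2 (hφm _)))
    have iGQ : Integrable (fun x => (ε * k + G x) * Q x * itJ m V (ε * h) (i + 1) φ x)
        (wm m V) := by
      have i2 : Integrable (fun x => (ε * k + G x) * Q x) m := by
        refine (hQi.norm.const_mul (|ε * k| + B)).mono'
          ((aestronglyMeasurable_const.add hGm.aestronglyMeasurable).mul
            hQi.aestronglyMeasurable) ?_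
        refine Eventually.of_forall fun x => ?_
        rw [norm_mul]
        refine mul_le_mul_of_nonneg_right ?_ (norm_nonneg _)
        rw [Real.norm_eq_abs]
        exact (abs_add_le _ _).trans (add_le_add le_rfl (hGB x))
      exact di_int hV i2 (hφm _).aestronglyMeasurable (hφbb _)
    -- the potential term
    have h2 : ∫ x, (ε * k + G x) * Q x * itJ m V (ε * h) (i + 1) φ x ∂(wm m V) ≤
        a * (∫ x, Q x * itJ m V (ε * h) (i + 1) φ x ∂(wm m V)) +
          C1 * ∫ x, (c - v x) * itJ m V (ε * h) (i + 1) φ x ∂(wm m V) := by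
      rw [← integral_const_mul, ← integral_const_mul, ← integral_add ((iQ _).const_mul a)
        (iv.const_mul C1)]
      refine integral_mono_ae iGQ (((iQ _).const_mul a).add (iv.const_mul C1)) ((di_ae hV).2 ?_)
      filter_upwards [hφn (i + 1), hGv, hvc, hQC] with x a1 a2 a3 a4
      have a1' : 0 ≤ itJ m V (ε * h) (i + 1) φ x := a1
      have a5 : ε * k + G x ≤ a + (c - v x) := by rw [ha]; linarith
      have a6 : 0 ≤ Q x * itJ m V (ε * h) (i + 1) φ x := mul_nonneg (hQ0 x) a1'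
      have a7 : (c - v x) * (Q x * itJ m V (ε * h) (i + 1) φ x) ≤
          (c - v x) * (C1 * itJ m V (ε * h) (i + 1) φ x) :=
        mul_le_mul_of_nonneg_left (mul_le_mul_of_nonneg_right a4 a1') (by linarith)
      have a8 := mul_le_mul_of_nonneg_right a5 a6
      have a9 : (ε * k + G x) * Q x * itJ m V (ε * h) (i + 1) φ x =
          (ε * k + G x) * (Q x * itJ m V (ε * h) (i + 1) φ x) := by ring
      have a10 : a * (Q x * itJ m V (ε * h) (i + 1) φ x) +
          C1 * ((c - v x) * itJ m V (ε * h) (i + 1) φ x) =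
          a * (Q x * itJ m V (ε * h) (i + 1) φ x) +
          (c - v x) * (C1 * itJ m V (ε * h) (i + 1) φ x) := by ring
      have a11 : (a + (c - v x)) * (Q x * itJ m V (ε * h) (i + 1) φ x) =
          a * (Q x * itJ m V (ε * h) (i + 1) φ x) +
          (c - v x) * (Q x * itJ m V (ε * h) (i + 1) φ x) := by ring
      linarith
    have h3 : ∫ x, (c - v x) * itJ m V (ε * h) (i + 1) φ x ∂(wm m V) ≤
        c * ∫ x, φ x ∂(wm m V) - ∫ x, itJ m V (ε * h) (i + 1) v x * φ x ∂(wm m V) := by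
      have ivf : Integrable (fun x => v x * itJ m V (ε * h) (i + 1) φ x) (wm m V) :=
        ((di_mem hV).2 hv).integrable_mul ((di_mem hV).2 (hφm _))
      have e1 : ∫ x, (c - v x) * itJ m V (ε * h) (i + 1) φ x ∂(wm m V) =
          c * ∫ x, itJ m V (ε * h) (i + 1) φ x ∂(wm m V) -
            ∫ x, v x * itJ m V (ε * h) (i + 1) φ x ∂(wm m V) := by
        rw [← integral_const_mul, ← integral_sub ((di_int_wm hV (hφi _)).const_mul c) ivf]
        exact integral_congr_ae (Eventually.of_forall fun x => by ring)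
      rw [e1, itJ_symm H hV hεh hv hφ2 (i + 1)]
      have := mul_le_mul_of_nonneg_left
        (di_int_l1 hV H hεh hφ2 hφ1 hφ0 (n := i + 1)) hc
      linarith
    have h4 : a * (∫ x, Q x * itJ m V (ε * h) (i + 1) φ x ∂(wm m V)) ≤ a * A i + |a| * δ' := by
      have e1 : ∫ x, Q x * itJ m V (ε * h) (i + 1) φ x ∂(wm m V) = A i +
          ∫ x, Q x * (itJ m V (ε * h) (i + 1) φ x - itJ m V (ε * h) i φ x) ∂(wm m V) := by
        rw [hAi, ← integral_add (iQ _)]
        · exact integral_congr_ae (Eventually.of_forall fun x => by simp; ring)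
        · have e2 : (fun x => Q x * (itJ m V (ε * h) (i + 1) φ x - itJ m V (ε * h) i φ x)) =
              fun x => Q x * itJ m V (ε * h) (i + 1) φ x - Q x * itJ m V (ε * h) i φ x := by
            funext x; ring
          rw [e2]; exact (iQ _).sub (iQ _)
      have h5 : |∫ x, Q x * (itJ m V (ε * h) (i + 1) φ x - itJ m V (ε * h) i φ x) ∂(wm m V)| ≤
          δ' := by
        have h6 := n2_cs ((di_mem hV).2 hQ2) ((di_mem hV).2 ((hφm (i + 1)).sub (hφm i)))
        refine h6.trans ?_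
        refine mul_le_mul ?_ ?_ n2_nonneg (Real.sqrt_nonneg _)
        · have hEn0 := En_nonneg H hV hz
          refine n2_le_of_sq_le ((di_mem hV).2 hQ2) (Real.sqrt_nonneg _) ?_
          rw [Real.sq_sqrt (mul_nonneg hC1 hEn0)]
          have b1 : ∫ x, Q x ^ 2 ∂(wm m V) ≤ ∫ x, C1 * Q x ∂(wm m V) := by
            refine integral_mono_ae ((di_mem hV).2 hQ2).integrable_sq
              ((di_int_wm hV hQi).const_mul C1) ((di_ae hV).2 ?_)
            filter_upwards [hQC] with x hx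
            rw [sq]
            exact mul_le_mul_of_nonneg_right hx (hQ0 x)
          rw [integral_const_mul] at b1
          refine b1.trans (mul_le_mul_of_nonneg_left ?_ hC1)
          have b2 := itJ_energy_le H hV hεh hz (j + 1)
          rwa [En_self H hV hzj1] at b2
        · have b3 := itJ_n2_sub H hV hεh (Jr_memLp H hV hεh hφ2) hφ2 i
          rwa [← itJ_succ'] at b3
      rw [e1, mul_add]
      have h7 : a * ∫ x, Q x * (itJ m V (ε * h) (i + 1) φ x - itJ m V (ε * h) i φ x) ∂(wm m V) ≤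
          |a| * δ' := by
        calc _ ≤ |a * ∫ x, Q x * (itJ m V (ε * h) (i + 1) φ x -
              itJ m V (ε * h) i φ x) ∂(wm m V)| := le_abs_self _
          _ = |a| * |∫ x, Q x * (itJ m V (ε * h) (i + 1) φ x -
              itJ m V (ε * h) i φ x) ∂(wm m V)| := abs_mul _ _
          _ ≤ |a| * δ' := mul_le_mul_of_nonneg_left h5 (abs_nonneg a)
      linarith
    have h5 : ∫ x, (ε * k + G x) * Q x * itJ m V (ε * h) (i + 1) φ x ∂(wm m V) ≤
        a * A i + (|a| * δ' + E i) := by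
      have h6 := mul_le_mul_of_nonneg_left h3 hC1
      have h7 : E i = C1 * (c * ∫ x, φ x ∂(wm m V) -
        ∫ x, itJ m V (ε * h) (i + 1) v x * φ x ∂(wm m V)) := rfl
      linarith
    have h6 := mul_le_mul_of_nonneg_left h5 (by positivity : (0 : ℝ) ≤ 2 * h)
    have h7 : A i ≤ A (i + 1) + 2 * h * (a * A i + (|a| * δ' + E i)) := h1.trans (by linarith)
    linarith
  -- sum up
  have hr0 : 0 < 1 - 2 * h * a := by
    have : 2 * h * a ≤ 2 * h * |a| := mul_le_mul_of_nonneg_left (le_abs_self a) (by positivity)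
    linarith
  have hs0 : 0 < 1 - 2 * h * |a| := by linarith
  have hiter : ∀ j ≤ n, A 0 ≤ ((1 - 2 * h * a) ^ j)⁻¹ * A j +
      ((1 - 2 * h * |a|) ^ n)⁻¹ * ∑ i ∈ Finset.range j, 2 * h * (|a| * δ' + E i) := by
    intro j
    induction j with
    | zero => intro _; simp
    | succ j ih =>
      intro hj
      refine (ih (by omega)).trans ?_
      rw [Finset.sum_range_succ]
      have hmul : ∀ s t u : ℝ, s * (t + u) = s * t + s * u := fun s t u => mul_add s t u
      rw [hmul (((1 - 2 * h * |a|) ^ n)⁻¹) (∑ i ∈ Finset.range j, 2 * h * (|a| * δ' + E i))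
        (2 * h * (|a| * δ' + E j))]
      have h1 := hstep j (by omega)
      have h2 : A j ≤ (1 - 2 * h * a)⁻¹ * (A (j + 1) + 2 * h * (|a| * δ' + E j)) := by
        rw [inv_mul_eq_div, le_div_iff₀ hr0]; exact h1
      have h3 : ((1 - 2 * h * a) ^ j)⁻¹ * A j ≤ ((1 - 2 * h * a) ^ (j + 1))⁻¹ * A (j + 1) +
          ((1 - 2 * h * a) ^ (j + 1))⁻¹ * (2 * h * (|a| * δ' + E j)) := by
        have h4 := mul_le_mul_of_nonneg_left h2 (by positivity : 0 ≤ ((1 - 2 * h * a) ^ j)⁻¹)
        refine h4.trans (le_of_eq ?_)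
        rw [pow_succ, mul_inv]; ring
      have h4 : ((1 - 2 * h * a) ^ (j + 1))⁻¹ ≤ ((1 - 2 * h * |a|) ^ n)⁻¹ := by
        apply inv_anti₀ (pow_pos hs0 n)
        calc (1 - 2 * h * |a|) ^ n ≤ (1 - 2 * h * |a|) ^ (j + 1) :=
              pow_le_pow_of_le_one hs0.le (by
                have : 0 ≤ 2 * h * |a| := by positivity
                linarith) hj
          _ ≤ (1 - 2 * h * a) ^ (j + 1) := by
              refine pow_le_pow_left₀ hs0.le ?_ _
              have : 2 * h * a ≤ 2 * h * |a| :=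
                mul_le_mul_of_nonneg_left (le_abs_self a) (by positivity)
              linarith
      have h5 : 0 ≤ 2 * h * (|a| * δ' + E j) := by
        have := hE0 j
        positivity
      have h6 := mul_le_mul_of_nonneg_right h4 h5
      linarith
  have hfin := hiter n le_rfl
  have e0 : A 0 = ∫ x, minWeakGrad m (itJ m V (ε * h) n z) x ^ 2 * φ x ∂(wm m V) := by
    simp [hA]
  have e1 : A n = ∫ x, minWeakGrad m z x ^ 2 * itJ m V (ε * h) n φ x ∂(wm m V) := by
    simp [hA]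
  rw [e0, e1] at hfin
  exact hfin

end Crest.Agent.R242
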