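import Crest.Agent.R242.DIterD

/-!
Row 242 (S0375), DIter, part E: the final estimates for the semigroup (localised gradient
estimate and time regularity, after two unweighted resolvents).
-/

set_option autoImplicit false
set_option linter.unusedSectionVars false

open MeasureTheory Filter Set
open scoped ENNReal NNReal Topology
open Crest.GeometryTopology.SyntheticRicci

noncomputable section

namespace Crest.Agent.R242

variable {X : Type*} [MetricSpace X] [ProperSpace X] [MeasurableSpace X] [BorelSpace X]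
  {m : Measure X} [IsLocallyFiniteMeasure m] [m.IsOpenPosMeasure] {k N : ℝ}
  {V : X → ℝ} {h : ℝ} {f g u v : X → ℝ}

theorem di_J_nonneg (H : Hyp m k N) {δ : ℝ} (hδ : 0 < δ) (hf : MemLp f 2 m) (h0 : 0 ≤ᵐ[m] f) :
    0 ≤ᵐ[m] J m δ f := Jr_nonneg H di_bl0 hδ hf h0

theorem di_J_abs_le (H : Hyp m k N) {δ : ℝ} (hδ : 0 < δ) (hf : MemLp f 2 m) {c : ℝ}
    (h0 : ∀ᵐ x ∂m, |f x| ≤ c) : ∀ᵐ x ∂m, |J m δ f x| ≤ c :=
  Jr_abs_le H di_bl0 hδ hf h0

theorem di_J_l1 (H : Hyp m k N) {δ : ℝ} (hδ : 0 < δ) (hf : MemLp f 2 m) (hf1 : Integrable f m) :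
    Integrable (J m δ f) m ∧ ∫ x, |J m δ f x| ∂m ≤ ∫ x, |f x| ∂m := by
  have h1 := Jr_l1 H (di_bl0 (X := X)) hδ hf hf1
  rwa [wm_zero] at h1

theorem di_JJ_l1 (H : Hyp m k N) {δ : ℝ} (hδ : 0 < δ) (hf : MemLp f 2 m)
    (hf1 : Integrable f m) : Integrable (J m δ (J m δ f)) m ∧
      ∫ x, |J m δ (J m δ f) x| ∂m ≤ ∫ x, |f x| ∂m := by
  have h1 := di_J_l1 H hδ hf hf1
  have h2 := di_J_l1 H hδ (di_J_memLp H hδ hf) h1.1
  exact ⟨h2.1, h2.2.trans h1.2⟩

theorem di_n2_wm_le (hV : BddLip V) : ∃ C : ℝ, 0 < C ∧ ∀ q : X → ℝ, MemLp q 2 m →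
    n2 (wm m V) q ≤ C * n2 m q := by
  obtain ⟨B, hB⟩ := hV.1
  refine ⟨Real.exp (B / 2), Real.exp_pos _, fun q hq => ?_⟩
  refine n2_le_of_sq_le ((di_mem hV).2 hq) (mul_nonneg (Real.exp_pos _).le n2_nonneg) ?_
  rw [mul_pow, n2_sq hq, integral_wm hV.bddM, ← integral_const_mul]
  have hi : Integrable (fun x => q x ^ 2) m := hq.integrable_sq
  refine integral_mono_of_nonneg (Eventually.of_forall fun x => by positivity)
    (hi.const_mul _) (Eventually.of_forall fun x => ?_)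
  refine mul_le_mul_of_nonneg_right ?_ (sq_nonneg _)
  rw [← Real.exp_nat_mul]
  apply Real.exp_le_exp.2
  push_cast
  linarith [(le_abs_self _).trans (hB x)]

theorem di_n2_le_wm (hV : BddLip V) : ∃ C : ℝ, 0 < C ∧ ∀ q : X → ℝ, MemLp q 2 m →
    n2 m q ≤ C * n2 (wm m V) q := by
  obtain ⟨B, hB⟩ := hV.1
  refine ⟨Real.exp (B / 2), Real.exp_pos _, fun q hq => ?_⟩
  refine n2_le_of_sq_le hq (mul_nonneg (Real.exp_pos _).le n2_nonneg) ?_
  rw [mul_pow, n2_sq ((di_mem hV).2 hq), integral_wm hV.bddM, ← integral_const_mul]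
  have hi : Integrable (fun x => q x ^ 2) m := hq.integrable_sq
  have hi2 : Integrable (fun x => Real.exp (V x) * q x ^ 2) m :=
    (integrable_wm_iff hV.bddM (fun x => q x ^ 2)).2 hi |> fun h => by
      refine (hi.const_mul (Real.exp B)).mono'
        ((Real.measurable_exp.comp hV.bddM.1).aestronglyMeasurable.mul hi.aestronglyMeasurable) ?_
      refine Eventually.of_forall fun x => ?_
      rw [norm_mul, Real.norm_of_nonneg (Real.exp_pos _).le, Real.norm_of_nonneg (sq_nonneg _)]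
      exact mul_le_mul_of_nonneg_right
        (Real.exp_le_exp.2 ((le_abs_self _).trans (hB x))) (sq_nonneg _)
  refine integral_mono hi (hi2.const_mul _) fun x => ?_
  have e1 : Real.exp (B / 2) ^ 2 * (Real.exp (V x) * q x ^ 2) =
      Real.exp (B + V x) * q x ^ 2 := by
    rw [← mul_assoc, ← Real.exp_nat_mul, ← Real.exp_add]; congr 2; push_cast; ring
  simp only [e1]
  have : 1 ≤ Real.exp (B + V x) := by
    apply Real.one_le_exp
    linarith [neg_abs_le (V x), hB x]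
  nlinarith [sq_nonneg (q x)]

theorem di_Jr_tendsto_n2 (H : Hyp m k N) (hV : BddLip V) (hf : MemLp f 2 m) :
    Tendsto (fun h => n2 (wm m V) (fun x => Jr m V h f x - f x)) (𝓝[>] 0) (𝓝 0) := by
  obtain ⟨C, hC0, hC⟩ := di_n2_wm_le (m := m) hV
  have h1 : Tendsto (fun h => C * Real.sqrt (∫ x, (Jr m V h f x - f x) ^ 2 ∂m)) (𝓝[>] 0)
      (𝓝 0) := by
    have h2 := (Real.continuous_sqrt.tendsto _).comp (Jr_tendsto_l2 H hV hf)
    rw [Real.sqrt_zero] at h2
    have h3 := h2.const_mul C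
    rwa [mul_zero] at h3
  refine squeeze_zero' (Eventually.of_forall fun _ => n2_nonneg) ?_ h1
  filter_upwards [self_mem_nhdsWithin] with h hh
  have hh' : (0 : ℝ) < h := hh
  have hm : MemLp (fun x => Jr m V h f x - f x) 2 m := (Jr_memLp H hV hh' hf).sub hf
  refine (hC _ hm).trans (le_of_eq ?_)
  rw [← n2_sq hm, Real.sqrt_sq n2_nonneg]

/-- a.e. bounds pass to `L²` limits. -/
theorem di_bound_limit {fn : ℕ → X → ℝ} (hfn : ∀ n, MemLp (fn n) 2 m) (hf : MemLp f 2 m)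
    (hlim : Tendsto (fun n => n2 m (fun x => fn n x - f x)) atTop (𝓝 0)) {Cn : ℕ → ℝ} {C : ℝ}
    (hCn : Tendsto Cn atTop (𝓝 C)) (hb : ∀ᶠ n in atTop, ∀ᵐ x ∂m, |fn n x| ≤ Cn n) :
    ∀ᵐ x ∂m, |f x| ≤ C := by
  have h1 : Tendsto (fun n => eLpNorm (fn n - f) 2 m) atTop (𝓝 0) := by
    have h3 := ENNReal.tendsto_ofReal hlim
    rw [ENNReal.ofReal_zero] at h3
    refine h3.congr fun n => ?_
    exact ENNReal.ofReal_toReal ((hfn n).sub hf).2.ne
  have h2 : TendstoInMeasure m fn atTop f :=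
    tendstoInMeasure_of_tendsto_eLpNorm (by norm_num) (fun n => (hfn n).aestronglyMeasurable)
      hf.aestronglyMeasurable h1
  obtain ⟨ns, hns, hae⟩ := h2.exists_seq_tendsto_ae
  obtain ⟨n₀, hn₀⟩ := eventually_atTop.1 hb
  have h4 : ∀ᵐ x ∂m, ∀ n : ℕ, n₀ ≤ n → |fn n x| ≤ Cn n := by
    rw [ae_all_iff]
    intro n
    by_cases hn : n₀ ≤ n
    · filter_upwards [hn₀ n hn] with x hx _ using hx
    · exact Eventually.of_forall fun x h => (hn h).elim
  filter_upwards [hae, h4] with x h5 h6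
  have h7 : Tendsto (fun i => |fn (ns i) x|) atTop (𝓝 |f x|) := h5.abs
  have h8 : Tendsto (fun i => Cn (ns i)) atTop (𝓝 C) := hCn.comp hns.tendsto_atTop
  refine le_of_tendsto_of_tendsto h7 h8 ?_
  filter_upwards [hns.tendsto_atTop.eventually_ge_atTop n₀] with i hi
  exact h6 _ hi

/-- test functions of the form `e^{-V} J_δ J_δ ψ`. -/
theorem di_testfn (H : Hyp m k N) (hV : BddLip V) {δ : ℝ} (hδ : 0 < δ) {ψ : X → ℝ}
    (hψ2 : MemLp ψ 2 m) (hψ1 : Integrable ψ m) (hψb : ∃ C : ℝ, ∀ᵐ x ∂m, |ψ x| ≤ C)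
    (hψ0 : 0 ≤ᵐ[m] ψ) :
    ∃ φ : X → ℝ, MemLp φ 2 m ∧ Integrable φ m ∧ (∃ C : ℝ, ∀ᵐ x ∂m, |φ x| ≤ C) ∧ 0 ≤ᵐ[m] φ ∧
      (∀ F : X → ℝ, ∫ x, F x * φ x ∂(wm m V) = ∫ x, F x * J m δ (J m δ ψ) x ∂m) ∧
      ∫ x, φ x ∂(wm m V) ≤ ∫ x, ψ x ∂m := by
  obtain ⟨B, hB⟩ := hV.1
  have hVm : Measurable V := hV.bddM.1
  set w := J m δ (J m δ ψ) with hw
  have hw2 : MemLp w 2 m := di_J_memLp H hδ (di_J_memLp H hδ hψ2)
  have hw1 := di_JJ_l1 H hδ hψ2 hψ1
  have hw0 : 0 ≤ᵐ[m] w := di_J_nonneg H hδ (di_J_memLp H hδ hψ2) (di_J_nonneg H hδ hψ2 hψ0)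
  obtain ⟨C, hC⟩ := hψb
  have hwb : ∀ᵐ x ∂m, |w x| ≤ C :=
    di_J_abs_le H hδ (di_J_memLp H hδ hψ2) (di_J_abs_le H hδ hψ2 hC)
  have hem : AEStronglyMeasurable (fun x => Real.exp (-V x)) m :=
    (Real.measurable_exp.comp hVm.neg).aestronglyMeasurable
  have hle : ∀ x, |Real.exp (-V x) * w x| ≤ Real.exp B * |w x| := fun x => by
    rw [abs_mul, abs_of_pos (Real.exp_pos _)]
    exact mul_le_mul_of_nonneg_right (Real.exp_le_exp.2 ((neg_le_abs _).trans (hB x)))
      (abs_nonneg _)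
  refine ⟨fun x => Real.exp (-V x) * w x, ?_, ?_, ?_, ?_, ?_, ?_⟩
  · exact (hw2.norm.const_mul (Real.exp B)).mono' (hem.mul hw2.aestronglyMeasurable)
      (Eventually.of_forall fun x => by simpa using hle x)
  · exact (hw1.1.norm.const_mul (Real.exp B)).mono' (hem.mul hw2.aestronglyMeasurable)
      (Eventually.of_forall fun x => by simpa using hle x)
  · refine ⟨Real.exp B * C, ?_⟩
    filter_upwards [hwb] with x hx
    exact (hle x).trans (mul_le_mul_of_nonneg_left hx (Real.exp_pos _).le)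
  · filter_upwards [hw0] with x hx
    exact mul_nonneg (Real.exp_pos _).le hx
  · intro F
    rw [integral_wm hV.bddM]
    refine integral_congr_ae (Eventually.of_forall fun x => ?_)
    simp only
    have : Real.exp (V x) * Real.exp (-V x) = 1 := by rw [← Real.exp_add]; simp
    calc Real.exp (V x) * (F x * (Real.exp (-V x) * w x)) =
        (Real.exp (V x) * Real.exp (-V x)) * (F x * w x) := by ring
      _ = F x * w x := by rw [this, one_mul]
  · have e1 : ∫ x, Real.exp (-V x) * w x ∂(wm m V) = ∫ x, w x ∂m := by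
      rw [integral_wm hV.bddM]
      refine integral_congr_ae (Eventually.of_forall fun x => ?_)
      simp only
      rw [← mul_assoc, ← Real.exp_add]; simp
    rw [e1]
    have e2 : ∫ x, |w x| ∂m = ∫ x, w x ∂m := integral_congr_ae (by
      filter_upwards [hw0] with x hx using abs_of_nonneg hx)
    have e3 : ∫ x, |ψ x| ∂m = ∫ x, ψ x ∂m := integral_congr_ae (by
      filter_upwards [hψ0] with x hx using abs_of_nonneg hx)
    have := hw1.2
    rwa [e2, e3] at this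

section Semi
variable {P : ℝ → (X → ℝ) → (X → ℝ)}

theorem di_P_abs_le (S : SemigroupSpec m V P) {t : ℝ} (ht : 0 ≤ t) (hf : MemLp f 2 m) {c : ℝ}
    (hc : 0 ≤ c) (h0 : ∀ᵐ x ∂m, |f x| ≤ c) : ∀ᵐ x ∂m, |P t f x| ≤ c := by
  have h1 := S.le_const t ht f hf c hc (h0.mono fun x hx => (le_abs_self _).trans hx)
  have h2 := S.le_const t ht (fun x => (-1) * f x) (hf.const_mul _) c hc
    (h0.mono fun x hx => by have := (neg_le_abs (f x)).trans hx; linarith)
  have h3 := S.smul t ht (-1) f hf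
  filter_upwards [h1, h2, h3] with x a1 a2 a3
  rw [a3] at a2
  exact abs_le.2 ⟨by linarith, a1⟩

end Semi

theorem di_sqrt_exp (x : ℝ) : Real.sqrt (Real.exp (2 * x)) = Real.exp x := by
  rw [show 2 * x = x + x by ring, Real.exp_add, Real.sqrt_mul_self (Real.exp_pos _).le]

/-- step sizes tend to zero from the right. -/
theorem di_tendsto_step {t : ℝ} (ht : 0 < t) :
    Tendsto (fun n : ℕ => t / ((n : ℝ) + 1)) atTop (𝓝[>] 0) := by
  rw [tendsto_nhdsWithin_iff]
  refine ⟨?_, Eventually.of_forall fun n => ?_⟩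
  · exact ((tendsto_const_div_atTop_nhds_zero_nat t).comp (tendsto_add_atTop_nat 1)).congr
      fun n => by simp [Function.comp]
  · have : 0 < t / ((n : ℝ) + 1) := by positivity
    exact this

end Crest.Agent.R242
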