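import Mathlib
import Crest.Agent.R242.Defs
import Crest.Agent.R242.Vol1

/-!
# Row 242, part ENT: auxiliary real analysis
-/

set_option autoImplicit false

open MeasureTheory Filter Set Metric
open scoped ENNReal NNReal Topology
open Crest.GeometryTopology.SyntheticRicci

noncomputable section

namespace Crest.Agent.R242.EntAux

/-! ### lower bound for `τ` at the midpoint -/

theorem sigma_half_ge {k n θ : ℝ} (hk : 0 < k) (hn : 0 < n) (hθ : 0 ≤ θ) :
    ENNReal.ofReal (1 / 2 * Real.exp (-(k * θ ^ 2 / (8 * n)))) ≤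
      distortSigma (-k) n (1 / 2) θ := by
  unfold distortSigma
  rw [if_neg (by norm_num), if_neg (by norm_num)]
  by_cases h0 : θ = 0
  · rw [if_pos h0, h0]
    simp
  · rw [if_neg h0, if_neg (by linarith), if_neg (by linarith)]
    have hθ' : 0 < θ := lt_of_le_of_ne hθ (Ne.symm h0)
    rw [neg_neg]
    refine ENNReal.ofReal_le_ofReal ?_
    set b := θ * Real.sqrt (k / n) with hb
    have hb0 : 0 < b := mul_pos hθ' (Real.sqrt_pos.2 (div_pos hk hn))
    have e1 : 1 / 2 * θ * Real.sqrt (k / n) = b / 2 := by rw [hb]; ring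
    rw [e1]
    have hs2 : 0 < Real.sinh (b / 2) := Real.sinh_pos_iff.2 (by positivity)
    have e2 : Real.sinh b = 2 * Real.sinh (b / 2) * Real.cosh (b / 2) := by
      rw [← Real.sinh_two_mul]; congr 1; ring
    have hc : 0 < Real.cosh (b / 2) := Real.cosh_pos _
    have e3 : Real.sinh (b / 2) / Real.sinh b = 1 / 2 * (Real.cosh (b / 2))⁻¹ := by
      rw [e2]; field_simp
    rw [e3]
    have h1 : Real.cosh (b / 2) ≤ Real.exp ((b / 2) ^ 2 / 2) := Real.cosh_le_exp_half_sq _
    have e4 : (b / 2) ^ 2 / 2 = k * θ ^ 2 / (8 * n) := by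
      rw [hb, div_pow, mul_pow, Real.sq_sqrt (div_pos hk hn).le]
      field_simp
      ring
    rw [e4] at h1
    rw [Real.exp_neg]
    gcongr

theorem tau_half_ge {k N θ : ℝ} (hk : 0 < k) (hN : 1 < N) (hθ : 0 ≤ θ) :
    ENNReal.ofReal (1 / 2 * Real.exp (-(k * θ ^ 2 / 8) / N)) ≤
      distortTau (-k) N (1 / 2) θ := by
  have hN0 : 0 < N := by linarith
  have hN1 : 0 < N - 1 := by linarith
  have hs := sigma_half_ge hk hN1 hθ
  unfold distortTau
  have he : 0 ≤ (N - 1) / N := div_nonneg hN1.le hN0.le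
  refine le_trans ?_ (mul_le_mul' le_rfl (ENNReal.rpow_le_rpow hs he))
  rw [ENNReal.ofReal_rpow_of_pos (by norm_num), ENNReal.ofReal_rpow_of_pos (by positivity),
    ← ENNReal.ofReal_mul (by positivity)]
  refine le_of_eq ?_
  congr 1
  rw [Real.mul_rpow (by norm_num) (Real.exp_pos _).le, ← Real.exp_mul, ← mul_assoc,
    ← Real.rpow_add (by norm_num)]
  have e1 : 1 / N + (N - 1) / N = 1 := by field_simp; ring
  rw [e1, Real.rpow_one]
  congr 2
  field_simp

/-! ### the approximating entropies -/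

/-- `N (r - r^{1-1/N}) + 1 - r`. -/
def KN (N r : ℝ) : ℝ := N * (r - r ^ (1 - 1 / N)) + 1 - r

theorem KN_nonneg {N r : ℝ} (hN : 1 < N) (hr : 0 ≤ r) : 0 ≤ KN N r := by
  have hN0 : 0 < N := by linarith
  have h1 : 1 / N < 1 := by rw [div_lt_one hN0]; exact hN
  -- Bernoulli: `r^{1-1/N} ≤ 1 + (1-1/N)(r-1)`
  have hN' : 0 < 1 / N := by positivity
  have h := rpow_one_add_le_one_add_mul_self (s := r - 1) (by linarith)
    (p := 1 - 1 / N) (by linarith) (by linarith)
  rw [add_sub_cancel] at h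
  unfold KN
  have h2 : N * (r - r ^ (1 - 1 / N)) ≥ N * (r - (1 + (1 - 1 / N) * (r - 1))) := by
    have := mul_le_mul_of_nonneg_left h hN0.le
    nlinarith
  have h3 : N * (r - (1 + (1 - 1 / N) * (r - 1))) = r - 1 := by
    field_simp
    ring
  linarith

theorem measurable_KN (N : ℝ) : Measurable (KN N) := by
  unfold KN
  fun_prop

theorem tendsto_KN {N : ℝ} (hN : 1 < N) {r : ℝ} (hr : 0 ≤ r) :
    Tendsto (fun n : ℕ => KN (N + n) r) atTop (𝓝 (InformationTheory.klFun r)) := by
  have hlim : Tendsto (fun n : ℕ => (N + n)⁻¹) atTop (𝓝[≠] 0) := by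
    rw [tendsto_nhdsWithin_iff]
    constructor
    · refine tendsto_inv_atTop_zero.comp ?_
      exact tendsto_atTop_add_const_left _ _ tendsto_natCast_atTop_atTop
    · refine Eventually.of_forall fun n => ?_
      have : (0 : ℝ) ≤ n := Nat.cast_nonneg n
      have h2 : 0 < N + n := by linarith
      exact (inv_pos.2 h2).ne'
  rcases hr.eq_or_lt with h0 | hpos
  · have : ∀ n : ℕ, KN (N + n) r = InformationTheory.klFun r := by
      intro n
      have : (0 : ℝ) ≤ n := Nat.cast_nonneg n
      have hn : 1 < N + n := by linarith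
      have h1 : 1 / (N + n) < 1 := by rw [div_lt_one (by linarith)]; exact hn
      rw [← h0, KN, InformationTheory.klFun, Real.zero_rpow (by linarith)]
      simp
    simp only [this]
    exact tendsto_const_nhds
  · -- derivative of `s ↦ exp (-ℓ s)` at `0`
    have hd : HasDerivAt (fun s : ℝ => Real.exp (-(Real.log r) * s)) (-(Real.log r)) 0 := by
      have h1 : HasDerivAt (fun s : ℝ => -(Real.log r) * s) (-(Real.log r)) 0 := by
        simpa using (hasDerivAt_id (0 : ℝ)).const_mul (-(Real.log r))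
      have h2 := h1.exp
      simpa using h2
    have h3 := (hasDerivAt_iff_tendsto_slope_zero.1 hd).comp hlim
    have h4 : Tendsto (fun n : ℕ => 1 - r - r * (((N + n)⁻¹)⁻¹ • (Real.exp (-(Real.log r) *
        (0 + (N + n)⁻¹)) - Real.exp (-(Real.log r) * 0)))) atTop
        (𝓝 (1 - r - r * -(Real.log r))) := (h3.const_mul r).const_sub (1 - r)
    have e1 : 1 - r - r * -(Real.log r) = InformationTheory.klFun r := by
      rw [InformationTheory.klFun]; ring
    rw [e1] at h4
    refine h4.congr fun n => ?_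
    have : (0 : ℝ) ≤ n := Nat.cast_nonneg n
    have hn : 0 < N + n := by linarith
    have e2 : r ^ (1 - 1 / (N + n)) = r * Real.exp (-(Real.log r) * (N + n)⁻¹) := by
      rw [Real.rpow_def_of_pos hpos]
      have : Real.log r * (1 - 1 / (N + n)) = Real.log r + -(Real.log r) * (N + n)⁻¹ := by
        rw [one_div]; ring
      rw [this, Real.exp_add, Real.exp_log hpos]
    rw [KN, e2, zero_add, mul_zero, Real.exp_zero, inv_inv, smul_eq_mul]
    ring

theorem one_sub_div_le_exp (N x : ℝ) : 1 - x / N ≤ Real.exp (-x / N) := by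
  have := Real.add_one_le_exp (-x / N)
  have h2 : -x / N = -(x / N) := by ring
  rw [h2] at this ⊢
  linarith

theorem ofReal_integral_le {Y : Type*} [MeasurableSpace Y] {μ : Measure Y} {f : Y → ℝ}
    (hf : Integrable f μ) : ENNReal.ofReal (∫ x, f x ∂μ) ≤ ∫⁻ x, ENNReal.ofReal (f x) ∂μ := by
  rw [integral_eq_lintegral_pos_part_sub_lintegral_neg_part hf]
  have h1 : (∫⁻ x, ENNReal.ofReal (f x) ∂μ).toReal - (∫⁻ x, ENNReal.ofReal (-f x) ∂μ).toReal ≤
      (∫⁻ x, ENNReal.ofReal (f x) ∂μ).toReal := by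
    have : 0 ≤ (∫⁻ x, ENNReal.ofReal (-f x) ∂μ).toReal := ENNReal.toReal_nonneg
    linarith
  exact (ENNReal.ofReal_le_ofReal h1).trans ENNReal.ofReal_toReal_le

end Crest.Agent.R242.EntAux
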