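import Mathlib
import Crest.Agent.R242.EntA

/-!
# Row 242, part ENT: measure part
-/

set_option autoImplicit false

open MeasureTheory Filter Set Metric
open scoped ENNReal NNReal Topology
open Crest.GeometryTopology.SyntheticRicci

noncomputable section

namespace Crest.Agent.R242.EntAux

section meas

variable {X : Type*} [MeasurableSpace X] {m μ : Measure X}

/-- logarithm of the density -/
def lg (m μ : Measure X) (x : X) : ℝ := Real.log (μ.rnDeriv m x).toReal

theorem measurable_lg : Measurable (lg m μ) :=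
  Real.measurable_log.comp (Measure.measurable_rnDeriv μ m).ennreal_toReal

theorem rnDeriv_le_of_le_smul [SigmaFinite m] {M : ℝ≥0∞} (h : μ ≤ M • m) :
    ∀ᵐ x ∂m, μ.rnDeriv m x ≤ M := by
  refine ae_le_of_forall_setLIntegral_le_of_sigmaFinite (μ.measurable_rnDeriv m)
    (g := fun _ => M) fun s _ _ ↦ ?_
  rw [setLIntegral_const]
  exact (Measure.setLIntegral_rnDeriv_le s).trans (h s)

theorem ac_of_le_smul {M : ℝ≥0∞} (h : μ ≤ M • m) : μ ≪ m :=
  (Measure.absolutelyContinuous_of_le h).trans (Measure.AbsolutelyContinuous.rfl.smul_left M)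

theorem rnDeriv_zero_off [SigmaFinite m] {B : Set X} (hB : MeasurableSet B) (h : μ Bᶜ = 0) :
    ∀ᵐ x ∂m, x ∉ B → μ.rnDeriv m x = 0 := by
  have h1 : ∫⁻ x in Bᶜ, μ.rnDeriv m x ∂m = 0 :=
    le_antisymm ((Measure.setLIntegral_rnDeriv_le _).trans h.le) zero_le
  have h2 := (lintegral_eq_zero_iff (Measure.measurable_rnDeriv μ m)).1 h1
  rw [Filter.EventuallyEq, ae_restrict_iff' hB.compl] at h2
  filter_upwards [h2] with x hx hxB
  exact hx hxB

/-- `ρ` is the exponential of its logarithm, `μ`-a.e. -/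
theorem ofReal_exp_lg [SigmaFinite m] [IsFiniteMeasure μ] (hac : μ ≪ m) :
    ∀ᵐ x ∂μ, μ.rnDeriv m x = ENNReal.ofReal (Real.exp (lg m μ x)) := by
  filter_upwards [Measure.rnDeriv_pos hac, hac.ae_le (Measure.rnDeriv_lt_top μ m)] with x h1 h2
  rw [lg, Real.exp_log (ENNReal.toReal_pos h1.ne' h2.ne), ENNReal.ofReal_toReal h2.ne]

theorem integrable_mul_log [SigmaFinite m] [IsFiniteMeasure μ] {M : ℝ≥0∞} (hM : M ≠ ⊤)
    (h : μ ≤ M • m) {B : Set X} (hB : MeasurableSet B) (hmB : m B ≠ ⊤) (hμB : μ Bᶜ = 0) :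
    Integrable (fun x => (μ.rnDeriv m x).toReal * lg m μ x) m := by
  obtain ⟨C, hC⟩ := isCompact_Icc.exists_bound_of_continuousOn (s := Icc (0 : ℝ) M.toReal)
    (f := fun r : ℝ => r * Real.log r) Real.continuous_mul_log.continuousOn
  have hind : IntegrableOn (fun _ : X => C) B m := integrableOn_const hmB
  have hind' : Integrable (B.indicator fun _ : X => C) m :=
    (integrable_indicator_iff hB).2 hind
  refine hind'.mono' ?_ ?_
  · exact ((Measure.measurable_rnDeriv μ m).ennreal_toReal.mul measurable_lg).aestronglyMeasurable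
  · filter_upwards [rnDeriv_le_of_le_smul h, rnDeriv_zero_off hB hμB] with x h1 h2
    by_cases hx : x ∈ B
    · rw [indicator_of_mem hx]
      exact hC _ ⟨ENNReal.toReal_nonneg, ENNReal.toReal_mono hM h1⟩
    · rw [indicator_of_notMem hx, h2 hx]
      simp

theorem integrable_lg [SigmaFinite m] [IsFiniteMeasure μ] {M : ℝ≥0∞} (hM : M ≠ ⊤)
    (h : μ ≤ M • m) {B : Set X} (hB : MeasurableSet B) (hmB : m B ≠ ⊤) (hμB : μ Bᶜ = 0) :
    Integrable (lg m μ) μ :=
  (integrable_toReal_rnDeriv_mul_iff (ac_of_le_smul h)).1 (integrable_mul_log hM h hB hmB hμB)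

theorem setIntegral_rnDeriv_eq [SigmaFinite m] [IsProbabilityMeasure μ] (hac : μ ≪ m)
    {B : Set X} (hB : MeasurableSet B) (hμB : μ Bᶜ = 0) :
    ∫ x in B, (μ.rnDeriv m x).toReal ∂m = 1 := by
  rw [Measure.setIntegral_toReal_rnDeriv hac]
  rw [Measure.real, (prob_compl_eq_zero_iff hB).1 hμB, ENNReal.toReal_one]

/-- the entropy of a measure with bounded density -/
theorem entB_eq [SigmaFinite m] [IsProbabilityMeasure μ] {M : ℝ≥0∞} (hM : M ≠ ⊤)
    (h : μ ≤ M • m) {B : Set X} (hB : MeasurableSet B) (hmB : m B ≠ ⊤) (hμB : μ Bᶜ = 0)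
    [MetricSpace X] :
    0 ≤ ∫ x, lg m μ x ∂μ + (m B).toReal - 1 ∧
    entB m B μ = ENNReal.ofReal (∫ x, lg m μ x ∂μ + (m B).toReal - 1) := by
  have hac := ac_of_le_smul h
  have i1 : IntegrableOn (fun x => (μ.rnDeriv m x).toReal * lg m μ x) B m :=
    (integrable_mul_log hM h hB hmB hμB).integrableOn
  have i2 : IntegrableOn (fun x => (μ.rnDeriv m x).toReal) B m :=
    Measure.integrable_toReal_rnDeriv.integrableOn
  have i3 : IntegrableOn (fun _ : X => (1 : ℝ)) B m := integrableOn_const hmB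
  have e1 : ∫ x in B, (μ.rnDeriv m x).toReal * lg m μ x ∂m = ∫ x, lg m μ x ∂μ := by
    rw [setIntegral_toReal_rnDeriv_mul hac hB]
    refine Measure.restrict_eq_self_of_ae_mem (ae_iff.2 ?_) ▸ rfl
    exact hμB
  have e2 := setIntegral_rnDeriv_eq hac hB hμB
  have e3 : ∫ _ in B, (1 : ℝ) ∂m = (m B).toReal := by
    rw [setIntegral_const, smul_eq_mul, mul_one, Measure.real]
  have hkl : ∀ x, InformationTheory.klFun (μ.rnDeriv m x).toReal =
      (μ.rnDeriv m x).toReal * lg m μ x + 1 - (μ.rnDeriv m x).toReal := fun x => rfl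
  have i4 : IntegrableOn (fun x => InformationTheory.klFun (μ.rnDeriv m x).toReal) B m := by
    simp only [hkl]
    exact (i1.add i3).sub i2
  have e4 : ∫ x in B, InformationTheory.klFun (μ.rnDeriv m x).toReal ∂m =
      ∫ x, lg m μ x ∂μ + (m B).toReal - 1 := by
    simp only [hkl]
    have h1 := integral_sub (i1.add i3) i2
    have h2 := integral_add i1 i3
    simp only [Pi.add_apply] at h1
    rw [h1, h2, e1, e2, e3]
  have hnn : ∀ x, 0 ≤ InformationTheory.klFun (μ.rnDeriv m x).toReal := fun x =>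
    InformationTheory.klFun_nonneg ENNReal.toReal_nonneg
  refine ⟨?_, ?_⟩
  · rw [← e4]
    exact integral_nonneg fun x => hnn x
  · rw [entB, ← e4, ofReal_integral_eq_lintegral_ofReal i4 (Eventually.of_forall hnn)]

end meas

end Crest.Agent.R242.EntAux
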