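import Mathlib
import Crest.Agent.R242.EntB

/-!
# Row 242, part ENT: Rényi power inequality and passage to the entropy
-/

set_option autoImplicit false

open MeasureTheory Filter Set Metric
open scoped ENNReal NNReal Topology
open Crest.GeometryTopology.SyntheticRicci

noncomputable section

namespace Crest.Agent.R242.EntAux

section renyi

variable {X : Type*} [MetricSpace X] [MeasurableSpace X] {m μ : Measure X}

theorem level [SigmaFinite m] [IsProbabilityMeasure μ] {N T : ℝ} (hN : 1 < N)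
    {B : Set X} (hB : MeasurableSet B) (hmB : m B ≠ ⊤) (hμB : μ Bᶜ = 0)
    (h : ENNReal.ofReal (1 - T / N) ≤ renyiPower m μ N) :
    IntegrableOn (fun x => KN N (μ.rnDeriv m x).toReal) B m ∧
    ∫ x in B, KN N (μ.rnDeriv m x).toReal ∂m ≤
      (N - 1) * ∫ x in B, (μ.rnDeriv m x).toReal ∂m - N + T + (m B).toReal := by
  have hN0 : 0 < N := by linarith
  have hN1 : 1 / N < 1 := by rw [div_lt_one hN0]; exact hN
  have hNp : 0 < 1 / N := by positivity
  have hρm : Measurable fun x => (μ.rnDeriv m x).toReal :=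
    (Measure.measurable_rnDeriv μ m).ennreal_toReal
  have i2 : IntegrableOn (fun x => (μ.rnDeriv m x).toReal) B m :=
    Measure.integrable_toReal_rnDeriv.integrableOn
  have i3 : IntegrableOn (fun _ : X => (1 : ℝ)) B m := integrableOn_const hmB
  have i4 : IntegrableOn (fun x => (μ.rnDeriv m x).toReal ^ (1 - 1 / N)) B m := by
    refine (i3.add i2).mono' (hρm.pow_const _).aestronglyMeasurable
      (Eventually.of_forall fun x => ?_)
    have h0 : 0 ≤ (μ.rnDeriv m x).toReal := ENNReal.toReal_nonneg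
    rw [Real.norm_of_nonneg (Real.rpow_nonneg h0 _)]
    simp only [Pi.add_apply]
    rcases le_total (μ.rnDeriv m x).toReal 1 with h1 | h1
    · have := Real.rpow_le_one h0 h1 (z := 1 - 1 / N) (by linarith)
      linarith
    · have := Real.rpow_le_rpow_of_exponent_le h1 (show 1 - 1 / N ≤ 1 by linarith)
      rw [Real.rpow_one] at this
      linarith
  set a := ∫ x in B, (μ.rnDeriv m x).toReal ∂m with ha
  set b := ∫ x in B, (μ.rnDeriv m x).toReal ^ (1 - 1 / N) ∂m with hb
  have hb0 : 0 ≤ b := integral_nonneg fun x => Real.rpow_nonneg ENNReal.toReal_nonneg _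
  have hren : renyiPower m μ N = ENNReal.ofReal b := by
    rw [hb, ofReal_integral_eq_lintegral_ofReal i4
      (Eventually.of_forall fun x => Real.rpow_nonneg ENNReal.toReal_nonneg _), renyiPower,
      ← lintegral_indicator hB]
    refine lintegral_congr_ae ?_
    filter_upwards [rnDeriv_zero_off hB hμB, Measure.rnDeriv_lt_top μ m] with x h1 h2
    by_cases hx : x ∈ B
    · rw [indicator_of_mem hx, ← ENNReal.ofReal_rpow_of_nonneg ENNReal.toReal_nonneg
        (by linarith), ENNReal.ofReal_toReal h2.ne]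
    · rw [indicator_of_notMem hx, h1 hx, ENNReal.zero_rpow_of_pos (by linarith)]
  rw [hren, ENNReal.ofReal_le_ofReal_iff hb0] at h
  have hNb : N - T ≤ N * b := by
    have := mul_le_mul_of_nonneg_left h hN0.le
    have e : N * (1 - T / N) = N - T := by field_simp
    linarith
  have hK : ∀ x, KN N (μ.rnDeriv m x).toReal = N * ((μ.rnDeriv m x).toReal -
      (μ.rnDeriv m x).toReal ^ (1 - 1 / N)) + 1 - (μ.rnDeriv m x).toReal := fun x => rfl
  have i5 := (i2.sub i4).const_mul N
  refine ⟨?_, ?_⟩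
  · simp only [hK]
    exact (i5.add i3).sub i2
  · have h1 := integral_sub (i5.add i3) i2
    have h2 := integral_add i5 i3
    have h3 := integral_sub i2 i4
    simp only [Pi.add_apply, Pi.sub_apply] at h1 h2 h3
    simp only [hK]
    rw [h1, h2, integral_const_mul, h3, setIntegral_const, smul_eq_mul, mul_one, Measure.real]
    nlinarith

theorem setIntegral_le_one [SigmaFinite m] [IsProbabilityMeasure μ] (B : Set X) :
    ∫ x in B, (μ.rnDeriv m x).toReal ∂m ≤ 1 := by
  rw [integral_toReal (Measure.measurable_rnDeriv μ m).aemeasurable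
    (ae_restrict_of_ae (Measure.rnDeriv_lt_top μ m))]
  refine ENNReal.toReal_le_of_le_ofReal zero_le_one ?_
  rw [ENNReal.ofReal_one]
  exact (Measure.setLIntegral_rnDeriv_le B).trans prob_le_one

theorem ac_of_renyi [SigmaFinite m] [IsProbabilityMeasure μ] {N T : ℝ} (hN : 1 < N)
    {B : Set X} (hB : MeasurableSet B) (hmB : m B ≠ ⊤) (hμB : μ Bᶜ = 0)
    (h : ∀ n : ℕ, ENNReal.ofReal (1 - T / (N + n)) ≤ renyiPower m μ (N + n)) : μ ≪ m := by
  set a := ∫ x in B, (μ.rnDeriv m x).toReal ∂m with ha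
  have ha1 : 1 ≤ a := by
    by_contra hlt
    push Not at hlt
    obtain ⟨n, hn⟩ := exists_nat_gt ((T + (m B).toReal - 1) / (1 - a))
    rw [div_lt_iff₀ (by linarith)] at hn
    have hn0 : (0 : ℝ) ≤ n := Nat.cast_nonneg n
    have hN' : 1 < N + n := by linarith
    obtain ⟨-, h2⟩ := level hN' hB hmB hμB (h n)
    have h3 : 0 ≤ ∫ x in B, KN (N + n) (μ.rnDeriv m x).toReal ∂m :=
      integral_nonneg fun x => KN_nonneg hN' ENNReal.toReal_nonneg
    have h4 : 0 ≤ (N - 1) * (1 - a) := mul_nonneg (by linarith) (by linarith)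
    nlinarith
  have hle : 1 ≤ ∫⁻ x, μ.rnDeriv m x ∂m := by
    have h1 : ENNReal.ofReal a ≤ ∫⁻ x in B, μ.rnDeriv m x ∂m := by
      rw [ha, integral_toReal (Measure.measurable_rnDeriv μ m).aemeasurable
        (ae_restrict_of_ae (Measure.rnDeriv_lt_top μ m))]
      exact ENNReal.ofReal_toReal_le
    calc (1 : ℝ≥0∞) = ENNReal.ofReal 1 := ENNReal.ofReal_one.symm
      _ ≤ ENNReal.ofReal a := ENNReal.ofReal_le_ofReal ha1
      _ ≤ _ := h1.trans (setLIntegral_le_lintegral B _)
  have hdec := Measure.haveLebesgueDecomposition_add μ m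
  have hu : μ.singularPart m univ = 0 := by
    have h1 : μ univ = μ.singularPart m univ + (m.withDensity (μ.rnDeriv m)) univ := by
      conv_lhs => rw [hdec]
      rfl
    rw [withDensity_apply _ MeasurableSet.univ, Measure.restrict_univ, measure_univ] at h1
    by_contra hne
    have h2 : (1 : ℝ≥0∞) < μ.singularPart m univ + 1 := by
      rw [add_comm]
      exact ENNReal.lt_add_right ENNReal.one_ne_top hne
    exact absurd h1 (h2.trans_le (by gcongr)).ne
  have hs : μ.singularPart m = 0 := Measure.measure_univ_eq_zero.1 hu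
  rw [hs, zero_add] at hdec
  rw [hdec]
  exact withDensity_absolutelyContinuous _ _

theorem entB_le_of_renyi [SigmaFinite m] [IsProbabilityMeasure μ] {N T : ℝ} (hN : 1 < N)
    {B : Set X} (hB : MeasurableSet B) (hmB : m B ≠ ⊤) (hμB : μ Bᶜ = 0)
    (h : ∀ n : ℕ, ENNReal.ofReal (1 - T / (N + n)) ≤ renyiPower m μ (N + n)) :
    entB m B μ ≤ ENNReal.ofReal (T + (m B).toReal - 1) := by
  have hρm : Measurable fun x => (μ.rnDeriv m x).toReal :=
    (Measure.measurable_rnDeriv μ m).ennreal_toReal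
  have h1 : entB m B μ = ∫⁻ x in B, liminf (fun n : ℕ =>
      ENNReal.ofReal (KN (N + n) (μ.rnDeriv m x).toReal)) atTop ∂m := by
    rw [entB]
    refine lintegral_congr fun x => ?_
    exact ((ENNReal.tendsto_ofReal (tendsto_KN hN ENNReal.toReal_nonneg)).liminf_eq).symm
  rw [h1]
  refine (lintegral_liminf_le fun n => ?_).trans ?_
  · exact ENNReal.measurable_ofReal.comp ((measurable_KN _).comp hρm)
  · refine liminf_le_of_le (by isBoundedDefault) fun c hc => ?_
    obtain ⟨n, hn⟩ := hc.exists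
    refine hn.trans ?_
    have hn0 : (0 : ℝ) ≤ n := Nat.cast_nonneg n
    have hN' : 1 < N + n := by linarith
    obtain ⟨i, h2⟩ := level hN' hB hmB hμB (h n)
    rw [← ofReal_integral_eq_lintegral_ofReal i
      (Eventually.of_forall fun x => KN_nonneg hN' ENNReal.toReal_nonneg)]
    refine ENNReal.ofReal_le_ofReal (h2.trans ?_)
    have h3 := setIntegral_le_one (m := m) (μ := μ) B
    nlinarith

end renyi

section plan

variable {X : Type*} [MetricSpace X] [MeasurableSpace X] [BorelSpace X] {m μ₀ μ₁ : Measure X}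

theorem rpow_lg [SigmaFinite m] {P : Measure (UCurve X)} {μ : Measure X} [IsFiniteMeasure μ]
    {t : unitInterval} (h : timeMarginal P t = μ) (hac : μ ≪ m) (N : ℝ) :
    ∀ᵐ γ ∂P, μ.rnDeriv m (γ.toMap t) ^ (-1 / N) =
      ENNReal.ofReal (Real.exp (-(lg m μ (γ.toMap t)) / N)) := by
  have h1 : ∀ᵐ x ∂(timeMarginal P t), μ.rnDeriv m x = ENNReal.ofReal (Real.exp (lg m μ x)) := by
    rw [h]; exact ofReal_exp_lg hac
  have h2 := ae_of_ae_map (V.measurable_eval t).aemeasurable h1
  filter_upwards [h2] with γ hγ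
  rw [hγ, ENNReal.ofReal_rpow_of_pos (Real.exp_pos _), ← Real.exp_mul]
  congr 2
  ring

theorem integrable_lg_comp {P : Measure (UCurve X)} {μ : Measure X}
    {t : unitInterval} (h : timeMarginal P t = μ) (hi : Integrable (lg m μ) μ) :
    Integrable (fun γ : UCurve X => lg m μ (γ.toMap t)) P ∧
      ∫ γ, lg m μ (γ.toMap t) ∂P = ∫ x, lg m μ x ∂μ := by
  have hi' : Integrable (lg m μ) (timeMarginal P t) := by rw [h]; exact hi
  refine ⟨?_, ?_⟩
  · exact hi'.comp_aemeasurable (V.measurable_eval t).aemeasurable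
  · have := integral_map (μ := P) (V.measurable_eval t).aemeasurable
      (f := lg m μ) hi'.aestronglyMeasurable
    rw [← this]
    change ∫ x, lg m μ x ∂(timeMarginal P t) = _
    rw [h]

/-- the Rényi inequality gives a linear lower bound -/
theorem renyi_ge [SigmaFinite m] {k N : ℝ} (hk : 0 < k) (hN : 1 < N) {P : Measure (UCurve X)}
    [IsProbabilityMeasure P] [IsProbabilityMeasure μ₀] [IsProbabilityMeasure μ₁]
    (h0 : timeMarginal P 0 = μ₀) (h1 : timeMarginal P 1 = μ₁) (hac0 : μ₀ ≪ m) (hac1 : μ₁ ≪ m)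
    (hi0 : Integrable (lg m μ₀) μ₀) (hi1 : Integrable (lg m μ₁) μ₁)
    (hd : Integrable (fun γ : UCurve X => dist (γ.toMap 0) (γ.toMap 1) ^ 2) P) {c : ℝ≥0∞}
    (h : ∫⁻ γ, (distortTau (-k) N (1 / 2) (dist (γ.toMap 0) (γ.toMap 1)) *
              μ₀.rnDeriv m (γ.toMap 0) ^ (-1 / N) +
            distortTau (-k) N (1 / 2) (dist (γ.toMap 0) (γ.toMap 1)) *
              μ₁.rnDeriv m (γ.toMap 1) ^ (-1 / N)) ∂P ≤ c) :
    ENNReal.ofReal (1 - (k / 8 * ∫ γ, dist (γ.toMap 0) (γ.toMap 1) ^ 2 ∂P +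
      (∫ x, lg m μ₀ x ∂μ₀ + ∫ x, lg m μ₁ x ∂μ₁) / 2) / N) ≤ c := by
  obtain ⟨j0, e0⟩ := integrable_lg_comp (m := m) h0 hi0
  obtain ⟨j1, e1⟩ := integrable_lg_comp (m := m) h1 hi1
  rw [← e0, ← e1]
  have hint : Integrable (fun γ : UCurve X => 1 - (k / 8 * dist (γ.toMap 0) (γ.toMap 1) ^ 2 +
      (lg m μ₀ (γ.toMap 0) + lg m μ₁ (γ.toMap 1)) / 2) / N) P :=
    (integrable_const 1).sub (((hd.const_mul _).add ((j0.add j1).div_const 2)).div_const N)
  have hval : ∫ γ : UCurve X, (1 - (k / 8 * dist (γ.toMap 0) (γ.toMap 1) ^ 2 +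
      (lg m μ₀ (γ.toMap 0) + lg m μ₁ (γ.toMap 1)) / 2) / N) ∂P =
      1 - (k / 8 * ∫ γ, dist (γ.toMap 0) (γ.toMap 1) ^ 2 ∂P +
      (∫ γ, lg m μ₀ (γ.toMap 0) ∂P + ∫ γ, lg m μ₁ (γ.toMap 1) ∂P) / 2) / N := by
    have a1 := integral_sub (integrable_const (μ := P) (1 : ℝ))
      (((hd.const_mul (k / 8)).add ((j0.add j1).div_const 2)).div_const N)
    have a2 := integral_add (hd.const_mul (k / 8)) ((j0.add j1).div_const 2)
    have a3 := integral_add j0 j1
    simp only [Pi.add_apply] at a1 a2 a3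
    rw [a1, integral_div, a2, integral_const_mul, integral_div, a3]
    simp
  rw [← hval]
  refine (ofReal_integral_le hint).trans (le_trans ?_ h)
  refine lintegral_mono_ae ?_
  filter_upwards [rpow_lg h0 hac0 N, rpow_lg h1 hac1 N] with γ hγ0 hγ1
  rw [hγ0, hγ1]
  set d := dist (γ.toMap 0) (γ.toMap 1) with hd'
  have hτ := tau_half_ge hk hN (θ := d) dist_nonneg
  refine le_trans ?_ (add_le_add (mul_le_mul' hτ le_rfl) (mul_le_mul' hτ le_rfl))
  rw [← ENNReal.ofReal_mul (by positivity), ← ENNReal.ofReal_mul (by positivity),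
    ← ENNReal.ofReal_add (by positivity) (by positivity)]
  refine ENNReal.ofReal_le_ofReal ?_
  rw [mul_assoc, mul_assoc, ← Real.exp_add, ← Real.exp_add]
  have b0 := one_sub_div_le_exp N (k * d ^ 2 / 8 + lg m μ₀ (γ.toMap 0))
  have b1 := one_sub_div_le_exp N (k * d ^ 2 / 8 + lg m μ₁ (γ.toMap 1))
  have c0 : -(k * d ^ 2 / 8 + lg m μ₀ (γ.toMap 0)) / N =
      -(k * d ^ 2 / 8) / N + -(lg m μ₀ (γ.toMap 0)) / N := by ring
  have c1 : -(k * d ^ 2 / 8 + lg m μ₁ (γ.toMap 1)) / N =
      -(k * d ^ 2 / 8) / N + -(lg m μ₁ (γ.toMap 1)) / N := by ring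
  rw [c0] at b0
  rw [c1] at b1
  have e : 1 - (k / 8 * d ^ 2 + (lg m μ₀ (γ.toMap 0) + lg m μ₁ (γ.toMap 1)) / 2) / N =
      1 / 2 * (1 - (k * d ^ 2 / 8 + lg m μ₀ (γ.toMap 0)) / N) +
      1 / 2 * (1 - (k * d ^ 2 / 8 + lg m μ₁ (γ.toMap 1)) / N) := by ring
  rw [e]
  gcongr

end plan

end Crest.Agent.R242.EntAux
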