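import Mathlib
import Crest.Agent.R242.Defs
import Crest.Agent.R242.Vol1
import Crest.Agent.R242.EntC

/-!
# Row 242, part ENT: convexity of the entropy at the midpoint, from `IsCD`

`ENT_gen` is the form with a general set `B` of finite measure carrying the three measures;
`ENT` is the interface form on the ball of radius `3 R`.
-/

set_option autoImplicit false

open MeasureTheory Filter Set Metric
open scoped ENNReal NNReal Topology
open Crest.GeometryTopology.SyntheticRicci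

noncomputable section

namespace Crest.Agent.R242

variable {X : Type*} [MetricSpace X] [ProperSpace X] [MeasurableSpace X] [BorelSpace X]
  {m : Measure X} [IsLocallyFiniteMeasure m] [m.IsOpenPosMeasure] {k N : ℝ}

namespace EntAux

omit [ProperSpace X] [BorelSpace X] in
theorem secondMoment_of_ball {o : X} {R : ℝ} {μ : Measure X} [IsProbabilityMeasure μ]
    (h : μ (Metric.closedBall o R)ᶜ = 0) : HasFiniteSecondMoment μ := by
  refine ⟨o, ?_⟩
  calc ∫⁻ x, edist x o ^ 2 ∂μ ≤ ∫⁻ _, ENNReal.ofReal R ^ 2 ∂μ := by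
        refine lintegral_mono_ae ?_
        have h1 : ∀ᵐ x ∂μ, x ∈ closedBall o R := ae_iff.2 h
        filter_upwards [h1] with x hx
        gcongr
        rw [edist_dist]
        exact ENNReal.ofReal_le_ofReal (mem_closedBall.1 hx)
    _ < ⊤ := by simp

omit [ProperSpace X] [BorelSpace X] [MeasurableSpace X] in
/-- points of a geodesic -/
theorem dist_half_le {γ : UCurve X} (hγ : IsCSGeodesic γ) {o : X} {R : ℝ}
    (h0 : γ.toMap 0 ∈ closedBall o R) (h1 : γ.toMap 1 ∈ closedBall o R) (t : unitInterval) :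
    dist (γ.toMap 0) (γ.toMap 1) ≤ 2 * R ∧ γ.toMap t ∈ closedBall o (2 * R) := by
  have d0 : dist (γ.toMap 0) o ≤ R := h0
  have d1 : dist (γ.toMap 1) o ≤ R := h1
  have d01 : dist (γ.toMap 0) (γ.toMap 1) ≤ 2 * R := by
    have := dist_triangle_right (γ.toMap 0) (γ.toMap 1) o
    linarith
  refine ⟨d01, ?_⟩
  have e0 := hγ t 0
  have e1 := hγ t 1
  simp only [Icc.coe_zero, sub_zero, Icc.coe_one] at e0 e1
  have ht0 : 0 ≤ (t : ℝ) := t.2.1
  have ht1 : (t : ℝ) ≤ 1 := t.2.2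
  rw [abs_of_nonneg ht0] at e0
  rw [abs_of_nonpos (by linarith)] at e1
  rw [mem_closedBall]
  have hd : 0 ≤ dist (γ.toMap 0) (γ.toMap 1) := dist_nonneg
  rcases le_total (t : ℝ) (1 / 2) with h | h
  · have := dist_triangle (γ.toMap t) (γ.toMap 0) o
    nlinarith
  · have := dist_triangle (γ.toMap t) (γ.toMap 1) o
    nlinarith

end EntAux

open EntAux

theorem ENT_gen (H : Hyp m k N) {o : X} {R : ℝ} {M : ℝ≥0∞} (hM : M ≠ ⊤) {μ₀ μ₁ : Measure X}
    [IsProbabilityMeasure μ₀] [IsProbabilityMeasure μ₁]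
    (h₀ : μ₀ (Metric.closedBall o R)ᶜ = 0) (h₁ : μ₁ (Metric.closedBall o R)ᶜ = 0)
    (hM₀ : μ₀ ≤ M • m) (hM₁ : μ₁ ≤ M • m) :
    ∃ P, IsOptGeo P μ₀ μ₁ ∧ timeMarginal P half ≪ m ∧
      ∀ B : Set X, MeasurableSet B → m B ≠ ⊤ → μ₀ Bᶜ = 0 → μ₁ Bᶜ = 0 →
        timeMarginal P half Bᶜ = 0 →
        entB m B (timeMarginal P half) ≤ (entB m B μ₀ + entB m B μ₁) / 2 +
          ENNReal.ofReal (k / 8) * w2sq μ₀ μ₁ := by
  have hk := H.kpos
  have hN := H.one_lt
  have hac0 : μ₀ ≪ m := ac_of_le_smul hM₀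
  have hac1 : μ₁ ≪ m := ac_of_le_smul hM₁
  obtain ⟨P, hP, hgeo, hopt, hineq⟩ := H.cd μ₀ μ₁ inferInstance inferInstance
    (secondMoment_of_ball h₀) (secondMoment_of_ball h₁) hac0 hac1
  have m0 : timeMarginal P 0 = μ₀ := V.marginal_zero hopt.1
  have m1 : timeMarginal P 1 = μ₁ := V.marginal_one hopt.1
  have hmB0 : m (closedBall o R) ≠ ⊤ := measure_closedBall_lt_top.ne
  have hi0 : Integrable (lg m μ₀) μ₀ := integrable_lg hM hM₀ measurableSet_closedBall hmB0 h₀
  have hi1 : Integrable (lg m μ₁) μ₁ := integrable_lg hM hM₁ measurableSet_closedBall hmB0 h₁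
  -- the curves
  have hc0 : ∀ᵐ γ ∂P, γ.toMap 0 ∈ closedBall o R :=
    ae_of_ae_map (V.measurable_eval 0).aemeasurable (p := fun x => x ∈ closedBall o R) (by
      change ∀ᵐ x ∂(timeMarginal P 0), x ∈ closedBall o R
      rw [m0]
      exact ae_iff.2 h₀)
  have hc1 : ∀ᵐ γ ∂P, γ.toMap 1 ∈ closedBall o R :=
    ae_of_ae_map (V.measurable_eval 1).aemeasurable (p := fun x => x ∈ closedBall o R) (by
      change ∀ᵐ x ∂(timeMarginal P 1), x ∈ closedBall o R
      rw [m1]
      exact ae_iff.2 h₁)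
  have hcur : ∀ᵐ γ ∂P, dist (γ.toMap 0) (γ.toMap 1) ≤ 2 * R ∧
      γ.toMap half ∈ closedBall o (2 * R) := by
    filter_upwards [hc0, hc1, hgeo] with γ a0 a1 hg
    exact dist_half_le hg a0 a1 half
  have hdm : Measurable fun γ : UCurve X => dist (γ.toMap 0) (γ.toMap 1) :=
    ((V.continuous_eval 0).dist (V.continuous_eval 1)).measurable
  have hd : Integrable (fun γ : UCurve X => dist (γ.toMap 0) (γ.toMap 1) ^ 2) P := by
    refine (integrable_const ((2 * R) ^ 2)).mono' (hdm.pow_const 2).aestronglyMeasurable ?_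
    filter_upwards [hcur] with γ hγ
    rw [Real.norm_of_nonneg (by positivity)]
    exact pow_le_pow_left₀ dist_nonneg hγ.1 2
  set μ := timeMarginal P half with hμ
  have : IsProbabilityMeasure μ :=
    Measure.isProbabilityMeasure_map (V.measurable_eval half).aemeasurable
  have hμB : μ (closedBall o (2 * R))ᶜ = 0 := by
    rw [hμ, timeMarginal, Measure.map_apply (V.measurable_eval half)
      measurableSet_closedBall.compl]
    exact ae_iff.1 (hcur.mono fun γ hγ => hγ.2)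
  set T := k / 8 * ∫ γ, dist (γ.toMap 0) (γ.toMap 1) ^ 2 ∂P +
      (∫ x, lg m μ₀ x ∂μ₀ + ∫ x, lg m μ₁ x ∂μ₁) / 2 with hT
  have hren : ∀ n : ℕ, ENNReal.ofReal (1 - T / (N + n)) ≤ renyiPower m μ (N + n) := by
    intro n
    have hn0 : (0 : ℝ) ≤ n := Nat.cast_nonneg n
    refine renyi_ge hk (by linarith) m0 m1 hac0 hac1 hi0 hi1 hd ?_
    have h := hineq (N + n) (by linarith) half
    have e1 : ((half : unitInterval) : ℝ) = 1 / 2 := rfl
    have e2 : (1 : ℝ) - 1 / 2 = 1 / 2 := by norm_num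
    rw [e1, e2] at h
    exact h
  refine ⟨P, ⟨hP, hgeo, hopt⟩, ac_of_renyi hN measurableSet_closedBall
    measure_closedBall_lt_top.ne hμB hren, ?_⟩
  intro B hB hmB hB0 hB1 hBμ
  obtain ⟨p0, q0⟩ := entB_eq hM hM₀ hB hmB hB0
  obtain ⟨p1, q1⟩ := entB_eq hM hM₁ hB hmB hB1
  have hmain := entB_le_of_renyi hN hB hmB hBμ hren
  refine hmain.trans ?_
  rw [q0, q1]
  -- the transport cost
  have hcost : ENNReal.ofReal (∫ γ, dist (γ.toMap 0) (γ.toMap 1) ^ 2 ∂P) ≤ w2sq μ₀ μ₁ := by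
    refine le_iInf₂ fun q' hq' => ?_
    refine le_trans (le_of_eq ?_) (hopt.2 q' hq')
    rw [quadCost, endpointLaw, lintegral_map (by fun_prop) V.measurable_ends,
      ofReal_integral_eq_lintegral_ofReal hd (Eventually.of_forall fun γ => by positivity)]
    refine lintegral_congr fun γ => ?_
    rw [edist_dist, ENNReal.ofReal_pow dist_nonneg]
  have hI : 0 ≤ ∫ γ, dist (γ.toMap 0) (γ.toMap 1) ^ 2 ∂P := integral_nonneg fun γ => by positivity
  have e : T + (m B).toReal - 1 =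
      ((∫ x, lg m μ₀ x ∂μ₀ + (m B).toReal - 1) + (∫ x, lg m μ₁ x ∂μ₁ + (m B).toReal - 1)) / 2 +
      k / 8 * ∫ γ, dist (γ.toMap 0) (γ.toMap 1) ^ 2 ∂P := by
    rw [hT]; ring
  rw [e, ENNReal.ofReal_add (by positivity) (by positivity), ENNReal.ofReal_mul (by positivity),
    ENNReal.ofReal_div_of_pos (by norm_num), ENNReal.ofReal_add p0 p1]
  have e2 : ENNReal.ofReal 2 = 2 := by simp
  rw [e2]
  gcongr

/-- the base measure has a density bound `M`. -/
theorem ENT (H : Hyp m k N) {o : X} {R M : ℝ} {μ₀ μ₁ : Measure X} [IsProbabilityMeasure μ₀]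
    [IsProbabilityMeasure μ₁] (h₀ : μ₀ (Metric.closedBall o R)ᶜ = 0)
    (h₁ : μ₁ (Metric.closedBall o R)ᶜ = 0) (hM₀ : μ₀ ≤ ENNReal.ofReal M • m)
    (hM₁ : μ₁ ≤ ENNReal.ofReal M • m) :
    ∃ P, IsOptGeo P μ₀ μ₁ ∧ timeMarginal P half ≪ m ∧
      entB m (Metric.closedBall o (3 * R)) (timeMarginal P half) ≤
        (entB m (Metric.closedBall o (3 * R)) μ₀ + entB m (Metric.closedBall o (3 * R)) μ₁) / 2 +
          ENNReal.ofReal (k / 8) * w2sq μ₀ μ₁ := by
  obtain ⟨P, hP, hac, h⟩ := ENT_gen H ENNReal.ofReal_ne_top h₀ h₁ hM₀ hM₁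
  refine ⟨P, hP, hac, ?_⟩
  have hprob := hP.prob
  have m0 : timeMarginal P 0 = μ₀ := V.marginal_zero hP.opt.1
  have m1 : timeMarginal P 1 = μ₁ := V.marginal_one hP.opt.1
  have hc0 : ∀ᵐ γ ∂P, γ.toMap 0 ∈ closedBall o R :=
    ae_of_ae_map (V.measurable_eval 0).aemeasurable (p := fun x => x ∈ closedBall o R) (by
      change ∀ᵐ x ∂(timeMarginal P 0), x ∈ closedBall o R
      rw [m0]
      exact ae_iff.2 h₀)
  have hc1 : ∀ᵐ γ ∂P, γ.toMap 1 ∈ closedBall o R :=
    ae_of_ae_map (V.measurable_eval 1).aemeasurable (p := fun x => x ∈ closedBall o R) (by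
      change ∀ᵐ x ∂(timeMarginal P 1), x ∈ closedBall o R
      rw [m1]
      exact ae_iff.2 h₁)
  have hR : 0 ≤ R := by
    by_contra hneg
    push Not at hneg
    rw [closedBall_eq_empty.2 hneg, compl_empty, measure_univ] at h₀
    exact one_ne_zero h₀
  have hsub : (closedBall o (3 * R))ᶜ ⊆ (closedBall o R)ᶜ :=
    compl_subset_compl.2 (closedBall_subset_closedBall (by linarith))
  refine h _ measurableSet_closedBall measure_closedBall_lt_top.ne
    (measure_mono_null hsub h₀) (measure_mono_null hsub h₁) ?_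
  rw [timeMarginal, Measure.map_apply (V.measurable_eval half) measurableSet_closedBall.compl]
  refine ae_iff.1 ?_
  filter_upwards [hc0, hc1, hP.geod] with γ a0 a1 hg
  exact closedBall_subset_closedBall (by linarith) (dist_half_le hg a0 a1 half).2

end Crest.Agent.R242
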