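import Crest.Agent.R242.Pair

/-!
# Row 242, part F: reduction from continuous bounded `G` to Lipschitz bounded `G`
-/

set_option autoImplicit false
set_option linter.unusedSectionVars false

open MeasureTheory Filter Set
open scoped ENNReal NNReal Topology
open Crest.GeometryTopology.SyntheticRicci

noncomputable section

namespace Crest.Agent.R242
namespace Fin

section Env

variable {X : Type*} [MetricSpace X]

/-- Lipschitz envelope from above -/
def lipEnv (G : X → ℝ) (j : ℕ) (x : X) : ℝ := ⨆ y, (G y - j * dist x y)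

theorem lipEnv_bdd {G : X → ℝ} {B : ℝ} (hB : ∀ x, |G x| ≤ B) (j : ℕ) (x : X) :
    BddAbove (range fun y => G y - j * dist x y) := by
  refine ⟨B, ?_⟩
  rintro _ ⟨y, rfl⟩
  have h1 := (abs_le.1 (hB y)).2
  have h2 : 0 ≤ (j : ℝ) * dist x y := by positivity
  dsimp only
  linarith

theorem le_lipEnv {G : X → ℝ} {B : ℝ} (hB : ∀ x, |G x| ≤ B) (j : ℕ) (x : X) :
    G x ≤ lipEnv G j x := by
  have := le_ciSup (lipEnv_bdd hB j x) x
  simpa [lipEnv] using this

theorem lipEnv_le {G : X → ℝ} {B : ℝ} (hB : ∀ x, |G x| ≤ B) (j : ℕ) (x : X) :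
    lipEnv G j x ≤ B := by
  have : Nonempty X := ⟨x⟩
  refine ciSup_le fun y => ?_
  have h1 := (abs_le.1 (hB y)).2
  have h2 : 0 ≤ (j : ℝ) * dist x y := by positivity
  linarith

theorem abs_lipEnv_le {G : X → ℝ} {B : ℝ} (hB : ∀ x, |G x| ≤ B) (j : ℕ) (x : X) :
    |lipEnv G j x| ≤ B :=
  abs_le.2 ⟨(abs_le.1 (hB x)).1.trans (le_lipEnv hB j x), lipEnv_le hB j x⟩

theorem lipschitz_lipEnv {G : X → ℝ} {B : ℝ} (hB : ∀ x, |G x| ≤ B) (j : ℕ) :
    LipschitzWith (j : ℝ≥0) (lipEnv G j) := by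
  refine LipschitzWith.of_le_add_mul _ fun x x' => ?_
  have : Nonempty X := ⟨x⟩
  refine ciSup_le fun y => ?_
  have h1 := le_ciSup (lipEnv_bdd hB j x') y
  have h2 : lipEnv G j x' = ⨆ y, (G y - j * dist x' y) := rfl
  rw [← h2] at h1
  have h3 : (j : ℝ) * dist x' y ≤ j * (dist x x' + dist x y) := by
    have := dist_triangle x' x y
    rw [dist_comm x' x] at this
    gcongr
  push_cast
  linarith

theorem tendsto_lipEnv {G : X → ℝ} (hG : Continuous G) {B : ℝ} (hB : ∀ x, |G x| ≤ B) (x : X) :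
    Tendsto (fun j : ℕ => lipEnv G j x) atTop (𝓝 (G x)) := by
  have : Nonempty X := ⟨x⟩
  rw [Metric.tendsto_atTop]
  intro ε hε
  obtain ⟨δ, hδ, hcont⟩ := Metric.continuousAt_iff.1 hG.continuousAt (ε / 2) (by positivity)
  obtain ⟨j₀, hj₀⟩ := exists_nat_ge (2 * B / δ)
  refine ⟨j₀, fun j hj => ?_⟩
  have hjB : 2 * B ≤ j * δ := by
    have h1 : (2 * B / δ) ≤ j := hj₀.trans (by exact_mod_cast hj)
    rwa [div_le_iff₀ hδ] at h1
  have hle : lipEnv G j x ≤ G x + ε / 2 := by
    refine ciSup_le fun y => ?_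
    by_cases hy : dist y x < δ
    · have h1 := hcont hy
      rw [Real.dist_eq] at h1
      have h2 := (abs_lt.1 h1).2
      have h3 : 0 ≤ (j : ℝ) * dist x y := by positivity
      linarith
    · push Not at hy
      rw [dist_comm] at hy
      have h1 := (abs_le.1 (hB y)).2
      have h2 := (abs_le.1 (hB x)).1
      have h3 : (j : ℝ) * δ ≤ j * dist x y := by gcongr
      linarith
  have hge := le_lipEnv hB j x
  rw [Real.dist_eq, abs_lt]
  constructor <;> linarith

end Env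

variable {X : Type*} [MetricSpace X] [ProperSpace X] [MeasurableSpace X] [BorelSpace X]
  {m : Measure X} [IsLocallyFiniteMeasure m] [m.IsOpenPosMeasure] {k N : ℝ}

/-- monotonicity of the weak Hessian bound in `G` -/
theorem hasWeakHessLe_mono (H : Hyp m k N) {F G G' : X → ℝ} {B B' : ℝ} (hB : ∀ x, |G x| ≤ B)
    (hB' : ∀ x, |G' x| ≤ B') (hG : Continuous G) (hG' : Continuous G') (hle : ∀ x, G x ≤ G' x)
    (hH : HasWeakHessLe m F G) : HasWeakHessLe m F G' := by
  intro g hg hgc h hL hc h0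
  refine (hH g hg hgc h hL hc h0).trans ?_
  obtain ⟨-, -, ⟨Lg, hLg⟩, -⟩ := hg
  have hgs : IsSobolev m g := hLg.1
  have hgp : Integrable (gradPairing m g g) m := integrable_gp H hgs hgs
  obtain ⟨L, hL⟩ := hL
  have hhc : Continuous h := hL.continuous
  obtain ⟨M, hM⟩ := hc.exists_bound_of_continuous hhc
  have key : ∀ (K : X → ℝ) (C : ℝ), Continuous K → (∀ x, |K x| ≤ C) →
      Integrable (fun x => h x * K x * gradPairing m g g x) m := by
    intro K C hK hC
    refine hgp.bdd_mul (c := M * C) (hhc.mul hK).aestronglyMeasurable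
      (Eventually.of_forall fun x => ?_)
    rw [norm_mul]
    have hM0 : 0 ≤ M := (norm_nonneg _).trans (hM x)
    exact mul_le_mul (hM x) (by rw [Real.norm_eq_abs]; exact hC x) (norm_nonneg _) hM0
  refine integral_mono_ae (key G B hG hB) (key G' B' hG' hB') ?_
  filter_upwards [gp_self H hgs.2.1] with x hx
  rw [hx]
  have h1 := h0 x
  have h2 := hle x
  have h3 := sq_nonneg (minWeakGrad m g x)
  gcongr

theorem second_deriv_reduce (H : Hyp m k N)
    (hlip : ∀ (F G : X → ℝ), (∃ B, ∀ x, |F x| ≤ B) → (∃ L : ℝ≥0, LipschitzWith L F) →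
      (∃ B, ∀ x, |G x| ≤ B) → (∃ L : ℝ≥0, LipschitzWith L G) → HasWeakHessLe m F G →
      ∀ γ : UCurve X, IsCSGeodesic γ → SecondDerivAlongLe F G γ)
    {F G : X → ℝ} (hFb : ∃ B, ∀ x, |F x| ≤ B) (hFl : ∃ L : ℝ≥0, LipschitzWith L F)
    (hGb : ∃ B, ∀ x, |G x| ≤ B) (hGc : Continuous G) (hH : HasWeakHessLe m F G) (γ : UCurve X)
    (hγ : IsCSGeodesic γ) : SecondDerivAlongLe F G γ := by
  obtain ⟨B, hB⟩ := hGb
  intro φ hφ hφc hφs hφ0
  have hineq : ∀ j : ℕ, ∫ t in Set.Icc (0 : ℝ) 1, F (γ.ext t) * iteratedDeriv 2 φ t ≤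
      dist (γ.toMap 0) (γ.toMap 1) ^ 2 *
        ∫ t in Set.Icc (0 : ℝ) 1, lipEnv G j (γ.ext t) * φ t := fun j =>
    hlip F (lipEnv G j) hFb hFl ⟨B, abs_lipEnv_le hB j⟩ ⟨_, lipschitz_lipEnv hB j⟩
      (hasWeakHessLe_mono H hB (abs_lipEnv_le hB j) hGc (lipschitz_lipEnv hB j).continuous
        (le_lipEnv hB j) hH) γ hγ φ hφ hφc hφs hφ0
  have hγc : Continuous γ.ext := γ.toMap.continuous.comp continuous_projIcc
  have hφcont : Continuous φ := hφ.continuous
  have hlim : Tendsto (fun j : ℕ => ∫ t in Set.Icc (0 : ℝ) 1, lipEnv G j (γ.ext t) * φ t) atTop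
      (𝓝 (∫ t in Set.Icc (0 : ℝ) 1, G (γ.ext t) * φ t)) := by
    refine tendsto_integral_of_dominated_convergence (fun t => B * |φ t|) (fun j => ?_) ?_
      (fun j => ?_) ?_
    · exact (((lipschitz_lipEnv hB j).continuous.comp hγc).mul hφcont).aestronglyMeasurable
    · exact (continuous_const.mul hφcont.abs).continuousOn.integrableOn_Icc
    · refine Eventually.of_forall fun t => ?_
      rw [norm_mul, Real.norm_eq_abs, Real.norm_eq_abs]
      exact mul_le_mul_of_nonneg_right (abs_lipEnv_le hB j _) (abs_nonneg _)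
    · exact Eventually.of_forall fun t => (tendsto_lipEnv hGc hB _).mul_const _
  exact ge_of_tendsto' (hlim.const_mul _) hineq

end Fin
end Crest.Agent.R242
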