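import Crest.Agent.R242.Defs

/-!
Row 242, part F (final assembly), file 1: the differential inequality for
`H(s) = Λ (θ s) (σ s) (pt s)`, where `Λ θ x g = Jc_δ (P_θ g) (x)`.

`structure Lam` lists everything the argument uses about the functional `Λ` (for fixed
`ε, δ`); `structure PtFam` everything about the mollified Hopf-Lax family `pt s = J_κ (ψ s)`.
-/

set_option autoImplicit false
set_option linter.unusedSectionVars false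

open MeasureTheory Filter Set
open scoped ENNReal NNReal Topology
open Crest.GeometryTopology.SyntheticRicci

noncomputable section

namespace Crest.Agent.R242
namespace Fin

variable {X : Type*} [MetricSpace X] [MeasurableSpace X]

/-- square integrable and a.e. bounded -/
def B2 (m : Measure X) (g : X → ℝ) : Prop := MemLp g 2 m ∧ ∃ C : ℝ, ∀ᵐ x ∂m, |g x| ≤ C

section B2
variable {m : Measure X} {f g : X → ℝ}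

theorem B2.add (hf : B2 m f) (hg : B2 m g) : B2 m (fun x => f x + g x) := by
  obtain ⟨h1, C1, h2⟩ := hf
  obtain ⟨h3, C2, h4⟩ := hg
  refine ⟨h1.add h3, C1 + C2, ?_⟩
  filter_upwards [h2, h4] with x hx1 hx2
  exact (abs_add_le _ _).trans (add_le_add hx1 hx2)

theorem B2.const_mul (hf : B2 m f) (c : ℝ) : B2 m (fun x => c * f x) := by
  obtain ⟨h1, C1, h2⟩ := hf
  refine ⟨h1.const_mul c, |c| * C1, ?_⟩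
  filter_upwards [h2] with x hx1
  rw [abs_mul]
  exact mul_le_mul_of_nonneg_left hx1 (abs_nonneg c)

theorem B2.sub (hf : B2 m f) (hg : B2 m g) : B2 m (fun x => f x - g x) := by
  obtain ⟨h1, C1, h2⟩ := hf
  obtain ⟨h3, C2, h4⟩ := hg
  refine ⟨h1.sub h3, C1 + C2, ?_⟩
  filter_upwards [h2, h4] with x hx1 hx2
  exact (abs_sub _ _).trans (add_le_add hx1 hx2)

end B2

/-- everything used about `Λ θ x g = Jc_δ (P_θ g) (x)`, for fixed `ε, δ`; `P_θ` is the semigroup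
of `ε Δ + ⟨∇F, ∇·⟩`.
Constants: `|Gf| ≤ B`, `A = Lip F · e^{B+εk}`, `Bd = 2 ε / δ`, `c4 = c_δ ^ 4`,
`E(θ) = CE · Lz² · θ · (a0 + a1 θ)` with `a0 = C √δ`, `zδ = C √δ`. -/
structure Lam (m : Measure X) (F Gf : X → ℝ) (ε k A Bd a0 a1 c4 CE CL zδ : ℝ)
    (Λ : ℝ → X → (X → ℝ) → ℝ) : Prop where
  add : ∀ θ, 0 ≤ θ → ∀ x f g, B2 m f → B2 m g → Λ θ x (fun y => f y + g y) = Λ θ x f + Λ θ x g
  smul : ∀ θ, 0 ≤ θ → ∀ x (c : ℝ) f, B2 m f → Λ θ x (fun y => c * f y) = c * Λ θ x f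
  mono : ∀ θ, 0 ≤ θ → ∀ x f g, B2 m f → B2 m g → f ≤ᵐ[m] g → Λ θ x f ≤ Λ θ x g
  le_const : ∀ θ, 0 ≤ θ → ∀ x f, B2 m f → ∀ c, 0 ≤ c → (∀ᵐ y ∂m, f y ≤ c) → Λ θ x f ≤ c
  cont : ∀ g, B2 m g → ContinuousOn (fun p : ℝ × X => Λ p.1 p.2 g) (Ici 0 ×ˢ univ)
  small : ∀ (θ : ℕ → ℝ) (x : ℕ → X) (g : ℕ → X → ℝ) (T C : ℝ) (x₀ : X),
    (∀ n, θ n ∈ Icc 0 T) → Tendsto x atTop (𝓝 x₀) → (∀ n, MemLp (g n) 2 m) →
    (∀ n, ∀ᵐ y ∂m, |g n y| ≤ C) → Tendsto (fun n => ∫ y, (g n y) ^ 2 ∂m) atTop (𝓝 0) →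
    Tendsto (fun n => Λ (θ n) (x n) (g n)) atTop (𝓝 0)
  gen : ∀ u L, IsWeakLaplacian m u L → B2 m u → B2 m L → (∃ C, ∀ᵐ x ∂m, minWeakGrad m u x ≤ C) →
    B2 m (fun y => ε * L y + gradPairing m F u y) ∧
    ∀ θ θ' x, 0 ≤ θ → 0 ≤ θ' →
      Λ θ' x u - Λ θ x u = ∫ r in θ..θ', Λ r x (fun y => ε * L y + gradPairing m F u y)
  time : ∀ z, IsSobolev m z → ∀ Cz Lz, (∀ᵐ x ∂m, |z x| ≤ Cz) →
    (∀ᵐ x ∂m, minWeakGrad m z x ≤ Lz) → ∀ θ θ' x, 0 ≤ θ → θ ≤ 1 → 0 ≤ θ' → θ' ≤ 1 →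
      |Λ θ' x z - Λ θ x z| ≤ |θ' - θ| * (A * Lz + Bd * Cz)
  lip : ∀ z, IsSobolev m z → ∀ Cz Lz, (∀ᵐ x ∂m, |z x| ≤ Cz) →
    (∀ᵐ x ∂m, minWeakGrad m z x ≤ Lz) → ∀ θ x y, 0 ≤ θ → θ ≤ 1 →
      |Λ θ y z - Λ θ x z| ≤ CL * Lz * dist y x
  space : ∀ z, IsSobolev m z → ∀ Cz Lz, (∀ᵐ x ∂m, |z x| ≤ Cz) →
    (∀ᵐ x ∂m, minWeakGrad m z x ≤ Lz) → ∀ θ x, 0 ≤ θ → θ ≤ 1 → ∀ ρ, 0 ≤ ρ →
      c4 * (Real.exp (2 * (Gf x + ε * k) * θ) * Λ θ x (fun y => minWeakGrad m z y ^ 2)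
        + CE * Lz ^ 2 * θ * (a0 + a1 * θ)) < ρ ^ 2 →
      ∀ᶠ y in 𝓝 x, |Λ θ y z - Λ θ x z| ≤ ρ * dist y x
  zero : ∀ f (L : ℝ≥0), LipschitzWith L f → HasCompactSupport f → ∀ x,
    |Λ 0 x f - f x| ≤ zδ * L

/-- the mollified Hopf-Lax family `pt s = J_κ (ψ s)`, `s ∈ [0,1]`. -/
structure PtFam (m : Measure X) (M Lpt Cl Ls cinv : ℝ) (pt lp : ℝ → X → ℝ) : Prop where
  bdd : ∀ s ∈ Icc (0 : ℝ) 1, ∀ᵐ x ∂m, |pt s x| ≤ M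
  wg : ∀ s ∈ Icc (0 : ℝ) 1, ∀ᵐ x ∂m, minWeakGrad m (pt s) x ≤ Lpt
  lap : ∀ s ∈ Icc (0 : ℝ) 1, IsWeakLaplacian m (pt s) (lp s)
  lap_bdd : ∀ s ∈ Icc (0 : ℝ) 1, ∀ᵐ x ∂m, |lp s x| ≤ Cl
  time : ∀ s ∈ Icc (0 : ℝ) 1, ∀ t ∈ Icc (0 : ℝ) 1, ∀ᵐ x ∂m, |pt t x - pt s x| ≤ Ls * |t - s|
  der : ∀ᵐ s ∂(volume.restrict (Ioo (0 : ℝ) 1)), ∃ D : X → ℝ, MemLp D 2 m ∧
    (∀ᵐ x ∂m, |D x| ≤ Ls) ∧
    (∀ᵐ x ∂m, D x ≤ -(1 / 2) * (cinv * minWeakGrad m (pt s) x ^ 2)) ∧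
    ∀ h : ℕ → ℝ, (∀ n, 0 < h n ∧ s + h n ≤ 1) → Tendsto h atTop (𝓝 0) →
      Tendsto (fun n => ∫ x, ((h n)⁻¹ * (pt (s + h n) x - pt s x) - D x) ^ 2 ∂m) atTop (𝓝 0)

namespace Lam
variable {m : Measure X} {F Gf : X → ℝ} {ε k A Bd a0 a1 c4 CE CL zδ : ℝ}
  {Λ : ℝ → X → (X → ℝ) → ℝ}

theorem congr (hΛ : Lam m F Gf ε k A Bd a0 a1 c4 CE CL zδ Λ) {θ : ℝ} (hθ : 0 ≤ θ) (x : X)
    {f g : X → ℝ} (hf : B2 m f) (hg : B2 m g) (h : f =ᵐ[m] g) : Λ θ x f = Λ θ x g :=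
  le_antisymm (hΛ.mono θ hθ x f g hf hg h.le) (hΛ.mono θ hθ x g f hg hf h.symm.le)

theorem sub (hΛ : Lam m F Gf ε k A Bd a0 a1 c4 CE CL zδ Λ) {θ : ℝ} (hθ : 0 ≤ θ) (x : X)
    {f g : X → ℝ} (hf : B2 m f) (hg : B2 m g) :
    Λ θ x (fun y => f y - g y) = Λ θ x f - Λ θ x g := by
  have h1 := hΛ.add θ hθ x f (fun y => (-1) * g y) hf (hg.const_mul _)
  rw [hΛ.smul θ hθ x (-1) g hg] at h1
  have h2 : (fun y => f y + (-1) * g y) = fun y => f y - g y := by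
    funext y; ring
  rw [h2] at h1
  rw [h1]; ring

theorem abs_le (hΛ : Lam m F Gf ε k A Bd a0 a1 c4 CE CL zδ Λ) {θ : ℝ} (hθ : 0 ≤ θ) (x : X)
    {f : X → ℝ} (hf : MemLp f 2 m) {C : ℝ} (hC : 0 ≤ C) (h : ∀ᵐ y ∂m, |f y| ≤ C) :
    |Λ θ x f| ≤ C := by
  have hB : B2 m f := ⟨hf, C, h⟩
  rw [_root_.abs_le]
  constructor
  · have h1 := hΛ.le_const θ hθ x _ (hB.const_mul (-1)) C hC (by
      filter_upwards [h] with y hy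
      have := (_root_.abs_le.mp hy).1
      linarith)
    rw [hΛ.smul θ hθ x (-1) f hB] at h1
    linarith
  · exact hΛ.le_const θ hθ x f hB C hC (by
      filter_upwards [h] with y hy
      exact (_root_.abs_le.mp hy).2)

/-- joint sequential continuity -/
theorem tendsto (hΛ : Lam m F Gf ε k A Bd a0 a1 c4 CE CL zδ Λ) {θ : ℕ → ℝ} {x : ℕ → X}
    {g : ℕ → X → ℝ} {T C θ₀ : ℝ} {x₀ : X} {g₀ : X → ℝ} (hθ : ∀ n, θ n ∈ Icc 0 T)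
    (hθ₀ : Tendsto θ atTop (𝓝 θ₀)) (hx : Tendsto x atTop (𝓝 x₀)) (hg : ∀ n, MemLp (g n) 2 m)
    (hgC : ∀ n, ∀ᵐ y ∂m, |g n y| ≤ C) (hg₀ : B2 m g₀)
    (hlim : Tendsto (fun n => ∫ y, (g n y - g₀ y) ^ 2 ∂m) atTop (𝓝 0)) :
    Tendsto (fun n => Λ (θ n) (x n) (g n)) atTop (𝓝 (Λ θ₀ x₀ g₀)) := by
  obtain ⟨hg1, C₀, hg2⟩ := hg₀
  have hθ₀' : 0 ≤ θ₀ := ge_of_tendsto' hθ₀ fun n => (hθ n).1
  have h1 : Tendsto (fun n => Λ (θ n) (x n) (fun y => g n y - g₀ y)) atTop (𝓝 0) :=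
    hΛ.small θ x _ T (C + C₀) x₀ hθ hx (fun n => (hg n).sub hg1)
      (fun n => by
        filter_upwards [hgC n, hg2] with y h1 h2
        exact (abs_sub _ _).trans (add_le_add h1 h2)) hlim
  have h2 : Tendsto (fun n => Λ (θ n) (x n) g₀) atTop (𝓝 (Λ θ₀ x₀ g₀)) := by
    have hc := hΛ.cont g₀ ⟨hg1, C₀, hg2⟩ (θ₀, x₀) ⟨hθ₀', mem_univ _⟩
    have hseq : Tendsto (fun n => (θ n, x n)) atTop (𝓝[Ici 0 ×ˢ univ] (θ₀, x₀)) := by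
      rw [tendsto_nhdsWithin_iff]
      refine ⟨hθ₀.prodMk_nhds hx, Eventually.of_forall fun n => ⟨(hθ n).1, mem_univ _⟩⟩
    exact hc.tendsto.comp hseq
  have h3 := h1.add h2
  rw [zero_add] at h3
  refine h3.congr fun n => ?_
  rw [hΛ.sub (hθ n).1 (x n) ⟨hg n, C, hgC n⟩ ⟨hg1, C₀, hg2⟩]
  ring

end Lam

end Fin
end Crest.Agent.R242
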