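import Crest.Agent.R242.Fin1

/-!
Row 242, part F, file 2: the pointwise (in `s`) differential inequality.
-/

set_option autoImplicit false
set_option linter.unusedSectionVars false

open MeasureTheory Filter Set
open scoped ENNReal NNReal Topology
open Crest.GeometryTopology.SyntheticRicci

noncomputable section

namespace Crest.Agent.R242
namespace Fin

variable {X : Type*} [MetricSpace X] [MeasurableSpace X] {m : Measure X}

theorem wg_nonneg {u : X → ℝ} (hu : IsSobolev m u) : ∀ᵐ x ∂m, 0 ≤ minWeakGrad m u x := by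
  have h := hu.2.1.2
  unfold minWeakGrad
  rw [dif_pos h]
  exact (Classical.choose_spec h).1.2.1

theorem B2_sq {w : X → ℝ} (hw : MemLp w 2 m) {L : ℝ} (h0 : ∀ᵐ x ∂m, 0 ≤ w x)
    (h : ∀ᵐ x ∂m, w x ≤ L) : B2 m (fun x => w x ^ 2) := by
  refine ⟨?_, L ^ 2, ?_⟩
  · refine MemLp.of_le_mul (c := L) hw (hw.1.pow 2) ?_
    filter_upwards [h0, h] with x h1 h2
    rw [Real.norm_of_nonneg (by positivity), Real.norm_of_nonneg h1, sq]
    exact mul_le_mul_of_nonneg_right h2 h1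
  · filter_upwards [h0, h] with x h1 h2
    rw [abs_of_nonneg (by positivity)]
    exact pow_le_pow_left₀ h1 h2 2

theorem B2_wg_sq {u : X → ℝ} (hu : IsSobolev m u) {L : ℝ} (h : ∀ᵐ x ∂m, minWeakGrad m u x ≤ L) :
    B2 m (fun x => minWeakGrad m u x ^ 2) :=
  B2_sq hu.2.2 (wg_nonneg hu) h

/-- difference quotients of an integral with moving parameter -/
theorem tendsto_quot {φ : ℝ → X → ℝ}
    (hφ : ContinuousOn (fun p : ℝ × X => φ p.1 p.2) (Ici 0 ×ˢ univ))
    {θ : ℕ → ℝ} {x : ℕ → X} {h : ℕ → ℝ} {θ₀ θd N : ℝ} {x₀ : X}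
    (hθ : ∀ n, 0 ≤ θ n) (hh : ∀ n, 0 < h n) (hθ₀ : 0 ≤ θ₀)
    (hN : ∀ n, |θ n - θ₀| ≤ N * h n) (hh0 : Tendsto h atTop (𝓝 0))
    (hd : Tendsto (fun n => (h n)⁻¹ * (θ n - θ₀)) atTop (𝓝 θd))
    (hx : Tendsto x atTop (𝓝 x₀)) :
    Tendsto (fun n => (h n)⁻¹ * ∫ r in θ₀..θ n, φ r (x n)) atTop (𝓝 (θd * φ θ₀ x₀)) := by
  have hN0 : 0 ≤ N := by
    have := (abs_nonneg _).trans (hN 0)
    exact nonneg_of_mul_nonneg_left this (hh 0)
  have hθlim : Tendsto (fun n => |θ n - θ₀|) atTop (𝓝 0) := by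
    have h1 : Tendsto (fun n => N * h n) atTop (𝓝 0) := by
      have := hh0.const_mul N
      rwa [mul_zero] at this
    exact squeeze_zero (fun n => abs_nonneg _) hN h1
  have key : Tendsto (fun n => (h n)⁻¹ * (∫ r in θ₀..θ n, φ r (x n)) -
      (h n)⁻¹ * (θ n - θ₀) * φ θ₀ x₀) atTop (𝓝 0) := by
    rw [Metric.tendsto_atTop]
    intro e he
    have hc := hφ (θ₀, x₀) ⟨hθ₀, mem_univ _⟩
    rw [Metric.continuousWithinAt_iff] at hc
    obtain ⟨η, hη, hc⟩ := hc (e / (N + 1)) (by positivity)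
    have e1 : ∀ᶠ n in atTop, |θ n - θ₀| < η := by
      have := (tendsto_order.mp hθlim).2 η hη
      exact this
    have e2 : ∀ᶠ n in atTop, dist (x n) x₀ < η := (Metric.tendsto_atTop'.mp hx η hη).elim
      (fun n₀ hn₀ => (eventually_gt_atTop n₀).mono fun n hn => hn₀ n hn)
    obtain ⟨n₀, hn₀⟩ := (e1.and e2).exists_forall_of_atTop
    refine ⟨n₀, fun n hn => ?_⟩
    obtain ⟨h1, h2⟩ := hn₀ n hn
    have hint : IntervalIntegrable (fun r => φ r (x n)) volume θ₀ (θ n) := by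
      refine ContinuousOn.intervalIntegrable ?_
      have : ContinuousOn (fun r : ℝ => (r, x n)) (uIcc θ₀ (θ n)) := by fun_prop
      refine hφ.comp this fun r hr => ⟨?_, mem_univ _⟩
      rw [mem_Ici]
      exact (le_min hθ₀ (hθ n)).trans hr.1
    have h3 : (∫ r in θ₀..θ n, φ r (x n)) - (θ n - θ₀) * φ θ₀ x₀ =
        ∫ r in θ₀..θ n, (φ r (x n) - φ θ₀ x₀) := by
      rw [intervalIntegral.integral_sub hint intervalIntegrable_const,
        intervalIntegral.integral_const, smul_eq_mul]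
    have h4 : ‖∫ r in θ₀..θ n, (φ r (x n) - φ θ₀ x₀)‖ ≤ e / (N + 1) * |θ n - θ₀| := by
      refine intervalIntegral.norm_integral_le_of_norm_le_const fun r hr => ?_
      have hr' : r ∈ uIcc θ₀ (θ n) := uIoc_subset_uIcc hr
      have h5 : |r - θ₀| ≤ |θ n - θ₀| := by
        rw [abs_sub_comm r, abs_sub_comm (θ n)]
        have := abs_sub_left_of_mem_uIcc hr'
        rw [abs_sub_comm r, abs_sub_comm (θ n)] at this
        exact this
      have h6 := @hc (r, x n) ⟨(le_min hθ₀ (hθ n)).trans hr'.1, mem_univ _⟩ (by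
        rw [Prod.dist_eq, max_lt_iff, Real.dist_eq]
        exact ⟨h5.trans_lt h1, h2⟩)
      rw [Real.dist_eq] at h6
      exact h6.le
    rw [Real.dist_eq, sub_zero]
    have h7 : (h n)⁻¹ * (∫ r in θ₀..θ n, φ r (x n)) - (h n)⁻¹ * (θ n - θ₀) * φ θ₀ x₀ =
        (h n)⁻¹ * ∫ r in θ₀..θ n, (φ r (x n) - φ θ₀ x₀) := by
      rw [← h3]; ring
    rw [h7, abs_mul, abs_of_pos (inv_pos.mpr (hh n))]
    rw [Real.norm_eq_abs] at h4
    calc (h n)⁻¹ * |∫ r in θ₀..θ n, (φ r (x n) - φ θ₀ x₀)|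
        ≤ (h n)⁻¹ * (e / (N + 1) * (N * h n)) := by
          refine mul_le_mul_of_nonneg_left (h4.trans ?_) (inv_pos.mpr (hh n)).le
          exact mul_le_mul_of_nonneg_left (hN n) (by positivity)
      _ = e * (N / (N + 1)) := by
          have := (hh n).ne'
          field_simp
      _ < e * 1 := by
          refine mul_lt_mul_of_pos_left ?_ he
          rw [div_lt_one (by positivity)]
          linarith
      _ = e := mul_one e
  have h1 := key.add (hd.mul_const (φ θ₀ x₀))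
  rw [zero_add] at h1
  refine h1.congr fun n => ?_
  ring

end Fin
end Crest.Agent.R242
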