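import Crest.Agent.R242.Fin2

/-!
Row 242, part F, file 3: the differential inequality at a fixed time.
-/

set_option autoImplicit false
set_option linter.unusedSectionVars false
set_option linter.unusedVariables false

open MeasureTheory Filter Set
open scoped ENNReal NNReal Topology
open Crest.GeometryTopology.SyntheticRicci

noncomputable section

namespace Crest.Agent.R242
namespace Fin

variable {X : Type*} [MetricSpace X] [MeasurableSpace X] {m : Measure X}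
variable {F Gf : X → ℝ} {ε k A Bd a0 a1 c4 CE CL zδ : ℝ} {Λ : ℝ → X → (X → ℝ) → ℝ}

/-- the differential inequality at one time `s`, in terms of the limits of the three pieces -/
theorem deriv_bound_aux (hΛ : Lam m F Gf ε k A Bd a0 a1 c4 CE CL zδ Λ)
    {s H' β' d Ls M Lpt Mf Lf Cz Lz θd N : ℝ} {σ : ℝ → X} {θ : ℝ → ℝ} {pt : ℝ → X → ℝ}
    {lp D f : X → ℝ} (hs0 : 0 < s) (hs1 : s < 1) (hd : 0 ≤ d)
    (hσ : ∀ t, dist (σ t) (σ s) ≤ d * |t - s|)
    (hθ : ∀ t, 0 ≤ θ t ∧ θ t ≤ 1) (hθd : HasDerivAt θ θd s)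
    (hθN : ∀ t, |θ t - θ s| ≤ N * |t - s|)
    (hpt : ∀ t ∈ Icc (0 : ℝ) 1, B2 m (pt t)) (hpts : IsSobolev m (pt s))
    (hptt : ∀ t ∈ Icc (0 : ℝ) 1, ∀ᵐ x ∂m, |pt t x - pt s x| ≤ Ls * |t - s|)
    (hlap : IsWeakLaplacian m (pt s) lp) (hlpB : B2 m lp)
    (hwg : ∀ᵐ x ∂m, minWeakGrad m (pt s) x ≤ Lpt)
    (hD2 : MemLp D 2 m) (hDL : ∀ᵐ x ∂m, |D x| ≤ Ls)
    (hDlim : ∀ h : ℕ → ℝ, (∀ n, 0 < h n ∧ s + h n ≤ 1) → Tendsto h atTop (𝓝 0) →
      Tendsto (fun n => ∫ x, ((h n)⁻¹ * (pt (s + h n) x - pt s x) - D x) ^ 2 ∂m) atTop (𝓝 0))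
    (hf : IsSobolev m f) (hfM : ∀ᵐ x ∂m, |f x| ≤ Mf) (hfL : ∀ᵐ x ∂m, minWeakGrad m f x ≤ Lf)
    (hz : IsSobolev m (fun y => pt s y - θd * f y))
    (hzM : ∀ᵐ x ∂m, |pt s x - θd * f x| ≤ Cz)
    (hzL : ∀ᵐ x ∂m, minWeakGrad m (fun y => pt s y - θd * f y) x ≤ Lz)
    (hH : HasDerivAt (fun t => Λ (θ t) (σ t) (pt t)) H' s)
    (hβ : HasDerivAt (fun t => Λ (θ t) (σ t) f) β' s)
    {ρ : ℝ} (hρ0 : 0 ≤ ρ)
    (hρ : c4 * (Real.exp (2 * (Gf (σ s) + ε * k) * θ s) *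
        Λ (θ s) (σ s) (fun y => minWeakGrad m (fun y => pt s y - θd * f y) y ^ 2)
        + CE * Lz ^ 2 * θ s * (a0 + a1 * θ s)) < ρ ^ 2) :
    H' ≤ Λ (θ s) (σ s) D +
      θd * Λ (θ s) (σ s) (fun y => ε * lp y + gradPairing m F (pt s) y) +
      ρ * d + θd * β' + |θd| * (N * (A * Lf + Bd * Mf)) := by
  -- the sequence
  set h : ℕ → ℝ := fun n => (1 - s) / ((n : ℝ) + 1) with hh
  have hhpos : ∀ n, 0 < h n := fun n => div_pos (by linarith) (by positivity)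
  have hhle : ∀ n, s + h n ≤ 1 := by
    intro n
    have : h n ≤ (1 - s) / 1 :=
      div_le_div_of_nonneg_left (by linarith) one_pos (by
        have : (0 : ℝ) ≤ n := Nat.cast_nonneg n
        linarith)
    rw [div_one] at this
    linarith
  have hh0 : Tendsto h atTop (𝓝 0) := by
    have h1 := (tendsto_one_div_add_atTop_nhds_zero_nat (𝕜 := ℝ)).const_mul (1 - s)
    rw [mul_zero] at h1
    refine h1.congr fun n => ?_
    rw [hh, mul_one_div]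
  have hsn : Tendsto (fun n => s + h n) atTop (𝓝 s) := by
    have := hh0.const_add s
    rwa [add_zero] at this
  have hsne : Tendsto (fun n => s + h n) atTop (𝓝[≠] s) := by
    rw [tendsto_nhdsWithin_iff]
    refine ⟨hsn, Eventually.of_forall fun n => ?_⟩
    rw [mem_compl_iff, mem_singleton_iff]
    have := hhpos n
    intro hc
    linarith
  have hmem : ∀ n, s + h n ∈ Icc (0 : ℝ) 1 := fun n => ⟨by have := hhpos n; linarith, hhle n⟩
  have hsI : s ∈ Icc (0 : ℝ) 1 := ⟨hs0.le, hs1.le⟩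
  have quot : ∀ (φ : ℝ → ℝ) (φ' : ℝ), HasDerivAt φ φ' s →
      Tendsto (fun n => (h n)⁻¹ * (φ (s + h n) - φ s)) atTop (𝓝 φ') := by
    intro φ φ' hφ
    have h1 := (hasDerivAt_iff_tendsto_slope.mp hφ).comp hsne
    refine h1.congr fun n => ?_
    simp only [Function.comp_def, slope, vsub_eq_sub, smul_eq_mul]
    rw [add_sub_cancel_left]
  have hσlim : Tendsto (fun n => σ (s + h n)) atTop (𝓝 (σ s)) := by
    rw [tendsto_iff_dist_tendsto_zero]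
    refine squeeze_zero (fun n => dist_nonneg) (fun n => hσ (s + h n)) ?_
    have h1 : Tendsto (fun n => d * |s + h n - s|) atTop (𝓝 (d * |s - s|)) :=
      (hsn.sub_const s).abs.const_mul d
    simpa using h1
  have hθlim : Tendsto (fun n => θ (s + h n)) atTop (𝓝 (θ s)) := hθd.continuousAt.tendsto.comp hsn
  -- quantities
  have hptsB : B2 m (pt s) := hpt s hsI
  have hptsM := hptsB.2
  have hfB : B2 m f := ⟨hf.1, Mf, hfM⟩
  have hzB : B2 m (fun y => pt s y - θd * f y) := ⟨hz.1, Cz, hzM⟩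
  obtain ⟨hLB, hgen⟩ := hΛ.gen (pt s) lp hlap hptsB hlpB ⟨Lpt, hwg⟩
  -- T1
  have T1 : Tendsto (fun n => (h n)⁻¹ *
      Λ (θ (s + h n)) (σ (s + h n)) (fun y => pt (s + h n) y - pt s y)) atTop
      (𝓝 (Λ (θ s) (σ s) D)) := by
    have hB : ∀ n, B2 m (fun y => pt (s + h n) y - pt s y) := fun n =>
      (hpt _ (hmem n)).sub hptsB
    have h1 := hΛ.tendsto (θ := fun n => θ (s + h n)) (x := fun n => σ (s + h n))
      (g := fun n y => (h n)⁻¹ * (pt (s + h n) y - pt s y)) (T := 1) (C := Ls)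
      (θ₀ := θ s) (x₀ := σ s) (g₀ := D) (fun n => hθ _) hθlim hσlim
      (fun n => ((hB n).const_mul _).1)
      (fun n => by
        filter_upwards [hptt _ (hmem n)] with y hy
        rw [abs_mul, abs_of_pos (inv_pos.mpr (hhpos n)), inv_mul_le_iff₀ (hhpos n)]
        refine hy.trans (le_of_eq ?_)
        rw [add_sub_cancel_left, abs_of_pos (hhpos n), mul_comm])
      ⟨hD2, Ls, hDL⟩ (hDlim h (fun n => ⟨hhpos n, hhle n⟩) hh0)
    refine h1.congr fun n => ?_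
    exact hΛ.smul _ (hθ _).1 _ _ _ (hB n)
  -- T2
  have T2 : Tendsto (fun n => (h n)⁻¹ *
      (Λ (θ (s + h n)) (σ (s + h n)) (pt s) - Λ (θ s) (σ (s + h n)) (pt s))) atTop
      (𝓝 (θd * Λ (θ s) (σ s) (fun y => ε * lp y + gradPairing m F (pt s) y))) := by
    have h1 := tendsto_quot (φ := fun r x => Λ r x
        (fun y => ε * lp y + gradPairing m F (pt s) y)) (hΛ.cont _ hLB)
      (θ := fun n => θ (s + h n)) (x := fun n => σ (s + h n)) (h := h) (θ₀ := θ s) (θd := θd)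
      (N := N) (x₀ := σ s) (fun n => (hθ _).1) hhpos (hθ s).1
      (fun n => by
        have := hθN (s + h n)
        rwa [add_sub_cancel_left, abs_of_pos (hhpos n)] at this) hh0 (quot θ θd hθd) hσlim
    refine h1.congr fun n => ?_
    rw [hgen (θ s) (θ (s + h n)) (σ (s + h n)) (hθ s).1 (hθ _).1]
  -- beta
  have Tβ : Tendsto (fun n => (h n)⁻¹ *
      (Λ (θ (s + h n)) (σ (s + h n)) f - Λ (θ s) (σ s) f)) atTop (𝓝 β') := quot _ _ hβ
  have Tθ : Tendsto (fun n => (h n)⁻¹ * (θ (s + h n) - θ s)) atTop (𝓝 θd) := quot _ _ hθd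
  have TH : Tendsto (fun n => (h n)⁻¹ *
      (Λ (θ (s + h n)) (σ (s + h n)) (pt (s + h n)) - Λ (θ s) (σ s) (pt s))) atTop (𝓝 H') :=
    quot _ _ hH
  -- spatial
  have hsp := hΛ.space _ hz Cz Lz hzM hzL (θ s) (σ s) (hθ s).1 (hθ s).2 ρ hρ0 hρ
  have hspn : ∀ᶠ n in atTop, |Λ (θ s) (σ (s + h n)) (fun y => pt s y - θd * f y) -
      Λ (θ s) (σ s) (fun y => pt s y - θd * f y)| ≤ ρ * dist (σ (s + h n)) (σ s) :=
    hσlim.eventually hsp
  have hCb : 0 ≤ A * Lf + Bd * Mf ∨ True := Or.inr trivial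
  -- combine
  have hlim := ((((T1.add T2).add_const (ρ * d)).add (Tβ.const_mul θd)).add_const
    (|θd| * (N * (A * Lf + Bd * Mf))))
  refine le_of_tendsto_of_tendsto TH hlim ?_
  filter_upwards [hspn] with n hn
  set θn := θ (s + h n) with hθn
  set σn := σ (s + h n) with hσn
  have hθn0 : 0 ≤ θn := (hθ _).1
  have hhn := hhpos n
  have e1 : Λ θn σn (fun y => pt (s + h n) y - pt s y) =
      Λ θn σn (pt (s + h n)) - Λ θn σn (pt s) := hΛ.sub hθn0 _ (hpt _ (hmem n)) hptsB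
  have e2 : ∀ x, Λ (θ s) x (fun y => pt s y - θd * f y) =
      Λ (θ s) x (pt s) - θd * Λ (θ s) x f := by
    intro x
    rw [hΛ.sub (hθ s).1 x hptsB (hfB.const_mul θd), hΛ.smul _ (hθ s).1 x θd f hfB]
  have e3 : |Λ θn σn f - Λ (θ s) σn f| ≤ |θn - θ s| * (A * Lf + Bd * Mf) :=
    hΛ.time f hf Mf Lf hfM hfL (θ s) θn σn (hθ s).1 (hθ s).2 (hθ _).1 (hθ _).2
  have e4 : |θn - θ s| ≤ N * h n := by
    have := hθN (s + h n)
    rwa [add_sub_cancel_left, abs_of_pos (hhpos n)] at this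
  have e5 : dist σn (σ s) ≤ d * h n := by
    have := hσ (s + h n)
    rwa [add_sub_cancel_left, abs_of_pos (hhpos n)] at this
  rw [e2, e2] at hn
  -- cases on sign of A Lf + Bd Mf
  have e6 : |θd * (Λ θn σn f - Λ (θ s) σn f)| ≤ |θd| * (N * (A * Lf + Bd * Mf)) * h n := by
    rw [abs_mul, mul_assoc]
    refine mul_le_mul_of_nonneg_left (e3.trans ?_) (abs_nonneg _)
    rcases eq_or_lt_of_le (abs_nonneg (θn - θ s)) with h0 | h0
    · rw [← h0, zero_mul]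
      have hN0 : 0 ≤ N * h n := (abs_nonneg _).trans e4
      have hcb : 0 ≤ A * Lf + Bd * Mf := by
        -- use times 0 and 1
        have := hΛ.time f hf Mf Lf hfM hfL 0 1 σn le_rfl zero_le_one zero_le_one le_rfl
        have h2 := (abs_nonneg _).trans this
        simpa using h2
      calc (0 : ℝ) ≤ (N * h n) * (A * Lf + Bd * Mf) := mul_nonneg hN0 hcb
        _ = N * (A * Lf + Bd * Mf) * h n := by ring
    · have hcb : 0 ≤ A * Lf + Bd * Mf := by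
        have h2 := (abs_nonneg _).trans e3
        exact nonneg_of_mul_nonneg_right h2 h0
      calc |θn - θ s| * (A * Lf + Bd * Mf) ≤ (N * h n) * (A * Lf + Bd * Mf) :=
            mul_le_mul_of_nonneg_right e4 hcb
        _ = N * (A * Lf + Bd * Mf) * h n := by ring
  have e7 : (Λ (θ s) σn (pt s) - θd * Λ (θ s) σn f) -
      (Λ (θ s) (σ s) (pt s) - θd * Λ (θ s) (σ s) f) ≤ ρ * d * h n := by
    refine (le_abs_self _).trans (hn.trans ?_)
    rw [mul_assoc]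
    exact mul_le_mul_of_nonneg_left e5 hρ0
  have e8 := neg_le_of_abs_le e6
  rw [← sub_nonneg]
  have e9 : (h n)⁻¹ * (h n) = 1 := inv_mul_cancel₀ hhn.ne'
  have e10 : (h n)⁻¹ * Λ θn σn (fun y => pt (s + h n) y - pt s y) +
        (h n)⁻¹ * (Λ θn σn (pt s) - Λ (θ s) σn (pt s)) + ρ * d +
        θd * ((h n)⁻¹ * (Λ θn σn f - Λ (θ s) (σ s) f)) +
        |θd| * (N * (A * Lf + Bd * Mf)) -
      (h n)⁻¹ * (Λ θn σn (pt (s + h n)) - Λ (θ s) (σ s) (pt s)) =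
      (h n)⁻¹ * ((ρ * d * h n - ((Λ (θ s) σn (pt s) - θd * Λ (θ s) σn f) -
        (Λ (θ s) (σ s) (pt s) - θd * Λ (θ s) (σ s) f))) +
        (|θd| * (N * (A * Lf + Bd * Mf)) * h n + θd * (Λ θn σn f - Λ (θ s) σn f))) := by
    rw [e1]
    have hne := hhn.ne'
    field_simp
    ring
  rw [e10]
  refine mul_nonneg (inv_pos.mpr hhn).le (add_nonneg (by linarith) (by linarith))

/-- the differential inequality at one time `s` -/
theorem deriv_bound (hΛ : Lam m F Gf ε k A Bd a0 a1 c4 CE CL zδ Λ)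
    {s H' β' d Ls Lpt Mf Lf Cz Lz θd N Cl cinv : ℝ} {σ : ℝ → X} {θ : ℝ → ℝ} {pt : ℝ → X → ℝ}
    {lp D f g : X → ℝ} (hs0 : 0 < s) (hs1 : s < 1) (hd : 0 ≤ d) (hc4 : 0 ≤ c4) (hCE : 0 ≤ CE)
    (ha0 : 0 ≤ a0) (ha1 : 0 ≤ a1) (hcinv : cinv ≤ 1)
    (hσ : ∀ t, dist (σ t) (σ s) ≤ d * |t - s|)
    (hθ : ∀ t, 0 ≤ θ t ∧ θ t ≤ 1) (hθd : HasDerivAt θ θd s)
    (hθN : ∀ t, |θ t - θ s| ≤ N * |t - s|)
    (hpt : ∀ t ∈ Icc (0 : ℝ) 1, B2 m (pt t)) (hpts : IsSobolev m (pt s))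
    (hptt : ∀ t ∈ Icc (0 : ℝ) 1, ∀ᵐ x ∂m, |pt t x - pt s x| ≤ Ls * |t - s|)
    (hlap : IsWeakLaplacian m (pt s) lp) (hlpB : B2 m lp) (hlpC : ∀ᵐ x ∂m, |lp x| ≤ Cl)
    (hwg : ∀ᵐ x ∂m, minWeakGrad m (pt s) x ≤ Lpt)
    (hD2 : MemLp D 2 m) (hDL : ∀ᵐ x ∂m, |D x| ≤ Ls)
    (hDle : ∀ᵐ x ∂m, D x ≤ -(1 / 2) * (cinv * minWeakGrad m (pt s) x ^ 2))
    (hDlim : ∀ h : ℕ → ℝ, (∀ n, 0 < h n ∧ s + h n ≤ 1) → Tendsto h atTop (𝓝 0) →
      Tendsto (fun n => ∫ x, ((h n)⁻¹ * (pt (s + h n) x - pt s x) - D x) ^ 2 ∂m) atTop (𝓝 0))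
    (hf : IsSobolev m f) (hfM : ∀ᵐ x ∂m, |f x| ≤ Mf) (hfL : ∀ᵐ x ∂m, minWeakGrad m f x ≤ Lf)
    (hz : IsSobolev m (fun y => pt s y - θd * f y))
    (hzM : ∀ᵐ x ∂m, |pt s x - θd * f x| ≤ Cz)
    (hzL : ∀ᵐ x ∂m, minWeakGrad m (fun y => pt s y - θd * f y) x ≤ Lz)
    (hg : B2 m g)
    (hcalc : ∀ᵐ x ∂m, θd * gradPairing m F (pt s) x ≤ (1 / 2) * minWeakGrad m (pt s) x ^ 2
      - (1 / 2) * minWeakGrad m (fun y => pt s y - θd * f y) x ^ 2 + (1 / 2) * (θd ^ 2 * Lf ^ 2)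
      + |θd| * g x)
    (hH : HasDerivAt (fun t => Λ (θ t) (σ t) (pt t)) H' s)
    (hβ : HasDerivAt (fun t => Λ (θ t) (σ t) f) β' s)
    (hCl0 : 0 ≤ Cl) :
    H' ≤ (1 / 2) * (d ^ 2 * c4 * Real.exp (2 * (Gf (σ s) + ε * k) * θ s)) +
      (1 / 2) * (CE * Lz ^ 2 * θ s * (a0 + a1 * θ s) /
        Real.exp (2 * (Gf (σ s) + ε * k) * θ s)) +
      ((1 / 2) * (1 - cinv) * Lpt ^ 2 + |θd| * (|ε| * Cl) + (1 / 2) * (θd ^ 2 * Lf ^ 2)) +
      |θd| * Λ (θ s) (σ s) g + θd * β' + |θd| * (N * (A * Lf + Bd * Mf)) := by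
  set e := Real.exp (2 * (Gf (σ s) + ε * k) * θ s) with he
  have he0 : 0 < e := Real.exp_pos _
  set E := CE * Lz ^ 2 * θ s * (a0 + a1 * θ s) with hE
  have hθ0 := (hθ s).1
  have hE0 : 0 ≤ E := by positivity
  set Z : X → ℝ := fun y => minWeakGrad m (fun y => pt s y - θd * f y) y ^ 2 with hZ
  have hZB : B2 m Z := B2_wg_sq hz hzL
  set AZ := Λ (θ s) (σ s) Z with hAZ
  have hAZ0 : 0 ≤ AZ := by
    have h0 : B2 m (fun _ : X => (0 : ℝ)) := ⟨MemLp.zero', 0, by simp⟩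
    have h1 := hΛ.mono (θ s) hθ0 (σ s) _ Z h0 hZB (Eventually.of_forall fun y => by
      show (0 : ℝ) ≤ _
      positivity)
    have h2 := hΛ.smul (θ s) hθ0 (σ s) 0 Z hZB
    rw [zero_mul] at h2
    have h3 : (fun y => 0 * Z y) = fun _ : X => (0 : ℝ) := by funext y; ring
    rw [h3] at h2
    rw [h2] at h1
    exact h1
  set S := c4 * (e * AZ + E) with hS
  have hS0 : 0 ≤ S := by positivity
  -- pass to the limit in rho
  have key1 : H' ≤ Λ (θ s) (σ s) D +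
      θd * Λ (θ s) (σ s) (fun y => ε * lp y + gradPairing m F (pt s) y) +
      √S * d + θd * β' + |θd| * (N * (A * Lf + Bd * Mf)) := by
    have h1 : ∀ n : ℕ, H' ≤ Λ (θ s) (σ s) D +
        θd * Λ (θ s) (σ s) (fun y => ε * lp y + gradPairing m F (pt s) y) +
        (√S + 1 / ((n : ℝ) + 1)) * d + θd * β' + |θd| * (N * (A * Lf + Bd * Mf)) := by
      intro n
      have hn : 0 < 1 / ((n : ℝ) + 1) := by positivity
      refine deriv_bound_aux hΛ (M := 0) hs0 hs1 hd hσ hθ hθd hθN hpt hpts hptt hlap hlpB hwg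
        hD2 hDL hDlim hf hfM hfL hz hzM hzL hH hβ (by positivity) ?_
      have h2 := Real.sq_sqrt hS0
      have h3 := Real.sqrt_nonneg S
      rw [← hE]
      nlinarith
    have h2 : Tendsto (fun n : ℕ => Λ (θ s) (σ s) D +
        θd * Λ (θ s) (σ s) (fun y => ε * lp y + gradPairing m F (pt s) y) +
        (√S + 1 / ((n : ℝ) + 1)) * d + θd * β' + |θd| * (N * (A * Lf + Bd * Mf))) atTop
        (𝓝 (Λ (θ s) (σ s) D +
        θd * Λ (θ s) (σ s) (fun y => ε * lp y + gradPairing m F (pt s) y) +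
        (√S + 0) * d + θd * β' + |θd| * (N * (A * Lf + Bd * Mf)))) := by
      refine Tendsto.add_const _ (Tendsto.add_const _ (Tendsto.const_add _ ?_))
      exact (tendsto_one_div_add_atTop_nhds_zero_nat.const_add _).mul_const d
    have h3 := ge_of_tendsto' h2 h1
    rwa [add_zero] at h3
  -- AM-GM
  have key2 : √S * d ≤ (1 / 2) * (d ^ 2 * c4 * e) + (1 / 2) * AZ + (1 / 2) * (E / e) := by
    have h1 : √S * d = √((d ^ 2 * c4 * e) * (AZ + E / e)) := by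
      have : (d ^ 2 * c4 * e) * (AZ + E / e) = S * d ^ 2 := by
        rw [hS]; field_simp
      rw [this, Real.sqrt_mul hS0, Real.sqrt_sq hd]
    rw [h1]
    have ha : 0 ≤ d ^ 2 * c4 * e := by positivity
    have hb : 0 ≤ AZ + E / e := by positivity
    have h2 : √((d ^ 2 * c4 * e) * (AZ + E / e)) ≤ (1 / 2) * (d ^ 2 * c4 * e + (AZ + E / e)) := by
      rw [Real.sqrt_le_left (by positivity)]
      nlinarith [sq_nonneg (d ^ 2 * c4 * e - (AZ + E / e))]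
    linarith
  -- linear part
  obtain ⟨hLB, -⟩ := hΛ.gen (pt s) lp hlap (hpt s ⟨hs0.le, hs1.le⟩) hlpB ⟨Lpt, hwg⟩
  have hDB : B2 m D := ⟨hD2, Ls, hDL⟩
  set Lf' : X → ℝ := fun y => ε * lp y + gradPairing m F (pt s) y with hLf'
  have key3 : Λ (θ s) (σ s) D + θd * Λ (θ s) (σ s) Lf' + ((1 / 2) * AZ
      - |θd| * Λ (θ s) (σ s) g) ≤
      (1 / 2) * (1 - cinv) * Lpt ^ 2 + |θd| * (|ε| * Cl) + (1 / 2) * (θd ^ 2 * Lf ^ 2) := by
    have h1 : Λ (θ s) (σ s) (fun y => (D y + θd * Lf' y) + ((1 / 2) * Z y - |θd| * g y)) =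
        Λ (θ s) (σ s) D + θd * Λ (θ s) (σ s) Lf' + ((1 / 2) * AZ
          - |θd| * Λ (θ s) (σ s) g) := by
      rw [hΛ.add _ hθ0 _ _ _ (hDB.add (hLB.const_mul θd))
        ((hZB.const_mul _).sub (hg.const_mul _)),
        hΛ.add _ hθ0 _ _ _ hDB (hLB.const_mul θd), hΛ.smul _ hθ0 _ _ _ hLB,
        hΛ.sub hθ0 _ (hZB.const_mul _) (hg.const_mul _), hΛ.smul _ hθ0 _ _ _ hZB,
        hΛ.smul _ hθ0 _ _ _ hg]
    rw [← h1]
    refine hΛ.le_const _ hθ0 _ _ ((hDB.add (hLB.const_mul θd)).add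
      ((hZB.const_mul _).sub (hg.const_mul _))) _ ?_ ?_
    · have : 0 ≤ 1 - cinv := by linarith
      positivity
    · filter_upwards [hDle, hlpC, hcalc, hwg, wg_nonneg hpts] with y h1 h2 h3 h4 h5
      have h6 : θd * (ε * lp y) ≤ |θd| * (|ε| * Cl) := by
        refine (le_abs_self _).trans ?_
        rw [abs_mul, abs_mul]
        gcongr
      have h7 : minWeakGrad m (pt s) y ^ 2 ≤ Lpt ^ 2 := pow_le_pow_left₀ h5 h4 2
      have h8 : (1 / 2) * (1 - cinv) * minWeakGrad m (pt s) y ^ 2 ≤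
          (1 / 2) * (1 - cinv) * Lpt ^ 2 :=
        mul_le_mul_of_nonneg_left h7 (by linarith)
      simp only [hLf', hZ]
      nlinarith
  linarith

end Fin
end Crest.Agent.R242
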