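import Crest.Agent.R242.Fin3

/-!
Row 242, part F, file 4: the integrated inequality for one set of parameters.
-/

set_option autoImplicit false
set_option linter.unusedSectionVars false
set_option linter.unusedVariables false

open MeasureTheory Filter Set
open scoped ENNReal NNReal Topology
open Crest.GeometryTopology.SyntheticRicci

noncomputable section

namespace Crest.Agent.R242
namespace Fin

variable {X : Type*} [MetricSpace X] [MeasurableSpace X] {m : Measure X}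
variable {F Gf : X → ℝ} {ε k A Bd a0 a1 c4 CE CL zδ : ℝ} {Λ : ℝ → X → (X → ℝ) → ℝ}

theorem lipschitz_of_pieces (hΛ : Lam m F Gf ε k A Bd a0 a1 c4 CE CL zδ Λ)
    {Ls M L d N : ℝ} {σ : ℝ → X} {θ : ℝ → ℝ} {pt : ℝ → X → ℝ} (hd : 0 ≤ d)
    (hσ : ∀ s t, dist (σ t) (σ s) ≤ d * |t - s|)
    (hθ : ∀ t, 0 ≤ θ t ∧ θ t ≤ 1) (hθN : ∀ s t, |θ t - θ s| ≤ N * |t - s|)
    (hpt : ∀ t ∈ Icc (0 : ℝ) 1, IsSobolev m (pt t))
    (hptM : ∀ t ∈ Icc (0 : ℝ) 1, ∀ᵐ x ∂m, |pt t x| ≤ M)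
    (hptL : ∀ t ∈ Icc (0 : ℝ) 1, ∀ᵐ x ∂m, minWeakGrad m (pt t) x ≤ L)
    (hptt : ∀ s ∈ Icc (0 : ℝ) 1, ∀ t ∈ Icc (0 : ℝ) 1, ∀ᵐ x ∂m, |pt t x - pt s x| ≤ Ls * |t - s|) :
    LipschitzOnWith (Real.toNNReal (|Ls| + N * |A * L + Bd * M| + |CL * L| * d))
      (fun t => Λ (θ t) (σ t) (pt t)) (uIcc 0 1) := by
  have hN0 : 0 ≤ N := by
    have h1 := (abs_nonneg _).trans (hθN 0 1)
    simpa using h1
  rw [uIcc_of_le zero_le_one]
  refine LipschitzOnWith.of_dist_le_mul fun t ht s hs => ?_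
  rw [Real.coe_toNNReal _ (by positivity), Real.dist_eq, Real.dist_eq]
  have hB : ∀ t ∈ Icc (0 : ℝ) 1, B2 m (pt t) := fun t ht => ⟨(hpt t ht).1, M, hptM t ht⟩
  have h1 : |Λ (θ t) (σ t) (fun y => pt t y - pt s y)| ≤ |Ls| * |t - s| := by
    refine hΛ.abs_le (hθ t).1 _ ((hB t ht).sub (hB s hs)).1 (by positivity) ?_
    filter_upwards [hptt s hs t ht] with y hy
    exact hy.trans (mul_le_mul_of_nonneg_right (le_abs_self _) (abs_nonneg _))
  rw [hΛ.sub (hθ t).1 _ (hB t ht) (hB s hs)] at h1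
  have h2 : |Λ (θ t) (σ t) (pt s) - Λ (θ s) (σ t) (pt s)| ≤ N * |A * L + Bd * M| * |t - s| := by
    refine (hΛ.time _ (hpt s hs) M L (hptM s hs) (hptL s hs) (θ s) (θ t) (σ t) (hθ s).1 (hθ s).2
      (hθ t).1 (hθ t).2).trans ?_
    calc |θ t - θ s| * (A * L + Bd * M) ≤ |θ t - θ s| * |A * L + Bd * M| :=
          mul_le_mul_of_nonneg_left (le_abs_self _) (abs_nonneg _)
      _ ≤ (N * |t - s|) * |A * L + Bd * M| :=
          mul_le_mul_of_nonneg_right (hθN s t) (abs_nonneg _)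
      _ = _ := by ring
  have h3 : |Λ (θ s) (σ t) (pt s) - Λ (θ s) (σ s) (pt s)| ≤ |CL * L| * d * |t - s| := by
    refine (hΛ.lip _ (hpt s hs) M L (hptM s hs) (hptL s hs) (θ s) (σ s) (σ t) (hθ s).1
      (hθ s).2).trans ?_
    calc CL * L * dist (σ t) (σ s) ≤ |CL * L| * dist (σ t) (σ s) :=
          mul_le_mul_of_nonneg_right (le_abs_self _) dist_nonneg
      _ ≤ |CL * L| * (d * |t - s|) := mul_le_mul_of_nonneg_left (hσ s t) (abs_nonneg _)
      _ = _ := by ring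
  calc |Λ (θ t) (σ t) (pt t) - Λ (θ s) (σ s) (pt s)|
      = |(Λ (θ t) (σ t) (pt t) - Λ (θ t) (σ t) (pt s)) +
          ((Λ (θ t) (σ t) (pt s) - Λ (θ s) (σ t) (pt s)) +
            (Λ (θ s) (σ t) (pt s) - Λ (θ s) (σ s) (pt s)))| := by congr 1; ring
    _ ≤ |Ls| * |t - s| + (N * |A * L + Bd * M| * |t - s| + |CL * L| * d * |t - s|) :=
        (abs_add_le _ _).trans (add_le_add h1 ((abs_add_le _ _).trans (add_le_add h2 h3)))
    _ = _ := by ring

/-- **F-inequality** for one set of parameters -/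
theorem F_ineq (hΛ : Lam m F Gf ε k A Bd a0 a1 c4 CE CL zδ Λ)
    {Ls M d Lpt Mf Lf Cz Lz N N0 Cl cinv B : ℝ} {σ : ℝ → X} {θ : ℝ → ℝ} {pt lp : ℝ → X → ℝ}
    {f g : X → ℝ} (hd : 0 ≤ d) (hc4 : 0 ≤ c4) (hCE : 0 ≤ CE)
    (ha0 : 0 ≤ a0) (ha1 : 0 ≤ a1) (hcinv : cinv ≤ 1) (hCl0 : 0 ≤ Cl)
    (hP : PtFam m M Lpt Cl Ls cinv pt lp)
    (hσ : ∀ s t, dist (σ t) (σ s) ≤ d * |t - s|) (hGc : Continuous Gf) (hGB : ∀ x, |Gf x| ≤ B)
    (hθ : ∀ t, 0 ≤ θ t ∧ θ t ≤ 1) (hθN0 : ∀ t, θ t ≤ N0) (hθs : ContDiff ℝ 2 θ)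
    (hθN : ∀ t, |deriv θ t| ≤ N) (hθ0 : deriv θ 0 = 0) (hθ1 : deriv θ 1 = 0)
    (hf : IsSobolev m f) (hfM : ∀ᵐ x ∂m, |f x| ≤ Mf) (hfL : ∀ᵐ x ∂m, minWeakGrad m f x ≤ Lf)
    (hz : ∀ s ∈ Ioo (0 : ℝ) 1, IsSobolev m (fun y => pt s y - deriv θ s * f y))
    (hzM : ∀ s ∈ Ioo (0 : ℝ) 1, ∀ᵐ x ∂m, |pt s x - deriv θ s * f x| ≤ Cz)
    (hzL : ∀ s ∈ Ioo (0 : ℝ) 1,
      ∀ᵐ x ∂m, minWeakGrad m (fun y => pt s y - deriv θ s * f y) x ≤ Lz)
    (hg : B2 m g) (hCb : 0 ≤ A * Lf + Bd * Mf)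
    (hcalc : ∀ s ∈ Ioo (0 : ℝ) 1, ∀ᵐ x ∂m, deriv θ s * gradPairing m F (pt s) x ≤
      (1 / 2) * minWeakGrad m (pt s) x ^ 2
      - (1 / 2) * minWeakGrad m (fun y => pt s y - deriv θ s * f y) x ^ 2
      + (1 / 2) * ((deriv θ s) ^ 2 * Lf ^ 2) + |deriv θ s| * g x) :
    Λ (θ 1) (σ 1) (pt 1) - Λ (θ 0) (σ 0) (pt 0) ≤
      (∫ s in (0 : ℝ)..1,
        (1 / 2) * (d ^ 2 * c4 * Real.exp (2 * (Gf (σ s) + ε * k) * θ s))) +
      (1 / 2) * (CE * Lz ^ 2 * N0 * (a0 + a1 * N0) * Real.exp (2 * (B + |ε * k|))) +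
      ((1 / 2) * (1 - cinv) * Lpt ^ 2 + N * (|ε| * Cl) + (1 / 2) * (N ^ 2 * Lf ^ 2)) +
      (∫ s in (0 : ℝ)..1, |deriv θ s| * Λ (θ s) (σ s) g) +
      (-∫ s in (0 : ℝ)..1, deriv (deriv θ) s * Λ (θ s) (σ s) f) +
      N * (N * (A * Lf + Bd * Mf)) := by
  have hN0 : 0 ≤ N := (abs_nonneg _).trans (hθN 0)
  have hdiff : Differentiable ℝ θ := hθs.differentiable (by norm_num)
  have hθc : Continuous θ := hθs.continuous
  have hθ's : ContDiff ℝ 1 (deriv θ) := by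
    have := (contDiff_succ_iff_deriv (𝕜 := ℝ) (n := 1) (f := θ)).mp (by simpa [one_add_one_eq_two] using hθs)
    exact this.2.2
  have hθ'c : Continuous (deriv θ) := hθ's.continuous
  have hθ''c : Continuous (deriv (deriv θ)) := hθ's.continuous_deriv (by norm_num)
  have hθlip : ∀ s t, |θ t - θ s| ≤ N * |t - s| := by
    intro s t
    have := Convex.norm_image_sub_le_of_norm_deriv_le (s := (univ : Set ℝ)) (f := θ) (C := N)
      (fun x _ => hdiff x) (fun x _ => by rw [Real.norm_eq_abs]; exact hθN x) convex_univ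
      (mem_univ s) (mem_univ t)
    rwa [Real.norm_eq_abs, Real.norm_eq_abs] at this
  have hσc : Continuous σ := by
    have : LipschitzWith (Real.toNNReal d) σ := LipschitzWith.of_dist_le_mul fun t s => by
      rw [Real.coe_toNNReal _ hd, Real.dist_eq]
      exact hσ s t
    exact this.continuous
  have hptS : ∀ t ∈ Icc (0 : ℝ) 1, IsSobolev m (pt t) := fun t ht => (hP.lap t ht).1
  have hptB : ∀ t ∈ Icc (0 : ℝ) 1, B2 m (pt t) := fun t ht => ⟨(hptS t ht).1, M, hP.bdd t ht⟩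
  have hfB : B2 m f := ⟨hf.1, Mf, hfM⟩
  -- absolute continuity
  have hHac := (lipschitz_of_pieces hΛ hd hσ hθ hθlip hptS hP.bdd hP.wg
    hP.time).absolutelyContinuousOnInterval
  have hβac := (lipschitz_of_pieces (Ls := 0) hΛ hd hσ hθ hθlip (pt := fun _ => f)
    (fun _ _ => hf) (fun _ _ => hfM) (fun _ _ => hfL)
    (fun _ _ _ _ => Eventually.of_forall fun x => by simp)).absolutelyContinuousOnInterval
  have hθ'ac : AbsolutelyContinuousOnInterval (deriv θ) 0 1 := by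
    obtain ⟨K, hK⟩ := (hθ's.contDiffOn (s := uIcc 0 1)).exists_lipschitzOnWith (by norm_num)
      (convex_uIcc 0 1) isCompact_uIcc
    exact hK.absolutelyContinuousOnInterval
  set H : ℝ → ℝ := fun t => Λ (θ t) (σ t) (pt t) with hHdef
  set β : ℝ → ℝ := fun t => Λ (θ t) (σ t) f with hβdef
  have hH1 : Λ (θ 1) (σ 1) (pt 1) - Λ (θ 0) (σ 0) (pt 0) = ∫ s in (0 : ℝ)..1, deriv H s :=
    hHac.integral_deriv_eq_sub.symm
  have hβ1 : ∫ s in (0 : ℝ)..1, deriv θ s * deriv β s =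
      -∫ s in (0 : ℝ)..1, deriv (deriv θ) s * β s := by
    have := hθ'ac.integral_mul_deriv_eq_deriv_mul hβac
    rw [this, hθ0, hθ1]
    ring
  -- continuity of the s-dependent terms
  have hcg : Continuous fun s => Λ (θ s) (σ s) g := by
    have h1 := hΛ.cont g hg
    have h2 : Continuous fun s => (θ s, σ s) := hθc.prodMk hσc
    exact h1.comp_continuous h2 fun s => ⟨(hθ s).1, mem_univ _⟩
  have hce : Continuous fun s => (1 / 2) * (d ^ 2 * c4 *
      Real.exp (2 * (Gf (σ s) + ε * k) * θ s)) := by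
    have := hGc.comp hσc
    simp only [Function.comp_def] at this
    fun_prop
  have hcθg : Continuous fun s => |deriv θ s| * Λ (θ s) (σ s) g := hθ'c.abs.mul hcg
  have i1 : IntervalIntegrable (fun s => (1 / 2) * (d ^ 2 * c4 *
      Real.exp (2 * (Gf (σ s) + ε * k) * θ s))) volume 0 1 := hce.intervalIntegrable _ _
  have i2 : IntervalIntegrable (fun s => |deriv θ s| * Λ (θ s) (σ s) g) volume 0 1 :=
    hcθg.intervalIntegrable _ _
  have i3 : IntervalIntegrable (fun s => deriv θ s * deriv β s) volume 0 1 :=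
    hβac.intervalIntegrable_deriv.continuousOn_mul hθ'c.continuousOn
  set K1 : ℝ := (1 / 2) * (CE * Lz ^ 2 * N0 * (a0 + a1 * N0) * Real.exp (2 * (B + |ε * k|))) +
      ((1 / 2) * (1 - cinv) * Lpt ^ 2 + N * (|ε| * Cl) + (1 / 2) * (N ^ 2 * Lf ^ 2)) +
      N * (N * (A * Lf + Bd * Mf)) with hK1
  have hmain : ∫ s in (0 : ℝ)..1, deriv H s ≤ ∫ s in (0 : ℝ)..1,
      (((1 / 2) * (d ^ 2 * c4 * Real.exp (2 * (Gf (σ s) + ε * k) * θ s)) +
        |deriv θ s| * Λ (θ s) (σ s) g) + (deriv θ s * deriv β s + K1)) := by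
    refine intervalIntegral.integral_mono_ae_restrict zero_le_one hHac.intervalIntegrable_deriv
      ((i1.add i2).add (i3.add intervalIntegrable_const)) ?_
    have hae : ∀ᵐ s ∂(volume.restrict (Ioo (0 : ℝ) 1)), deriv H s ≤
      (((1 / 2) * (d ^ 2 * c4 * Real.exp (2 * (Gf (σ s) + ε * k) * θ s)) +
        |deriv θ s| * Λ (θ s) (σ s) g) + (deriv θ s * deriv β s + K1)) := by
      filter_upwards [hP.der, ae_restrict_of_ae hHac.ae_differentiableAt,
        ae_restrict_of_ae hβac.ae_differentiableAt, ae_restrict_mem measurableSet_Ioo] with s h1 h2 h3 hs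
      obtain ⟨D, hD2, hDL, hDle, hDlim⟩ := h1
      have hsI : s ∈ Icc (0 : ℝ) 1 := Ioo_subset_Icc_self hs
      have hsu : s ∈ uIcc (0 : ℝ) 1 := by rwa [uIcc_of_le zero_le_one]
      have hlpC := hP.lap_bdd s hsI
      have hlap := hP.lap s hsI
      have hmain := deriv_bound hΛ hs.1 hs.2 hd hc4 hCE ha0 ha1 hcinv (fun t => hσ s t) hθ
        (hdiff s).hasDerivAt (fun t => hθlip s t) hptB (hptS s hsI)
        (fun t ht => hP.time s hsI t ht) hlap ⟨hlap.2.1, Cl, hlpC⟩ hlpC (hP.wg s hsI) hD2 hDL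
        hDle hDlim hf hfM hfL (hz s hs) (hzM s hs) (hzL s hs) hg (hcalc s hs)
        (h2 hsu).hasDerivAt (h3 hsu).hasDerivAt hCl0
      refine hmain.trans ?_
      have hθs0 := (hθ s).1
      have q1 : CE * Lz ^ 2 * θ s * (a0 + a1 * θ s) /
          Real.exp (2 * (Gf (σ s) + ε * k) * θ s) ≤
          CE * Lz ^ 2 * N0 * (a0 + a1 * N0) * Real.exp (2 * (B + |ε * k|)) := by
        rw [div_eq_mul_inv, ← Real.exp_neg]
        have e1 : -(2 * (Gf (σ s) + ε * k) * θ s) ≤ 2 * (B + |ε * k|) := by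
          have g1 : -(Gf (σ s) + ε * k) ≤ B + |ε * k| := by
            have := neg_le_of_abs_le (hGB (σ s))
            have := neg_abs_le (ε * k)
            linarith
          have g2 : 0 ≤ B + |ε * k| :=
            add_nonneg ((abs_nonneg _).trans (hGB (σ s))) (abs_nonneg _)
          have g3 : -(Gf (σ s) + ε * k) * θ s ≤ (B + |ε * k|) * 1 := by
            calc -(Gf (σ s) + ε * k) * θ s ≤ (B + |ε * k|) * θ s :=
                  mul_le_mul_of_nonneg_right g1 hθs0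
              _ ≤ (B + |ε * k|) * 1 := mul_le_mul_of_nonneg_left (hθ s).2 g2
          nlinarith
        have e2 : a0 + a1 * θ s ≤ a0 + a1 * N0 := by
          have := mul_le_mul_of_nonneg_left (hθN0 s) ha1
          linarith
        have e3 : 0 ≤ a0 + a1 * θ s := by positivity
        have hN00 : 0 ≤ N0 := hθs0.trans (hθN0 s)
        gcongr
        exact hθN0 s
      have q2 : |deriv θ s| * (|ε| * Cl) ≤ N * (|ε| * Cl) :=
        mul_le_mul_of_nonneg_right (hθN s) (by positivity)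
      have q3 : (deriv θ s) ^ 2 * Lf ^ 2 ≤ N ^ 2 * Lf ^ 2 := by
        refine mul_le_mul_of_nonneg_right ?_ (sq_nonneg _)
        rw [← sq_abs]
        exact pow_le_pow_left₀ (abs_nonneg _) (hθN s) 2
      have q4 : |deriv θ s| * (N * (A * Lf + Bd * Mf)) ≤ N * (N * (A * Lf + Bd * Mf)) :=
        mul_le_mul_of_nonneg_right (hθN s) (by positivity)
      simp only [hK1]
      linarith
    rw [← restrict_Ioo_eq_restrict_Icc]
    exact hae
  rw [hH1]
  refine hmain.trans (le_of_eq ?_)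
  rw [intervalIntegral.integral_add (i1.add i2) (i3.add intervalIntegrable_const),
    intervalIntegral.integral_add i1 i2, intervalIntegral.integral_add i3 intervalIntegrable_const,
    intervalIntegral.integral_const, hβ1, hK1]
  simp only [sub_zero, one_smul]
  ring

end Fin
end Crest.Agent.R242
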