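import Crest.Agent.R242.Defs

/-!
Row 242, part F, file 5: the limit of the parameters (pure real analysis).
-/

set_option autoImplicit false
set_option linter.unusedVariables false

open MeasureTheory Filter Set
open scoped ENNReal NNReal Topology

noncomputable section

namespace Crest.Agent.R242
namespace Fin

/-- the limit `δ → 0`, then `τ → 0` -/
theorem limit_step {d B k h₀ C N0 I : ℝ} {G η : ℝ → ℝ} (hh₀ : 0 < h₀) (hC : 0 ≤ C)
    (hk : 0 ≤ k) (hN0 : 0 ≤ N0)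
    (hG : Continuous G) (hGB : ∀ s, |G s| ≤ B) (hη : Continuous η) (hη0 : ∀ s, 0 ≤ η s)
    (hηN : ∀ s, η s ≤ N0)
    (hineq : ∃ τ₀ : ℝ, 0 < τ₀ ∧ ∀ τ, 0 < τ → τ ≤ τ₀ → ∀ δ, 0 < δ → δ < h₀ → ∀ e : ℝ, 0 < e →
      d ^ 2 / 2 ≤ (∫ s in (0 : ℝ)..1, (1 / 2) * (d ^ 2 * ((1 - 2 * δ * k)⁻¹ ^ 2) *
        Real.exp (2 * (G s + δ ^ 2 * k) * (τ * η s)))) - τ * I + C * (√δ + τ ^ 2) + e) :
    I ≤ d ^ 2 * ∫ s in (0 : ℝ)..1, G s * η s := by
  obtain ⟨τ₀, hτ₀, hineq⟩ := hineq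
  have hB0 : 0 ≤ B := (abs_nonneg _).trans (hGB 0)
  -- step 1
  have h1 : ∀ τ, 0 < τ → τ ≤ τ₀ → ∀ δ, 0 < δ → δ < h₀ →
      d ^ 2 / 2 ≤ (∫ s in (0 : ℝ)..1, (1 / 2) * (d ^ 2 * ((1 - 2 * δ * k)⁻¹ ^ 2) *
        Real.exp (2 * (G s + δ ^ 2 * k) * (τ * η s)))) - τ * I + C * (√δ + τ ^ 2) := by
    intro τ hτ hτ' δ hδ hδ'
    refine le_of_forall_pos_le_add fun e he => ?_
    exact hineq τ hτ hτ' δ hδ hδ' e he
  -- step 2
  have h2 : ∀ τ, 0 < τ → τ ≤ τ₀ →
      d ^ 2 / 2 ≤ (1 / 2) * d ^ 2 * (∫ s in (0 : ℝ)..1, Real.exp (2 * G s * (τ * η s)))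
        - τ * I + C * τ ^ 2 := by
    intro τ hτ hτ'
    have hcexp : Continuous fun s => Real.exp (2 * G s * (τ * η s)) := by fun_prop
    have hE0 : 0 ≤ ∫ s in (0 : ℝ)..1, Real.exp (2 * G s * (τ * η s)) :=
      intervalIntegral.integral_nonneg zero_le_one fun s _ => (Real.exp_pos _).le
    set E := ∫ s in (0 : ℝ)..1, Real.exp (2 * G s * (τ * η s)) with hE
    have hb : ∀ δ, 0 < δ → δ < h₀ → (∫ s in (0 : ℝ)..1, (1 / 2) * (d ^ 2 *
        ((1 - 2 * δ * k)⁻¹ ^ 2) * Real.exp (2 * (G s + δ ^ 2 * k) * (τ * η s)))) ≤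
        (1 / 2) * (d ^ 2 * ((1 - 2 * δ * k)⁻¹ ^ 2)) * (Real.exp (2 * (δ ^ 2 * k) * (τ * N0)) *
          E) := by
      intro δ hδ hδ'
      rw [hE, ← intervalIntegral.integral_const_mul, ← intervalIntegral.integral_const_mul]
      refine intervalIntegral.integral_mono_on zero_le_one ?_ ?_ fun s _ => ?_
      · exact Continuous.intervalIntegrable (by fun_prop) _ _
      · exact Continuous.intervalIntegrable (by fun_prop) _ _
      · rw [← Real.exp_add, mul_assoc (1 / 2 : ℝ)]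
        have h3 : Real.exp (2 * (G s + δ ^ 2 * k) * (τ * η s)) ≤
            Real.exp (2 * (δ ^ 2 * k) * (τ * N0) + 2 * G s * (τ * η s)) := by
          apply Real.exp_le_exp.mpr
          have : (δ ^ 2 * k) * (τ * η s) ≤ (δ ^ 2 * k) * (τ * N0) := by
            have := hηN s
            gcongr
          nlinarith
        have h4 : 0 ≤ d ^ 2 * ((1 - 2 * δ * k)⁻¹ ^ 2) := by positivity
        have := mul_le_mul_of_nonneg_left h3 h4
        linarith
    have hlim : Tendsto (fun δ : ℝ => (1 / 2) * (d ^ 2 * ((1 - 2 * δ * k)⁻¹ ^ 2)) *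
        (Real.exp (2 * (δ ^ 2 * k) * (τ * N0)) * E) - τ * I + C * (√δ + τ ^ 2)) (𝓝[>] 0)
        (𝓝 ((1 / 2) * (d ^ 2 * ((1 - 2 * 0 * k)⁻¹ ^ 2)) *
        (Real.exp (2 * ((0 : ℝ) ^ 2 * k) * (τ * N0)) * E) - τ * I + C * (√0 + τ ^ 2))) := by
      refine tendsto_nhdsWithin_of_tendsto_nhds ?_
      have hca : ContinuousAt (fun δ : ℝ => (1 - 2 * δ * k)⁻¹) 0 := by
        refine ContinuousAt.inv₀ (by fun_prop) (by norm_num)
      have hcb : ContinuousAt (fun δ : ℝ => √δ) 0 := Real.continuous_sqrt.continuousAt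
      have : ContinuousAt (fun δ : ℝ => (1 / 2) * (d ^ 2 * ((1 - 2 * δ * k)⁻¹ ^ 2)) *
        (Real.exp (2 * (δ ^ 2 * k) * (τ * N0)) * E) - τ * I + C * (√δ + τ ^ 2)) 0 := by
        fun_prop
      exact this.tendsto
    have h3 : d ^ 2 / 2 ≤ (1 / 2) * (d ^ 2 * ((1 - 2 * 0 * k)⁻¹ ^ 2)) *
        (Real.exp (2 * ((0 : ℝ) ^ 2 * k) * (τ * N0)) * E) - τ * I + C * (√0 + τ ^ 2) := by
      refine ge_of_tendsto hlim ?_
      filter_upwards [self_mem_nhdsWithin, Ioo_mem_nhdsGT hh₀] with δ hδ hδ'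
      have := h1 τ hτ hτ' δ hδ hδ'.2
      have h4 := hb δ hδ hδ'.2
      linarith
    simp at h3
    linarith
  -- step 3
  have h3 : ∀ τ, 0 < τ → τ ≤ τ₀ → 2 * B * N0 * τ ≤ 1 →
      I ≤ d ^ 2 * (∫ s in (0 : ℝ)..1, G s * η s) + τ * (C + 2 * d ^ 2 * (B * N0) ^ 2) := by
    intro τ hτ hτ' hsm
    have h4 := h2 τ hτ hτ'
    have h5 : ∫ s in (0 : ℝ)..1, Real.exp (2 * G s * (τ * η s)) ≤
        ∫ s in (0 : ℝ)..1, ((1 + (2 * B * N0 * τ) ^ 2) + (2 * τ) * (G s * η s)) := by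
      refine intervalIntegral.integral_mono_on zero_le_one ?_ ?_ fun s _ => ?_
      · exact Continuous.intervalIntegrable (by fun_prop) _ _
      · exact Continuous.intervalIntegrable (by fun_prop) _ _
      · have hx : |2 * G s * (τ * η s)| ≤ 2 * B * N0 * τ := by
          rw [abs_mul, abs_mul, abs_of_pos (by norm_num : (0:ℝ) < 2), abs_mul,
            abs_of_pos hτ, abs_of_nonneg (hη0 s)]
          have h6 := hGB s
          have h7 := hηN s
          have h8 := hη0 s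
          calc 2 * |G s| * (τ * η s) ≤ 2 * B * (τ * N0) := by gcongr
            _ = _ := by ring
        have h6 := Real.abs_exp_sub_one_sub_id_le (hx.trans hsm)
        have h7 := (abs_le.mp h6).2
        have h8 : (2 * G s * (τ * η s)) ^ 2 ≤ (2 * B * N0 * τ) ^ 2 := by
          rw [← sq_abs]
          exact pow_le_pow_left₀ (abs_nonneg _) hx 2
        linarith
    rw [intervalIntegral.integral_add (by simp)
      (Continuous.intervalIntegrable (by fun_prop) _ _), intervalIntegral.integral_const,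
      intervalIntegral.integral_const_mul] at h5
    simp only [sub_zero, one_smul] at h5
    set J := ∫ s in (0 : ℝ)..1, G s * η s with hJ
    have h6 : (1 / 2) * d ^ 2 * (∫ s in (0 : ℝ)..1, Real.exp (2 * G s * (τ * η s))) ≤
        (1 / 2) * d ^ 2 * (1 + (2 * B * N0 * τ) ^ 2 + 2 * τ * J) :=
      mul_le_mul_of_nonneg_left h5 (by positivity)
    have h7 : τ * I ≤ τ * (d ^ 2 * J + τ * (C + 2 * d ^ 2 * (B * N0) ^ 2)) := by
      nlinarith
    exact le_of_mul_le_mul_left h7 hτ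
  -- step 4
  have hlim : Tendsto (fun τ : ℝ => d ^ 2 * (∫ s in (0 : ℝ)..1, G s * η s) +
      τ * (C + 2 * d ^ 2 * (B * N0) ^ 2)) (𝓝[>] 0)
      (𝓝 (d ^ 2 * (∫ s in (0 : ℝ)..1, G s * η s) + 0 * (C + 2 * d ^ 2 * (B * N0) ^ 2))) := by
    refine tendsto_nhdsWithin_of_tendsto_nhds ?_
    exact ((continuous_id.mul continuous_const).const_add _).tendsto 0
  rw [zero_mul, add_zero] at hlim
  refine ge_of_tendsto hlim ?_
  have hpos : 0 < min τ₀ (1 / (2 * B * N0 + 1)) := by positivity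
  filter_upwards [self_mem_nhdsWithin, Ioo_mem_nhdsGT hpos] with τ hτ hτ'
  refine h3 τ hτ (hτ'.2.le.trans (min_le_left _ _)) ?_
  have h4 : τ ≤ 1 / (2 * B * N0 + 1) := hτ'.2.le.trans (min_le_right _ _)
  have h5 : 0 ≤ 2 * B * N0 := by positivity
  calc 2 * B * N0 * τ ≤ 2 * B * N0 * (1 / (2 * B * N0 + 1)) := mul_le_mul_of_nonneg_left h4 h5
    _ = 2 * B * N0 / (2 * B * N0 + 1) := by ring
    _ ≤ 1 := by
      rw [div_le_one (by positivity)]
      linarith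

end Fin
end Crest.Agent.R242
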