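import Crest.Agent.R242.BEInst
import Crest.Agent.R242.Contr

/-!
# Row 242, PART B: existence of `h₀` with all good properties of the resolvents (helper216)
-/

set_option autoImplicit false
open MeasureTheory Filter Set
open scoped ENNReal NNReal Topology
open Crest.GeometryTopology.SyntheticRicci

noncomputable section
namespace Crest.Agent.R242

variable {X : Type*} [MetricSpace X] [ProperSpace X] [MeasurableSpace X] [BorelSpace X]
  {m : Measure X} [IsLocallyFiniteMeasure m] [m.IsOpenPosMeasure] {k N : ℝ}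

theorem exists_goodJ' (H : Hyp m k N) :
    ∃ h₀ : ℝ, GoodJ m k h₀ ∧ ∀ h, 0 < h → h ≤ h₀ → JFacts m (1 - 2 * h * k)⁻¹ (J m h) := by
  obtain ⟨h₀, h0, -, hc⟩ := C1 H
  refine exists_goodJ_of_contr H ⟨h₀, h0, fun h hh hh0 _ ρ ρ' hρ hρ' => hc h hh hh0 ρ ρ' ?_ ?_⟩
  · exact ⟨hρ.meas, hρ.nonneg, hρ.bdd, hρ.supp, hρ.int⟩
  · exact ⟨hρ'.meas, hρ'.nonneg, hρ'.bdd, hρ'.supp, hρ'.int⟩

/-- there is `h₀` with all the good properties. -/
theorem exists_goodJ (H : Hyp m k N) : ∃ h₀ : ℝ, GoodJ m k h₀ := by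
  obtain ⟨h₀, h, -⟩ := exists_goodJ' H
  exact ⟨h₀, h⟩

/-- [BE], pointwise form. -/
theorem exists_be_pointwise (H : Hyp m k N) : ∃ h₀ : ℝ, 0 < h₀ ∧ ∀ h, 0 < h → h ≤ h₀ →
    ∀ f : X → ℝ, IsSobolev m f → MemLp (fun x => minWeakGrad m f x ^ 2) 2 m →
      ∀ᵐ x ∂m, minWeakGrad m (J m h f) x ^ 2 ≤
        (1 - 2 * h * k)⁻¹ * J m h (fun y => minWeakGrad m f y ^ 2) x := by
  obtain ⟨h₀, g, hJ⟩ := exists_goodJ' H
  refine ⟨h₀, g.pos, fun h hh hh0 f hf hf4 => ?_⟩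
  have h1 : h * k ≤ h₀ * k := mul_le_mul_of_nonneg_right hh0 H.kpos.le
  have h2 := g.small
  exact be_pointwise (beCalc_of_hyp H) (inv_pos.2 (by nlinarith)) (hJ h hh hh0) hf hf4

end Crest.Agent.R242
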