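import Crest.Agent.R242.Defs

/-!
# Distortion coefficients (row 242, V1 and the bounds used in ENT and V2)
-/

set_option autoImplicit false
open MeasureTheory Filter Set
open scoped ENNReal NNReal Topology
open Crest.GeometryTopology.SyntheticRicci

namespace Crest.Agent.R242

theorem sinh_mul_le {t a : ℝ} (ht0 : 0 ≤ t) (ht1 : t ≤ 1) (ha : 0 ≤ a) :
    Real.sinh (t * a) ≤ t * Real.sinh a := by
  have hmono : MonotoneOn (fun x => t * Real.sinh x - Real.sinh (t * x)) (Set.Ici 0) := by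
    apply monotoneOn_of_deriv_nonneg (convex_Ici 0)
    · fun_prop
    · fun_prop
    · intro x hx
      rw [interior_Ici] at hx
      have h1 : HasDerivAt (fun x => t * Real.sinh x - Real.sinh (t * x))
          (t * Real.cosh x - Real.cosh (t * x) * (t * 1)) x :=
        ((Real.hasDerivAt_sinh x).const_mul t).sub
          ((Real.hasDerivAt_sinh (t * x)).comp x ((hasDerivAt_id x).const_mul t))
      rw [h1.deriv]
      have hx0 : (0 : ℝ) < x := hx
      have h2 : Real.cosh (t * x) ≤ Real.cosh x := by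
        rw [Real.cosh_le_cosh, abs_of_nonneg (by positivity), abs_of_pos hx0]
        nlinarith
      nlinarith
  have h := hmono (a := 0) (b := a) (by simp) ha ha
  simp only [mul_zero, Real.sinh_zero, sub_zero] at h
  linarith

theorem mul_sin_le {t a : ℝ} (ht0 : 0 ≤ t) (ht1 : t ≤ 1) (ha : 0 ≤ a) (ha' : a ≤ Real.pi) :
    t * Real.sin a ≤ Real.sin (t * a) := by
  have h0 : (0 : ℝ) ∈ Set.Icc 0 Real.pi := ⟨le_rfl, Real.pi_pos.le⟩
  have h1 : a ∈ Set.Icc 0 Real.pi := ⟨ha, ha'⟩
  have hc := strictConcaveOn_sin_Icc.concaveOn.2 h0 h1 (show 0 ≤ 1 - t by linarith) ht0 (by ring)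
  simpa using hc

theorem sinh_le_mul_exp {a : ℝ} (ha : 0 ≤ a) : Real.sinh a ≤ a * Real.exp a := by
  have h1 : Real.sinh a ≤ a * Real.cosh a := by
    have hmono : MonotoneOn (fun x => x * Real.cosh x - Real.sinh x) (Set.Ici 0) := by
      apply monotoneOn_of_deriv_nonneg (convex_Ici 0)
      · fun_prop
      · fun_prop
      · intro x hx
        rw [interior_Ici] at hx
        have h1 : HasDerivAt (fun x => x * Real.cosh x - Real.sinh x)
            ((1 * Real.cosh x + x * Real.sinh x) - Real.cosh x) x :=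
          ((hasDerivAt_id x).mul (Real.hasDerivAt_cosh x)).sub (Real.hasDerivAt_sinh x)
        rw [h1.deriv]
        have hx0 : (0 : ℝ) < x := hx
        have h2 : 0 ≤ Real.sinh x := Real.sinh_nonneg_iff.2 hx0.le
        nlinarith
    have h := hmono (a := 0) (b := a) (by simp) ha ha
    simp only [Real.cosh_zero, Real.sinh_zero, mul_one, sub_zero] at h
    linarith
  have h2 : Real.cosh a ≤ Real.exp a := by
    rw [Real.cosh_eq]
    have : Real.exp (-a) ≤ Real.exp a := Real.exp_le_exp.2 (by linarith)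
    linarith
  nlinarith

/-- the reduced coefficient for negative curvature is at most `t`. -/
theorem distortSigma_neg_le {k M t θ : ℝ} (hk : 0 < k) (hM : 0 < M) (ht0 : 0 ≤ t) (ht1 : t ≤ 1)
    (hθ : 0 ≤ θ) : distortSigma (-k) M t θ ≤ ENNReal.ofReal t := by
  unfold distortSigma
  have hk1 : ¬ (0 < -k) := by linarith
  have hk2 : ¬ (-k = 0) := by linarith
  rw [if_neg hk1, if_neg hk2]
  split_ifs with h1 h2 h3
  · simp
  · have : t = 1 := le_antisymm ht1 h2
    rw [this]; simp
  · exact le_rfl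
  · apply ENNReal.ofReal_le_ofReal
    have hθ' : 0 < θ := lt_of_le_of_ne hθ (Ne.symm h3)
    have hs : 0 < Real.sqrt (- -k / M) := by
      apply Real.sqrt_pos.2
      rw [neg_neg]; positivity
    have ha : 0 < θ * Real.sqrt (- -k / M) := by positivity
    have hsinh : 0 < Real.sinh (θ * Real.sqrt (- -k / M)) := Real.sinh_pos_iff.2 ha
    rw [div_le_iff₀ hsinh]
    have := sinh_mul_le ht0 ht1 ha.le
    rwa [← mul_assoc] at this

/-- the reduced coefficient for nonnegative curvature is at least `t`. -/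
theorem le_distortSigma_nonneg {K M t θ : ℝ} (hK : 0 ≤ K) (hM : 0 < M) (ht0 : 0 ≤ t) (ht1 : t ≤ 1)
    (hθ : 0 ≤ θ) : ENNReal.ofReal t ≤ distortSigma K M t θ := by
  unfold distortSigma
  split_ifs with h1 h2 h3 h4 h5 h6
  · rw [ENNReal.ofReal_of_nonpos h1]
  · have : t = 1 := le_antisymm ht1 h2
    rw [this]; simp
  · exact le_rfl
  · apply ENNReal.ofReal_le_ofReal
    have hθ' : 0 < θ := lt_of_le_of_ne hθ (Ne.symm h3)
    have hs : 0 < Real.sqrt (K / M) := Real.sqrt_pos.2 (by positivity)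
    have ha : 0 < θ * Real.sqrt (K / M) := by positivity
    have hlt : θ * Real.sqrt (K / M) < Real.pi := by
      have h7 : (θ * Real.sqrt (K / M)) ^ 2 < Real.pi ^ 2 := by
        rw [mul_pow, Real.sq_sqrt (by positivity)]
        rw [mul_div_assoc', div_lt_iff₀ hM]
        linarith
      exact lt_of_pow_lt_pow_left₀ 2 Real.pi_pos.le h7
    have hsin : 0 < Real.sin (θ * Real.sqrt (K / M)) := Real.sin_pos_of_pos_of_lt_pi ha hlt
    rw [le_div_iff₀ hsin]
    have := mul_sin_le ht0 ht1 ha.le hlt.le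
    rwa [← mul_assoc] at this
  · exact le_top
  · exact le_rfl
  · exfalso
    exact h4 (lt_of_le_of_ne hK (Ne.symm h6))

/-- monotonicity of the coefficients from `K ≥ 0` to `-k`. -/
theorem distortTau_neg_le {K k N t θ : ℝ} (hK : 0 ≤ K) (hk : 0 < k) (hN : 1 < N) (ht0 : 0 ≤ t)
    (ht1 : t ≤ 1) (hθ : 0 ≤ θ) : distortTau (-k) N t θ ≤ distortTau K N t θ := by
  unfold distortTau
  have hN1 : 0 < N - 1 := by linarith
  have h := (distortSigma_neg_le hk hN1 ht0 ht1 hθ).trans
    (le_distortSigma_nonneg hK hN1 ht0 ht1 hθ)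
  have hexp : 0 ≤ (N - 1) / N := by positivity
  gcongr

variable {X : Type*} [MetricSpace X] [MeasurableSpace X]

/-- `[V1]` reduction to negative curvature bounds. -/
theorem exists_isCD_neg {m : Measure X} {K N : ℝ} (hN : 1 < N) (h : IsCD m K N) :
    ∃ k : ℝ, 0 < k ∧ IsCD m (-k) N := by
  rcases lt_or_ge K 0 with hK | hK
  · exact ⟨-K, by linarith, by simpa using h⟩
  · refine ⟨1, one_pos, ?_⟩
    intro μ₀ μ₁ p₀ p₁ s₀ s₁ a₀ a₁
    obtain ⟨P, hP, hg, hopt, hineq⟩ := h μ₀ μ₁ p₀ p₁ s₀ s₁ a₀ a₁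
    refine ⟨P, hP, hg, hopt, fun N' hN' t => ?_⟩
    refine le_trans ?_ (hineq N' hN' t)
    refine lintegral_mono fun γ => ?_
    have h1 : distortTau (-1) N' (1 - (t : ℝ)) (dist (γ.toMap 0) (γ.toMap 1)) ≤
        distortTau K N' (1 - (t : ℝ)) (dist (γ.toMap 0) (γ.toMap 1)) :=
      distortTau_neg_le hK one_pos (hN.trans_le hN') (by linarith [t.2.2]) (by linarith [t.2.1])
        dist_nonneg
    have h2 : distortTau (-1) N' (t : ℝ) (dist (γ.toMap 0) (γ.toMap 1)) ≤
        distortTau K N' (t : ℝ) (dist (γ.toMap 0) (γ.toMap 1)) :=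
      distortTau_neg_le hK one_pos (hN.trans_le hN') t.2.1 t.2.2 dist_nonneg
    exact add_le_add (mul_le_mul_left h1 _) (mul_le_mul_left h2 _)

theorem exists_hyp {m : Measure X} {K N : ℝ} (hfin : IsFiniteOnBalls m) (hN : 1 < N)
    (hRCD : IsRCD m K N) : ∃ k : ℝ, Hyp m k N := by
  obtain ⟨k, hk, hcd⟩ := exists_isCD_neg hN hRCD.1
  exact ⟨k, ⟨hfin, hN, hk, hcd, hRCD.2⟩⟩

/-! ### Explicit formulas and bounds for `K = -k` -/

/-- formula for the coefficient at the midpoint. -/
theorem distortTau_half {k N θ : ℝ} (hk : 0 < k) (hN : 1 < N) (hθ : 0 ≤ θ) :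
    distortTau (-k) N (1 / 2) θ = ENNReal.ofReal
      (1 / 2 * Real.cosh (θ * Real.sqrt (k / (N - 1)) / 2) ^ (-((N - 1) / N))) := by
  have hN0 : 0 < N := by linarith
  have hN1 : 0 < N - 1 := by linarith
  have hsig : distortSigma (-k) (N - 1) (1 / 2) θ =
      ENNReal.ofReal (1 / 2 * (Real.cosh (θ * Real.sqrt (k / (N - 1)) / 2))⁻¹) := by
    unfold distortSigma
    rw [if_neg (by norm_num), if_neg (by norm_num)]
    split_ifs with h1 h2 h3 h4
    · rw [h1]; simp
    · exfalso; linarith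
    · exfalso; linarith
    · exfalso; linarith
    · have hθ' : 0 < θ := lt_of_le_of_ne hθ (Ne.symm h1)
      congr 1
      rw [neg_neg]
      set a := θ * Real.sqrt (k / (N - 1)) with ha
      have hapos : 0 < a := by
        have : 0 < Real.sqrt (k / (N - 1)) := Real.sqrt_pos.2 (by positivity)
        positivity
      have e1 : 1 / 2 * θ * Real.sqrt (k / (N - 1)) = a / 2 := by rw [ha]; ring
      rw [e1]
      have e2 : Real.sinh a = 2 * Real.sinh (a / 2) * Real.cosh (a / 2) := by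
        rw [← Real.sinh_two_mul]; congr 1; ring
      rw [e2]
      have h3 : 0 < Real.sinh (a / 2) := Real.sinh_pos_iff.2 (by linarith)
      have h4 : 0 < Real.cosh (a / 2) := Real.cosh_pos _
      field_simp
  unfold distortTau
  rw [hsig]
  have hc : 0 < Real.cosh (θ * Real.sqrt (k / (N - 1)) / 2) := Real.cosh_pos _
  rw [ENNReal.ofReal_rpow_of_pos (by norm_num), ENNReal.ofReal_rpow_of_pos (by positivity),
    ← ENNReal.ofReal_mul (by positivity)]
  congr 1
  rw [Real.mul_rpow (by norm_num) (by positivity), ← mul_assoc,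
    ← Real.rpow_add (by norm_num), Real.inv_rpow hc.le, ← Real.rpow_neg hc.le]
  congr 1
  have : 1 / N + (N - 1) / N = 1 := by field_simp; ring
  rw [this, Real.rpow_one]

theorem one_sub_rpow_neg_le {c p : ℝ} (hc : 0 < c) :
    1 - c ^ (-p) ≤ p * Real.log c := by
  have h1 : c ^ (-p) = Real.exp (-(p * Real.log c)) := by
    rw [Real.rpow_def_of_pos hc]; congr 1; ring
  rw [h1]
  have := Real.add_one_le_exp (-(p * Real.log c))
  linarith

theorem log_cosh_le (x : ℝ) : Real.log (Real.cosh x) ≤ x ^ 2 / 2 := by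
  rw [Real.log_le_iff_le_exp (Real.cosh_pos x)]
  exact Real.cosh_le_exp_half_sq x

/-- the sharp lower bound at the midpoint: `τ^{(1/2)}_{-k,N}(θ) ≥ 1/2 - k θ² / (16 N)`. -/
theorem half_sub_le_distortTau {k N θ : ℝ} (hk : 0 < k) (hN : 1 < N) (hθ : 0 ≤ θ) :
    ENNReal.ofReal (1 / 2 - k * θ ^ 2 / (16 * N)) ≤ distortTau (-k) N (1 / 2) θ := by
  rw [distortTau_half hk hN hθ]
  apply ENNReal.ofReal_le_ofReal
  have hN0 : 0 < N := by linarith
  have hN1 : 0 < N - 1 := by linarith
  set x := θ * Real.sqrt (k / (N - 1)) / 2 with hx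
  have h1 := one_sub_rpow_neg_le (p := (N - 1) / N) (Real.cosh_pos x)
  have h2 := log_cosh_le x
  have h3 : (N - 1) / N * Real.log (Real.cosh x) ≤ (N - 1) / N * (x ^ 2 / 2) :=
    mul_le_mul_of_nonneg_left h2 (by positivity)
  have h4 : (N - 1) / N * (x ^ 2 / 2) = k * θ ^ 2 / (8 * N) := by
    rw [hx, div_pow, mul_pow, Real.sq_sqrt (by positivity)]
    field_simp; ring
  have h5 : k * θ ^ 2 / (16 * N) = 1 / 2 * (k * θ ^ 2 / (8 * N)) := by field_simp; ring
  rw [h5]
  linarith

theorem distortTau_half_le {k N θ : ℝ} (hk : 0 < k) (hN : 1 < N) (hθ : 0 ≤ θ) :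
    distortTau (-k) N (1 / 2) θ ≤ ENNReal.ofReal (1 / 2) := by
  rw [distortTau_half hk hN hθ]
  apply ENNReal.ofReal_le_ofReal
  have h1 : 1 ≤ Real.cosh (θ * Real.sqrt (k / (N - 1)) / 2) := Real.one_le_cosh _
  have hp : 0 ≤ (N - 1) / N := div_nonneg (by linarith) (by linarith)
  have h2 : Real.cosh (θ * Real.sqrt (k / (N - 1)) / 2) ^ (-((N - 1) / N)) ≤ 1 :=
    Real.rpow_le_one_of_one_le_of_nonpos h1 (by linarith)
  linarith

/-- `τ^{(t)}_{-k,N}(θ) ≤ t`. -/
theorem distortTau_le {k N t θ : ℝ} (hk : 0 < k) (hN : 1 < N) (ht0 : 0 ≤ t) (ht1 : t ≤ 1)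
    (hθ : 0 ≤ θ) : distortTau (-k) N t θ ≤ ENNReal.ofReal t := by
  have hN0 : 0 < N := by linarith
  have hN1 : 0 < N - 1 := by linarith
  have h := distortSigma_neg_le hk hN1 ht0 ht1 hθ
  unfold distortTau
  have hexp : 0 ≤ (N - 1) / N := by positivity
  calc ENNReal.ofReal t ^ (1 / N) * distortSigma (-k) (N - 1) t θ ^ ((N - 1) / N)
      ≤ ENNReal.ofReal t ^ (1 / N) * ENNReal.ofReal t ^ ((N - 1) / N) := by gcongr
    _ = ENNReal.ofReal t := by
        rw [← ENNReal.rpow_add_of_nonneg _ _ (by positivity) hexp]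
        have : 1 / N + (N - 1) / N = 1 := by field_simp; ring
        rw [this, ENNReal.rpow_one]

/-- `τ^{(t)}_{-k,N}(θ) ≥ t exp (-θ √(k/(N-1)))`. -/
theorem le_distortTau {k N t θ : ℝ} (hk : 0 < k) (hN : 1 < N) (ht0 : 0 ≤ t) (ht1 : t ≤ 1)
    (hθ : 0 ≤ θ) :
    ENNReal.ofReal (t * Real.exp (-(θ * Real.sqrt (k / (N - 1))))) ≤ distortTau (-k) N t θ := by
  have hN0 : 0 < N := by linarith
  have hN1 : 0 < N - 1 := by linarith
  set a := θ * Real.sqrt (k / (N - 1)) with ha
  have ha0 : 0 ≤ a := by positivity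
  have hsig : ENNReal.ofReal (t * Real.exp (-a)) ≤ distortSigma (-k) (N - 1) t θ := by
    have hexp1 : Real.exp (-a) ≤ 1 := Real.exp_le_one_iff.2 (by linarith)
    unfold distortSigma
    have hk1 : ¬ (0 < -k) := by linarith
    have hk2 : ¬ (-k = 0) := by linarith
    rw [if_neg hk1, if_neg hk2]
    split_ifs with h1 h2 h3
    · have : t = 0 := le_antisymm h1 ht0
      rw [this]; simp
    · have : t = 1 := le_antisymm ht1 h2
      rw [this, one_mul]
      calc ENNReal.ofReal (Real.exp (-a)) ≤ ENNReal.ofReal 1 := ENNReal.ofReal_le_ofReal hexp1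
        _ = 1 := by simp
    · apply ENNReal.ofReal_le_ofReal; nlinarith
    · apply ENNReal.ofReal_le_ofReal
      rw [neg_neg]
      have hθ' : 0 < θ := lt_of_le_of_ne hθ (Ne.symm h3)
      have hapos : 0 < a := by
        have : 0 < Real.sqrt (k / (N - 1)) := Real.sqrt_pos.2 (by positivity)
        positivity
      have hsinh : 0 < Real.sinh a := Real.sinh_pos_iff.2 hapos
      rw [← ha, le_div_iff₀ hsinh, mul_assoc t θ, ← ha]
      have h6 : t * a ≤ Real.sinh (t * a) := by
        have := Real.self_le_sinh_iff.2 (show 0 ≤ t * a by positivity)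
        exact this
      have h7 := sinh_le_mul_exp ha0
      have h8 : Real.exp (-a) * Real.sinh a ≤ a := by
        calc Real.exp (-a) * Real.sinh a ≤ Real.exp (-a) * (a * Real.exp a) := by gcongr
          _ = a * (Real.exp (-a) * Real.exp a) := by ring
          _ = a := by rw [← Real.exp_add]; simp
      nlinarith
  unfold distortTau
  have hexp : 0 ≤ (N - 1) / N := by positivity
  have hnn : 0 ≤ t * Real.exp (-a) := by positivity
  have hle : t * Real.exp (-a) ≤ t := by
    have hexp1 : Real.exp (-a) ≤ 1 := Real.exp_le_one_iff.2 (by linarith)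
    nlinarith
  calc ENNReal.ofReal (t * Real.exp (-a))
      = ENNReal.ofReal (t * Real.exp (-a)) ^ (1 / N) *
        ENNReal.ofReal (t * Real.exp (-a)) ^ ((N - 1) / N) := by
        rw [← ENNReal.rpow_add_of_nonneg _ _ (by positivity) hexp]
        have : 1 / N + (N - 1) / N = 1 := by field_simp; ring
        rw [this, ENNReal.rpow_one]
    _ ≤ ENNReal.ofReal t ^ (1 / N) * distortSigma (-k) (N - 1) t θ ^ ((N - 1) / N) := by
        gcongr

end Crest.Agent.R242
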