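import Crest.Agent.R242.LamFin
import Crest.Agent.R242.F0
import Crest.Agent.R242.Tau
import Crest.Agent.R242.Vol
import Crest.Agent.R242.Dyad
import Crest.Agent.R242.GoodJEx
import Crest.Agent.R242.SobLip

/-!
Row 242 (S0375): the final assembly.
-/

set_option autoImplicit false
set_option linter.unusedSectionVars false

open MeasureTheory Filter Set
open scoped ENNReal NNReal Topology
open Crest.GeometryTopology.SyntheticRicci

noncomputable section

namespace Crest.Agent.R242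
namespace Fin

/-- the result for a measure satisfying `Hyp`, in a proper space -/
theorem secondDeriv_of_hyp {X : Type*} [MetricSpace X] [ProperSpace X] [MeasurableSpace X]
    [BorelSpace X] {m : Measure X} [IsLocallyFiniteMeasure m] [m.IsOpenPosMeasure] {k N : ℝ}
    (H : Hyp m k N) {F G : X → ℝ} (hFb : ∃ B : ℝ, ∀ x, |F x| ≤ B)
    (hFl : ∃ L : ℝ≥0, LipschitzWith L F) (hGb : ∃ B : ℝ, ∀ x, |G x| ≤ B) (hGc : Continuous G)
    (hH : HasWeakHessLe m F G) (γ : UCurve X) (hγ : IsCSGeodesic γ) :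
    SecondDerivAlongLe F G γ := by
  have hud : IsUnifLocDoublingMeasure m := isUnifLocDoubling_of_hyp H
  obtain ⟨h₀, GJ⟩ := exists_goodJ H
  have hgeo : HasBddGeoPlans m := hasBddGeoPlans H
  obtain ⟨h1, CD, CV, Cd, G3F⟩ := g3Facts_of_hyp H GJ hgeo
  have hG3 : G3Concl m := g3Concl_of_facts G3F
  have hC : Calc m := calc_of_hyp H
  have hCG : CalcG m := calcG_of H hC GJ hgeo hG3
  have GF : GFacts m k := gFacts_of H hC GJ hCG
  obtain ⟨h₂, C3', hh₂, hC3', hJ⟩ := exists_jApprox H GJ hG3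
  refine second_deriv_reduce H (fun F' G' hF'b hF'l hG'b hG'l hH' γ' hγ' => ?_) hFb hFl hGb hGc hH
    γ hγ
  obtain ⟨MF, hMF⟩ := hF'b
  obtain ⟨LF, hLF⟩ := hF'l
  obtain ⟨B, hB⟩ := hG'b
  obtain ⟨LG, hLG⟩ := hG'l
  exact second_deriv_lip H
    (fun f L hf => ofReal_minWeakGrad_le_descSlope H.fin (LipschitzWith.lipOnBalls hf))
    hMF hLF hB hLG.continuous (lamFam_of H GJ hgeo hG3 GF hMF hLF hB hLG hH') hh₂ hC3' hJ hγ'

/-- the result in the form of the statement -/
theorem secondDeriv_of_rcd {X : Type*} [MetricSpace X] [CompleteSpace X] [MeasurableSpace X]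
    [BorelSpace X] (m : Measure X) [m.IsOpenPosMeasure] (hfin : IsFiniteOnBalls m)
    {K N : ℝ} (hN : 1 < N) (hRCD : IsRCD m K N)
    {F G : X → ℝ} (hFb : ∃ B : ℝ, ∀ x, |F x| ≤ B)
    (hFl : ∃ L : ℝ≥0, LipschitzWith L F) (hGb : ∃ B : ℝ, ∀ x, |G x| ≤ B) (hGc : Continuous G)
    (hH : HasWeakHessLe m F G) (γ : UCurve X) (hγ : IsCSGeodesic γ) :
    SecondDerivAlongLe F G γ := by
  obtain ⟨k, H⟩ := exists_hyp hfin hN hRCD
  have : ProperSpace X := properSpace_of_hyp H
  have : IsLocallyFiniteMeasure m := isLocallyFinite_of_hyp H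
  exact secondDeriv_of_hyp H hFb hFl hGb hGc hH γ hγ

end Fin
end Crest.Agent.R242
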