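import Crest.Agent.R242.Fin4
import Crest.Agent.R242.Fin5
import Crest.Agent.R242.CutInst
import Crest.Agent.R242.Sob2Lip

/-!
Row 242, part F: assembly for a Lipschitz function `G`.
-/

set_option autoImplicit false
set_option linter.unusedSectionVars false
set_option linter.unusedVariables false

open MeasureTheory Filter Set
open scoped ENNReal NNReal Topology
open Crest.GeometryTopology.SyntheticRicci

noncomputable section

namespace Crest.Agent.R242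
namespace Fin

/-! ### test functions on the line -/

/-- what we need of the test function -/
theorem test_bounds {η : ℝ → ℝ} (h1 : ContDiff ℝ ((⊤ : ℕ∞) : WithTop ℕ∞) η)
    (h2 : HasCompactSupport η) (h3 : tsupport η ⊆ Ioo (0 : ℝ) 1) :
    ∃ N : ℝ, 0 ≤ N ∧ (∀ t, |η t| ≤ N) ∧ (∀ t, |deriv η t| ≤ N) ∧ (∀ t, |deriv (deriv η) t| ≤ N) ∧
      η 0 = 0 ∧ η 1 = 0 ∧ deriv η 0 = 0 ∧ deriv η 1 = 0 ∧ ContDiff ℝ 2 η := by
  have hc2 : ContDiff ℝ 2 η := by exact_mod_cast contDiff_infty.mp h1 2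
  have hc1 : ContDiff ℝ 1 (deriv η) := by
    have := (contDiff_succ_iff_deriv (𝕜 := ℝ) (n := 1) (f := η)).mp
      (by simpa [one_add_one_eq_two] using hc2)
    exact this.2.2
  have b0 : ∃ C, ∀ x, ‖η x‖ ≤ C := h2.exists_bound_of_continuous hc2.continuous
  have b1 : ∃ C, ∀ x, ‖deriv η x‖ ≤ C := h2.deriv.exists_bound_of_continuous hc1.continuous
  have b2 : ∃ C, ∀ x, ‖deriv (deriv η) x‖ ≤ C :=
    h2.deriv.deriv.exists_bound_of_continuous (hc1.continuous_deriv (by norm_num))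
  obtain ⟨C0, hC0⟩ := b0
  obtain ⟨C1, hC1⟩ := b1
  obtain ⟨C2, hC2⟩ := b2
  have n0 : (0 : ℝ) ∉ tsupport η := fun h => by have := (h3 h).1; linarith
  have n1 : (1 : ℝ) ∉ tsupport η := fun h => by have := (h3 h).2; linarith
  have d0 : (0 : ℝ) ∉ tsupport (deriv η) := fun h => n0 (tsupport_deriv_subset h)
  have d1 : (1 : ℝ) ∉ tsupport (deriv η) := fun h => n1 (tsupport_deriv_subset h)
  refine ⟨max C0 (max C1 C2), ?_, fun t => ?_, fun t => ?_, fun t => ?_,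
    image_eq_zero_of_notMem_tsupport n0, image_eq_zero_of_notMem_tsupport n1,
    image_eq_zero_of_notMem_tsupport d0, image_eq_zero_of_notMem_tsupport d1, hc2⟩
  · exact ((norm_nonneg _).trans (hC0 0)).trans (le_max_left _ _)
  · exact (hC0 t).trans (le_max_left _ _)
  · exact (hC1 t).trans ((le_max_left _ _).trans (le_max_right _ _))
  · exact (hC2 t).trans ((le_max_right _ _).trans (le_max_right _ _))

/-- the numerical part -/
theorem num_final {k δ τ N1 C3 a1 CE A0 MF d Lf B T1 Eg I Lb v1 v0 : ℝ} (hk0 : 0 < k)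
    (hδ : 0 < δ) (hδ1' : δ ≤ 1) (hτ : 0 < τ) (hτ1 : τ ≤ 1) (hN1 : 0 ≤ N1) (hC3 : 0 ≤ C3)
    (ha1 : 0 ≤ a1) (hCE : 0 ≤ CE) (hA0 : 0 ≤ A0) (hMF : 0 ≤ MF) (hd : 0 ≤ d) (hLf0 : 0 ≤ Lf)
    (hmain : v1 - v0 ≤ T1 + (1 / 2) * (CE * (5 * d + N1 * Lf) ^ 2 * (τ * N1) *
        (C3 * √δ + a1 * (τ * N1)) * Real.exp (2 * (B + |δ ^ 2 * k|))) +
      ((1 / 2) * (1 - (1 - 2 * δ * k)) * (5 * d) ^ 2 + τ * N1 * (|δ ^ 2| * (d ^ 2 / δ)) +
        (1 / 2) * ((τ * N1) ^ 2 * Lf ^ 2)) + Eg + Lb + τ * N1 * (τ * N1 * (A0 * Lf + 2 * δ * MF)))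
    (b1 : -(6 * C3 * d * √δ) ≤ v1 - 0) (b0 : v0 - -(d ^ 2 / 2) ≤ 6 * C3 * d * √δ)
    (hI : Lb ≤ -(τ * I) + τ * (N1 * (τ * N1 * (A0 * Lf + 2 * MF) + C3 * √δ * Lf))) :
    d ^ 2 / 2 ≤ T1 - τ * I +
      (12 * C3 * d + (1 / 2) * (CE * (5 * d + N1 * Lf) ^ 2 * N1 * (C3 + a1 * N1) *
          Real.exp (2 * (B + k))) +
        (25 * k * d ^ 2 + N1 * d ^ 2 + (1 / 2) * (N1 ^ 2 * Lf ^ 2)) +
        N1 * (N1 * (A0 * Lf + 2 * MF) + C3 * Lf) + N1 * (N1 * (A0 * Lf + 2 * MF))) *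
        (√δ + τ ^ 2) + Eg := by
  set q := √δ with hq
  have hq0 : 0 ≤ q := Real.sqrt_nonneg _
  have hq2 : q ^ 2 = δ := Real.sq_sqrt hδ.le
  have hq1 : q ≤ 1 := by
    rw [hq]
    calc √δ ≤ √1 := Real.sqrt_le_sqrt hδ1'
      _ = 1 := Real.sqrt_one
  have hδq : δ ≤ q := by
    calc δ = q * q := by rw [← hq2]; ring
      _ ≤ q * 1 := mul_le_mul_of_nonneg_left hq1 hq0
      _ = q := mul_one q
  have hτ2 : 0 ≤ τ ^ 2 := sq_nonneg _
  set W := q + τ ^ 2 with hW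
  have hqW : q ≤ W := by rw [hW]; linarith
  have hτW : τ ^ 2 ≤ W := by rw [hW]; linarith
  have hδW : δ ≤ W := hδq.trans hqW
  have hW0 : 0 ≤ W := hq0.trans hqW
  clear_value W q
  set Lz := 5 * d + N1 * Lf with hLz
  have hLz2 : 0 ≤ Lz ^ 2 := sq_nonneg _
  clear_value Lz
  have n1 : (1 / 2) * (CE * Lz ^ 2 * (τ * N1) * (C3 * q + a1 * (τ * N1)) *
      Real.exp (2 * (B + |δ ^ 2 * k|))) ≤
      (1 / 2) * (CE * Lz ^ 2 * N1 * (C3 + a1 * N1) * Real.exp (2 * (B + k))) * W := by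
    have u1 : Real.exp (2 * (B + |δ ^ 2 * k|)) ≤ Real.exp (2 * (B + k)) := by
      apply Real.exp_le_exp.mpr
      rw [abs_of_nonneg (by positivity)]
      have : δ ^ 2 * k ≤ 1 * k := mul_le_mul_of_nonneg_right (pow_le_one₀ hδ.le hδ1') hk0.le
      linarith
    have u2 : (τ * N1) * (C3 * q + a1 * (τ * N1)) ≤ N1 * (C3 + a1 * N1) * W := by
      have v1 : τ * (N1 * C3 * q) ≤ 1 * (N1 * C3 * q) :=
        mul_le_mul_of_nonneg_right hτ1 (by positivity)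
      have v2 : N1 * C3 * q ≤ N1 * C3 * W := mul_le_mul_of_nonneg_left hqW (by positivity)
      have v3 : N1 * a1 * N1 * τ ^ 2 ≤ N1 * a1 * N1 * W :=
        mul_le_mul_of_nonneg_left hτW (by positivity)
      calc (τ * N1) * (C3 * q + a1 * (τ * N1)) = τ * (N1 * C3 * q) + N1 * a1 * N1 * τ ^ 2 := by
            ring
        _ ≤ N1 * C3 * W + N1 * a1 * N1 * W := by linarith
        _ = _ := by ring
    have u3 : 0 ≤ (τ * N1) * (C3 * q + a1 * (τ * N1)) := by positivity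
    have u4 : CE * Lz ^ 2 * ((τ * N1) * (C3 * q + a1 * (τ * N1))) *
        Real.exp (2 * (B + |δ ^ 2 * k|)) ≤
        CE * Lz ^ 2 * (N1 * (C3 + a1 * N1) * W) * Real.exp (2 * (B + k)) := by
      refine mul_le_mul (mul_le_mul_of_nonneg_left u2 (by positivity)) u1 (Real.exp_pos _).le
        (by positivity)
    calc (1 / 2) * (CE * Lz ^ 2 * (τ * N1) * (C3 * q + a1 * (τ * N1)) *
        Real.exp (2 * (B + |δ ^ 2 * k|))) = (1 / 2) * (CE * Lz ^ 2 * ((τ * N1) *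
          (C3 * q + a1 * (τ * N1))) * Real.exp (2 * (B + |δ ^ 2 * k|))) := by ring
      _ ≤ (1 / 2) * (CE * Lz ^ 2 * (N1 * (C3 + a1 * N1) * W) * Real.exp (2 * (B + k))) :=
          mul_le_mul_of_nonneg_left u4 (by norm_num)
      _ = _ := by ring
  have n2 : (1 / 2) * (1 - (1 - 2 * δ * k)) * (5 * d) ^ 2 ≤ 25 * k * d ^ 2 * W := by
    have : 25 * k * d ^ 2 * δ ≤ 25 * k * d ^ 2 * W :=
      mul_le_mul_of_nonneg_left hδW (by positivity)
    calc _ = 25 * k * d ^ 2 * δ := by ring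
      _ ≤ _ := this
  have n3 : τ * N1 * (|δ ^ 2| * (d ^ 2 / δ)) ≤ N1 * d ^ 2 * W := by
    have e1 : |δ ^ 2| * (d ^ 2 / δ) = δ * d ^ 2 := by
      rw [abs_of_nonneg (by positivity)]
      field_simp
    rw [e1]
    calc τ * N1 * (δ * d ^ 2) ≤ 1 * N1 * (W * d ^ 2) := by gcongr
      _ = _ := by ring
  have n4 : (1 / 2) * ((τ * N1) ^ 2 * Lf ^ 2) ≤ (1 / 2) * (N1 ^ 2 * Lf ^ 2) * W := by
    have : N1 ^ 2 * Lf ^ 2 * τ ^ 2 ≤ N1 ^ 2 * Lf ^ 2 * W :=
      mul_le_mul_of_nonneg_left hτW (by positivity)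
    calc (1 / 2) * ((τ * N1) ^ 2 * Lf ^ 2) = (1 / 2) * (N1 ^ 2 * Lf ^ 2 * τ ^ 2) := by ring
      _ ≤ (1 / 2) * (N1 ^ 2 * Lf ^ 2 * W) := mul_le_mul_of_nonneg_left this (by norm_num)
      _ = _ := by ring
  have n5 : τ * (N1 * (τ * N1 * (A0 * Lf + 2 * MF) + C3 * q * Lf)) ≤
      N1 * (N1 * (A0 * Lf + 2 * MF) + C3 * Lf) * W := by
    have v1 : τ * (N1 * (C3 * q * Lf)) ≤ 1 * (N1 * (C3 * W * Lf)) := by gcongr
    have v2 : N1 * N1 * (A0 * Lf + 2 * MF) * τ ^ 2 ≤ N1 * N1 * (A0 * Lf + 2 * MF) * W :=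
      mul_le_mul_of_nonneg_left hτW (by positivity)
    calc τ * (N1 * (τ * N1 * (A0 * Lf + 2 * MF) + C3 * q * Lf)) =
        N1 * N1 * (A0 * Lf + 2 * MF) * τ ^ 2 + τ * (N1 * (C3 * q * Lf)) := by ring
      _ ≤ N1 * N1 * (A0 * Lf + 2 * MF) * W + 1 * (N1 * (C3 * W * Lf)) := add_le_add v2 v1
      _ = _ := by ring
  have n6 : τ * N1 * (τ * N1 * (A0 * Lf + 2 * δ * MF)) ≤ N1 * (N1 * (A0 * Lf + 2 * MF)) * W := by
    have v0 : 2 * δ * MF ≤ 2 * MF := by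
      have := mul_le_mul_of_nonneg_right hδ1' hMF
      linarith
    have v1 : A0 * Lf + 2 * δ * MF ≤ A0 * Lf + 2 * MF := by linarith
    calc τ * N1 * (τ * N1 * (A0 * Lf + 2 * δ * MF)) ≤ τ * N1 * (τ * N1 * (A0 * Lf + 2 * MF)) := by
          gcongr
      _ = N1 * (N1 * (A0 * Lf + 2 * MF)) * τ ^ 2 := by ring
      _ ≤ _ := mul_le_mul_of_nonneg_left hτW (by positivity)
  have n7 : 12 * C3 * d * q ≤ 12 * C3 * d * W := mul_le_mul_of_nonneg_left hqW (by positivity)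
  have n8 : (12 * C3 * d + (1 / 2) * (CE * Lz ^ 2 * N1 * (C3 + a1 * N1) *
          Real.exp (2 * (B + k))) +
        (25 * k * d ^ 2 + N1 * d ^ 2 + (1 / 2) * (N1 ^ 2 * Lf ^ 2)) +
        N1 * (N1 * (A0 * Lf + 2 * MF) + C3 * Lf) + N1 * (N1 * (A0 * Lf + 2 * MF))) * W =
      12 * C3 * d * W + (1 / 2) * (CE * Lz ^ 2 * N1 * (C3 + a1 * N1) *
          Real.exp (2 * (B + k))) * W + 25 * k * d ^ 2 * W + N1 * d ^ 2 * W +
        (1 / 2) * (N1 ^ 2 * Lf ^ 2) * W +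
        N1 * (N1 * (A0 * Lf + 2 * MF) + C3 * Lf) * W + N1 * (N1 * (A0 * Lf + 2 * MF)) * W := by
    ring
  rw [n8]
  linarith

variable {X : Type*} [MetricSpace X] [ProperSpace X] [MeasurableSpace X] [BorelSpace X]
  {m : Measure X} [IsLocallyFiniteMeasure m] [m.IsOpenPosMeasure]
  {k N h₀ δ d : ℝ} {o : X} {F Gf f : X → ℝ}

/-- the family of functionals, `ε = δ²` -/
def LamFam (m : Measure X) (F Gf : X → ℝ) (k : ℝ) : Prop :=
  ∃ A0 a1 CE C3 h₁ : ℝ, 0 ≤ A0 ∧ 0 ≤ a1 ∧ 0 ≤ CE ∧ 0 ≤ C3 ∧ 0 < h₁ ∧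
    ∀ δ, 0 < δ → δ ≤ h₁ → ∃ (Λ : ℝ → X → (X → ℝ) → ℝ) (CL : ℝ),
      Lam m F Gf (δ ^ 2) k A0 (2 * δ) (C3 * √δ) a1 ((1 - 2 * δ * k)⁻¹ ^ 2) CE CL (C3 * √δ) Λ

/-- first order facts about `J` used here -/
structure JApprox (m : Measure X) (k h₁ C3 : ℝ) : Prop where
  be : ∀ δ, 0 < δ → δ ≤ h₁ → ∀ f : X → ℝ, IsSobolev m f →
    MemLp (fun x => minWeakGrad m f x ^ 2) 2 m →
      ∀ᵐ x ∂m, minWeakGrad m (J m δ f) x ^ 2 ≤
        (1 - 2 * δ * k)⁻¹ * J m δ (fun x => minWeakGrad m f x ^ 2) x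
  app : ∀ δ, 0 < δ → δ ≤ h₁ → ∀ (f : X → ℝ) (L : ℝ≥0), LipschitzWith L f →
    HasCompactSupport f → ∀ᵐ x ∂m, |J m δ f x - f x| ≤ C3 * √δ * L

theorem wg_le_of_slope (hslope : ∀ (f : X → ℝ) (L : ℝ≥0), LipschitzWith L f →
      ∀ᵐ x ∂m, ENNReal.ofReal (minWeakGrad m f x) ≤ descSlope f x) {L : ℝ≥0}
    (hf : LipschitzWith L f) : ∀ᵐ x ∂m, minWeakGrad m f x ≤ L := by
  filter_upwards [hslope f L hf] with x hx
  have h1 := hx.trans (descSlope_le_of_lipschitz hf x)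
  rw [← ENNReal.ofReal_coe_nnreal] at h1
  exact (ENNReal.ofReal_le_ofReal_iff L.2).mp h1

theorem wg_sub_smul_le (H : Hyp m k N) {u : X → ℝ} (hu : IsSobolev m u) (hf : IsSobolev m f)
    {Lu Lf : ℝ} (h1 : ∀ᵐ x ∂m, minWeakGrad m u x ≤ Lu) (h2 : ∀ᵐ x ∂m, minWeakGrad m f x ≤ Lf)
    {c C : ℝ} (hc : |c| ≤ C) (hLf : 0 ≤ Lf) :
    ∀ᵐ x ∂m, minWeakGrad m (fun y => u y - c * f y) x ≤ Lu + C * Lf := by
  have hcf : IsSobolevLoc m (fun y => c * f y) := sobLoc_smul H c hf.2.1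
  filter_upwards [wg_sub_sq H hu.2.1 hcf, gp_self H hcf, gp_smul_left H c hf.2.1 hcf,
    gp_smul_right H c hf.2.1 hf.2.1, gp_self H hf.2.1, gp_abs_le H hu.2.1 hcf,
    Fin.wg_nonneg hu, Fin.wg_nonneg hf, h1, h2, Crest.Agent.R242.wg_nonneg H hcf]
    with x e1 e2 e3 e4 e5 e6 p1 p2 q1 q2 p3
  have e7 : minWeakGrad m (fun y => c * f y) x ^ 2 = (|c| * minWeakGrad m f x) ^ 2 := by
    rw [mul_pow, sq_abs]
    have a1 : minWeakGrad m (fun y => c * f y) x ^ 2 =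
        gradPairing m (fun y => c * f y) (fun y => c * f y) x := e2.symm
    rw [a1, e3, e4, e5]
    ring
  have e8 : minWeakGrad m (fun y => c * f y) x = |c| * minWeakGrad m f x :=
    (sq_eq_sq₀ p3 (by positivity)).mp e7
  have e9 : minWeakGrad m (fun y => u y - c * f y) x ^ 2 ≤
      (minWeakGrad m u x + |c| * minWeakGrad m f x) ^ 2 := by
    rw [e1, e8]
    rw [e8] at e6
    have := neg_le_of_abs_le e6
    nlinarith
  have e10 := le_of_sq_le_sq e9 (by positivity)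
  have e11 : |c| * minWeakGrad m f x ≤ C * Lf :=
    mul_le_mul hc q2 p2 ((abs_nonneg _).trans hc)
  linarith

/-- values at the end points -/
theorem end_value (H : Hyp m k N) {C3 h₁ A0 Bd a0 a1 c4 CE CL ε : ℝ} (hC3 : 0 ≤ C3)
    (hJ : JApprox m k h₁ C3) (hδ : 0 < δ)
    (hδ1 : δ ≤ h₁) {Λ : ℝ → X → (X → ℝ) → ℝ}
    (hΛ : Lam m F Gf ε k A0 Bd a0 a1 c4 CE CL (C3 * √δ) Λ)
    (hd : 0 ≤ d) {s : ℝ} (hs : s ∈ Icc (0 : ℝ) 1) (x : X) :
    |Λ 0 x (ptf m δ d o s) - hopfLax (cone o d) s x| ≤ 6 * C3 * d * √δ := by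
  have hL := psi_lip (o := o) hd hs.1
  have hcs := psi_hcs (o := o) hd hs.1 hs.2
  have h3d : ((Real.toNNReal (3 * d) : ℝ≥0) : ℝ) = 3 * d := Real.coe_toNNReal _ (by positivity)
  have m1 := psi_memLp (o := o) (m := m) hd hs.1 hs.2
  have mB : B2 m (hopfLax (cone o d) s : X → ℝ) :=
    ⟨m1, d ^ 2 / 2, Eventually.of_forall (psi_bdd hd s)⟩
  have pB : B2 m (ptf m δ d o s) := ⟨Jr_memLp H pt_bddLip_zero hδ m1, d ^ 2 / 2,
    Jr_abs_le H pt_bddLip_zero hδ m1 (Eventually.of_forall (psi_bdd hd s))⟩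
  have h1 := hΛ.abs_le le_rfl x (pB.sub mB).1 (C := C3 * √δ * (3 * d)) (by positivity) (by
    have := hJ.app δ hδ hδ1 _ _ hL hcs
    rw [h3d] at this
    exact this)
  rw [hΛ.sub le_rfl x pB mB] at h1
  have h2 := hΛ.zero _ _ hL hcs x
  rw [h3d] at h2
  calc |Λ 0 x (ptf m δ d o s) - hopfLax (cone o d) s x|
      = |(Λ 0 x (ptf m δ d o s) - Λ 0 x (hopfLax (cone o d) s)) +
          (Λ 0 x (hopfLax (cone o d) s) - hopfLax (cone o d) s x)| := by congr 1; ring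
    _ ≤ C3 * √δ * (3 * d) + C3 * √δ * (3 * d) := (abs_add_le _ _).trans (add_le_add h1 h2)
    _ = _ := by ring

/-- the inequality for one `δ`, one `τ`, one cut-off -/
theorem ineq_one (H : Hyp m k N) [SFinite m]
    (hslope : ∀ (f : X → ℝ) (L : ℝ≥0), LipschitzWith L f →
      ∀ᵐ x ∂m, ENNReal.ofReal (minWeakGrad m f x) ≤ descSlope f x)
    {MF B : ℝ} {LF : ℝ≥0} (hFb : ∀ x, |F x| ≤ MF) (hFl : LipschitzWith LF F)
    (hGb : ∀ x, |Gf x| ≤ B) (hGc : Continuous Gf)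
    {A0 a1 CE C3 h₁ : ℝ} (hA0 : 0 ≤ A0) (ha1 : 0 ≤ a1) (hCE : 0 ≤ CE) (hC3 : 0 ≤ C3)
    (hJ : JApprox m k h₁ C3) (hδ : 0 < δ) (hδ1 : δ ≤ h₁) (hδk : 4 * δ * k ≤ 1) (hδ1' : δ ≤ 1)
    {Λ : ℝ → X → (X → ℝ) → ℝ} {CL : ℝ}
    (hΛ : Lam m F Gf (δ ^ 2) k A0 (2 * δ) (C3 * √δ) a1 ((1 - 2 * δ * k)⁻¹ ^ 2) CE CL
      (C3 * √δ) Λ)
    (hd : 0 ≤ d) {σ : ℝ → X} (hσ : ∀ s t, dist (σ t) (σ s) ≤ d * |t - s|)
    (hσ0 : σ 0 = o) (hσ1 : dist (σ 1) o = d) (hσd : ∀ s, dist (σ s) o ≤ d)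
    {η : ℝ → ℝ} {N1 : ℝ} (hN1 : 0 ≤ N1) (hη0 : ∀ t, 0 ≤ η t) (hηN : ∀ t, |η t| ≤ N1)
    (hη'N : ∀ t, |deriv η t| ≤ N1) (hη''N : ∀ t, |deriv (deriv η) t| ≤ N1)
    (he0 : η 0 = 0) (he1 : η 1 = 0) (hd0 : deriv η 0 = 0) (hd1 : deriv η 1 = 0)
    (hηs : ContDiff ℝ 2 η) {τ : ℝ} (hτ : 0 < τ) (hτ1 : τ ≤ 1) (hτN : τ * N1 ≤ 1)
    {Lf : ℝ≥0} (hf : LipschitzWith Lf f) (hfb : ∀ x, |f x| ≤ MF) (hfc : HasCompactSupport f)
    (hfF : ∀ x ∈ Metric.closedBall o d, f x = F x) :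
    d ^ 2 / 2 ≤ (∫ s in (0 : ℝ)..1, (1 / 2) * (d ^ 2 * ((1 - 2 * δ * k)⁻¹ ^ 2) *
        Real.exp (2 * (Gf (σ s) + δ ^ 2 * k) * (τ * η s)))) -
      τ * (∫ s in (0 : ℝ)..1, deriv (deriv η) s * F (σ s)) +
      (12 * C3 * d + (1 / 2) * (CE * (5 * d + N1 * Lf) ^ 2 * N1 * (C3 + a1 * N1) *
          Real.exp (2 * (B + k))) +
        (25 * k * d ^ 2 + N1 * d ^ 2 + (1 / 2) * (N1 ^ 2 * (Lf : ℝ) ^ 2)) +
        N1 * (N1 * (A0 * Lf + 2 * MF) + C3 * Lf) + N1 * (N1 * (A0 * Lf + 2 * MF))) *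
        (√δ + τ ^ 2) +
      ∫ s in (0 : ℝ)..1, |deriv (fun t => τ * η t) s| * Λ (τ * η s) (σ s)
        ({x | f x ≠ F x}.indicator fun x => ((LF : ℝ) + Lf) * wpt m δ d o x) := by
  have hk0 : 0 < k := H.kpos
  have hbe := hJ.be δ hδ hδ1
  have hP := ptFam_cone (o := o) H hδ hδk hd hslope hbe
  have hMF : 0 ≤ MF := (abs_nonneg _).trans (hFb o)
  have hB0 : 0 ≤ B := (abs_nonneg _).trans (hGb o)
  have hfS : IsSobolev m f := sob_of_lip_hcs H hf hfc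
  have hwf := wg_le_of_slope hslope hf
  have hwF := wg_le_of_slope hslope hFl
  set g : X → ℝ := {x | f x ≠ F x}.indicator fun x => ((LF : ℝ) + Lf) * wpt m δ d o x with hg
  have hgB : B2 m g := by
    have hopen : MeasurableSet {x | f x ≠ F x} :=
      (isOpen_ne_fun hf.continuous hFl.continuous).measurableSet
    refine ⟨((wpt_memLp H hδ).const_mul _).indicator hopen, ((LF : ℝ) + Lf) * (5 * |d|), ?_⟩
    filter_upwards [wpt_bdd (o := o) (d := d) H hδ] with x hx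
    have h0 : 0 ≤ ((LF : ℝ) + Lf) := by positivity
    rw [hg]
    by_cases hxs : x ∈ {x | f x ≠ F x}
    · rw [indicator_of_mem hxs, abs_mul, abs_of_nonneg h0]
      exact mul_le_mul_of_nonneg_left hx h0
    · rw [indicator_of_notMem hxs, abs_zero]
      positivity
  -- the reparametrisation
  set θ : ℝ → ℝ := fun t => τ * η t with hθ
  have hηd : Differentiable ℝ η := hηs.differentiable (by norm_num)
  have hη1 : ContDiff ℝ 1 (deriv η) := by
    have := (contDiff_succ_iff_deriv (𝕜 := ℝ) (n := 1) (f := η)).mp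
      (by simpa [one_add_one_eq_two] using hηs)
    exact this.2.2
  have hθd : deriv θ = fun t => τ * deriv η t := by
    funext t
    rw [hθ, deriv_const_mul _ (hηd t)]
  have hθdd : deriv (deriv θ) = fun t => τ * deriv (deriv η) t := by
    rw [hθd]
    funext t
    rw [deriv_const_mul _ ((hη1.differentiable (by norm_num)) t)]
  have hN0 : 0 ≤ τ * N1 := by positivity
  have hθ01 : ∀ t, 0 ≤ θ t ∧ θ t ≤ 1 := fun t =>
    ⟨mul_nonneg hτ.le (hη0 t), (mul_le_mul_of_nonneg_left ((le_abs_self _).trans (hηN t))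
      hτ.le).trans hτN⟩
  have hθN0 : ∀ t, θ t ≤ τ * N1 := fun t =>
    mul_le_mul_of_nonneg_left ((le_abs_self _).trans (hηN t)) hτ.le
  have hθN : ∀ t, |deriv θ t| ≤ τ * N1 := by
    intro t
    rw [hθd, abs_mul, abs_of_pos hτ]
    exact mul_le_mul_of_nonneg_left (hη'N t) hτ.le
  have hθN' : ∀ t, |deriv θ t| ≤ N1 := fun t => (hθN t).trans (by
    calc τ * N1 ≤ 1 * N1 := mul_le_mul_of_nonneg_right hτ1 hN1
      _ = N1 := one_mul _)
  have hptS : ∀ s ∈ Icc (0 : ℝ) 1, IsSobolev m (ptf m δ d o s) := fun s hs => (hP.lap s hs).1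
  have hmain := F_ineq hΛ (Ls := 4 * d ^ 2) (M := d ^ 2 / 2) (d := d) (Lpt := 5 * d) (Mf := MF)
    (Lf := Lf) (Cz := d ^ 2 / 2 + N1 * MF) (Lz := 5 * d + N1 * Lf) (N := τ * N1) (N0 := τ * N1)
    (Cl := d ^ 2 / δ) (cinv := 1 - 2 * δ * k) (B := B) (σ := σ) (θ := θ) (pt := ptf m δ d o)
    (lp := lpf m δ d o) (f := f) (g := g) hd (by positivity) hCE (by positivity) ha1
    (by nlinarith) (by positivity) hP hσ hGc hGb hθ01 hθN0 (contDiff_const.mul hηs) hθN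
    (by rw [hθd]; simp [hd0]) (by rw [hθd]; simp [hd1]) hfS
    (Eventually.of_forall hfb) hwf
    (fun s hs => sob_sub H (hptS s (Ioo_subset_Icc_self hs)) (sob_smul H _ hfS))
    (fun s hs => by
      filter_upwards [hP.bdd s (Ioo_subset_Icc_self hs)] with x hx
      refine (abs_sub _ _).trans (add_le_add hx ?_)
      rw [abs_mul]
      exact mul_le_mul (hθN' s) (hfb x) (abs_nonneg _) hN1)
    (fun s hs => wg_sub_smul_le H (hptS s (Ioo_subset_Icc_self hs)) hfS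
      (hP.wg s (Ioo_subset_Icc_self hs)) hwf (hθN' s) Lf.2)
    hgB (by positivity)
    (fun s hs => calc_ineq H hFl hf hfS hwF hwf (hptS s (Ioo_subset_Icc_self hs))
      (wg_ptf_le_wpt H hδ hδk hd hslope hbe (Ioo_subset_Icc_self hs)) (deriv θ s))
  -- end points
  have hθ1 : θ 1 = 0 := by rw [hθ]; simp [he1]
  have hθ0 : θ 0 = 0 := by rw [hθ]; simp [he0]
  rw [hθ1, hθ0] at hmain
  have b1 := end_value (o := o) H hC3 hJ hδ hδ1 hΛ hd (s := 1) ⟨zero_le_one, le_rfl⟩ (σ 1)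
  have b0 := end_value (o := o) H hC3 hJ hδ hδ1 hΛ hd (s := 0) ⟨le_rfl, zero_le_one⟩ (σ 0)
  rw [hopfLax_cone_one hd hσ1] at b1
  rw [hopfLax_zero, hσ0, cone_self] at b0
  rw [hσ0] at hmain
  have b1' := (abs_le.mp b1).1
  have b0' := (abs_le.mp b0).2
  -- the term with the second derivative
  have hσc : Continuous σ := by
    have : LipschitzWith (Real.toNNReal d) σ := LipschitzWith.of_dist_le_mul fun t s => by
      rw [Real.coe_toNNReal _ hd, Real.dist_eq]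
      exact hσ s t
    exact this.continuous
  have hfB : B2 m f := ⟨hfS.1, MF, Eventually.of_forall hfb⟩
  have hθc : Continuous θ := continuous_const.mul hηs.continuous
  have hβc : Continuous fun s => Λ (θ s) (σ s) f :=
    (hΛ.cont f hfB).comp_continuous (hθc.prodMk hσc) fun s => ⟨(hθ01 s).1, mem_univ _⟩
  have hη''c : Continuous (deriv (deriv η)) := hη1.continuous_deriv (by norm_num)
  have hFσ : Continuous fun s => F (σ s) := hFl.continuous.comp hσc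
  set eβ : ℝ := τ * N1 * (A0 * Lf + 2 * MF) + C3 * √δ * Lf with heβ
  have hβ : ∀ s, |Λ (θ s) (σ s) f - F (σ s)| ≤ eβ := by
    intro s
    have t1 := hΛ.time f hfS MF Lf (Eventually.of_forall hfb) hwf 0 (θ s) (σ s) le_rfl zero_le_one
      (hθ01 s).1 (hθ01 s).2
    have t2 := hΛ.zero f Lf hf hfc (σ s)
    rw [hfF (σ s) (hσd s)] at t2
    rw [sub_zero, abs_of_nonneg (hθ01 s).1] at t1
    have t3 : θ s * (A0 * Lf + 2 * δ * MF) ≤ τ * N1 * (A0 * Lf + 2 * MF) := by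
      have u1 : A0 * Lf + 2 * δ * MF ≤ A0 * Lf + 2 * MF := by nlinarith
      have u2 : 0 ≤ A0 * (Lf : ℝ) + 2 * δ * MF := by positivity
      exact mul_le_mul (hθN0 s) u1 u2 hN0
    calc |Λ (θ s) (σ s) f - F (σ s)| = |(Λ (θ s) (σ s) f - Λ 0 (σ s) f) +
          (Λ 0 (σ s) f - F (σ s))| := by congr 1; ring
      _ ≤ _ := (abs_add_le _ _).trans (add_le_add (t1.trans t3) t2)
  have hI : -∫ s in (0 : ℝ)..1, deriv (deriv θ) s * Λ (θ s) (σ s) f ≤
      -(τ * ∫ s in (0 : ℝ)..1, deriv (deriv η) s * F (σ s)) + τ * (N1 * eβ) := by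
    have i1 : ∫ s in (0 : ℝ)..1, deriv (deriv θ) s * Λ (θ s) (σ s) f =
        (τ * ∫ s in (0 : ℝ)..1, deriv (deriv η) s * F (σ s)) +
        ∫ s in (0 : ℝ)..1, (τ * deriv (deriv η) s) * (Λ (θ s) (σ s) f - F (σ s)) := by
      have j1 : IntervalIntegrable (fun s => τ * (deriv (deriv η) s * F (σ s))) volume 0 1 :=
        (continuous_const.mul (hη''c.mul hFσ)).intervalIntegrable _ _
      have j2 : IntervalIntegrable (fun s => (τ * deriv (deriv η) s) *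
          (Λ (θ s) (σ s) f - F (σ s))) volume 0 1 :=
        ((continuous_const.mul hη''c).mul (hβc.sub hFσ)).intervalIntegrable _ _
      rw [← intervalIntegral.integral_const_mul, ← intervalIntegral.integral_add j1 j2]
      refine intervalIntegral.integral_congr fun s _ => ?_
      simp only [hθdd]
      ring
    have i2 : ‖∫ s in (0 : ℝ)..1, (τ * deriv (deriv η) s) * (Λ (θ s) (σ s) f - F (σ s))‖ ≤
        τ * (N1 * eβ) * |1 - 0| := by
      refine intervalIntegral.norm_integral_le_of_norm_le_const fun s _ => ?_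
      rw [Real.norm_eq_abs, abs_mul, abs_mul, abs_of_pos hτ, mul_assoc]
      refine mul_le_mul_of_nonneg_left ?_ hτ.le
      exact mul_le_mul (hη''N s) (hβ s) (abs_nonneg _) hN1
    rw [sub_zero, abs_one, mul_one, Real.norm_eq_abs] at i2
    have := neg_le_of_abs_le i2
    rw [i1]
    linarith
  exact num_final hk0 hδ hδ1' hτ hτ1 hN1 hC3 ha1 hCE hA0 hMF hd Lf.2 hmain b1' b0' hI

/-- the limit for Lipschitz `G` -/
theorem second_deriv_lip (H : Hyp m k N) [SFinite m]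
    (hslope : ∀ (f : X → ℝ) (L : ℝ≥0), LipschitzWith L f →
      ∀ᵐ x ∂m, ENNReal.ofReal (minWeakGrad m f x) ≤ descSlope f x)
    {MF B : ℝ} {LF : ℝ≥0} (hFb : ∀ x, |F x| ≤ MF) (hFl : LipschitzWith LF F)
    (hGb : ∀ x, |Gf x| ≤ B) (hGc : Continuous Gf)
    (hLF : LamFam m F Gf k) {h₂ C3' : ℝ} (hh₂ : 0 < h₂) (hC3' : 0 ≤ C3') (hJ : JApprox m k h₂ C3')
    {γ : UCurve X} (hγ : IsCSGeodesic γ) : SecondDerivAlongLe F Gf γ := by
  intro φ hφs hφc hφt hφ0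
  obtain ⟨N1, hN1, hN, hN', hN'', e0, e1, d0, d1, hφ2⟩ := test_bounds hφs hφc hφt
  obtain ⟨A0, a1, CE, C3, h₁, hA0, ha1, hCE, hC3, hh₁, hΛ⟩ := hLF
  set d := dist (γ.toMap 0) (γ.toMap 1) with hd
  have hd0 : 0 ≤ d := dist_nonneg
  set o := γ.toMap 0 with ho
  have hk0 : 0 < k := H.kpos
  have hσ : ∀ s t, dist (γ.ext t) (γ.ext s) ≤ d * |t - s| := by
    intro s t
    rw [mul_comm]
    exact geo_dist_ext_le hγ t s
  have hσ0 : γ.ext 0 = o := by
    unfold UCurve.ext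
    rw [projIcc_left]
    rfl
  have hσ1' : γ.ext 1 = γ.toMap 1 := by
    unfold UCurve.ext
    rw [projIcc_right]
    rfl
  have hσ1 : dist (γ.ext 1) o = d := by rw [hσ1', dist_comm]
  have hσd : ∀ s, dist (γ.ext s) o ≤ d := fun s => by
    rw [dist_comm]
    exact geo_dist_left hγ s
  have hσc : Continuous γ.ext := s2l_continuous_ext γ
  have hMF : 0 ≤ MF := (abs_nonneg _).trans (hFb o)
  have hB0 : 0 ≤ B := (abs_nonneg _).trans (hGb o)
  set C3m := max C3 C3' with hC3m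
  have hC3m0 : 0 ≤ C3m := hC3.trans (le_max_left _ _)
  -- cut-offs
  set Lf : ℝ≥0 := LF + MF.toNNReal with hLf
  have hcut : ∀ n : ℕ, ∃ f : X → ℝ, LipschitzWith Lf f ∧ (∀ x, |f x| ≤ MF) ∧
      HasCompactSupport f ∧ ∀ x ∈ Metric.closedBall o (n : ℝ), f x = F x := fun n =>
    exists_cut hFb hFl o n
  choose fn hfn1 hfn2 hfn3 hfn4 using hcut
  have hI : ∫ s in (0 : ℝ)..1, deriv (deriv φ) s * F (γ.ext s) ≤
      d ^ 2 * ∫ s in (0 : ℝ)..1, Gf (γ.ext s) * φ s := by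
    set C : ℝ := (12 * C3m * d + (1 / 2) * (CE * (5 * d + N1 * Lf) ^ 2 * N1 * (C3m + a1 * N1) *
          Real.exp (2 * (B + k))) +
        (25 * k * d ^ 2 + N1 * d ^ 2 + (1 / 2) * (N1 ^ 2 * (Lf : ℝ) ^ 2)) +
        N1 * (N1 * (A0 * Lf + 2 * MF) + C3m * Lf) + N1 * (N1 * (A0 * Lf + 2 * MF))) with hC
    have hC0 : 0 ≤ C := by positivity
    set hh := min (min h₁ h₂) (min 1 (1 / (4 * k))) with hhh
    have hhp : 0 < hh := by
      rw [hhh]
      exact lt_min (lt_min hh₁ hh₂) (lt_min one_pos (by positivity))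
    refine limit_step (B := B) (k := k) (h₀ := hh) (C := C) (N0 := N1) hhp hC0 hk0.le hN1
      (hGc.comp hσc) (fun s => hGb _) hφ2.continuous hφ0 (fun s => (le_abs_self _).trans (hN s))
      ⟨1 / (N1 + 1), by positivity, ?_⟩
    intro τ hτ hτ' δ hδ hδ' e he
    have hτ1 : τ ≤ 1 := hτ'.trans (by rw [div_le_one (by positivity)]; linarith)
    have hτN : τ * N1 ≤ 1 := by
      calc τ * N1 ≤ 1 / (N1 + 1) * (N1 + 1) := by
            refine mul_le_mul hτ' (by linarith) hN1 (by positivity)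
        _ = 1 := by field_simp
    have g1 : δ ≤ h₁ := hδ'.le.trans ((min_le_left _ _).trans (min_le_left _ _))
    have g2 : δ ≤ h₂ := hδ'.le.trans ((min_le_left _ _).trans (min_le_right _ _))
    have g3 : δ ≤ 1 := hδ'.le.trans ((min_le_right _ _).trans (min_le_left _ _))
    have g4 : 4 * δ * k ≤ 1 := by
      have : δ ≤ 1 / (4 * k) := hδ'.le.trans ((min_le_right _ _).trans (min_le_right _ _))
      rw [le_div_iff₀ (by positivity)] at this
      linarith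
    obtain ⟨Λ, CL, hΛδ⟩ := hΛ δ hδ g1
    have hq0 : 0 ≤ √δ := Real.sqrt_nonneg _
    have hΛ' : Lam m F Gf (δ ^ 2) k A0 (2 * δ) (C3m * √δ) a1 ((1 - 2 * δ * k)⁻¹ ^ 2) CE CL
        (C3m * √δ) Λ := by
      have hcc : C3 * √δ ≤ C3m * √δ := mul_le_mul_of_nonneg_right (le_max_left _ _) hq0
      refine ⟨hΛδ.add, hΛδ.smul, hΛδ.mono, hΛδ.le_const, hΛδ.cont, hΛδ.small, hΛδ.gen, hΛδ.time,
        hΛδ.lip, ?_, ?_⟩
      · intro z hz Cz Lz h1 h2 θ x hθ0 hθ1 ρ hρ hlt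
        refine hΛδ.space z hz Cz Lz h1 h2 θ x hθ0 hθ1 ρ hρ (lt_of_le_of_lt ?_ hlt)
        have : CE * Lz ^ 2 * θ * (C3 * √δ + a1 * θ) ≤ CE * Lz ^ 2 * θ * (C3m * √δ + a1 * θ) :=
          mul_le_mul_of_nonneg_left (by linarith) (by positivity)
        exact mul_le_mul_of_nonneg_left (by linarith) (by positivity)
      · intro f L h1 h2 x
        exact (hΛδ.zero f L h1 h2 x).trans (mul_le_mul_of_nonneg_right hcc L.2)
    have hJ' : JApprox m k h₂ C3m := by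
      refine ⟨hJ.be, fun δ hδ h1 f L h2 h3 => ?_⟩
      filter_upwards [hJ.app δ hδ h1 f L h2 h3] with x hx
      refine hx.trans ?_
      have := le_max_right C3 C3'
      have h5 : 0 ≤ √δ := Real.sqrt_nonneg _
      gcongr
    -- the error integral
    have hw := wpt_memLp (o := o) (d := d) H hδ
    have hwb := wpt_bdd (o := o) (d := d) H hδ
    have hgm : ∀ n, MeasurableSet {x | fn n x ≠ F x} := fun n =>
      (isOpen_ne_fun (hfn1 n).continuous hFl.continuous).measurableSet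
    set g : ℕ → X → ℝ := fun n =>
      {x | fn n x ≠ F x}.indicator fun x => ((LF : ℝ) + Lf) * wpt m δ d o x with hg
    have hg2 : ∀ n, MemLp (g n) 2 m := fun n => (hw.const_mul _).indicator (hgm n)
    have hgb : ∀ n, ∀ᵐ x ∂m, |g n x| ≤ ((LF : ℝ) + Lf) * (5 * |d|) := by
      intro n
      filter_upwards [hwb] with x hx
      have h0 : 0 ≤ ((LF : ℝ) + Lf) := by positivity
      simp only [hg]
      by_cases hxs : x ∈ {x | fn n x ≠ F x}
      · rw [indicator_of_mem hxs, abs_mul, abs_of_nonneg h0]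
        exact mul_le_mul_of_nonneg_left hx h0
      · rw [indicator_of_notMem hxs, abs_zero]
        positivity
    have hglim := cut_tendsto hw (fun n => (hfn1 n).continuous.measurable)
      hFl.continuous.measurable hfn4 ((LF : ℝ) + Lf)
    have hθc : Continuous fun s => τ * φ s := continuous_const.mul hφ2.continuous
    have hθ0 : ∀ s, 0 ≤ τ * φ s := fun s => mul_nonneg hτ.le (hφ0 s)
    have hθ1 : ∀ s, τ * φ s ≤ 1 := fun s =>
      (mul_le_mul_of_nonneg_left ((le_abs_self _).trans (hN s)) hτ.le).trans hτN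
    have hη1 : ContDiff ℝ 1 (deriv φ) := by
      have := (contDiff_succ_iff_deriv (𝕜 := ℝ) (n := 1) (f := φ)).mp
        (by simpa [one_add_one_eq_two] using hφ2)
      exact this.2.2
    have hdθ : deriv (fun t => τ * φ t) = fun t => τ * deriv φ t := by
      funext t
      rw [deriv_const_mul _ ((hφ2.differentiable (by norm_num)) t)]
    have hE : Tendsto (fun n => ∫ s in (0 : ℝ)..1, |deriv (fun t => τ * φ t) s| *
        Λ (τ * φ s) (γ.ext s) (g n)) atTop (𝓝 (∫ s in (0 : ℝ)..1, (0 : ℝ))) := by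
      refine intervalIntegral.tendsto_integral_filter_of_dominated_convergence
        (fun _ => N1 * (((LF : ℝ) + Lf) * (5 * |d|))) ?_ ?_ ?_ ?_
      · refine Eventually.of_forall fun n => Continuous.aestronglyMeasurable ?_
        rw [hdθ]
        refine (continuous_const.mul hη1.continuous).abs.mul ?_
        exact (hΛ'.cont (g n) ⟨hg2 n, _, hgb n⟩).comp_continuous (hθc.prodMk hσc)
          fun s => ⟨hθ0 s, mem_univ _⟩
      · refine Eventually.of_forall fun n => Eventually.of_forall fun s _ => ?_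
        rw [Real.norm_eq_abs, abs_mul, abs_abs]
        refine mul_le_mul ?_ (hΛ'.abs_le (hθ0 s) _ (hg2 n) (by positivity) (hgb n))
          (abs_nonneg _) hN1
        rw [hdθ, abs_mul, abs_of_pos hτ]
        calc τ * |deriv φ s| ≤ 1 * N1 := mul_le_mul hτ1 (hN' s) (abs_nonneg _) zero_le_one
          _ = N1 := one_mul _
      · exact intervalIntegrable_const
      · refine Eventually.of_forall fun s _ => ?_
        have h1 := hΛ'.small (fun _ => τ * φ s) (fun _ => γ.ext s) g 1 _ (γ.ext s)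
          (fun _ => ⟨hθ0 s, hθ1 s⟩) tendsto_const_nhds hg2 hgb hglim
        have h2 := h1.const_mul |deriv (fun t => τ * φ t) s|
        rwa [mul_zero] at h2
    rw [intervalIntegral.integral_zero] at hE
    have hEe : ∀ᶠ n in atTop, ∫ s in (0 : ℝ)..1, |deriv (fun t => τ * φ t) s| *
        Λ (τ * φ s) (γ.ext s) (g n) < e := (tendsto_order.mp hE).2 e he
    obtain ⟨n, hn1, hn2⟩ := (hEe.and (eventually_ge_atTop ⌈d⌉₊)).exists
    have hdn : d ≤ n := (Nat.le_ceil d).trans (by exact_mod_cast hn2)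
    have hmain := ineq_one H hslope hFb hFl hGb hGc hA0 ha1 hCE hC3m0 hJ' hδ g2 g4 g3 hΛ' hd0
      hσ hσ0 hσ1 hσd hN1 hφ0 hN hN' hN'' e0 e1 d0 d1 hφ2 hτ hτ1 hτN (hfn1 n) (hfn2 n) (hfn3 n)
      (fun x hx => hfn4 n x (Metric.closedBall_subset_closedBall hdn hx))
    have hmain' : d ^ 2 / 2 ≤ ((∫ s in (0 : ℝ)..1, (1 / 2) * (d ^ 2 * ((1 - 2 * δ * k)⁻¹ ^ 2) *
        Real.exp (2 * ((Gf ∘ γ.ext) s + δ ^ 2 * k) * (τ * φ s)))) -
        τ * (∫ s in (0 : ℝ)..1, deriv (deriv φ) s * F (γ.ext s)) + C * (√δ + τ ^ 2)) +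
        ∫ s in (0 : ℝ)..1, |deriv (fun t => τ * φ t) s| * Λ (τ * φ s) (γ.ext s) (g n) := hmain
    exact hmain'.trans (add_le_add le_rfl hn1.le)
  rw [integral_Icc_eq_integral_Ioc, integral_Icc_eq_integral_Ioc,
    ← intervalIntegral.integral_of_le zero_le_one, ← intervalIntegral.integral_of_le zero_le_one]
  refine le_trans (le_of_eq ?_) hI
  refine intervalIntegral.integral_congr fun s _ => ?_
  show F (γ.ext s) * iteratedDeriv 2 φ s = deriv (deriv φ) s * F (γ.ext s)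
  rw [iteratedDeriv_succ, iteratedDeriv_one, mul_comm]

end Fin
end Crest.Agent.R242
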