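import Crest.Agent.R242.G3Of
import Crest.Agent.R242.DIterE
import Crest.Agent.R242.DaviesFin
import Crest.Agent.R242.Vol
import Crest.Agent.R242.Sob2Lip
import Crest.Agent.R242.SobLip
import Crest.Agent.R242.SobMin

/-!
Row 242 (S0375), G3: the facts needed by `g3_of`, and the final form.
-/

set_option autoImplicit false
set_option linter.unusedSectionVars false

open MeasureTheory Filter Set
open scoped ENNReal NNReal Topology
open Crest.GeometryTopology.SyntheticRicci

noncomputable section

namespace Crest.Agent.R242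

variable {X : Type*} [MetricSpace X] [ProperSpace X] [MeasurableSpace X] [BorelSpace X]
  {m : Measure X} [IsLocallyFiniteMeasure m] [m.IsOpenPosMeasure] {k N h₀ : ℝ}

theorem g3_wg_le_of_lipschitz (H : Hyp m k N) {f : X → ℝ} {L : ℝ≥0} (hL : LipschitzWith L f) :
    ∀ᵐ x ∂m, minWeakGrad m f x ≤ L := by
  have h1 : LipOnBalls f := fun o R => ⟨L, hL.lipschitzOnWith⟩
  filter_upwards [minWeakGrad_le_of_lipschitzOnWith H.fin h1 isOpen_univ
    (hL.lipschitzOnWith (s := Set.univ))] with x hx using hx (Set.mem_univ x)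

/-- gradient bound for `J_h f`, `f` Lipschitz. -/
theorem g3_wg_J_le (H : Hyp m k N) (GJ : GoodJ m k h₀) {h : ℝ} (hh : 0 < h) (hh0 : h ≤ h₀)
    {f : X → ℝ} {L : ℝ≥0} (hf : IsSobolev m f) (hL : LipschitzWith L f) :
    ∀ᵐ x ∂m, minWeakGrad m (J m h f) x ≤ 1 / Real.sqrt (1 - 2 * h * k) * L := by
  have hk := H.kpos
  have hc0 : 0 < 1 - 2 * h * k := by
    have h1 := GJ.small
    have h2 : h * k ≤ h₀ * k := mul_le_mul_of_nonneg_right hh0 hk.le
    nlinarith
  have hJs : IsSobolev m (J m h f) := Jr_sob H di_bl0 hh hf.1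
  have hJi := integrable_wg_sq H hJs
  have hfi := integrable_wg_sq H hf
  have hfL := g3_wg_le_of_lipschitz H hL
  have key := di_ae_le_of_test (m := m) (di_bl0 (X := X))
    (F₁ := fun x => minWeakGrad m (J m h f) x ^ 2) (F₂ := fun _ => 0)
    (C := (1 - 2 * h * k)⁻¹ * (L : ℝ) ^ 2) hJi (integrable_zero _ _ _)
    (fun q hq2 hq1 hqb hq0 => by
      rw [wm_zero]
      obtain ⟨Cq, hCq⟩ := hqb
      have hqt : MemLp q ⊤ m := memLp_top_of_bound hq1.aestronglyMeasurable Cq
        (hCq.mono fun x hx => by simpa using hx)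
      have h1 := GJ.be h hh hh0 f hf q hq0 (memLp_one_iff_integrable.2 hq1) hqt
      have hJq2 : MemLp (J m h q) 2 m := di_J_memLp H hh hq2
      have hJq0 := di_J_nonneg H hh hq2 hq0
      have hJq1 := di_J_l1 H hh hq2 hq1
      have hJqb := di_J_abs_le H hh hq2 hCq
      have e1 : ∫ x, |J m h q x| ∂m = ∫ x, J m h q x ∂m := integral_congr_ae (by
        filter_upwards [hJq0] with x hx using abs_of_nonneg hx)
      have e2 : ∫ x, |q x| ∂m = ∫ x, q x ∂m := integral_congr_ae (by
        filter_upwards [hq0] with x hx using abs_of_nonneg hx)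
      have h2 : ∫ x, J m h q x * minWeakGrad m f x ^ 2 ∂m ≤ (L : ℝ) ^ 2 * ∫ x, q x ∂m := by
        have h3 : ∫ x, J m h q x * minWeakGrad m f x ^ 2 ∂m ≤
            ∫ x, (L : ℝ) ^ 2 * J m h q x ∂m := by
          refine integral_mono_ae ?_ (hJq1.1.const_mul _) ?_
          · have := di_int (m := m) (di_bl0 (X := X)) hfi hJq2.aestronglyMeasurable ⟨Cq, hJqb⟩
            rw [wm_zero] at this
            exact this.congr (Eventually.of_forall fun x => mul_comm _ _)
          · filter_upwards [hJq0, hfL, wg_nonneg H hf.2.1] with x a1 a2 a3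
            have a4 : minWeakGrad m f x ^ 2 ≤ (L : ℝ) ^ 2 := pow_le_pow_left₀ a3 a2 2
            rw [mul_comm]
            exact mul_le_mul_of_nonneg_right a4 a1
        rw [integral_const_mul] at h3
        refine h3.trans (mul_le_mul_of_nonneg_left ?_ (sq_nonneg _))
        have := hJq1.2
        rwa [e1, e2] at this
      have e3 : ∫ x, minWeakGrad m (J m h f) x ^ 2 * q x ∂m =
          ∫ x, q x * minWeakGrad m (J m h f) x ^ 2 ∂m :=
        integral_congr_ae (Eventually.of_forall fun x => mul_comm _ _)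
      have e4 : ∫ x, (fun _ : X => (0 : ℝ)) x * q x ∂m = 0 := by simp
      simp only at e4 ⊢
      rw [e3, e4, zero_add]
      refine h1.trans ?_
      have := mul_le_mul_of_nonneg_left h2 (inv_pos.2 hc0).le
      calc _ ≤ _ := this
        _ = _ := by ring)
  filter_upwards [key, wg_nonneg H hJs.2.1] with x h1 h2
  have h3 : (1 / Real.sqrt (1 - 2 * h * k) * (L : ℝ)) ^ 2 = (1 - 2 * h * k)⁻¹ * (L : ℝ) ^ 2 := by
    rw [mul_pow, div_pow, one_pow, Real.sq_sqrt hc0.le, one_div]
  rw [zero_add, ← h3] at h1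
  exact (abs_le_of_sq_le_sq' h1 (by positivity)).2

/-- [G3] all facts. -/
theorem g3Facts_of_hyp (H : Hyp m k N) (GJ : GoodJ m k h₀) (hgeo : HasBddGeoPlans m) :
    ∃ h0 CD CV Cd : ℝ, G3Facts m k h0 CD CV Cd := by
  have hud : IsUnifLocDoublingMeasure m := isUnifLocDoubling_of_hyp H
  obtain ⟨a₀, CV, ha₀, hCV, hexp⟩ := exp_integral H
  obtain ⟨Cd, hCd, hdbl⟩ := doubling H
  have hk := H.kpos
  -- the threshold: `√h ≤ 1/2`, `1/(4√h) ≥ a₀`
  set h0 := min h₀ ((1 / (4 * a₀)) ^ 2) with hh0
  have ha₀p : 0 < a₀ := by linarith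
  have h0pos : 0 < h0 := lt_min GJ.pos (by positivity)
  have hrle : ∀ r : ℝ, 0 < r → r ^ 2 ≤ h0 → r ≤ 1 / (4 * a₀) := fun r hr h1 =>
    (abs_le_of_sq_le_sq' (h1.trans (min_le_right _ _)) (by positivity)).2
  have hr14 : ∀ r : ℝ, 0 < r → r ^ 2 ≤ h0 → r ≤ 1 / 4 := fun r hr h1 => by
    refine (hrle r hr h1).trans ?_
    apply one_div_le_one_div_of_le (by norm_num)
    linarith
  refine ⟨h0, 4, 16 * CV, Cd * Cd, ?_⟩
  refine
    { h0pos := h0pos
      h0k := ?_
      CDnn := by norm_num
      CVnn := by positivity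
      Cdnn := by positivity
      lip := ?_
      symm := ?_
      nonneg := ?_
      mass := ?_
      davies := ?_
      moment := ?_
      doubling := ?_ }
  · have h1 := GJ.small
    have h2 : h0 * k ≤ h₀ * k := mul_le_mul_of_nonneg_right (min_le_left _ _) hk.le
    linarith
  · intro h hh hhle f L hf hL
    have hle : h ≤ h₀ := hhle.trans (min_le_left _ _)
    have h1 := g3_wg_J_le H GJ hh hle hf hL
    have hJs : IsSobolev m (J m h f) := Jr_sob H di_bl0 hh hf.1
    obtain ⟨v, hv, hve⟩ := exists_lip_rep H.fin hgeo hJs.2.1.1 (IsSobolevLoc.isWUG hJs.2.1)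
      (L := Real.toNNReal (1 / Real.sqrt (1 - 2 * h * k)) * L) (by
        filter_upwards [h1] with x hx
        rw [NNReal.coe_mul, Real.coe_toNNReal _ (by positivity)]
        exact hx)
    exact ⟨v, hve, hv⟩
  · intro h hh hhle f g hf hg
    exact di_J_symm H hh hf hg
  · intro h hh hhle f hf h1
    exact di_J_nonneg H hh hf h1
  · intro h hh hhle f hf hs
    exact GJ.mass h hh (hhle.trans (min_le_left _ _)) f hf hs
  · intro h hh hhle o f hf hs
    have hsq : 0 < Real.sqrt h := Real.sqrt_pos.2 hh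
    have e1 : ∀ y : X, 2 * (1 / (4 * Real.sqrt h)) * dist y o = dist y o / (2 * Real.sqrt h) :=
      fun y => by field_simp; ring
    have hfi : Integrable (fun x => f x ^ 2 * Real.exp (2 * (1 / (4 * Real.sqrt h)) * dist x o))
        m := by
      obtain ⟨o', R, hR⟩ := hs
      refine (hf.integrable_sq.const_mul
        (Real.exp (2 * (1 / (4 * Real.sqrt h)) * (|R| + dist o' o)))).mono' ?_ ?_
      · exact hf.integrable_sq.aestronglyMeasurable.mul
          (by fun_prop : Continuous fun x : X =>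
            Real.exp (2 * (1 / (4 * Real.sqrt h)) * dist x o)).aestronglyMeasurable
      · filter_upwards [hR] with x hx
        rw [norm_mul, Real.norm_of_nonneg (sq_nonneg _), Real.norm_of_nonneg (Real.exp_pos _).le,
          mul_comm]
        by_cases hxb : x ∈ Metric.closedBall o' R
        · refine mul_le_mul_of_nonneg_right (Real.exp_le_exp.2 ?_) (sq_nonneg _)
          refine mul_le_mul_of_nonneg_left ?_ (by positivity)
          calc dist x o ≤ dist x o' + dist o' o := dist_triangle _ _ _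
            _ ≤ |R| + dist o' o := by
              have := Metric.mem_closedBall.1 hxb
              linarith [le_abs_self R]
        · rw [hx hxb]; simp
    have ha4 : 4 * h * (1 / (4 * Real.sqrt h)) ^ 2 ≤ 1 := by
      rw [div_pow, mul_pow, Real.sq_sqrt hh.le]
      field_simp
      norm_num
    obtain ⟨b1, b2, b3⟩ := davies4 H hh (by positivity) ha4 hf o hfi
    simp only [e1] at b1 b2 b3
    refine ⟨b1, ?_⟩
    have b4 : 0 ≤ h * (∫ x, minWeakGrad m (J m h f) x ^ 2 *
        Real.exp (dist x o / (2 * Real.sqrt h)) ∂m) :=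
      mul_nonneg hh.le (integral_nonneg fun x => mul_nonneg (sq_nonneg _) (Real.exp_pos _).le)
    linarith
  · intro r hr hr2 x
    have hr1 := hrle r hr hr2
    have ha : a₀ ≤ 1 / (4 * r) := by
      rw [le_div_iff₀ (by positivity)]
      rw [le_div_iff₀ (by positivity)] at hr1
      linarith
    have h1 := hexp (1 / (4 * r)) ha x
    have e1 : 1 / (1 / (4 * r)) = 4 * r := by field_simp
    rw [e1] at h1
    have hfin : m (Metric.ball x (4 * r)) < ⊤ := measure_ball_lt_top
    set F : X → ℝ := fun y => dist y x ^ 2 * Real.exp (-(dist y x / (2 * r))) with hF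
    have hFc : Continuous F := by
      simp only [hF]; fun_prop
    have hF0 : ∀ y, 0 ≤ F y := fun y => mul_nonneg (sq_nonneg _) (Real.exp_pos _).le
    have hle : ∀ y, F y ≤ 16 * r ^ 2 * ((1 + 1 / (4 * r) * dist y x) ^ 4 *
        Real.exp (-(2 * (1 / (4 * r))) * dist y x)) := by
      intro y
      have e2 : -(2 * (1 / (4 * r))) * dist y x = -(dist y x / (2 * r)) := by field_simp; ring
      rw [e2, ← mul_assoc]
      refine mul_le_mul_of_nonneg_right ?_ (Real.exp_pos _).le
      have h2 : (0 : ℝ) ≤ 1 / (4 * r) * dist y x := by positivity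
      set s := 1 / (4 * r) * dist y x with hs
      have h3 : dist y x ^ 2 = 16 * r ^ 2 * s ^ 2 := by
        rw [hs]; field_simp; ring
      rw [h3]
      refine mul_le_mul_of_nonneg_left ?_ (by positivity)
      nlinarith [sq_nonneg s, mul_nonneg h2 h2, pow_nonneg h2 3, pow_nonneg h2 4]
    have h2 : ∫⁻ y, ENNReal.ofReal (F y) ∂m ≤
        ENNReal.ofReal (16 * CV * r ^ 2 * m.real (Metric.ball x (4 * r))) := by
      calc ∫⁻ y, ENNReal.ofReal (F y) ∂m ≤ ∫⁻ y, ENNReal.ofReal (16 * r ^ 2) *
            ENNReal.ofReal ((1 + 1 / (4 * r) * dist y x) ^ 4 *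
              Real.exp (-(2 * (1 / (4 * r))) * dist y x)) ∂m := by
            refine lintegral_mono fun y => ?_
            rw [← ENNReal.ofReal_mul (by positivity)]
            exact ENNReal.ofReal_le_ofReal (hle y)
        _ = ENNReal.ofReal (16 * r ^ 2) * ∫⁻ y,
            ENNReal.ofReal ((1 + 1 / (4 * r) * dist y x) ^ 4 *
              Real.exp (-(2 * (1 / (4 * r))) * dist y x)) ∂m :=
            lintegral_const_mul' _ _ ENNReal.ofReal_ne_top
        _ ≤ ENNReal.ofReal (16 * r ^ 2) * (ENNReal.ofReal CV * m (Metric.ball x (4 * r))) := by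
            gcongr
        _ = ENNReal.ofReal (16 * CV * r ^ 2 * m.real (Metric.ball x (4 * r))) := by
            rw [← ENNReal.ofReal_toReal hfin.ne, ← mul_assoc, ← ENNReal.ofReal_mul (by positivity),
              ← ENNReal.ofReal_mul (by positivity)]
            congr 1
            simp only [Measure.real]
            ring
    have hint : Integrable F m := by
      refine ⟨hFc.aestronglyMeasurable, ?_⟩
      rw [hasFiniteIntegral_iff_ofReal (Eventually.of_forall hF0)]
      exact h2.trans_lt ENNReal.ofReal_lt_top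
    refine ⟨hint, ?_⟩
    rw [integral_eq_lintegral_of_nonneg_ae (Eventually.of_forall hF0) hint.aestronglyMeasurable]
    exact ENNReal.toReal_le_of_le_ofReal (by positivity) h2
  · intro r hr hr2 x
    have hr4 := hr14 r hr hr2
    have h1 := hdbl x r hr (by linarith)
    have h2 := hdbl x (2 * r) (by linarith) (by linarith)
    have e1 : 2 * (2 * r) = 4 * r := by ring
    rw [e1] at h2
    have hfin1 : m (Metric.ball x r) < ⊤ := measure_ball_lt_top
    have h3 : m (Metric.ball x (4 * r)) ≤ ENNReal.ofReal (Cd * Cd) * m (Metric.ball x r) := by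
      calc m (Metric.ball x (4 * r)) ≤ ENNReal.ofReal Cd * m (Metric.ball x (2 * r)) := h2
        _ ≤ ENNReal.ofReal Cd * (ENNReal.ofReal Cd * m (Metric.ball x r)) := by gcongr
        _ = ENNReal.ofReal (Cd * Cd) * m (Metric.ball x r) := by
          rw [← mul_assoc, ← ENNReal.ofReal_mul hCd.le]
    have h4 := ENNReal.toReal_mono (ENNReal.mul_ne_top ENNReal.ofReal_ne_top hfin1.ne) h3
    rw [ENNReal.toReal_mul, ENNReal.toReal_ofReal (by positivity)] at h4
    exact h4

end Crest.Agent.R242
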