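import Crest.Agent.R242.Defs

/-!
Row 242 (S0375), G3: the core estimate `|J_h f - f| ≤ C √h Lip f`, from explicit hypotheses.
-/

set_option autoImplicit false

open MeasureTheory Filter Set Metric
open scoped ENNReal NNReal Topology
open Crest.GeometryTopology.SyntheticRicci

namespace Crest.Agent.R242

section

variable {X : Type*} [MetricSpace X] [ProperSpace X] [MeasurableSpace X] [BorelSpace X]
  {m : Measure X} [IsLocallyFiniteMeasure m] [m.IsOpenPosMeasure]

theorem g3_ball_pos (x : X) (r : ℝ) (hr : 0 < r) : 0 < m.real (ball x r) := by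
  have h1 : 0 < m (ball x r) := measure_ball_pos m x hr
  have h2 : m (ball x r) < ⊤ := measure_ball_lt_top
  exact ENNReal.toReal_pos h1.ne' h2.ne

/-- Weighted Cauchy-Schwarz. -/
theorem g3_moment (x : X) (r s b A B : ℝ) (hr : 0 < r) (hb : 0 < b) (g : X → ℝ)
    (hgm : AEStronglyMeasurable g m) (hg0 : 0 ≤ᵐ[m] g)
    (hA : Integrable (fun y => g y ^ 2 * Real.exp (dist y x / s)) m)
    (hA' : ∫ y, g y ^ 2 * Real.exp (dist y x / s) ∂m ≤ A / b)
    (hB : Integrable (fun y => dist y x ^ 2 * Real.exp (-(dist y x / s))) m)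
    (hB' : ∫ y, dist y x ^ 2 * Real.exp (-(dist y x / s)) ∂m ≤ B * r ^ 2 * b) :
    Integrable (fun y => dist y x * g y) m ∧
      ∫ y, dist y x * g y ∂m ≤ (A + B) / 2 * r := by
  have hpt : ∀ᵐ y ∂m, dist y x * g y ≤
      (1 / (2 * (r * b))) * (dist y x ^ 2 * Real.exp (-(dist y x / s))) +
      (r * b / 2) * (g y ^ 2 * Real.exp (dist y x / s)) := by
    filter_upwards [hg0] with y hy
    set E := Real.exp (dist y x / s) with hE
    have hE0 : 0 < E := Real.exp_pos _
    have hEi : Real.exp (-(dist y x / s)) = E⁻¹ := by rw [Real.exp_neg]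
    rw [hEi]
    have hc : 0 < r * b := mul_pos hr hb
    have key : 0 ≤ (dist y x - (r * b) * E * g y) ^ 2 := sq_nonneg _
    have e1 : (1 / (2 * (r * b))) * (dist y x ^ 2 * E⁻¹) + (r * b / 2) * (g y ^ 2 * E) -
        dist y x * g y = (dist y x - (r * b) * E * g y) ^ 2 / (2 * (r * b) * E) := by
      field_simp
      ring
    have e2 : 0 ≤ (dist y x - (r * b) * E * g y) ^ 2 / (2 * (r * b) * E) := by positivity
    linarith
  have hint : Integrable (fun y => (1 / (2 * (r * b))) * (dist y x ^ 2 *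
      Real.exp (-(dist y x / s))) + (r * b / 2) * (g y ^ 2 * Real.exp (dist y x / s))) m :=
    (hB.const_mul _).add (hA.const_mul _)
  have hdm : AEStronglyMeasurable (fun y => dist y x * g y) m :=
    (by fun_prop : Continuous fun y : X => dist y x).aestronglyMeasurable.mul hgm
  have hI : Integrable (fun y => dist y x * g y) m := by
    refine hint.mono' hdm ?_
    filter_upwards [hpt, hg0] with y hy hy0
    rw [Real.norm_of_nonneg (mul_nonneg dist_nonneg hy0)]
    exact hy
  refine ⟨hI, ?_⟩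
  calc ∫ y, dist y x * g y ∂m ≤ ∫ y, ((1 / (2 * (r * b))) * (dist y x ^ 2 *
      Real.exp (-(dist y x / s))) + (r * b / 2) * (g y ^ 2 * Real.exp (dist y x / s))) ∂m :=
        integral_mono_ae hI hint hpt
    _ = (1 / (2 * (r * b))) * ∫ y, dist y x ^ 2 * Real.exp (-(dist y x / s)) ∂m +
        (r * b / 2) * ∫ y, g y ^ 2 * Real.exp (dist y x / s) ∂m := by
        rw [integral_add (hB.const_mul _) (hA.const_mul _), integral_const_mul,
          integral_const_mul]
    _ ≤ (1 / (2 * (r * b))) * (B * r ^ 2 * b) + (r * b / 2) * (A / b) := by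
        gcongr
    _ = (A + B) / 2 * r := by field_simp; ring

/-- The core pointwise estimate. -/
theorem g3_point (x : X) (r L L' M : ℝ) (hr : 0 < r) (hL' : 0 ≤ L')
    (q Jq f Jf v : X → ℝ)
    (hq : q = (ball x r).indicator (fun _ => (m.real (ball x r))⁻¹))
    (hJ0 : 0 ≤ᵐ[m] Jq) (hJi : Integrable Jq m) (hJ1 : ∫ y, Jq y ∂m = 1)
    (hd : Integrable (fun y => dist y x * Jq y) m) (hdM : ∫ y, dist y x * Jq y ∂m ≤ M)
    (hL : 0 ≤ L) (hfm : AEStronglyMeasurable f m) (hf : ∀ y, |f y - f x| ≤ L * dist y x)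
    (hsym : ∫ y, Jf y * q y ∂m = ∫ y, f y * Jq y ∂m)
    (hv : v =ᵐ[m] Jf) (hvc : Continuous v) (hvL : ∀ y, |v y - v x| ≤ L' * dist y x) :
    |v x - f x| ≤ L' * r + L * M := by
  have hb := g3_ball_pos (m := m) x r hr
  have hbt : m (ball x r) ≠ ⊤ := measure_ball_lt_top.ne
  -- average of v
  have hqi : Integrable q m := by
    rw [hq, integrable_indicator_iff measurableSet_ball]
    exact integrableOn_const hbt
  have hq1 : ∫ y, q y ∂m = 1 := by
    rw [hq, integral_indicator measurableSet_ball, setIntegral_const, smul_eq_mul]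
    exact mul_inv_cancel₀ hb.ne'
  have hq0 : ∀ y, 0 ≤ q y := fun y => by
    rw [hq]; exact indicator_nonneg (fun _ _ => inv_nonneg.2 hb.le) y
  have hvqb : ∀ y, |(v y - v x) * q y| ≤ L' * r * q y := by
    intro y
    rw [abs_mul, abs_of_nonneg (hq0 y)]
    by_cases hy : y ∈ ball x r
    · refine mul_le_mul_of_nonneg_right ((hvL y).trans ?_) (hq0 y)
      exact mul_le_mul_of_nonneg_left (mem_ball.1 hy).le hL'
    · have : q y = 0 := by rw [hq, indicator_of_notMem hy]
      rw [this]; simp
  have hvqi : Integrable (fun y => (v y - v x) * q y) m := by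
    refine (hqi.const_mul (L' * r)).mono'
      (((hvc.sub continuous_const).aestronglyMeasurable).mul hqi.aestronglyMeasurable) ?_
    exact Eventually.of_forall fun y => by simpa [Real.norm_eq_abs] using hvqb y
  have h1 : |∫ y, (v y - v x) * q y ∂m| ≤ L' * r := by
    calc |∫ y, (v y - v x) * q y ∂m| ≤ ∫ y, L' * r * q y ∂m := by
          rw [← Real.norm_eq_abs]
          refine norm_integral_le_of_norm_le (hqi.const_mul _) ?_
          exact Eventually.of_forall fun y => by simpa [Real.norm_eq_abs] using hvqb y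
      _ = L' * r := by rw [integral_const_mul, hq1, mul_one]
  have h2 : ∫ y, v y * q y ∂m = (∫ y, (v y - v x) * q y ∂m) + v x := by
    have e : (fun y => v y * q y) = fun y => (v y - v x) * q y + v x * q y := by
      funext y; ring
    rw [e, integral_add hvqi (hqi.const_mul _), integral_const_mul, hq1, mul_one]
  have h3 : ∫ y, v y * q y ∂m = ∫ y, Jf y * q y ∂m :=
    integral_congr_ae (by filter_upwards [hv] with y hy; rw [hy])
  -- average of f
  have hfb : ∀ᵐ y ∂m, ‖(f y - f x) * Jq y‖ ≤ L * (dist y x * Jq y) := by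
    filter_upwards [hJ0] with y hy
    rw [Real.norm_eq_abs, abs_mul, abs_of_nonneg hy, ← mul_assoc]
    exact mul_le_mul_of_nonneg_right (hf y) hy
  have hfi : Integrable (fun y => (f y - f x) * Jq y) m :=
    (hd.const_mul L).mono' ((hfm.sub aestronglyMeasurable_const).mul hJi.aestronglyMeasurable) hfb
  have h4 : |∫ y, (f y - f x) * Jq y ∂m| ≤ L * M := by
    calc |∫ y, (f y - f x) * Jq y ∂m| ≤ ∫ y, L * (dist y x * Jq y) ∂m := by
          rw [← Real.norm_eq_abs]
          exact norm_integral_le_of_norm_le (hd.const_mul _) hfb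
      _ = L * ∫ y, dist y x * Jq y ∂m := integral_const_mul _ _
      _ ≤ L * M := mul_le_mul_of_nonneg_left hdM hL
  have h5 : ∫ y, f y * Jq y ∂m = (∫ y, (f y - f x) * Jq y ∂m) + f x := by
    have e : (fun y => f y * Jq y) = fun y => (f y - f x) * Jq y + f x * Jq y := by
      funext y; ring
    rw [e, integral_add hfi (hJi.const_mul _), integral_const_mul, hJ1, mul_one]
  have h6 : v x - f x = (∫ y, (f y - f x) * Jq y ∂m) - ∫ y, (v y - v x) * q y ∂m := by
    linarith
  rw [h6]
  calc |(∫ y, (f y - f x) * Jq y ∂m) - ∫ y, (v y - v x) * q y ∂m| ≤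
      |∫ y, (f y - f x) * Jq y ∂m| + |∫ y, (v y - v x) * q y ∂m| := abs_sub _ _
    _ ≤ L' * r + L * M := by linarith

end

end Crest.Agent.R242
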