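import Crest.Agent.R242.G3Core

/-!
Row 242 (S0375), G3: the resolvent preserves Lipschitz functions and is close to the identity on
them; all facts from the other modules are hypotheses here.
-/

set_option autoImplicit false

open MeasureTheory Filter Set Metric
open scoped ENNReal NNReal Topology
open Crest.GeometryTopology.SyntheticRicci

namespace Crest.Agent.R242

section

variable {X : Type*} [MetricSpace X] [ProperSpace X] [MeasurableSpace X] [BorelSpace X]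
  {m : Measure X} [IsLocallyFiniteMeasure m] [m.IsOpenPosMeasure]

/-- The facts used by G3. -/
structure G3Facts (m : Measure X) (k : ℝ) (h0 CD CV Cd : ℝ) : Prop where
  h0pos : 0 < h0
  h0k : 4 * h0 * k ≤ 1
  CDnn : 0 ≤ CD
  CVnn : 0 ≤ CV
  Cdnn : 0 ≤ Cd
  /-- gradient estimate + Sobolev-to-Lipschitz: Lipschitz representative of `J_h f`. -/
  lip : ∀ h, 0 < h → h ≤ h0 → ∀ (f : X → ℝ) (L : ℝ≥0), IsSobolev m f → LipschitzWith L f →
    ∃ v : X → ℝ, v =ᵐ[m] J m h f ∧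
      LipschitzWith (Real.toNNReal (1 / Real.sqrt (1 - 2 * h * k)) * L) v
  symm : ∀ h, 0 < h → h ≤ h0 → ∀ (f g : X → ℝ), MemLp f 2 m → MemLp g 2 m →
    ∫ x, J m h f x * g x ∂m = ∫ x, f x * J m h g x ∂m
  nonneg : ∀ h, 0 < h → h ≤ h0 → ∀ (f : X → ℝ), MemLp f 2 m → 0 ≤ᵐ[m] f → 0 ≤ᵐ[m] J m h f
  mass : ∀ h, 0 < h → h ≤ h0 → ∀ (f : X → ℝ), MemLp f 2 m → BddSupp m f →
    Integrable (J m h f) m ∧ ∫ x, J m h f x ∂m = ∫ x, f x ∂m
  /-- Davies, with `a = 1 / (4 √h)`. -/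
  davies : ∀ h, 0 < h → h ≤ h0 → ∀ (o : X) (f : X → ℝ), MemLp f 2 m → BddSupp m f →
    Integrable (fun x => J m h f x ^ 2 * Real.exp (dist x o / (2 * Real.sqrt h))) m ∧
      ∫ x, J m h f x ^ 2 * Real.exp (dist x o / (2 * Real.sqrt h)) ∂m ≤
        CD * ∫ x, f x ^ 2 * Real.exp (dist x o / (2 * Real.sqrt h)) ∂m
  /-- [V4], with `a = 1 / (4 r)`. -/
  moment : ∀ r, 0 < r → r ^ 2 ≤ h0 → ∀ x : X,
    Integrable (fun y => dist y x ^ 2 * Real.exp (-(dist y x / (2 * r)))) m ∧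
    ∫ y, dist y x ^ 2 * Real.exp (-(dist y x / (2 * r))) ∂m ≤
      CV * r ^ 2 * m.real (ball x (4 * r))
  doubling : ∀ r, 0 < r → r ^ 2 ≤ h0 → ∀ x : X,
    m.real (ball x (4 * r)) ≤ Cd * m.real (ball x r)

theorem g3_of {k h0 CD CV Cd : ℝ} (G : G3Facts m k h0 CD CV Cd) (h : ℝ) (hh : 0 < h)
    (hh0 : h ≤ h0) (f : X → ℝ) (L : ℝ≥0) (hf : IsSobolev m f) (hfL : LipschitzWith L f) :
    ∃ v : X → ℝ, v =ᵐ[m] J m h f ∧
      LipschitzWith (Real.toNNReal (1 / Real.sqrt (1 - 2 * h * k)) * L) v ∧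
      ∀ x, |v x - f x| ≤
        (2 + (CD * Real.exp 1 + CV * Cd) / 2) * Real.sqrt h * L := by
  obtain ⟨v, hv, hvL⟩ := G.lip h hh hh0 f L hf hfL
  refine ⟨v, hv, hvL, fun x => ?_⟩
  set r := Real.sqrt h with hr
  have hr0 : 0 < r := Real.sqrt_pos.2 hh
  have hr2 : r ^ 2 = h := Real.sq_sqrt hh.le
  set b := m.real (ball x r) with hb
  have hb0 : 0 < b := g3_ball_pos x r hr0
  have hbt : m (ball x r) ≠ ⊤ := measure_ball_lt_top.ne
  set q : X → ℝ := (ball x r).indicator (fun _ => b⁻¹) with hq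
  have hq2 : MemLp q 2 m := memLp_indicator_const 2 measurableSet_ball _ (Or.inr hbt)
  have hqs : BddSupp m q :=
    ⟨x, r, Eventually.of_forall fun y hy =>
      indicator_of_notMem (fun h' => hy (ball_subset_closedBall h')) _⟩
  have hq0 : 0 ≤ᵐ[m] q := Eventually.of_forall fun y =>
    indicator_nonneg (fun _ _ => inv_nonneg.2 hb0.le) y
  have hq1 : ∫ y, q y ∂m = 1 := by
    rw [hq, integral_indicator measurableSet_ball, setIntegral_const, smul_eq_mul]
    exact mul_inv_cancel₀ hb0.ne'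
  have hJ0 := G.nonneg h hh hh0 q hq2 hq0
  obtain ⟨hJi, hJ1⟩ := G.mass h hh hh0 q hq2 hqs
  rw [hq1] at hJ1
  -- Davies
  obtain ⟨hD1, hD2⟩ := G.davies h hh hh0 x q hq2 hqs
  rw [← hr] at hD1 hD2
  have hqe : ∫ y, q y ^ 2 * Real.exp (dist y x / (2 * r)) ∂m ≤ Real.exp 1 / b := by
    have hle : ∀ y, q y ^ 2 * Real.exp (dist y x / (2 * r)) ≤ (Real.exp 1 / b) * q y := by
      intro y
      by_cases hy : y ∈ ball x r
      · have e1 : q y = b⁻¹ := indicator_of_mem hy _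
        have e2 : Real.exp (dist y x / (2 * r)) ≤ Real.exp 1 := by
          apply Real.exp_le_exp.2
          rw [div_le_one (by positivity)]
          have := (mem_ball.1 hy).le
          linarith
        rw [e1]
        calc b⁻¹ ^ 2 * Real.exp (dist y x / (2 * r)) ≤ b⁻¹ ^ 2 * Real.exp 1 := by gcongr
          _ = Real.exp 1 / b * b⁻¹ := by field_simp
      · have e1 : q y = 0 := indicator_of_notMem hy _
        rw [e1]; simp
    have hqi : Integrable q m := by
      rw [hq, integrable_indicator_iff measurableSet_ball]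
      exact integrableOn_const hbt
    have hnn : 0 ≤ᵐ[m] fun y => q y ^ 2 * Real.exp (dist y x / (2 * r)) :=
      Eventually.of_forall fun y => mul_nonneg (sq_nonneg _) (Real.exp_pos _).le
    calc ∫ y, q y ^ 2 * Real.exp (dist y x / (2 * r)) ∂m ≤ ∫ y, (Real.exp 1 / b) * q y ∂m :=
          integral_mono_of_nonneg hnn (hqi.const_mul _) (Eventually.of_forall hle)
      _ = Real.exp 1 / b := by rw [integral_const_mul, hq1, mul_one]
  have hA' : ∫ y, J m h q y ^ 2 * Real.exp (dist y x / (2 * r)) ∂m ≤ (CD * Real.exp 1) / b := by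
    calc _ ≤ CD * ∫ y, q y ^ 2 * Real.exp (dist y x / (2 * r)) ∂m := hD2
      _ ≤ CD * (Real.exp 1 / b) := mul_le_mul_of_nonneg_left hqe G.CDnn
      _ = (CD * Real.exp 1) / b := by ring
  obtain ⟨hB, hB1⟩ := G.moment r hr0 (by rw [hr2]; exact hh0) x
  have hB' : ∫ y, dist y x ^ 2 * Real.exp (-(dist y x / (2 * r))) ∂m ≤ (CV * Cd) * r ^ 2 * b := by
    have h1 := G.doubling r hr0 (by rw [hr2]; exact hh0) x
    calc _ ≤ CV * r ^ 2 * m.real (ball x (4 * r)) := hB1
      _ ≤ CV * r ^ 2 * (Cd * b) :=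
          mul_le_mul_of_nonneg_left h1 (mul_nonneg G.CVnn (sq_nonneg _))
      _ = (CV * Cd) * r ^ 2 * b := by ring
  obtain ⟨hI, hM⟩ := g3_moment x r (2 * r) b (CD * Real.exp 1) (CV * Cd) hr0 hb0 (J m h q)
    hJi.aestronglyMeasurable hJ0 hD1 hA' hB hB'
  have hfm : MemLp f 2 m := hf.1
  have hsym := G.symm h hh hh0 f q hfm hq2
  have hfx : ∀ y, |f y - f x| ≤ (L : ℝ) * dist y x := fun y => by
    have := hfL.dist_le_mul y x
    rwa [Real.dist_eq] at this
  set c := 1 / Real.sqrt (1 - 2 * h * k) with hc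
  have hk2 : 1 / 2 ≤ 1 - 2 * h * k := by
    have h1 := G.h0k
    by_cases hk : 0 ≤ k
    · have : h * k ≤ h0 * k := mul_le_mul_of_nonneg_right hh0 hk
      nlinarith
    · push Not at hk
      nlinarith
  have hc2 : c ≤ 2 := by
    rw [hc, div_le_iff₀ (Real.sqrt_pos.2 (by linarith))]
    have h2 : (1 / 2 : ℝ) ≤ Real.sqrt (1 - 2 * h * k) := by
      apply Real.le_sqrt_of_sq_le
      linarith
    linarith
  have hc0 : 0 ≤ c := by rw [hc]; positivity
  have hvx : ∀ y, |v y - v x| ≤ (c * L) * dist y x := fun y => by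
    have := hvL.dist_le_mul y x
    rw [Real.dist_eq] at this
    simpa [Real.coe_toNNReal _ hc0] using this
  have key := g3_point x r L (c * L) ((CD * Real.exp 1 + CV * Cd) / 2 * r) hr0
    (by positivity) q (J m h q) f (J m h f) v rfl hJ0 hJi hJ1 hI hM L.2
    hfm.aestronglyMeasurable hfx hsym hv hvL.continuous hvx
  refine key.trans ?_
  have hL0 : (0 : ℝ) ≤ L := L.2
  have h3 : c * L * r ≤ 2 * L * r := by gcongr
  nlinarith

end

end Crest.Agent.R242
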