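import Crest.Agent.R242.Pair
import Crest.Agent.R242.ResCore

/-!
# Row 242, PART G: auxiliary lemmas for `J` (`V = 0`) and `L²` estimates (owner helper589)
-/

set_option autoImplicit false
set_option linter.unusedSectionVars false

open MeasureTheory Filter Set
open scoped ENNReal NNReal Topology
open Crest.GeometryTopology.SyntheticRicci

noncomputable section

namespace Crest.Agent.R242

variable {X : Type*} [MetricSpace X] [ProperSpace X] [MeasurableSpace X] [BorelSpace X]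
  {m : Measure X} [IsLocallyFiniteMeasure m] [m.IsOpenPosMeasure] {k N h₀ h : ℝ}
  {f g u v φ ψ : X → ℝ}

theorem gamA_bddM : BddM (fun _ : X => (0 : ℝ)) := ⟨measurable_const, 0, by simp⟩

theorem gamA_sob (C : Calc m) (hh : 0 < h) (hf : MemLp f 2 m) : IsSobolev m (J m h f) :=
  C.Jr_sob gamA_bddM hh hf

theorem gamA_memLp (C : Calc m) (hh : 0 < h) (hf : MemLp f 2 m) : MemLp (J m h f) 2 m :=
  C.Jr_memLp gamA_bddM hh hf

theorem gamA_congr (hfg : f =ᵐ[m] g) : J m h f = J m h g := Jr_congr' gamA_bddM hfg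

theorem gamA_eq (C : Calc m) (hh : 0 < h) (hf : MemLp f 2 m) (hv : IsSobolev m v) :
    h * ∫ x, gradPairing m (J m h f) v x ∂m + ∫ x, J m h f x * v x ∂m = ∫ x, f x * v x ∂m := by
  have := C.Jr_eq gamA_bddM hh hf hv
  simpa only [En, wm_zero, J] using this

theorem gamA_symm (C : Calc m) (hh : 0 < h) (hf : MemLp f 2 m) (hg : MemLp g 2 m) :
    ∫ x, J m h f x * g x ∂m = ∫ x, f x * J m h g x ∂m := by
  have := C.Jr_symm gamA_bddM hh hf hg
  simpa only [wm_zero, J] using this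

theorem gamA_add (C : Calc m) (hh : 0 < h) (hf : MemLp f 2 m) (hg : MemLp g 2 m) :
    J m h (fun x => f x + g x) =ᵐ[m] fun x => J m h f x + J m h g x :=
  C.Jr_add gamA_bddM hh hf hg

theorem gamA_sub (C : Calc m) (hh : 0 < h) (hf : MemLp f 2 m) (hg : MemLp g 2 m) :
    J m h (fun x => f x - g x) =ᵐ[m] fun x => J m h f x - J m h g x :=
  C.Jr_sub gamA_bddM hh hf hg

theorem gamA_smul (C : Calc m) (hh : 0 < h) (c : ℝ) (hf : MemLp f 2 m) :
    J m h (fun x => c * f x) =ᵐ[m] fun x => c * J m h f x :=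
  C.Jr_smul gamA_bddM hh c hf

theorem gamA_comm {h' : ℝ} (C : Calc m) (hh : 0 < h) (hh' : 0 < h') (hf : MemLp f 2 m) :
    J m h (J m h' f) =ᵐ[m] J m h' (J m h f) :=
  C.Jr_comm gamA_bddM hh hh' hf

theorem gamA_l2 (C : Calc m) (hh : 0 < h) (hf : MemLp f 2 m) :
    ∫ x, J m h f x ^ 2 ∂m ≤ ∫ x, f x ^ 2 ∂m := by
  have := C.Jr_l2 gamA_bddM hh hf
  simpa only [wm_zero, J] using this

theorem gamA_nonneg (C : Calc m) (hh : 0 < h) (hf : MemLp f 2 m) (h0 : 0 ≤ᵐ[m] f) :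
    0 ≤ᵐ[m] J m h f := C.Jr_nonneg gamA_bddM hh hf h0

theorem gamA_mono (C : Calc m) (hh : 0 < h) (hf : MemLp f 2 m) (hg : MemLp g 2 m)
    (hfg : f ≤ᵐ[m] g) : J m h f ≤ᵐ[m] J m h g := C.Jr_mono gamA_bddM hh hf hg hfg

theorem gamA_le_const (C : Calc m) (hh : 0 < h) (hf : MemLp f 2 m) {c : ℝ}
    (hc : 0 ≤ c) (h0 : ∀ᵐ x ∂m, f x ≤ c) : ∀ᵐ x ∂m, J m h f x ≤ c :=
  C.Jr_le_const gamA_bddM hh hf hc h0

theorem gamA_abs_le (C : Calc m) (hh : 0 < h) (hf : MemLp f 2 m) {c : ℝ}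
    (h0 : ∀ᵐ x ∂m, |f x| ≤ c) : ∀ᵐ x ∂m, |J m h f x| ≤ c :=
  C.Jr_abs_le_const gamA_bddM hh hf h0

theorem gamA_l1 (C : Calc m) (hh : 0 < h) (hf : MemLp f 2 m) (hf1 : Integrable f m) :
    Integrable (J m h f) m ∧ ∫ x, |J m h f x| ∂m ≤ ∫ x, |f x| ∂m := by
  have := C.Jr_l1 gamA_bddM hh hf hf1
  simpa only [wm_zero, J] using this

theorem gamA_tendsto_l2 (C : Calc m) (hf : MemLp f 2 m) :
    Tendsto (fun h => ∫ x, (J m h f x - f x) ^ 2 ∂m) (𝓝[>] 0) (𝓝 0) :=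
  C.Jr_tendsto_l2 gamA_bddM hf

theorem gamA_tendsto_sob (C : Calc m) (hf : IsSobolev m f) :
    Tendsto (fun h => ∫ x, minWeakGrad m (fun x => J m h f x - f x) x ^ 2 ∂m) (𝓝[>] 0) (𝓝 0) :=
  C.Jr_tendsto_sob gamA_bddM hf

/-- `Δ J_h f = (J_h f - f)/h`. -/
theorem gamA_lap (C : Calc m) (hh : 0 < h) (hf : MemLp f 2 m) :
    IsWeakLaplacian m (J m h f) (fun x => (J m h f x - f x) / h) :=
  isWLap_zero_iff.1 (C.Jr_isWLap gamA_bddM hh hf)

/-- `Δ J_h u = J_h Δ u`. -/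
theorem gamA_lap_J (C : Calc m) (hh : 0 < h) (hu : IsWeakLaplacian m u g) :
    IsWeakLaplacian m (J m h u) (J m h g) :=
  isWLap_zero_iff.1 (C.isWLap_Jr gamA_bddM hh (isWLap_zero_iff.2 hu))

theorem gamA_J_sub (C : Calc m) (hh : 0 < h) (hu : IsWeakLaplacian m u g) :
    ∀ᵐ x ∂m, J m h u x - u x = h * J m h g x :=
  C.isWLap_Jr_sub gamA_bddM hh (isWLap_zero_iff.2 hu)

theorem gamA_energy_le (C : Calc m) (hh : 0 < h) (hf : IsSobolev m f) :
    ∫ x, minWeakGrad m (J m h f) x ^ 2 ∂m ≤ ∫ x, minWeakGrad m f x ^ 2 ∂m := by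
  have := C.Jr_energy_le gamA_bddM hh hf
  rw [C.En_self gamA_bddM hf, C.En_self gamA_bddM (C.Jr_sob gamA_bddM hh hf.1)] at this
  simpa only [wm_zero, J] using this

/-! ### `L²` estimates -/

/-- Cauchy-Schwarz for real functions. -/
theorem gamA_cs {a b : X → ℝ} (ha : MemLp a 2 m) (hb : MemLp b 2 m) :
    ∫ x, |a x * b x| ∂m ≤ Real.sqrt (∫ x, a x ^ 2 ∂m) * Real.sqrt (∫ x, b x ^ 2 ∂m) := by
  have ha' : MemLp (fun x => |a x|) (ENNReal.ofReal 2) m := by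
    rw [ENNReal.ofReal_ofNat]; exact ha.abs
  have hb' : MemLp (fun x => |b x|) (ENNReal.ofReal 2) m := by
    rw [ENNReal.ofReal_ofNat]; exact hb.abs
  have := integral_mul_le_Lp_mul_Lq_of_nonneg (μ := m) (f := fun x => |a x|) (g := fun x => |b x|)
    Real.HolderConjugate.two_two (Eventually.of_forall fun x => abs_nonneg _)
    (Eventually.of_forall fun x => abs_nonneg _) ha' hb'
  simp only [abs_mul]
  refine this.trans (le_of_eq ?_)
  rw [Real.sqrt_eq_rpow, Real.sqrt_eq_rpow]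
  congr 2
  · refine congrArg _ ?_
    ext x
    simp
  · refine congrArg _ ?_
    ext x
    simp

theorem gamA_abs_integral_le {a b : X → ℝ} (ha : MemLp a 2 m) (hb : MemLp b 2 m) :
    |∫ x, a x * b x ∂m| ≤ Real.sqrt (∫ x, a x ^ 2 ∂m) * Real.sqrt (∫ x, b x ^ 2 ∂m) :=
  (abs_integral_le_integral_abs).trans (gamA_cs ha hb)

theorem gamA_integrable_sq {a : X → ℝ} (ha : MemLp a 2 m) : Integrable (fun x => a x ^ 2) m :=
  ha.integrable_sq

/-- bounded + integrable implies `L²`. -/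
theorem gamA_memLp_two {q : X → ℝ} (hq : Integrable q m) (hqb : ∃ B : ℝ, ∀ᵐ x ∂m, |q x| ≤ B) :
    MemLp q 2 m := by
  obtain ⟨B, hB⟩ := hqb
  rw [memLp_two_iff_integrable_sq hq.1]
  refine Integrable.mono' (hq.abs.const_mul B) (hq.1.pow 2) ?_
  filter_upwards [hB] with x hx
  rw [Real.norm_eq_abs, abs_of_nonneg (sq_nonneg _), ← sq_abs, sq]
  exact mul_le_mul_of_nonneg_right hx (abs_nonneg _)

theorem gamA_locBdd (hb : ∃ B : ℝ, ∀ᵐ x ∂m, |f x| ≤ B) : LocBdd m f := by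
  obtain ⟨B, hB⟩ := hb
  exact fun o R => ⟨B, ae_restrict_of_ae hB⟩

theorem gamA_memLp_top {q : X → ℝ} (hq : AEStronglyMeasurable q m)
    (hqb : ∃ B : ℝ, ∀ᵐ x ∂m, |q x| ≤ B) : MemLp q ⊤ m := by
  obtain ⟨B, hB⟩ := hqb
  exact memLp_top_of_bound hq B hB

/-- product of an integrable and a bounded function. -/
theorem gamA_int_mul {a b : X → ℝ} (ha : Integrable a m) (hb : AEStronglyMeasurable b m)
    (hbb : ∃ B : ℝ, ∀ᵐ x ∂m, |b x| ≤ B) : Integrable (fun x => a x * b x) m := by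
  obtain ⟨B, hB⟩ := hbb
  exact ha.mul_bdd hb (Eventually.mono hB fun x hx => hx)

/-- the basic computation behind G2. -/
theorem gamA_key (H : Hyp m k N) (C : Calc m) (hh : 0 < h) (hf : MemLp f 2 m) {M : ℝ}
    (hM : ∀ᵐ x ∂m, |f x| ≤ M) {q : X → ℝ} (hq0 : 0 ≤ᵐ[m] q) (hq1 : Integrable q m)
    (hqb : ∃ B : ℝ, ∀ᵐ x ∂m, |q x| ≤ B) :
    ∫ x, J m h q x * minWeakGrad m (J m h f) x ^ 2 ∂m ≤ M ^ 2 / (2 * h) * ∫ x, q x ∂m := by
  have hq2 : MemLp q 2 m := gamA_memLp_two hq1 hqb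
  have hus := gamA_sob C hh hf
  have hvs := gamA_sob C hh hq2
  have hub := gamA_abs_le C hh hf hM
  obtain ⟨B, hB⟩ := hqb
  have hvb := gamA_abs_le C hh hq2 hB
  have hv0 := gamA_nonneg C hh hq2 hq0
  obtain ⟨hv1, hvl⟩ := gamA_l1 C hh hq2 hq1
  set u := J m h f with hu
  set v := J m h q with hv
  have huv : IsSobolev m (fun x => u x * v x) := sob_mul H hus hvs ⟨M, hub⟩ ⟨B, hvb⟩
  have huu : IsSobolev m (fun x => u x * u x) := sob_mul H hus hus ⟨M, hub⟩ ⟨M, hub⟩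
  have e1 := gamA_eq C hh hf huv
  have e2 := gamA_eq C hh hq2 huu
  rw [← hu] at e1
  rw [← hv] at e2
  have p1 := gp_mul_right H hus.2.1 hus.2.1 hvs.2.1 (gamA_locBdd ⟨M, hub⟩) (gamA_locBdd ⟨B, hvb⟩)
  have p2 := gp_mul_right H hvs.2.1 hus.2.1 hus.2.1 (gamA_locBdd ⟨M, hub⟩) (gamA_locBdd ⟨M, hub⟩)
  have p3 := gp_self H hus.2.1
  have p4 := gp_comm H hvs.2.1 hus.2.1
  have key : (fun x => v x * minWeakGrad m u x ^ 2) =ᵐ[m] fun x =>
      gradPairing m u (fun x => u x * v x) x - 1 / 2 * gradPairing m v (fun x => u x * u x) x := by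
    filter_upwards [p1, p2, p3, p4] with x h1 h2 h3 h4
    rw [h1, h2, h4, ← h3]
    ring
  have i1 := integrable_gp H hus huv
  have i2 := integrable_gp H hvs huu
  have hint : ∫ x, v x * minWeakGrad m u x ^ 2 ∂m =
      ∫ x, gradPairing m u (fun x => u x * v x) x ∂m -
        1 / 2 * ∫ x, gradPairing m v (fun x => u x * u x) x ∂m := by
    rw [integral_congr_ae key, integral_sub i1 (i2.const_mul _), integral_const_mul]
  have j1 : Integrable (fun x => f x * (u x * v x)) m := hf.integrable_mul huv.1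
  have j2 : Integrable (fun x => u x * (u x * v x)) m := hus.1.integrable_mul huv.1
  have j3 : Integrable (fun x => q x * (u x * u x)) m := hq2.integrable_mul huu.1
  have j4 : Integrable (fun x => v x * (u x * u x)) m := hvs.1.integrable_mul huu.1
  have hle : ∫ x, f x * (u x * v x) ∂m - ∫ x, u x * (u x * v x) ∂m -
      1 / 2 * (∫ x, q x * (u x * u x) ∂m - ∫ x, v x * (u x * u x) ∂m) ≤
      M ^ 2 / 2 * ∫ x, v x ∂m := by
    have j12 : Integrable (fun x => f x * (u x * v x) - u x * (u x * v x)) m := j1.sub j2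
    have j34 : Integrable (fun x => 1 / 2 * (q x * (u x * u x) - v x * (u x * u x))) m :=
      (j3.sub j4).const_mul _
    rw [← integral_sub j1 j2, ← integral_sub j3 j4, ← integral_const_mul, ← integral_const_mul,
      ← integral_sub j12 j34]
    refine integral_mono_ae (j12.sub j34) (hv1.const_mul _) ?_
    filter_upwards [hM, hq0, hv0] with x h1 h2 h3
    simp only [Pi.zero_apply] at h2 h3
    have h4 : f x ^ 2 ≤ M ^ 2 := by
      rw [← sq_abs]
      exact pow_le_pow_left₀ (abs_nonneg _) h1 2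
    nlinarith [mul_nonneg h3 (sq_nonneg (f x - u x)), mul_nonneg h2 (sq_nonneg (u x)),
      mul_nonneg h3 (sub_nonneg.2 h4)]
  have hvq : ∫ x, v x ∂m ≤ ∫ x, q x ∂m := by
    calc ∫ x, v x ∂m ≤ ∫ x, |v x| ∂m := integral_mono hv1 hv1.abs fun x => le_abs_self _
      _ ≤ ∫ x, |q x| ∂m := hvl
      _ = ∫ x, q x ∂m := by
        refine integral_congr_ae ?_
        filter_upwards [hq0] with x hx
        exact abs_of_nonneg hx
  have hfin : h * ∫ x, v x * minWeakGrad m u x ^ 2 ∂m ≤ M ^ 2 / 2 * ∫ x, q x ∂m := by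
    calc h * ∫ x, v x * minWeakGrad m u x ^ 2 ∂m
        = ∫ x, f x * (u x * v x) ∂m - ∫ x, u x * (u x * v x) ∂m -
      1 / 2 * (∫ x, q x * (u x * u x) ∂m - ∫ x, v x * (u x * u x) ∂m) := by
          rw [hint, ← e1, ← e2]; ring
      _ ≤ M ^ 2 / 2 * ∫ x, v x ∂m := hle
      _ ≤ M ^ 2 / 2 * ∫ x, q x ∂m := by gcongr
  have h2h : M ^ 2 / (2 * h) * ∫ x, q x ∂m = (M ^ 2 / 2 * ∫ x, q x ∂m) / h := by
    field_simp
  rw [h2h, le_div_iff₀ hh, mul_comm]
  exact hfin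

end Crest.Agent.R242
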