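import Crest.Agent.R242.PairS
import Crest.Agent.R242.ResCore
import Crest.Agent.R242.BL

/-!
# Row 242, part G7, first half (owner helper899)

Algebra of the class `Test2`.
-/

set_option autoImplicit false
set_option linter.unusedSectionVars false

open MeasureTheory Filter Set
open scoped ENNReal NNReal Topology
open Crest.GeometryTopology.SyntheticRicci

noncomputable section

namespace Crest.Agent.R242

section

variable {X : Type*} [MetricSpace X] [MeasurableSpace X]

/-- Facts of parts G2, G3, G5, G6 used in this file. -/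
structure CalcG (m : Measure X) : Prop where
  g2 : ∃ h0 : ℝ, 0 < h0 ∧ ∀ h : ℝ, 0 < h → h ≤ h0 → ∀ (f : X → ℝ) (B : ℝ), MemLp f 2 m →
    (∀ᵐ x ∂m, |f x| ≤ B) → ∃ v : X → ℝ, v =ᵐ[m] J m h (J m h f) ∧ BddLip v
  g3 : ∃ h0 C : ℝ, 0 < h0 ∧ 0 ≤ C ∧ ∀ h : ℝ, 0 < h → h ≤ h0 → ∀ (f : X → ℝ) (L : ℝ≥0),
    IsSobolev m f → LipschitzWith L f → ∃ v : X → ℝ, v =ᵐ[m] J m h f ∧
      LipschitzWith (2 * L) v ∧ ∀ x, |v x - f x| ≤ C * Real.sqrt h * L
  g5 : ∀ {u g : X → ℝ}, Test2 m u g → IsSobolev m (fun x => minWeakGrad m u x ^ 2)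
  g6 : ∃ C : ℝ, 0 ≤ C ∧ ∀ (u g : X → ℝ) (B : ℝ), IsWeakLaplacian m u g →
    (∀ᵐ x ∂m, |u x| ≤ B) → Integrable (fun x => minWeakGrad m u x ^ 4) m ∧
      ∫ x, minWeakGrad m u x ^ 4 ∂m ≤
        C * B ^ 2 * (∫ x, g x ^ 2 ∂m + ∫ x, minWeakGrad m u x ^ 2 ∂m)

end

variable {X : Type*} [MetricSpace X] [ProperSpace X] [MeasurableSpace X] [BorelSpace X]
  {m : Measure X} [IsLocallyFiniteMeasure m] {u v w g l : X → ℝ}

theorem bddM_zero : BddM (fun _ : X => (0 : ℝ)) :=
  ⟨measurable_const, 0, fun _ => by simp⟩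

theorem BddLip.lipOnBalls (hu : BddLip u) : LipOnBalls u := by
  obtain ⟨-, L, hL⟩ := hu
  exact fun o R => ⟨L, hL.lipschitzOnWith⟩

theorem BddLip.sobLoc (hfin : IsFiniteOnBalls m) (hu : BddLip u) : IsSobolevLoc m u :=
  hu.lipOnBalls.isSobolevLoc hfin

theorem BddLip.wg_le (hfin : IsFiniteOnBalls m) (hu : BddLip u) {L : ℝ≥0}
    (hL : LipschitzWith L u) : ∀ᵐ x ∂m, minWeakGrad m u x ≤ L := by
  filter_upwards [minWeakGrad_le_of_lipschitzOnWith hfin hu.lipOnBalls isOpen_univ
    (hL.lipschitzOnWith (s := Set.univ))] with x hx using hx (Set.mem_univ x)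

theorem BddLip.measurable (hu : BddLip u) : Measurable u := by
  obtain ⟨-, L, hL⟩ := hu
  exact hL.continuous.measurable

/-- product of a bounded Lipschitz function and a Sobolev function. -/
theorem sob_bl_mul (hfin : IsFiniteOnBalls m) (hu : BddLip u) (hw : IsSobolev m w) :
    IsSobolev m (fun x => u x * w x) := by
  have h1 := IsSobolevLoc.mul_lipOnBalls hfin hw.2.1 hu.lipOnBalls
  have e : (fun x => w x * u x) = fun x => u x * w x := by
    funext x; ring
  rw [e] at h1
  obtain ⟨⟨B, hB⟩, L, hL⟩ := id hu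
  refine ⟨?_, h1.1, ?_⟩
  · exact hw.1.mul' (memLp_top_of_bound hu.measurable.aestronglyMeasurable B
      (Eventually.of_forall fun x => by simpa using hB x))
  · have hD : MemLp (fun x => (L : ℝ) * |w x| + B * minWeakGrad m w x) 2 m :=
      (hw.1.abs.const_mul _).add (hw.2.2.const_mul _)
    refine hD.mono (minWeakGrad_aestronglyMeasurable hfin _) ?_
    filter_upwards [h1.2, hu.wg_le hfin hL, minWeakGrad_nonneg (m := m) w,
      minWeakGrad_nonneg (m := m) u, minWeakGrad_nonneg (m := m) (fun x => u x * w x)]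
      with x h2 h3 h4 h5 h6
    have e2 : (fun y => w y * u y) = fun y => u y * w y := by
      funext y; ring
    rw [Real.norm_eq_abs, Real.norm_eq_abs, abs_of_nonneg h6]
    refine (h2.trans ?_).trans (le_abs_self _)
    have h7 : |w x| * minWeakGrad m u x ≤ L * |w x| := by
      rw [mul_comm]; exact mul_le_mul_of_nonneg_right h3 (abs_nonneg _)
    have h8 : |u x| * minWeakGrad m w x ≤ B * minWeakGrad m w x :=
      mul_le_mul_of_nonneg_right (hB x) h4
    linarith

theorem gp_aesm (hfin : IsFiniteOnBalls m) (u v : X → ℝ) :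
    AEStronglyMeasurable (gradPairing m u v) m := by
  have h1 := minWeakGrad_aestronglyMeasurable hfin (fun y => u y + v y)
  have h2 := minWeakGrad_aestronglyMeasurable hfin (fun y => u y - v y)
  have h3 := ((h1.pow 2).sub (h2.pow 2)).mul_const (4⁻¹ : ℝ)
  refine h3.congr (Eventually.of_forall fun x => ?_)
  simp [gradPairing, div_eq_mul_inv]

theorem gp_memLp_of_lip (hfin : IsFiniteOnBalls m) (hH : IsInfHilbertian m) (hu : BddLip u)
    (hw : IsSobolev m w) : MemLp (gradPairing m u w) 2 m := by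
  obtain ⟨-, L, hL⟩ := id hu
  refine (hw.2.2.const_mul (L : ℝ)).mono (gp_aesm hfin _ _) ?_
  filter_upwards [abs_gradPairing_le hfin hH (hu.sobLoc hfin) hw.2.1, hu.wg_le hfin hL,
    minWeakGrad_nonneg (m := m) w] with x h1 h2 h3
  rw [Real.norm_eq_abs, Real.norm_eq_abs]
  exact (h1.trans (mul_le_mul_of_nonneg_right h2 h3)).trans (le_abs_self _)

theorem gp_integrable (hfin : IsFiniteOnBalls m) (hH : IsInfHilbertian m) (hu : IsSobolev m u)
    (hw : IsSobolev m w) : Integrable (gradPairing m u w) m := by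
  refine Integrable.mono' (hu.2.2.integrable_mul hw.2.2) (gp_aesm hfin _ _) ?_
  filter_upwards [abs_gradPairing_le hfin hH hu.2.1 hw.2.1] with x h1
  rw [Real.norm_eq_abs]
  exact h1

/-- integration by parts with a bounded Lipschitz weight. -/
theorem ibp_lip (hfin : IsFiniteOnBalls m) (hH : IsInfHilbertian m) (hu : BddLip u)
    (hv : IsWeakLaplacian m v l) (hw : IsSobolev m w) :
    Integrable (fun x => u x * gradPairing m v w x) m ∧
    ∫ x, u x * gradPairing m v w x ∂m =
      -(∫ x, l x * (u x * w x) ∂m) - ∫ x, gradPairing m u v x * w x ∂m := by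
  have hsl := hu.sobLoc hfin
  have huw := sob_bl_mul hfin hu hw
  have e1 : ∀ᵐ x ∂m, gradPairing m v (fun y => u y * w y) x =
      u x * gradPairing m v w x + w x * gradPairing m u v x := by
    filter_upwards [gradPairing_comm (m := m) v (fun y => u y * w y),
      gradPairing_mul_left hfin hH hsl hw.2.1 hv.1.2.1 huw.2.1,
      gradPairing_comm (m := m) w v] with x h1 h2 h3
    rw [h1, h2, h3]
  have i1 : Integrable (gradPairing m v (fun y => u y * w y)) m := gp_integrable hfin hH hv.1 huw
  have i2 : Integrable (fun x => gradPairing m u v x * w x) m :=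
    (gp_memLp_of_lip hfin hH hu hv.1).integrable_mul hw.1
  have e2 : (fun x => u x * gradPairing m v w x) =ᵐ[m]
      fun x => gradPairing m v (fun y => u y * w y) x - gradPairing m u v x * w x := by
    filter_upwards [e1] with x h1
    rw [h1]; ring
  refine ⟨(i1.sub i2).congr e2.symm, ?_⟩
  rw [integral_congr_ae e2, integral_sub i1 i2, hv.2.2 _ huw]

/-! ### G7: algebra -/

theorem lap_mul (hfin : IsFiniteOnBalls m) (hH : IsInfHilbertian m) (hub : BddLip u)
    (hvb : BddLip v) (hu : IsWeakLaplacian m u g) (hv : IsWeakLaplacian m v l) :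
    IsWeakLaplacian m (fun x => u x * v x)
      (fun x => u x * l x + v x * g x + 2 * gradPairing m u v x) := by
  have huv := sob_bl_mul hfin hub hv.1
  have mG : MemLp (gradPairing m u v) 2 m := gp_memLp_of_lip hfin hH hub hv.1
  obtain ⟨B, hB⟩ := hub.1
  obtain ⟨B', hB'⟩ := hvb.1
  have m1 : MemLp (fun x => u x * l x) 2 m :=
    hv.2.1.mul' (memLp_top_of_bound hub.measurable.aestronglyMeasurable B
      (Eventually.of_forall fun x => by simpa using hB x))
  have m2 : MemLp (fun x => v x * g x) 2 m :=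
    hu.2.1.mul' (memLp_top_of_bound hvb.measurable.aestronglyMeasurable B'
      (Eventually.of_forall fun x => by simpa using hB' x))
  refine ⟨huv, (m1.add m2).add (mG.const_mul 2), fun w hw => ?_⟩
  have e1 := gradPairing_mul_left hfin hH (hub.sobLoc hfin) (hvb.sobLoc hfin) hw.2.1 huv.2.1
  obtain ⟨i1, j1⟩ := ibp_lip hfin hH hub hv hw
  obtain ⟨i2, j2⟩ := ibp_lip hfin hH hvb hu hw
  rw [integral_congr_ae e1, integral_add i1 i2, j1, j2]
  have j3 : ∫ x, gradPairing m v u x * w x ∂m = ∫ x, gradPairing m u v x * w x ∂m := by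
    apply integral_congr_ae
    filter_upwards [gradPairing_comm (m := m) v u] with x hx
    rw [hx]
  have k1 : Integrable (fun x => l x * (u x * w x)) m := by
    refine (m1.integrable_mul hw.1).congr (Eventually.of_forall fun x => ?_)
    simp only [Pi.mul_apply]; ring
  have k2 : Integrable (fun x => g x * (v x * w x)) m := by
    refine (m2.integrable_mul hw.1).congr (Eventually.of_forall fun x => ?_)
    simp only [Pi.mul_apply]; ring
  have k3 : Integrable (fun x => gradPairing m u v x * w x) m := mG.integrable_mul hw.1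
  have j4 : ∫ x, (u x * l x + v x * g x + 2 * gradPairing m u v x) * w x ∂m =
      (∫ x, l x * (u x * w x) ∂m) + (∫ x, g x * (v x * w x) ∂m) +
        2 * ∫ x, gradPairing m u v x * w x ∂m := by
    have k12 : Integrable (fun x => l x * (u x * w x) + g x * (v x * w x)) m := k1.add k2
    rw [← integral_const_mul, ← integral_add k1 k2, ← integral_add k12 (k3.const_mul 2)]
    apply integral_congr_ae
    refine Eventually.of_forall fun x => ?_
    simp only []; ring
  rw [j3, j4]; ring

theorem Test2.add (hfin : IsFiniteOnBalls m) (C : Calc m) (hu : Test2 m u g) (hv : Test2 m v l) :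
    Test2 m (fun x => u x + v x) (fun x => g x + l x) := by
  refine ⟨?_, IsSobolev.add hfin hu.sob hv.sob, hu.bl.add hv.bl⟩
  rw [← isWLap_zero_iff]
  exact C.isWLap_add bddM_zero (isWLap_zero_iff.2 hu.lap) (isWLap_zero_iff.2 hv.lap)

theorem Test2.smul (hfin : IsFiniteOnBalls m) (C : Calc m) (c : ℝ) (hu : Test2 m u g) :
    Test2 m (fun x => c * u x) (fun x => c * g x) := by
  refine ⟨?_, IsSobolev.const_mul hfin c hu.sob, hu.bl.const_mul c⟩
  rw [← isWLap_zero_iff]
  exact C.isWLap_smul bddM_zero c (isWLap_zero_iff.2 hu.lap)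

theorem Test2.sub (hfin : IsFiniteOnBalls m) (C : Calc m) (hu : Test2 m u g) (hv : Test2 m v l) :
    Test2 m (fun x => u x - v x) (fun x => g x - l x) := by
  have h := hu.add hfin C (hv.smul hfin C (-1))
  have e1 : (fun x => u x + -1 * v x) = fun x => u x - v x := by funext x; ring
  have e2 : (fun x => g x + -1 * l x) = fun x => g x - l x := by funext x; ring
  rwa [e1, e2] at h

theorem Test2.sob_gp (hfin : IsFiniteOnBalls m) (C : Calc m) (G : CalcG m) (hu : Test2 m u g)
    (hv : Test2 m v l) : IsSobolev m (gradPairing m u v) := by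
  have h1 := G.g5 (hu.add hfin C hv)
  have h2 := G.g5 (hu.sub hfin C hv)
  have h3 := IsSobolev.sub hfin (IsSobolev.const_mul hfin (1 / 4) h1)
    (IsSobolev.const_mul hfin (1 / 4) h2)
  refine IsSobolev.congr (Eventually.of_forall fun x => ?_) h3
  simp only [gradPairing]; ring

/-- products of test functions. -/
theorem Test2.mul (hfin : IsFiniteOnBalls m) (hH : IsInfHilbertian m) (C : Calc m) (G : CalcG m)
    (hu : Test2 m u g) (hv : Test2 m v l) :
    Test2 m (fun x => u x * v x)
      (fun x => u x * l x + v x * g x + 2 * gradPairing m u v x) :=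
  ⟨lap_mul hfin hH hu.bl hv.bl hu.lap hv.lap,
    IsSobolev.add hfin (IsSobolev.add hfin (sob_bl_mul hfin hu.bl hv.sob)
      (sob_bl_mul hfin hv.bl hu.sob)) (IsSobolev.const_mul hfin 2 (hu.sob_gp hfin C G hv)),
    hu.bl.mul hv.bl⟩

/-- chain rule for a `C¹` function of a bounded Lipschitz function. -/
theorem gp_comp_bl (hfin : IsFiniteOnBalls m) (hH : IsInfHilbertian m) (hu : BddLip u)
    {φ : ℝ → ℝ} (hφ : ContDiff ℝ 1 φ) (hw : IsSobolevLoc m w) :
    ∀ᵐ x ∂m, gradPairing m (fun y => φ (u y)) w x = deriv φ (u x) * gradPairing m u w x := by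
  obtain ⟨⟨B, hB⟩, -⟩ := id hu
  set b : ℝ := |B| + 1 with hb
  have hb0 : 0 < b := by positivity
  have hle : -b ≤ b := by linarith
  set c : ℝ → ℝ := fun t => max (-b) (min b t) with hc
  have hcl : LipschitzWith 1 c := (LipschitzWith.id.const_min b).const_max (-b)
  have hcm : ∀ t, c t ∈ Set.Icc (-b) b := fun t => ⟨le_max_left _ _, max_le hle (min_le_left _ _)⟩
  obtain ⟨M, hM⟩ := (isCompact_Icc (a := -b) (b := b)).exists_bound_of_continuousOn
    ((hφ.continuous_deriv le_rfl).continuousOn)
  have hM0 : 0 ≤ M := (norm_nonneg _).trans (hM _ (hcm 0))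
  have hlip : LipschitzWith (Real.toNNReal M) (fun t => φ (c t)) := by
    refine LipschitzWith.of_dist_le_mul fun s t => ?_
    have h3 : ‖φ (c s) - φ (c t)‖ ≤ M * ‖c s - c t‖ :=
      Convex.norm_image_sub_le_of_norm_deriv_le (s := Set.Icc (-b) b)
        (fun z _ => (hφ.differentiable one_ne_zero z)) (fun z hz => hM z hz) (convex_Icc _ _)
        (hcm t) (hcm s)
    have h4 := hcl.dist_le_mul s t
    rw [NNReal.coe_one, one_mul] at h4
    rw [Real.coe_toNNReal _ hM0, Real.dist_eq]
    rw [Real.norm_eq_abs, Real.norm_eq_abs] at h3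
    refine h3.trans (mul_le_mul_of_nonneg_left ?_ hM0)
    rw [Real.dist_eq] at h4
    exact h4
  set ψ : ℝ → ℝ := fun t => if |t| < b then deriv φ t else 0 with hψ
  have hd : ∀ t ∉ ({-b, b} : Set ℝ), HasDerivAt (fun t => φ (c t)) (ψ t) t := by
    intro t ht
    simp only [Set.mem_insert_iff, Set.mem_singleton_iff, not_or] at ht
    rcases lt_trichotomy |t| b with h | h | h
    · have h1 : ψ t = deriv φ t := by simp [hψ, h]
      rw [h1]
      have h2 : (fun t => φ (c t)) =ᶠ[𝓝 t] φ := by
        have : ∀ᶠ s in 𝓝 t, |s| < b := continuous_abs.continuousAt.eventually (gt_mem_nhds h)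
        filter_upwards [this] with s hs
        have h3 := abs_lt.mp hs
        have : c s = s := by
          simp only [hc]
          rw [min_eq_right h3.2.le, max_eq_right h3.1.le]
        rw [this]
      exact ((hφ.differentiable one_ne_zero t).hasDerivAt).congr_of_eventuallyEq h2
    · exfalso
      rcases abs_eq hb0.le |>.mp h with h' | h'
      · exact ht.2 h'
      · exact ht.1 h'
    · have h1 : ψ t = 0 := by simp [hψ, not_lt.mpr h.le]
      rw [h1]
      rcases lt_abs.mp h with h' | h'
      · have h2 : (fun t => φ (c t)) =ᶠ[𝓝 t] fun _ => φ b := by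
          filter_upwards [lt_mem_nhds h'] with s hs
          have : c s = b := by
            simp only [hc]
            rw [min_eq_left hs.le, max_eq_right hle]
          rw [this]
        exact (hasDerivAt_const t (φ b)).congr_of_eventuallyEq h2
      · have h2 : (fun t => φ (c t)) =ᶠ[𝓝 t] fun _ => φ (-b) := by
          have h5 : t < -b := by linarith
          filter_upwards [gt_mem_nhds h5] with s hs
          have : c s = -b := by
            simp only [hc]
            rw [min_eq_right (by linarith), max_eq_left hs.le]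
          rw [this]
        exact (hasDerivAt_const t (φ (-b))).congr_of_eventuallyEq h2
  have hcountable : ({-b, b} : Set ℝ).Countable := (Set.toFinite _).countable
  have key := gradPairing_comp_left hfin hH (hu.sobLoc hfin) hw hlip hcountable hd
  have hub : ∀ x, |u x| < b := fun x =>
    lt_of_le_of_lt ((hB x).trans (le_abs_self B)) (by rw [hb]; linarith)
  have e : (fun y => φ (c (u y))) = fun y => φ (u y) := by
    funext y
    have h3 := abs_lt.mp (hub y)
    have : c (u y) = u y := by
      simp only [hc]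
      rw [min_eq_right h3.2.le, max_eq_right h3.1.le]
    rw [this]
  rw [e] at key
  filter_upwards [key] with x hx
  rw [hx]
  simp [hψ, hub x]

theorem contDiff_deriv_one {φ : ℝ → ℝ} (hφ : ContDiff ℝ 2 φ) : ContDiff ℝ 1 (deriv φ) := by
  have h2 : ContDiff ℝ (1 + 1) φ := by rwa [one_add_one_eq_two]
  exact ((contDiff_succ_iff_deriv).1 h2).2.2

theorem contDiff_deriv_two {φ : ℝ → ℝ} (hφ : ContDiff ℝ 3 φ) : ContDiff ℝ 2 (deriv φ) := by
  have h2 : ContDiff ℝ (2 + 1) φ := by
    have : (2 : WithTop ℕ∞) + 1 = 3 := by norm_num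
    rwa [this]
  exact ((contDiff_succ_iff_deriv).1 h2).2.2

theorem lap_comp (hfin : IsFiniteOnBalls m) (hH : IsInfHilbertian m) (hub : BddLip u)
    (hu : IsWeakLaplacian m u g) {φ : ℝ → ℝ} (hφ : ContDiff ℝ 2 φ)
    (hs : IsSobolev m (fun x => φ (u x))) :
    IsWeakLaplacian m (fun x => φ (u x))
      (fun x => deriv φ (u x) * g x + deriv (deriv φ) (u x) * minWeakGrad m u x ^ 2) := by
  have hφ1 : ContDiff ℝ 1 φ := hφ.of_le (by norm_num)
  have hφ' : ContDiff ℝ 1 (deriv φ) := contDiff_deriv_one hφ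
  have hb1 : BddLip (fun x => deriv φ (u x)) := hub.comp hφ'
  obtain ⟨B1, hB1⟩ := hb1.1
  have hc2 : Continuous (deriv (deriv φ)) := hφ'.continuous_deriv le_rfl
  obtain ⟨⟨B, hB⟩, L, hL⟩ := id hub
  obtain ⟨M, hM⟩ := (isCompact_Icc (a := -B) (b := B)).exists_bound_of_continuousOn
    hc2.continuousOn
  have hM' : ∀ x, |deriv (deriv φ) (u x)| ≤ M := fun x => by
    simpa using hM _ (abs_le.mp (hB x))
  have m1 : MemLp (fun x => deriv φ (u x) * g x) 2 m :=
    hu.2.1.mul' (memLp_top_of_bound hb1.measurable.aestronglyMeasurable B1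
      (Eventually.of_forall fun x => by simpa using hB1 x))
  have mw : MemLp (fun x => minWeakGrad m u x ^ 2) 2 m := by
    refine (hu.1.2.2.const_mul (L : ℝ)).mono
      ((minWeakGrad_aestronglyMeasurable hfin u).pow 2) ?_
    filter_upwards [hub.wg_le hfin hL, minWeakGrad_nonneg (m := m) u] with x h2 h3
    rw [Real.norm_eq_abs, Real.norm_eq_abs, abs_of_nonneg (sq_nonneg _)]
    refine le_trans ?_ (le_abs_self _)
    rw [sq]
    exact mul_le_mul_of_nonneg_right h2 h3
  have m2 : MemLp (fun x => deriv (deriv φ) (u x) * minWeakGrad m u x ^ 2) 2 m :=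
    mw.mul' (memLp_top_of_bound ((hc2.measurable.comp hub.measurable).aestronglyMeasurable) M
      (Eventually.of_forall fun x => by simpa using hM' x))
  refine ⟨hs, m1.add m2, fun w hw => ?_⟩
  have e1 := gp_comp_bl hfin hH hub hφ1 hw.2.1
  obtain ⟨i1, j1⟩ := ibp_lip hfin hH hb1 hu hw
  rw [integral_congr_ae e1, j1]
  have j3 : ∫ x, gradPairing m (fun x => deriv φ (u x)) u x * w x ∂m =
      ∫ x, deriv (deriv φ) (u x) * minWeakGrad m u x ^ 2 * w x ∂m := by
    apply integral_congr_ae
    filter_upwards [gp_comp_bl hfin hH hub hφ' (hub.sobLoc hfin),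
      gradPairing_self hfin (hub.sobLoc hfin)] with x hx hx'
    rw [hx, hx']
  have k1 : Integrable (fun x => g x * (deriv φ (u x) * w x)) m := by
    refine (m1.integrable_mul hw.1).congr (Eventually.of_forall fun x => ?_)
    simp only [Pi.mul_apply]; ring
  have k2 : Integrable (fun x => deriv (deriv φ) (u x) * minWeakGrad m u x ^ 2 * w x) m :=
    m2.integrable_mul hw.1
  rw [j3, ← neg_add', ← integral_add k1 k2]
  congr 1
  apply integral_congr_ae
  refine Eventually.of_forall fun x => ?_
  simp only []; ring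

/-- composition of a test function with a smooth function. -/
theorem Test2.comp (hfin : IsFiniteOnBalls m) (hH : IsInfHilbertian m) (G : CalcG m)
    (hu : Test2 m u g) {φ : ℝ → ℝ} (hφ : ContDiff ℝ 3 φ) (hs : IsSobolev m (fun x => φ (u x))) :
    Test2 m (fun x => φ (u x))
      (fun x => deriv φ (u x) * g x + deriv (deriv φ) (u x) * minWeakGrad m u x ^ 2) := by
  have h2 := contDiff_deriv_two hφ
  refine ⟨lap_comp hfin hH hu.bl hu.lap (hφ.of_le (by norm_num)) hs,
    IsSobolev.add hfin (sob_bl_mul hfin (hu.bl.comp (h2.of_le (by norm_num))) hu.sob)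
      (sob_bl_mul hfin (hu.bl.comp (contDiff_deriv_one h2)) (G.g5 hu)),
    hu.bl.comp (hφ.of_le (by norm_num))⟩

end Crest.Agent.R242
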