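import Crest.Agent.R242.GamB1

/-!
# Row 242, part G7, second half (owner helper899)

Resolvents of Lipschitz functions are test functions; cut-off functions in `Test2`.
-/

set_option autoImplicit false
set_option linter.unusedSectionVars false

open MeasureTheory Filter Set
open scoped ENNReal NNReal Topology
open Crest.GeometryTopology.SyntheticRicci

noncomputable section

namespace Crest.Agent.R242

variable {X : Type*} [MetricSpace X] [ProperSpace X] [MeasurableSpace X] [BorelSpace X]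
  {m : Measure X} [IsLocallyFiniteMeasure m] {u v w g l : X → ℝ}

/-! ### `Test2` and the test functions of the Prelude -/

theorem isWeakLaplacian_congr (C : Calc m) {u' g' : X → ℝ} (h : IsWeakLaplacian m u g)
    (hu : u =ᵐ[m] u') (hg : g =ᵐ[m] g') : IsWeakLaplacian m u' g' :=
  isWLap_zero_iff.1 (C.isWLap_congr bddM_zero (isWLap_zero_iff.2 h) hu hg)

theorem isWeakLaplacian_unique (C : Calc m) {g' : X → ℝ} (h : IsWeakLaplacian m u g)
    (h' : IsWeakLaplacian m u g') : g =ᵐ[m] g' :=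
  C.isWLap_unique bddM_zero (isWLap_zero_iff.2 h) (isWLap_zero_iff.2 h')

theorem weakLaplacian_ae_eq (C : Calc m) (h : IsWeakLaplacian m u g) :
    weakLaplacian m u =ᵐ[m] g := by
  have hex : ∃ L : X → ℝ, IsWeakLaplacian m u L := ⟨g, h⟩
  have e : weakLaplacian m u = Classical.choose hex := by
    unfold weakLaplacian
    rw [dif_pos hex]
  rw [e]
  exact isWeakLaplacian_unique C (Classical.choose_spec hex) h

theorem Test2.isTestFn (C : Calc m) (h : Test2 m u g) : IsTestFn m u :=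
  ⟨h.bl.1, h.bl.2, ⟨g, h.lap⟩, C.sob_congr h.sob (weakLaplacian_ae_eq C h.lap).symm⟩

theorem IsTestFn.test2 (hu : IsTestFn m u) : Test2 m u (weakLaplacian m u) := by
  obtain ⟨hb, hl, hex, hs⟩ := hu
  refine ⟨?_, hs, hb, hl⟩
  have e : weakLaplacian m u = Classical.choose hex := by
    unfold weakLaplacian
    rw [dif_pos hex]
  rw [e]
  exact Classical.choose_spec hex

theorem Test2.congr_lap (C : Calc m) {g' : X → ℝ} (h : Test2 m u g) (hg : g =ᵐ[m] g') :
    Test2 m u g' :=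
  ⟨isWeakLaplacian_congr C h.lap (Eventually.of_forall fun _ => rfl) hg, C.sob_congr h.sob hg,
    h.bl⟩

/-! ### the resolvent of a Lipschitz function -/

/-- `J_h f` is a test function (in its Lipschitz representative) when `f ∈ W^{1,2}` is bounded and
Lipschitz. -/
theorem exists_test2_J (hfin : IsFiniteOnBalls m) (C : Calc m) (G : CalcG m) :
    ∃ h0 K : ℝ, 0 < h0 ∧ 0 ≤ K ∧ ∀ h : ℝ, 0 < h → h ≤ h0 → ∀ (f : X → ℝ) (L : ℝ≥0),
      IsSobolev m f → LipschitzWith L f → (∃ B : ℝ, ∀ x, |f x| ≤ B) →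
      ∃ v : X → ℝ, v =ᵐ[m] J m h f ∧ Test2 m v (fun x => (v x - f x) / h) ∧
        LipschitzWith (2 * L) v ∧ ∀ x, |v x - f x| ≤ K * Real.sqrt h * L := by
  obtain ⟨h0, K, h0p, hK, hG⟩ := G.g3
  refine ⟨h0, K, h0p, hK, fun h hh hh0 f L hf hL hb => ?_⟩
  obtain ⟨v, hv, hvL, hvf⟩ := hG h hh hh0 f L hf hL
  obtain ⟨B, hB⟩ := hb
  have h1 : IsWeakLaplacian m (J m h f) (fun x => (J m h f x - f x) / h) :=
    isWLap_zero_iff.1 (C.Jr_isWLap bddM_zero hh hf.1)
  have h2 : IsWeakLaplacian m v (fun x => (v x - f x) / h) := by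
    refine isWeakLaplacian_congr C h1 hv.symm ?_
    filter_upwards [hv] with x hx
    rw [hx]
  refine ⟨v, hv, ⟨h2, ?_, ⟨B + K * Real.sqrt h * L, fun x => ?_⟩, 2 * L, hvL⟩, hvL, hvf⟩
  · have h3 := IsSobolev.const_mul hfin (1 / h) (IsSobolev.sub hfin h2.1 hf)
    refine C.sob_congr h3 (Eventually.of_forall fun x => ?_)
    simp only []; ring
  · have h4 := hvf x
    have h5 := hB x
    rw [abs_le] at h4 h5 ⊢
    constructor <;> linarith

/-! ### cut-off functions -/

/-- the profile of the cut-off functions. -/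
def cutPhi (s : ℝ) : ℝ := Real.smoothTransition (2 * s - 1 / 2)

theorem cutPhi_contDiff : ContDiff ℝ 3 cutPhi := by
  unfold cutPhi
  exact Real.smoothTransition.contDiff.comp ((contDiff_const.mul contDiff_id).sub contDiff_const)

theorem cutPhi_nonneg (s : ℝ) : 0 ≤ cutPhi s := Real.smoothTransition.nonneg _

theorem cutPhi_le_one (s : ℝ) : cutPhi s ≤ 1 := Real.smoothTransition.le_one _

theorem cutPhi_zero {s : ℝ} (hs : s ≤ 1 / 4) : cutPhi s = 0 :=
  Real.smoothTransition.zero_of_nonpos (by linarith)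

theorem cutPhi_one {s : ℝ} (hs : 3 / 4 ≤ s) : cutPhi s = 1 :=
  Real.smoothTransition.one_of_one_le (by linarith)

theorem cutPhi_deriv_zero {s : ℝ} (hs : 3 / 4 < s) : deriv cutPhi s = 0 := by
  have h1 : cutPhi =ᶠ[𝓝 s] fun _ => 1 := by
    filter_upwards [lt_mem_nhds hs] with t ht using cutPhi_one ht.le
  rw [h1.deriv_eq, deriv_const]

theorem cutPhi_deriv2_zero {s : ℝ} (hs : 3 / 4 < s) : deriv (deriv cutPhi) s = 0 := by
  have h1 : deriv cutPhi =ᶠ[𝓝 s] fun _ => 0 := by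
    filter_upwards [lt_mem_nhds hs] with t ht using cutPhi_deriv_zero ht
  rw [h1.deriv_eq, deriv_const]

/-- bounds for the profile. -/
theorem cutPhi_bounds : ∃ M : ℝ, 0 ≤ M ∧ (∀ s ∈ Set.Icc (-2 : ℝ) 2, |deriv cutPhi s| ≤ M) ∧
    (∀ s ∈ Set.Icc (-2 : ℝ) 2, |deriv (deriv cutPhi) s| ≤ M) ∧
    ∀ s ∈ Set.Icc (-2 : ℝ) 2, ∀ t ∈ Set.Icc (-2 : ℝ) 2, |cutPhi s - cutPhi t| ≤ M * |s - t| := by
  have h3 : ContDiff ℝ 2 (deriv cutPhi) := contDiff_deriv_two cutPhi_contDiff
  have h4 : ContDiff ℝ 1 (deriv (deriv cutPhi)) := contDiff_deriv_one h3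
  obtain ⟨M1, hM1⟩ := (isCompact_Icc (a := (-2 : ℝ)) (b := 2)).exists_bound_of_continuousOn
    h3.continuous.continuousOn
  obtain ⟨M2, hM2⟩ := (isCompact_Icc (a := (-2 : ℝ)) (b := 2)).exists_bound_of_continuousOn
    h4.continuous.continuousOn
  have h0 : (0 : ℝ) ∈ Set.Icc (-2 : ℝ) 2 := by constructor <;> norm_num
  have hM10 : 0 ≤ M1 := (norm_nonneg _).trans (hM1 0 h0)
  refine ⟨max M1 M2, le_max_of_le_left hM10, fun s hs => (hM1 s hs).trans (le_max_left _ _),
    fun s hs => (hM2 s hs).trans (le_max_right _ _), fun s hs t ht => ?_⟩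
  have h5 : ‖cutPhi s - cutPhi t‖ ≤ M1 * ‖s - t‖ :=
    Convex.norm_image_sub_le_of_norm_deriv_le (s := Set.Icc (-2 : ℝ) 2)
      (fun z _ => (cutPhi_contDiff.differentiable (by norm_num) z)) (fun z hz => hM1 z hz)
      (convex_Icc _ _) ht hs
  exact h5.trans (mul_le_mul_of_nonneg_right (le_max_left _ _) (abs_nonneg _))

/-- the Lipschitz profile. -/
def cutEta (o : X) (R : ℝ) (x : X) : ℝ := max 0 (min 1 (2 - dist x o / R))

theorem cutEta_mem (o : X) (R : ℝ) (x : X) : 0 ≤ cutEta o R x ∧ cutEta o R x ≤ 1 :=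
  ⟨le_max_left _ _, max_le zero_le_one (min_le_left _ _)⟩

theorem cutEta_one {o : X} {R : ℝ} (hR : 0 < R) {x : X} (hx : x ∈ Metric.closedBall o R) :
    cutEta o R x = 1 := by
  have h1 : dist x o / R ≤ 1 := by
    rw [div_le_one hR]; exact Metric.mem_closedBall.1 hx
  unfold cutEta
  rw [min_eq_left (by linarith), max_eq_right zero_le_one]

theorem cutEta_zero {o : X} {R : ℝ} (hR : 0 < R) {x : X} (hx : x ∉ Metric.ball o (2 * R)) :
    cutEta o R x = 0 := by
  have h1 : 2 ≤ dist x o / R := by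
    rw [le_div_iff₀ hR]
    exact not_lt.1 hx
  unfold cutEta
  exact max_eq_left ((min_le_right _ _).trans (by linarith))

theorem cutEta_lip (o : X) {R : ℝ} (hR : 0 < R) :
    LipschitzWith (Real.toNNReal (1 / R)) (cutEta o R) := by
  have h1 : LipschitzWith (Real.toNNReal (1 / R)) (fun x : X => 2 - dist x o / R) := by
    refine LipschitzWith.of_dist_le_mul fun x y => ?_
    rw [Real.coe_toNNReal _ (by positivity), Real.dist_eq]
    have e : 2 - dist x o / R - (2 - dist y o / R) = -(1 / R * (dist x o - dist y o)) := by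
      field_simp; ring
    rw [e, abs_neg, abs_mul, abs_of_pos (by positivity : (0 : ℝ) < 1 / R)]
    exact mul_le_mul_of_nonneg_left (abs_dist_sub_le _ _ _) (by positivity)
  exact (h1.const_min 1).const_max 0

theorem hasCompactSupport_of_zero_off_ball {f : X → ℝ} {o : X} {R : ℝ}
    (h : ∀ x, x ∉ Metric.ball o R → f x = 0) : HasCompactSupport f :=
  HasCompactSupport.intro (isCompact_closedBall o R) fun x hx =>
    h x fun hx' => hx (Metric.ball_subset_closedBall hx')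

/-- cut-off functions with gradient and Laplacian of order `1 / R`. -/
theorem exists_test2_cutoff (hfin : IsFiniteOnBalls m)
    (hH : IsInfHilbertian m) (C : Calc m) (G : CalcG m) :
    ∃ K : ℝ, 0 ≤ K ∧ ∀ (o : X) (R : ℝ), 1 ≤ R → ∃ χ gχ : X → ℝ, Test2 m χ gχ ∧
      HasCompactSupport χ ∧ (∀ x, 0 ≤ χ x ∧ χ x ≤ 1) ∧
      (∀ x ∈ Metric.closedBall o R, χ x = 1) ∧ (∀ x, x ∉ Metric.ball o (2 * R) → χ x = 0) ∧
      LipschitzWith (Real.toNNReal (K / R)) χ ∧ (∀ᵐ x ∂m, |gχ x| ≤ K / R) ∧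
      (∀ᵐ x ∂m, x ∈ Metric.closedBall o R → gχ x = 0) := by
  obtain ⟨h0, K0, h0p, hK0, hJ⟩ := exists_test2_J hfin C G
  obtain ⟨M, hM0, hM1, hM2, hM3⟩ := cutPhi_bounds
  set κ : ℝ := min h0 ((1 / (8 * (K0 + 1))) ^ 2) with hκ
  have hκ0 : 0 < κ := lt_min h0p (by positivity)
  have hκ1 : κ ≤ h0 := min_le_left _ _
  have hκ2 : K0 * Real.sqrt κ ≤ 1 / 8 := by
    have h1 : Real.sqrt κ ≤ 1 / (8 * (K0 + 1)) :=
      Real.sqrt_le_iff.2 ⟨by positivity, min_le_right _ _⟩
    calc K0 * Real.sqrt κ ≤ K0 * (1 / (8 * (K0 + 1))) := mul_le_mul_of_nonneg_left h1 hK0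
      _ ≤ 1 / 8 := by
        rw [mul_one_div, div_le_div_iff₀ (by positivity) (by norm_num)]
        linarith
  refine ⟨M / (8 * κ) + 4 * M + 2 * M, by positivity, fun o R hR => ?_⟩
  set K : ℝ := M / (8 * κ) + 4 * M + 2 * M with hK
  have hR0 : 0 < R := by linarith
  have hRi : 1 / R ≤ 1 := by rw [div_le_one hR0]; exact hR
  have hηc : HasCompactSupport (cutEta o R) :=
    hasCompactSupport_of_zero_off_ball fun x hx => cutEta_zero hR0 hx
  have hηs : IsSobolev m (cutEta o R) := C.sob_lip ⟨_, cutEta_lip o hR0⟩ hηc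
  obtain ⟨v, -, hvT, hvL, hvf⟩ := hJ κ hκ0 hκ1 (cutEta o R) _ hηs (cutEta_lip o hR0)
    ⟨1, fun x => by
      have := cutEta_mem o R x
      rw [abs_le]; constructor <;> linarith [this.1, this.2]⟩
  rw [Real.coe_toNNReal _ (by positivity : (0 : ℝ) ≤ 1 / R)] at hvf
  have hvf' : ∀ x, |v x - cutEta o R x| ≤ 1 / 8 * (1 / R) := fun x =>
    (hvf x).trans (mul_le_mul_of_nonneg_right hκ2 (by positivity))
  have hvf1 : ∀ x, |v x - cutEta o R x| ≤ 1 / 8 := fun x =>
    (hvf' x).trans (by nlinarith)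
  have hvm : ∀ x, v x ∈ Set.Icc (-2 : ℝ) 2 := fun x => by
    have h1 := abs_le.1 (hvf1 x)
    have h2 := cutEta_mem o R x
    constructor <;> linarith [h1.1, h1.2, h2.1, h2.2]
  have hv1 : ∀ x ∈ Metric.closedBall o R, 3 / 4 < v x := fun x hx => by
    have h1 := abs_le.1 (hvf1 x)
    rw [cutEta_one hR0 hx] at h1
    linarith [h1.1]
  have hv0 : ∀ x, x ∉ Metric.ball o (2 * R) → v x ≤ 1 / 4 := fun x hx => by
    have h1 := abs_le.1 (hvf1 x)
    rw [cutEta_zero hR0 hx] at h1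
    linarith [h1.2]
  have hχ0 : ∀ x, x ∉ Metric.ball o (2 * R) → cutPhi (v x) = 0 := fun x hx =>
    cutPhi_zero (hv0 x hx)
  have hχc : HasCompactSupport (fun x => cutPhi (v x)) := hasCompactSupport_of_zero_off_ball hχ0
  have hKR : 0 ≤ K / R := by positivity
  have hχl : LipschitzWith (Real.toNNReal (K / R)) (fun x => cutPhi (v x)) := by
    refine LipschitzWith.of_dist_le_mul fun x y => ?_
    have h1 := hM3 _ (hvm x) _ (hvm y)
    have h2 := hvL.dist_le_mul x y
    rw [NNReal.coe_mul, Real.coe_toNNReal _ (by positivity : (0 : ℝ) ≤ 1 / R), Real.dist_eq] at h2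
    rw [Real.coe_toNNReal _ hKR, Real.dist_eq]
    refine h1.trans ((mul_le_mul_of_nonneg_left h2 hM0).trans ?_)
    have e : M * (↑(2 : ℝ≥0) * (1 / R) * dist x y) = (2 * M) / R * dist x y := by
      simp only [NNReal.coe_ofNat]; ring
    rw [e]
    refine mul_le_mul_of_nonneg_right (div_le_div_of_nonneg_right ?_ hR0.le) dist_nonneg
    have : 0 ≤ M / (8 * κ) + 4 * M := by positivity
    linarith
  have hχs : IsSobolev m (fun x => cutPhi (v x)) := C.sob_lip ⟨_, hχl⟩ hχc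
  have hT := hvT.comp hfin hH G cutPhi_contDiff hχs
  refine ⟨fun x => cutPhi (v x), _, hT, hχc, fun x => ⟨cutPhi_nonneg _, cutPhi_le_one _⟩,
    fun x hx => cutPhi_one (hv1 x hx).le, hχ0, hχl, ?_, ?_⟩
  · filter_upwards [hvT.bl.wg_le hfin hvL, minWeakGrad_nonneg (m := m) v] with x h1 h2
    rw [NNReal.coe_mul, Real.coe_toNNReal _ (by positivity : (0 : ℝ) ≤ 1 / R)] at h1
    simp only [NNReal.coe_ofNat] at h1
    have h3 : minWeakGrad m v x ^ 2 ≤ 4 / R := by
      have h4 : minWeakGrad m v x ^ 2 ≤ (2 * (1 / R)) ^ 2 := by gcongr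
      refine h4.trans ?_
      have e : (2 * (1 / R)) ^ 2 = 4 / R * (1 / R) := by ring
      rw [e]
      exact mul_le_of_le_one_right (by positivity) hRi
    have h5 : |(v x - cutEta o R x) / κ| ≤ 1 / (8 * κ) / R := by
      rw [abs_div, abs_of_pos hκ0, div_le_iff₀ hκ0]
      refine (hvf' x).trans (le_of_eq ?_)
      field_simp
    calc |deriv cutPhi (v x) * ((v x - cutEta o R x) / κ) +
          deriv (deriv cutPhi) (v x) * minWeakGrad m v x ^ 2|
        ≤ |deriv cutPhi (v x) * ((v x - cutEta o R x) / κ)| +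
          |deriv (deriv cutPhi) (v x) * minWeakGrad m v x ^ 2| := abs_add_le _ _
      _ ≤ M * (1 / (8 * κ) / R) + M * (4 / R) := by
        rw [abs_mul, abs_mul, abs_of_nonneg (sq_nonneg (minWeakGrad m v x))]
        exact add_le_add (mul_le_mul (hM1 _ (hvm x)) h5 (abs_nonneg _) hM0)
          (mul_le_mul (hM2 _ (hvm x)) h3 (sq_nonneg _) hM0)
      _ = (M / (8 * κ) + 4 * M) / R := by ring
      _ ≤ K / R := by
        refine div_le_div_of_nonneg_right ?_ hR0.le
        linarith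
  · refine Eventually.of_forall fun x hx => ?_
    rw [cutPhi_deriv_zero (hv1 x hx), cutPhi_deriv2_zero (hv1 x hx)]
    ring

end Crest.Agent.R242
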