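import Crest.Agent.R242.GamB2

/-!
# Row 242, part G8, tools (owner helper899)

`L²` convergence to zero of sequences of functions, convergence of `J_h J_h`.
-/

set_option autoImplicit false
set_option linter.unusedSectionVars false

open MeasureTheory Filter Set
open scoped ENNReal NNReal Topology
open Crest.GeometryTopology.SyntheticRicci

noncomputable section

namespace Crest.Agent.R242

section Tools

variable {X : Type*} [MeasurableSpace X] {m : Measure X} {ι : Type*} {F : Filter ι}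

/-- convergence to zero in `L²`. -/
def To0 (m : Measure X) (F : Filter ι) (f : ι → X → ℝ) : Prop :=
  Tendsto (fun n => eLpNorm (f n) 2 m) F (𝓝 0)

theorem To0.mono {f g : ι → X → ℝ} (hg : To0 m F g)
    (h : ∀ n, ∀ᵐ x ∂m, |f n x| ≤ |g n x|) : To0 m F f := by
  refine tendsto_of_tendsto_of_tendsto_of_le_of_le tendsto_const_nhds hg (fun n => zero_le)
    fun n => ?_
  refine eLpNorm_mono_ae ?_
  filter_upwards [h n] with x hx
  simpa [Real.norm_eq_abs] using hx

theorem To0.add {f g : ι → X → ℝ} (hf : To0 m F f) (hg : To0 m F g)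
    (hfm : ∀ n, AEStronglyMeasurable (f n) m) (hgm : ∀ n, AEStronglyMeasurable (g n) m) :
    To0 m F (fun n x => f n x + g n x) := by
  have h1 : Tendsto (fun n => eLpNorm (f n) 2 m + eLpNorm (g n) 2 m) F (𝓝 0) := by
    simpa using Tendsto.add hf hg
  refine tendsto_of_tendsto_of_tendsto_of_le_of_le tendsto_const_nhds h1 (fun n => zero_le)
    fun n => ?_
  exact eLpNorm_add_le (hfm n) (hgm n) (by norm_num)

theorem To0.const_mul {f : ι → X → ℝ} (c : ℝ) (hf : To0 m F f) :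
    To0 m F (fun n x => c * f n x) := by
  have h1 : Tendsto (fun n => ‖c‖ₑ * eLpNorm (f n) 2 m) F (𝓝 0) := by
    have := ENNReal.Tendsto.const_mul (a := ‖c‖ₑ) hf (Or.inr (by simp))
    simpa using this
  refine h1.congr fun n => ?_
  have := eLpNorm_const_smul c (f n) 2 m
  rw [← this]
  rfl

theorem to0_of_le_mul {f : ι → X → ℝ} {c : ι → ℝ} {g : ι → X → ℝ} {A : ℝ≥0∞} (hA : A ≠ ⊤)
    (hc : Tendsto c F (𝓝 0)) (hg : ∀ n, eLpNorm (g n) 2 m ≤ A)
    (h : ∀ n, ∀ᵐ x ∂m, |f n x| ≤ c n * |g n x|) : To0 m F f := by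
  have h1 : Tendsto (fun n => ENNReal.ofReal (c n) * A) F (𝓝 0) := by
    have h2 : Tendsto (fun n => ENNReal.ofReal (c n)) F (𝓝 0) := by
      have := ENNReal.tendsto_ofReal hc
      simpa using this
    have := ENNReal.Tendsto.mul_const h2 (Or.inr hA)
    simpa using this
  refine tendsto_of_tendsto_of_tendsto_of_le_of_le tendsto_const_nhds h1 (fun n => zero_le)
    fun n => ?_
  have h3 : eLpNorm (f n) 2 m ≤ ENNReal.ofReal (c n) * eLpNorm (g n) 2 m :=
    eLpNorm_le_mul_eLpNorm_of_ae_le_mul (by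
      filter_upwards [h n] with x hx
      simpa [Real.norm_eq_abs] using hx) 2
  exact h3.trans (mul_le_mul_right (hg n) _)

theorem eLpNorm_two_sq {f : X → ℝ} : eLpNorm f 2 m ^ 2 = ∫⁻ x, ENNReal.ofReal (f x ^ 2) ∂m := by
  have h1 := eLpNorm_nnreal_pow_eq_lintegral (μ := m) (f := f) (p := (2 : ℝ≥0)) (by norm_num)
  have e : ((2 : ℝ≥0) : ℝ≥0∞) = 2 := by norm_num
  have e2 : ((2 : ℝ≥0) : ℝ) = 2 := by norm_num
  rw [e, e2, ENNReal.rpow_two] at h1
  rw [h1]
  refine lintegral_congr fun x => ?_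
  rw [ENNReal.rpow_two, ← ofReal_norm, ← ENNReal.ofReal_pow (norm_nonneg _), Real.norm_eq_abs,
    sq_abs]

theorem gamB_eLpNorm_two_eq {f : X → ℝ} (hf : MemLp f 2 m) :
    eLpNorm f 2 m = ENNReal.ofReal (Real.sqrt (∫ x, f x ^ 2 ∂m)) := by
  have hi : Integrable (fun x => f x ^ 2) m := hf.integrable_sq
  have h1 : eLpNorm f 2 m ^ 2 = ENNReal.ofReal (Real.sqrt (∫ x, f x ^ 2 ∂m)) ^ 2 := by
    rw [eLpNorm_two_sq, ← ENNReal.ofReal_pow (Real.sqrt_nonneg _),
      Real.sq_sqrt (integral_nonneg fun x => sq_nonneg _),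
      ofReal_integral_eq_lintegral_ofReal hi (Eventually.of_forall fun x => sq_nonneg _)]
  exact (ENNReal.pow_right_strictMono two_ne_zero).injective h1

theorem to0_iff {f : ι → X → ℝ} (hf : ∀ n, MemLp (f n) 2 m) :
    To0 m F f ↔ Tendsto (fun n => ∫ x, f n x ^ 2 ∂m) F (𝓝 0) := by
  unfold To0
  have h1 : (fun n => eLpNorm (f n) 2 m) =
      fun n => ENNReal.ofReal (Real.sqrt (∫ x, f n x ^ 2 ∂m)) := by
    funext n; exact gamB_eLpNorm_two_eq (hf n)
  rw [h1]
  constructor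
  · intro h
    have h2 := (ENNReal.tendsto_toReal ENNReal.zero_ne_top).comp h
    have h3 : Tendsto (fun n => Real.sqrt (∫ x, f n x ^ 2 ∂m)) F (𝓝 0) := by
      refine h2.congr fun n => ?_
      simp [ENNReal.toReal_ofReal (Real.sqrt_nonneg _)]
    have h4 := h3.pow 2
    rw [zero_pow two_ne_zero] at h4
    exact h4.congr fun n => Real.sq_sqrt (integral_nonneg fun x => sq_nonneg _)
  · intro h
    have h2 : Tendsto (fun n => Real.sqrt (∫ x, f n x ^ 2 ∂m)) F (𝓝 0) := by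
      have := (Real.continuous_sqrt.tendsto 0).comp h
      rw [Real.sqrt_zero] at this
      exact this
    have := ENNReal.tendsto_ofReal h2
    simpa using this

/-- dominated convergence in `L²`. -/
theorem to0_of_dominated {f : ℕ → X → ℝ} {G : X → ℝ} (hG : MemLp G 2 m)
    (hm : ∀ n, AEStronglyMeasurable (f n) m) (hb : ∀ n, ∀ᵐ x ∂m, |f n x| ≤ |G x|)
    (hlim : ∀ᵐ x ∂m, Tendsto (fun n => f n x) atTop (𝓝 0)) : To0 m atTop f := by
  have hf : ∀ n, MemLp (f n) 2 m := fun n => hG.mono (hm n) (by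
    filter_upwards [hb n] with x hx
    simpa [Real.norm_eq_abs] using hx)
  rw [to0_iff hf]
  have h1 : Tendsto (fun n => ∫ x, f n x ^ 2 ∂m) atTop (𝓝 (∫ x, (0 : ℝ) ∂m)) := by
    refine tendsto_integral_of_dominated_convergence (fun x => G x ^ 2)
      (fun n => ((hm n).pow 2)) hG.integrable_sq (fun n => ?_) ?_
    · filter_upwards [hb n] with x hx
      rw [Real.norm_eq_abs, abs_of_nonneg (sq_nonneg _)]
      exact sq_le_sq.2 hx
    · filter_upwards [hlim] with x hx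
      have := hx.pow 2
      simpa using this
  simpa using h1

theorem eLpNorm_four_pow {f : X → ℝ} : eLpNorm f 4 m ^ 4 = ∫⁻ x, ENNReal.ofReal (f x ^ 4) ∂m := by
  have h1 := eLpNorm_nnreal_pow_eq_lintegral (μ := m) (f := f) (p := (4 : ℝ≥0)) (by norm_num)
  have e : ((4 : ℝ≥0) : ℝ≥0∞) = 4 := by norm_num
  have e2 : ((4 : ℝ≥0) : ℝ) = (4 : ℕ) := by norm_num
  rw [e, e2, ENNReal.rpow_natCast] at h1
  rw [h1]
  refine lintegral_congr fun x => ?_
  rw [ENNReal.rpow_natCast, ← ofReal_norm, ← ENNReal.ofReal_pow (norm_nonneg _), Real.norm_eq_abs]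
  congr 1
  rw [show (4 : ℕ) = 2 * 2 by norm_num, pow_mul, pow_mul, sq_abs]

/-- convergence of `∫ f⁴` gives convergence in `L⁴`. -/
theorem tendsto_eLpNorm_four {f : ι → X → ℝ} (hf : ∀ n, Integrable (fun x => f n x ^ 4) m)
    (h : Tendsto (fun n => ∫ x, f n x ^ 4 ∂m) F (𝓝 0)) :
    Tendsto (fun n => eLpNorm (f n) 4 m) F (𝓝 0) := by
  have h1 : ∀ n, eLpNorm (f n) 4 m ^ 4 = ENNReal.ofReal (∫ x, f n x ^ 4 ∂m) := fun n => by
    rw [eLpNorm_four_pow, ofReal_integral_eq_lintegral_ofReal (hf n)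
      (Eventually.of_forall fun x => by positivity)]
  have h2 : Tendsto (fun n => eLpNorm (f n) 4 m ^ 4) F (𝓝 0) := by
    simp only [h1]
    have := ENNReal.tendsto_ofReal h
    simpa using this
  have h3 : Tendsto (fun n => (eLpNorm (f n) 4 m ^ 4) ^ (1 / 4 : ℝ)) F (𝓝 (0 ^ (1 / 4 : ℝ))) :=
    (ENNReal.continuous_rpow_const.tendsto 0).comp h2
  rw [ENNReal.zero_rpow_of_pos (by norm_num)] at h3
  refine h3.congr fun n => ?_
  rw [← ENNReal.rpow_natCast, ← ENNReal.rpow_mul]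
  norm_num

end Tools

section JJ

variable {X : Type*} [MetricSpace X] [ProperSpace X] [MeasurableSpace X] [BorelSpace X]
  {m : Measure X} [IsLocallyFiniteMeasure m] {u v w g l f : X → ℝ}

theorem J_memLp (C : Calc m) {h : ℝ} (hh : 0 < h) (hf : MemLp f 2 m) : MemLp (J m h f) 2 m :=
  C.Jr_memLp bddM_zero hh hf

theorem J_sob (C : Calc m) {h : ℝ} (hh : 0 < h) (hf : MemLp f 2 m) : IsSobolev m (J m h f) :=
  C.Jr_sob bddM_zero hh hf

theorem J_l2 (C : Calc m) {h : ℝ} (hh : 0 < h) (hf : MemLp f 2 m) :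
    ∫ x, J m h f x ^ 2 ∂m ≤ ∫ x, f x ^ 2 ∂m := by
  have h1 := C.Jr_l2 bddM_zero hh hf
  rwa [wm_zero] at h1

theorem J_eLpNorm_le (C : Calc m) {h : ℝ} (hh : 0 < h) (hf : MemLp f 2 m) :
    eLpNorm (J m h f) 2 m ≤ eLpNorm f 2 m := by
  rw [gamB_eLpNorm_two_eq hf, gamB_eLpNorm_two_eq (J_memLp C hh hf)]
  exact ENNReal.ofReal_le_ofReal (Real.sqrt_le_sqrt (J_l2 C hh hf))

theorem J_wg_eLpNorm_le (C : Calc m) {h : ℝ} (hh : 0 < h) (hf : IsSobolev m f) :
    eLpNorm (minWeakGrad m (J m h f)) 2 m ≤ eLpNorm (minWeakGrad m f) 2 m := by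
  have hs := J_sob C hh hf.1
  rw [gamB_eLpNorm_two_eq hf.2.2, gamB_eLpNorm_two_eq hs.2.2]
  have h1 := C.Jr_energy_le bddM_zero hh hf
  have h2 := C.En_self bddM_zero hf
  have h3 := C.En_self bddM_zero hs
  rw [wm_zero] at h2 h3
  refine ENNReal.ofReal_le_ofReal (Real.sqrt_le_sqrt ?_)
  rw [← h2, ← h3]
  exact h1

theorem J_sub (C : Calc m) {h : ℝ} (hh : 0 < h) (hf : MemLp f 2 m) (hg : MemLp g 2 m) :
    J m h (fun x => f x - g x) =ᵐ[m] fun x => J m h f x - J m h g x :=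
  C.Jr_sub bddM_zero hh hf hg

/-- `J_h J_h f → f` in `L²` as `h → 0`. -/
theorem JJ_to0 (C : Calc m) {hn : ℕ → ℝ} (hpos : ∀ n, 0 < hn n) (hlim : Tendsto hn atTop (𝓝 0))
    (hf : MemLp f 2 m) : To0 m atTop (fun n x => J m (hn n) (J m (hn n) f) x - f x) := by
  have hlim' : Tendsto hn atTop (𝓝[>] 0) :=
    tendsto_nhdsWithin_iff.2 ⟨hlim, Eventually.of_forall hpos⟩
  have hJ : ∀ n, MemLp (J m (hn n) f) 2 m := fun n => J_memLp C (hpos n) hf
  have hd : ∀ n, MemLp (fun x => J m (hn n) f x - f x) 2 m := fun n => (hJ n).sub hf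
  have h1 : To0 m atTop (fun n x => J m (hn n) f x - f x) := by
    rw [to0_iff hd]
    exact (C.Jr_tendsto_l2 bddM_zero hf).comp hlim'
  have h2 : To0 m atTop (fun n => J m (hn n) (fun x => J m (hn n) f x - f x)) := by
    refine tendsto_of_tendsto_of_tendsto_of_le_of_le tendsto_const_nhds h1 (fun n => zero_le)
      fun n => ?_
    exact J_eLpNorm_le C (hpos n) (hd n)
  have h3 := h2.add h1 (fun n => (J_memLp C (hpos n) (hd n)).1) (fun n => (hd n).1)
  refine h3.congr fun n => ?_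
  refine eLpNorm_congr_ae ?_
  filter_upwards [J_sub C (hpos n) (hJ n) hf] with x hx
  rw [hx]; ring

/-- `J_h J_h f → f` in energy as `h → 0`. -/
theorem JJ_wg_to0 (hfin : IsFiniteOnBalls m) (C : Calc m) {hn : ℕ → ℝ} (hpos : ∀ n, 0 < hn n)
    (hlim : Tendsto hn atTop (𝓝 0)) (hf : IsSobolev m f) :
    To0 m atTop (fun n => minWeakGrad m (fun x => J m (hn n) (J m (hn n) f) x - f x)) := by
  have hlim' : Tendsto hn atTop (𝓝[>] 0) :=
    tendsto_nhdsWithin_iff.2 ⟨hlim, Eventually.of_forall hpos⟩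
  have hJ : ∀ n, IsSobolev m (J m (hn n) f) := fun n => J_sob C (hpos n) hf.1
  have hd : ∀ n, IsSobolev m (fun x => J m (hn n) f x - f x) := fun n =>
    IsSobolev.sub hfin (hJ n) hf
  have hJd : ∀ n, IsSobolev m (J m (hn n) (fun x => J m (hn n) f x - f x)) := fun n =>
    J_sob C (hpos n) (hd n).1
  have h1 : To0 m atTop (fun n => minWeakGrad m (fun x => J m (hn n) f x - f x)) := by
    rw [to0_iff fun n => (hd n).2.2]
    exact (C.Jr_tendsto_sob bddM_zero hf).comp hlim'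
  have h2 : To0 m atTop
      (fun n => minWeakGrad m (J m (hn n) (fun x => J m (hn n) f x - f x))) := by
    refine tendsto_of_tendsto_of_tendsto_of_le_of_le tendsto_const_nhds h1 (fun n => zero_le)
      fun n => ?_
    exact J_wg_eLpNorm_le C (hpos n) (hd n)
  have h3 := h2.add h1 (fun n => (hJd n).2.2.1) (fun n => (hd n).2.2.1)
  refine h3.mono fun n => ?_
  have e : (fun x => J m (hn n) (J m (hn n) f) x - f x) =ᵐ[m]
      fun x => J m (hn n) (fun x => J m (hn n) f x - f x) x + (J m (hn n) f x - f x) := by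
    filter_upwards [J_sub C (hpos n) (hJ n).1 hf.1] with x hx
    rw [hx]; ring
  filter_upwards [minWeakGrad_congr e, minWeakGrad_add_le hfin (hJd n).2.1 (hd n).2.1,
    minWeakGrad_nonneg (m := m) (fun x => J m (hn n) (J m (hn n) f) x - f x)] with x h4 h5 h6
  rw [abs_of_nonneg h6, h4]
  exact h5.trans (le_abs_self _)

end JJ

end Crest.Agent.R242
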