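import Crest.Agent.R242.GamA
import Crest.Agent.R242.GamB
import Crest.Agent.R242.G3Of

/-!
# Row 242: `CalcG m` from parts G2, G3, G5, G6 (owner helper899)
-/

set_option autoImplicit false
set_option linter.unusedSectionVars false

open MeasureTheory Filter Set
open scoped ENNReal NNReal Topology
open Crest.GeometryTopology.SyntheticRicci

noncomputable section

namespace Crest.Agent.R242

variable {X : Type*} [MetricSpace X] [ProperSpace X] [MeasurableSpace X] [BorelSpace X]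
  {m : Measure X} [IsLocallyFiniteMeasure m] [m.IsOpenPosMeasure] {k N h₀ : ℝ}

/-- the conclusion of G3. -/
def G3Concl (m : Measure X) : Prop :=
  ∃ h0 C : ℝ, 0 < h0 ∧ 0 ≤ C ∧ ∀ h : ℝ, 0 < h → h ≤ h0 → ∀ (f : X → ℝ) (L : ℝ≥0),
    IsSobolev m f → LipschitzWith L f → ∃ v : X → ℝ, v =ᵐ[m] J m h f ∧
      LipschitzWith (2 * L) v ∧ ∀ x, |v x - f x| ≤ C * Real.sqrt h * L

theorem g3Concl_of_facts {h0 CD CV Cd : ℝ} (F : G3Facts m k h0 CD CV Cd) : G3Concl m := by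
  refine ⟨h0, 2 + (CD * Real.exp 1 + CV * Cd) / 2, F.h0pos, ?_, fun h hh hh0 f L hf hL => ?_⟩
  · have h1 := F.CDnn
    have h2 := F.CVnn
    have h3 := F.Cdnn
    positivity
  · obtain ⟨v, hv, hvL, hvf⟩ := g3_of F h hh hh0 f L hf hL
    refine ⟨v, hv, hvL.weaken ?_, hvf⟩
    refine mul_le_mul_left ?_ L
    have hk2 : 1 / 2 ≤ 1 - 2 * h * k := by
      have h1 := F.h0k
      have h0p := F.h0pos
      by_cases hk : 0 ≤ k
      · have : h * k ≤ h0 * k := mul_le_mul_of_nonneg_right hh0 hk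
        nlinarith
      · push Not at hk
        nlinarith
    rw [← NNReal.coe_le_coe, Real.coe_toNNReal _ (by positivity), NNReal.coe_ofNat,
      div_le_iff₀ (Real.sqrt_pos.2 (by linarith))]
    have h2 : (1 / 2 : ℝ) ≤ Real.sqrt (1 - 2 * h * k) := by
      apply Real.le_sqrt_of_sq_le
      linarith
    linarith

theorem calcG_of [IsUnifLocDoublingMeasure m] (H : Hyp m k N) (C : Calc m) (GJ : GoodJ m k h₀)
    (hgeo : HasBddGeoPlans m) (hG3 : G3Concl m) : CalcG m where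
  g2 := by
    refine ⟨h₀, GJ.pos, fun h hh hh0 f B hf hB => ⟨Jc m h f, ?_, ?_, ?_⟩⟩
    · exact (Jc_spec H C GJ hgeo hh hh0 hf hB).1
    · exact ⟨B, fun x => Jc_abs_le H C GJ hgeo hh hh0 hf hB x⟩
    · exact ⟨_, (Jc_spec H C GJ hgeo hh hh0 hf hB).2⟩
  g3 := hG3
  g5 := fun {u g} hu => by
    obtain ⟨L, hL⟩ := hu.bl.2
    exact sob_wg_sq H C GJ hu.lap hu.sob ⟨L, hu.bl.wg_le H.fin hL⟩
  g6 := by
    have hp := GJ.pos
    refine ⟨256 + 4 / h₀, by positivity, fun u g B hu hB => ?_⟩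
    obtain ⟨h1, h2⟩ := wg_pow_four H C GJ hu hB
    refine ⟨h1, h2.trans ?_⟩
    have hG0 : 0 ≤ ∫ x, g x ^ 2 ∂m := integral_nonneg fun x => sq_nonneg _
    have hW0 : 0 ≤ ∫ x, minWeakGrad m u x ^ 2 ∂m := integral_nonneg fun x => sq_nonneg _
    have h3 : 0 ≤ 4 / h₀ * ∫ x, g x ^ 2 ∂m := by positivity
    have h4 : (256 * ∫ x, g x ^ 2 ∂m) + 4 / h₀ * ∫ x, minWeakGrad m u x ^ 2 ∂m ≤
        (256 + 4 / h₀) * (∫ x, g x ^ 2 ∂m + ∫ x, minWeakGrad m u x ^ 2 ∂m) := by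
      nlinarith
    calc B ^ 2 * ((256 * ∫ x, g x ^ 2 ∂m) + 4 / h₀ * ∫ x, minWeakGrad m u x ^ 2 ∂m)
        ≤ B ^ 2 * ((256 + 4 / h₀) * (∫ x, g x ^ 2 ∂m + ∫ x, minWeakGrad m u x ^ 2 ∂m)) :=
          mul_le_mul_of_nonneg_left h4 (sq_nonneg _)
      _ = (256 + 4 / h₀) * B ^ 2 *
          (∫ x, g x ^ 2 ∂m + ∫ x, minWeakGrad m u x ^ 2 ∂m) := by ring

end Crest.Agent.R242
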