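import Crest.Agent.R242.Defs
import Crest.Agent.R242.Slope

/-!
Row 242, part Q: the Hopf-Lax semigroup of a bounded Lipschitz function on a metric space.
-/

open Filter Topology Set MeasureTheory
open scoped ENNReal NNReal

noncomputable section

namespace Crest.Agent.R242

section hopfLax

variable {X : Type*} [MetricSpace X]

variable {φ : X → ℝ} {B : ℝ} {L : ℝ≥0}

theorem hopfLax_of_nonpos {s : ℝ} (hs : s ≤ 0) (x : X) : hopfLax φ s x = φ x := by
  simp [hopfLax, hs]

@[simp] theorem hopfLax_zero (x : X) : hopfLax φ 0 x = φ x := hopfLax_of_nonpos le_rfl x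

theorem hopfLax_of_pos {s : ℝ} (hs : 0 < s) (x : X) :
    hopfLax φ s x = ⨅ y, (φ y + dist x y ^ 2 / (2 * s)) := by
  simp [hopfLax, not_le.2 hs]

theorem hopfLax_bdd {s : ℝ} (hs : 0 < s) (hB : ∀ x, |φ x| ≤ B) (x : X) :
    BddBelow (range fun y => φ y + dist x y ^ 2 / (2 * s)) := by
  refine ⟨-B, ?_⟩
  rintro _ ⟨y, rfl⟩
  have h1 := (abs_le.1 (hB y)).1
  have h2 : 0 ≤ dist x y ^ 2 / (2 * s) := by positivity
  simp only
  linarith

theorem hopfLax_le {s : ℝ} (hs : 0 < s) (hB : ∀ x, |φ x| ≤ B) (x y : X) :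
    hopfLax φ s x ≤ φ y + dist x y ^ 2 / (2 * s) := by
  rw [hopfLax_of_pos hs]
  exact ciInf_le (hopfLax_bdd hs hB x) y

theorem hopfLax_le_self (hB : ∀ x, |φ x| ≤ B) (s : ℝ) (x : X) : hopfLax φ s x ≤ φ x := by
  rcases le_or_gt s 0 with hs | hs
  · rw [hopfLax_of_nonpos hs]
  · simpa using hopfLax_le hs hB x x

theorem le_hopfLax {s : ℝ} {c : ℝ} {x : X} (hs : 0 < s)
    (h : ∀ y, c ≤ φ y + dist x y ^ 2 / (2 * s)) : c ≤ hopfLax φ s x := by
  rw [hopfLax_of_pos hs]
  have : Nonempty X := ⟨x⟩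
  exact le_ciInf h

theorem neg_le_hopfLax (hB : ∀ x, |φ x| ≤ B) (s : ℝ) (x : X) : -B ≤ hopfLax φ s x := by
  rcases le_or_gt s 0 with hs | hs
  · rw [hopfLax_of_nonpos hs]; exact (abs_le.1 (hB x)).1
  · refine le_hopfLax hs fun y => ?_
    have h1 := (abs_le.1 (hB y)).1
    have h2 : 0 ≤ dist x y ^ 2 / (2 * s) := by positivity
    linarith

theorem abs_hopfLax_le (hB : ∀ x, |φ x| ≤ B) (s : ℝ) (x : X) : |hopfLax φ s x| ≤ B :=
  abs_le.2 ⟨neg_le_hopfLax hB s x, (hopfLax_le_self hB s x).trans (abs_le.1 (hB x)).2⟩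

theorem exists_hopfLax_lt {s : ℝ} (hs : 0 < s) (x : X) {c : ℝ}
    (hc : hopfLax φ s x < c) : ∃ y, φ y + dist x y ^ 2 / (2 * s) < c := by
  rw [hopfLax_of_pos hs] at hc
  have : Nonempty X := ⟨x⟩
  exact exists_lt_of_ciInf_lt hc

theorem lip_sub (hL : LipschitzWith L φ) (x y : X) : φ x - φ y ≤ L * dist x y := by
  have := hL.dist_le_mul x y
  rw [Real.dist_eq] at this
  exact (le_abs_self _).trans this

theorem self_sub_le_hopfLax (hL : LipschitzWith L φ) {s : ℝ} (hs : 0 ≤ s) (x : X) :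
    φ x - s * (L : ℝ) ^ 2 / 2 ≤ hopfLax φ s x := by
  rcases hs.eq_or_lt with rfl | hs
  · simp
  · refine le_hopfLax hs fun y => ?_
    have h1 := lip_sub hL x y
    have h2 : (L : ℝ) * dist x y ≤ s * (L : ℝ) ^ 2 / 2 + dist x y ^ 2 / (2 * s) := by
      have h3 : s * (L : ℝ) ^ 2 / 2 + dist x y ^ 2 / (2 * s) - L * dist x y
          = (s * L - dist x y) ^ 2 / (2 * s) := by
        field_simp
        ring
      have h4 : 0 ≤ (s * L - dist x y) ^ 2 / (2 * s) := by positivity
      linarith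
    linarith

/-- almost minimisers at distance at most `2 s L`. -/
theorem exists_near (hL : LipschitzWith L φ) {s : ℝ} (hs : 0 < s)
    (hB : ∀ x, |φ x| ≤ B) (x : X) {ε : ℝ} (hε : 0 < ε) :
    ∃ y, φ y + dist x y ^ 2 / (2 * s) ≤ hopfLax φ s x + ε ∧ dist x y ≤ 2 * s * L := by
  rcases (hopfLax_le_self hB s x).lt_or_eq with h | h
  · obtain ⟨y, hy⟩ := exists_hopfLax_lt hs x (c := min (φ x) (hopfLax φ s x + ε))
      (lt_min h (by linarith))
    have hy1 := hy.trans_le (min_le_left _ _)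
    have hy2 := hy.trans_le (min_le_right _ _)
    refine ⟨y, hy2.le, ?_⟩
    have h1 := lip_sub hL x y
    have h2 : dist x y ^ 2 / (2 * s) < L * dist x y := by linarith
    have h3 : dist x y ^ 2 < L * dist x y * (2 * s) := by
      rwa [div_lt_iff₀ (by positivity)] at h2
    by_contra hcon
    push Not at hcon
    have h4 : 0 < dist x y := by
      have : (0:ℝ) ≤ 2 * s * L := by positivity
      linarith
    nlinarith
  · refine ⟨x, ?_, ?_⟩
    · simp [h, hε.le]
    · simp only [dist_self]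
      positivity

theorem hopfLax_sub_le (hL : LipschitzWith L φ) {s : ℝ} (hs : 0 ≤ s)
    (hB : ∀ x, |φ x| ≤ B) (x x' : X) :
    hopfLax φ s x' - hopfLax φ s x ≤ 3 * L * dist x' x := by
  rcases hs.eq_or_lt with rfl | hs
  · have := lip_sub hL x' x
    simp only [hopfLax_zero]
    have : (0:ℝ) ≤ L * dist x' x := by positivity
    linarith
  rcases le_or_gt (2 * s * L) (dist x' x) with hd | hd
  · have h1 := hopfLax_le_self hB s x'
    have h2 := self_sub_le_hopfLax hL hs.le x
    have h3 := lip_sub hL x' x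
    have h4 : s * (L : ℝ) ^ 2 / 2 ≤ L * dist x' x := by
      have : (L:ℝ) * (2 * s * L) ≤ L * dist x' x := by gcongr
      nlinarith [show (0:ℝ) ≤ s * (L:ℝ)^2 by positivity]
    have : (0:ℝ) ≤ L * dist x' x := by positivity
    linarith
  · refine le_of_forall_pos_le_add fun ε hε => ?_
    obtain ⟨y, hy, hyd⟩ := exists_near hL hs hB x hε
    have h1 := hopfLax_le hs hB x' y
    have h2 : dist x' y ≤ dist x' x + dist x y := dist_triangle _ _ _
    have h3 : dist x' y ^ 2 / (2 * s) ≤ dist x y ^ 2 / (2 * s) + 3 * L * dist x' x := by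
      have h4 : dist x' y ^ 2 ≤ dist x y ^ 2 + dist x' x * (3 * L * (2 * s)) := by
        have h5 : dist x' y ^ 2 ≤ (dist x' x + dist x y) ^ 2 := by gcongr
        have h6 : (0:ℝ) ≤ dist x' x := dist_nonneg
        nlinarith
      have h7 : dist x' y ^ 2 / (2 * s) ≤ (dist x y ^ 2 + dist x' x * (3 * L * (2 * s))) / (2 * s) := by
        gcongr
      have h8 : (dist x y ^ 2 + dist x' x * (3 * L * (2 * s))) / (2 * s)
          = dist x y ^ 2 / (2 * s) + 3 * L * dist x' x := by
        field_simp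
      linarith
    linarith

theorem hopfLax_lipschitz (hL : LipschitzWith L φ) {s : ℝ} (hs : 0 ≤ s)
    (hB : ∀ x, |φ x| ≤ B) : LipschitzWith (3 * L) (hopfLax φ s) := by
  refine LipschitzWith.of_dist_le_mul fun x y => ?_
  rw [Real.dist_eq, abs_sub_le_iff]
  have h1 := hopfLax_sub_le hL hs hB y x
  have h2 := hopfLax_sub_le hL hs hB x y
  rw [dist_comm y x] at h2
  push_cast
  exact ⟨h1, h2⟩

theorem hopfLax_antitone (hB : ∀ x, |φ x| ≤ B) (x : X) : Antitone fun s => hopfLax φ s x := by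
  intro s s' hss
  simp only
  rcases le_or_gt s 0 with hs | hs
  · rw [hopfLax_of_nonpos hs]; exact hopfLax_le_self hB s' x
  · refine le_hopfLax hs fun y => (hopfLax_le (hs.trans_le hss) hB x y).trans ?_
    gcongr

theorem hopfLax_time_sub_le (hL : LipschitzWith L φ) (hB : ∀ x, |φ x| ≤ B)
    {s s' : ℝ} (hs : 0 ≤ s) (hss : s ≤ s') (x : X) :
    hopfLax φ s x - hopfLax φ s' x ≤ 4 * (L : ℝ) ^ 2 * (s' - s) := by
  rcases le_or_gt s' (2 * s) with h2 | h2
  · rcases hs.eq_or_lt with rfl | hs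
    · have : s' = 0 := le_antisymm (by linarith) hss
      subst this
      simp
    · have hs' : 0 < s' := hs.trans_le hss
      refine le_of_forall_pos_le_add fun ε hε => ?_
      obtain ⟨y, hy, hyd⟩ := exists_near hL hs' hB x hε
      have h1 := hopfLax_le hs hB x y
      have h3 : dist x y ^ 2 / (2 * s) ≤ dist x y ^ 2 / (2 * s') + 4 * (L:ℝ) ^ 2 * (s' - s) := by
        have h4 : dist x y ^ 2 / (2 * s) - dist x y ^ 2 / (2 * s')
            = dist x y ^ 2 * (s' - s) / (2 * s * s') := by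
          field_simp
        have h5 : dist x y ^ 2 * (s' - s) / (2 * s * s')
            ≤ (2 * s' * L) ^ 2 * (s' - s) / (2 * s * s') := by
          have : 0 ≤ s' - s := by linarith
          gcongr
        have h6 : (2 * s' * L) ^ 2 * (s' - s) / (2 * s * s')
            = (2 * (L:ℝ)^2 * (s' - s)) * (s' / s) := by
          field_simp
        have h7 : s' / s ≤ 2 := by
          rw [div_le_iff₀ hs]; linarith
        have h8 : (2 * (L:ℝ)^2 * (s' - s)) * (s' / s) ≤ (2 * (L:ℝ)^2 * (s' - s)) * 2 := by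
          have : 0 ≤ s' - s := by linarith
          gcongr
        linarith
      linarith
  · have h1 := hopfLax_le_self hB s x
    have h3 := self_sub_le_hopfLax hL (hs.trans hss) x
    have h4 : s' * (L : ℝ) ^ 2 / 2 ≤ (L:ℝ) ^ 2 * (s' - s) := by
      nlinarith [sq_nonneg (L:ℝ)]
    have h5 : 0 ≤ (L:ℝ) ^ 2 * (s' - s) := mul_nonneg (sq_nonneg _) (by linarith)
    linarith

theorem hopfLax_time_lipschitz (hL : LipschitzWith L φ) (hB : ∀ x, |φ x| ≤ B) (x : X)
    {s s' : ℝ} (hs : 0 ≤ s) (hs' : 0 ≤ s') :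
    |hopfLax φ s x - hopfLax φ s' x| ≤ 4 * (L : ℝ) ^ 2 * |s - s'| := by
  rcases le_total s s' with h | h
  · have h1 := hopfLax_antitone hB x h
    simp only at h1
    rw [abs_of_nonneg (by linarith), abs_of_nonpos (by linarith)]
    have := hopfLax_time_sub_le hL hB hs h x
    linarith
  · have h1 := hopfLax_antitone hB x h
    simp only at h1
    rw [abs_of_nonpos (by linarith), abs_of_nonneg (by linarith)]
    have := hopfLax_time_sub_le hL hB hs' h x
    linarith

/-- semigroup inequality. -/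
theorem hopfLax_add_le (hB : ∀ x, |φ x| ≤ B) {s r : ℝ} (hs : 0 ≤ s) (hr : 0 < r) (x y : X) :
    hopfLax φ (s + r) x ≤ hopfLax φ s y + dist x y ^ 2 / (2 * r) := by
  rcases hs.eq_or_lt with rfl | hs
  · rw [zero_add, hopfLax_zero]
    exact hopfLax_le hr hB x y
  · refine le_of_forall_pos_le_add fun ε hε => ?_
    obtain ⟨z, hz⟩ := exists_hopfLax_lt (φ := φ) hs y (c := hopfLax φ s y + ε) (by linarith)
    have h1 := hopfLax_le (by linarith : 0 < s + r) hB x z
    have h2 : dist x z ^ 2 / (2 * (s + r)) ≤ dist y z ^ 2 / (2 * s) + dist x y ^ 2 / (2 * r) := by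
      have h3 : dist x z ^ 2 ≤ (dist x y + dist y z) ^ 2 := by
        gcongr
        exact dist_triangle _ _ _
      have h4 : (dist x y + dist y z) ^ 2 / (2 * (s + r))
          ≤ dist y z ^ 2 / (2 * s) + dist x y ^ 2 / (2 * r) := by
        have h5 : dist y z ^ 2 / (2 * s) + dist x y ^ 2 / (2 * r)
            - (dist x y + dist y z) ^ 2 / (2 * (s + r))
            = (r * dist y z - s * dist x y) ^ 2 / (2 * s * r * (s + r)) := by
          field_simp
          ring
        have h6 : 0 ≤ (r * dist y z - s * dist x y) ^ 2 / (2 * s * r * (s + r)) := by positivity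
        linarith
      exact le_trans (by gcongr) h4
    linarith

/-- finite propagation: if `φ ≤ 0`... `φ = 0` on the ball of radius `2 s L` about `x`
then `Q_s φ x = 0`. -/
theorem hopfLax_eq_zero (hL : LipschitzWith L φ) (hB : ∀ x, |φ x| ≤ B) {s : ℝ} (hs : 0 ≤ s) {x : X}
    (h0 : ∀ y, dist x y ≤ 2 * s * L → φ y = 0) : hopfLax φ s x = 0 := by
  have hx : φ x = 0 := h0 x (by rw [dist_self]; positivity)
  rcases hs.eq_or_lt with rfl | hs
  · simpa using hx
  refine le_antisymm (hx ▸ hopfLax_le_self hB s x) ?_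
  refine le_of_forall_pos_le_add fun ε hε => ?_
  obtain ⟨y, hy, hyd⟩ := exists_near hL hs hB x hε
  rw [h0 y hyd] at hy
  have : 0 ≤ dist x y ^ 2 / (2 * s) := by positivity
  linarith

/-- Hopf-Lax with clamped time is jointly Lipschitz. -/
theorem abs_hopfLax_sub_le (hL : LipschitzWith L φ) (hB : ∀ x, |φ x| ≤ B) (r r' : ℝ) (x x' : X) :
    |hopfLax φ r x - hopfLax φ r' x'| ≤ 4 * (L : ℝ) ^ 2 * |r - r'| + 3 * L * dist x x' := by
  have hmax : ∀ (r : ℝ) (x : X), hopfLax φ r x = hopfLax φ (max r 0) x := by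
    intro r x
    rcases le_total r 0 with h | h
    · rw [max_eq_right h, hopfLax_of_nonpos h, hopfLax_zero]
    · rw [max_eq_left h]
  have h1 : |hopfLax φ r x - hopfLax φ r' x| ≤ 4 * (L : ℝ) ^ 2 * |r - r'| := by
    rw [hmax r x, hmax r' x]
    refine (hopfLax_time_lipschitz hL hB x (le_max_right _ _) (le_max_right _ _)).trans ?_
    gcongr 4 * (L:ℝ)^2 * ?_
    exact abs_max_sub_max_le_abs r r' 0
  have h2 : |hopfLax φ r' x - hopfLax φ r' x'| ≤ 3 * L * dist x x' := by
    rw [hmax r' x, hmax r' x', abs_sub_le_iff]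
    have h3 := hopfLax_sub_le hL (le_max_right r' 0) hB x' x
    have h4 := hopfLax_sub_le hL (le_max_right r' 0) hB x x'
    rw [dist_comm x' x] at h4
    exact ⟨h3, h4⟩
  calc |hopfLax φ r x - hopfLax φ r' x'| = |(hopfLax φ r x - hopfLax φ r' x) + (hopfLax φ r' x - hopfLax φ r' x')| := by ring_nf
    _ ≤ |hopfLax φ r x - hopfLax φ r' x| + |hopfLax φ r' x - hopfLax φ r' x'| := abs_add_le _ _
    _ ≤ _ := add_le_add h1 h2

theorem hopfLax_continuous (hL : LipschitzWith L φ) (hB : ∀ x, |φ x| ≤ B) :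
    Continuous fun q : ℝ × X => hopfLax φ q.1 q.2 := by
  rw [continuous_iff_continuousAt]
  rintro ⟨r, x⟩
  rw [ContinuousAt, tendsto_iff_dist_tendsto_zero]
  have h1 : Tendsto (fun q : ℝ × X => 4 * (L : ℝ) ^ 2 * |q.1 - r| + 3 * L * dist q.2 x)
      (𝓝 (r, x)) (𝓝 0) := by
    have : Continuous (fun q : ℝ × X => 4 * (L : ℝ) ^ 2 * |q.1 - r| + 3 * L * dist q.2 x) := by
      fun_prop
    have h := this.tendsto (r, x)
    simpa using h
  refine squeeze_zero (fun _ => dist_nonneg) (fun q => ?_) h1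
  rw [Real.dist_eq]
  exact abs_hopfLax_sub_le hL hB q.1 r q.2 x

end hopfLax

section Slope

variable {X : Type*} [MetricSpace X]

/-- Descending slopes depend measurably on a parameter. -/
theorem measurable_descSlope_param {P : Type*} [TopologicalSpace P] [MeasurableSpace P]
    [MeasurableSpace X] [OpensMeasurableSpace (P × X)] (g : P → X → ℝ)
    (hg : Continuous fun q : P × X => g q.1 q.2) :
    Measurable fun q : P × X => descSlope (g q.1) q.2 := by
  have heq : (fun q : P × X => descSlope (g q.1) q.2) =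
      fun q : P × X => ⨅ n : ℕ, quotSup (g q.1) (1 / ((n : ℝ) + 1)) q.2 := by
    funext q
    exact descSlope_eq_iInf _ _
  rw [heq]
  refine Measurable.iInf fun n => ?_
  refine LowerSemicontinuous.measurable ?_
  intro q a ha
  unfold quotSup at ha
  rw [gt_iff_lt, lt_iSup_iff] at ha
  obtain ⟨y, hy⟩ := ha
  rw [lt_iSup_iff] at hy
  obtain ⟨⟨h0, h1⟩, hy⟩ := hy
  have hd : Continuous fun q : P × X => dist q.2 y := by fun_prop
  have hgy : Continuous fun q : P × X => g q.1 y :=
    hg.comp (continuous_fst.prodMk continuous_const)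
  have hc : Tendsto (fun q' : P × X => ENNReal.ofReal ((g q'.1 q'.2 - g q'.1 y) / dist q'.2 y))
      (𝓝 q) (𝓝 (ENNReal.ofReal ((g q.1 q.2 - g q.1 y) / dist q.2 y))) := by
    refine ENNReal.tendsto_ofReal ?_
    exact ((hg.tendsto q).sub (hgy.tendsto q)).div (hd.tendsto q) h0.ne'
  have e2 : ∀ᶠ z in 𝓝 q, 0 < dist z.2 y := (hd.tendsto q).eventually_const_lt h0
  have e3 : ∀ᶠ z in 𝓝 q, dist z.2 y < 1 / ((n : ℝ) + 1) := (hd.tendsto q).eventually_lt_const h1
  filter_upwards [hc.eventually_const_lt hy, e2, e3] with z h1 h2 h3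
  refine lt_of_lt_of_le h1 ?_
  unfold quotSup
  exact le_iSup_of_le y (le_iSup_of_le ⟨h2, h3⟩ le_rfl)

end Slope

section Deriv

variable {X : Type*} [MetricSpace X] {φ : X → ℝ} {B : ℝ} {L : ℝ≥0}

/-- If `c < |D^- Q_s φ|(x)` then some arbitrarily small right difference quotient of
`s ↦ Q_s φ x` is at most `-c²/2`. -/
theorem exists_quot_le (hB : ∀ x, |φ x| ≤ B) {s : ℝ} (hs : 0 ≤ s) (x : X) {c : ℝ} (hc : 0 < c)
    (h : ENNReal.ofReal c < descSlope (hopfLax φ s) x) {δ : ℝ} (hδ : 0 < δ) :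
    ∃ r, 0 < r ∧ r < δ ∧ hopfLax φ (s + r) x - hopfLax φ s x ≤ -(c ^ 2 / 2) * r := by
  rw [descSlope_eq_iInf] at h
  unfold quotSup at h
  obtain ⟨n, hn⟩ := exists_nat_one_div_lt (show 0 < δ * c by positivity)
  have h1 := h.trans_le (iInf_le _ n)
  obtain ⟨y, hy⟩ := lt_iSup_iff.1 h1
  obtain ⟨hy1, hy2⟩ := lt_iSup_iff.1 hy
  rw [ENNReal.ofReal_lt_ofReal_iff_of_nonneg hc.le, lt_div_iff₀ hy1.1] at hy2
  refine ⟨dist x y / c, div_pos hy1.1 hc, ?_, ?_⟩
  · rw [div_lt_iff₀ hc]
    exact hy1.2.trans hn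
  · have h2 := hopfLax_add_le hB hs (div_pos hy1.1 hc) x y
    have h3 : dist x y ^ 2 / (2 * (dist x y / c)) = c * dist x y / 2 := by
      have := hy1.1.ne'
      field_simp
    have h4 : -(c ^ 2 / 2) * (dist x y / c) = -(c * dist x y / 2) := by
      field_simp
    rw [h3] at h2
    rw [h4]
    linarith

/-- At a point of differentiability, `(d/ds) Q_s φ x ≤ -½ |D^- Q_s φ|²(x)`. -/
theorem descSlope_sq_le (hB : ∀ x, |φ x| ≤ B) {s : ℝ} (hs : 0 ≤ s) (x : X) {D : ℝ}
    (hD : HasDerivAt (fun r => hopfLax φ r x) D s) :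
    descSlope (hopfLax φ s) x ^ 2 ≤ ENNReal.ofReal (2 * (-D)) := by
  have key : ∀ c : ℝ, 0 < c → ENNReal.ofReal c < descSlope (hopfLax φ s) x → c ^ 2 ≤ 2 * (-D) := by
    intro c hc h
    by_contra hcon
    push Not at hcon
    have h1 : -(c ^ 2 / 2) < D := by linarith
    have h2 := hD.tendsto_slope_zero_right.eventually_const_lt h1
    rw [eventually_nhdsWithin_iff, Metric.eventually_nhds_iff] at h2
    obtain ⟨δ, hδ, hδ2⟩ := h2
    obtain ⟨r, hr0, hrδ, hr⟩ := exists_quot_le hB hs x hc h hδ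
    have h3 := hδ2 (y := r) (by rw [Real.dist_eq, sub_zero, abs_of_pos hr0]; exact hrδ) hr0
    rw [smul_eq_mul, ← div_eq_inv_mul, lt_div_iff₀ hr0] at h3
    linarith
  have hne : descSlope (hopfLax φ s) x ≤ ENNReal.ofReal (Real.sqrt (2 * (-D))) := by
    refine le_of_forall_lt fun c hc => ?_
    have hctop : c ≠ ⊤ := (hc.trans_le le_top).ne
    rcases eq_or_ne c 0 with rfl | hc0
    · -- need positivity of the right side
      obtain ⟨c', hc'0, hc'⟩ := exists_between hc
      have hc't : c' ≠ ⊤ := (hc'.trans_le le_top).ne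
      have hpos : 0 < c'.toReal := ENNReal.toReal_pos hc'0.ne' hc't
      have := key c'.toReal hpos (by rwa [ENNReal.ofReal_toReal hc't])
      rw [ENNReal.ofReal_pos]
      apply Real.sqrt_pos.2
      nlinarith
    · obtain ⟨c', hc'0, hc'⟩ := exists_between hc
      have hc't : c' ≠ ⊤ := (hc'.trans_le le_top).ne
      have hpos : 0 < c'.toReal := ENNReal.toReal_pos ((bot_le.trans_lt hc'0).ne') hc't
      have h3 := key c'.toReal hpos (by rwa [ENNReal.ofReal_toReal hc't])
      refine hc'0.trans_le ?_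
      rw [← ENNReal.ofReal_toReal hc't]
      exact ENNReal.ofReal_le_ofReal (Real.le_sqrt_of_sq_le h3)
  calc descSlope (hopfLax φ s) x ^ 2 ≤ (ENNReal.ofReal (Real.sqrt (2 * (-D)))) ^ 2 := by gcongr
    _ = ENNReal.ofReal (Real.sqrt (2 * (-D)) ^ 2) := by
        rw [ENNReal.ofReal_pow (Real.sqrt_nonneg _)]
    _ ≤ ENNReal.ofReal (2 * (-D)) := by
        rcases le_total 0 (2 * (-D)) with h | h
        · rw [Real.sq_sqrt h]
        · rw [Real.sqrt_eq_zero_of_nonpos h]; simp

/-- Integrated Hamilton-Jacobi subsolution inequality. -/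
theorem lintegral_descSlope_sq_le (hB : ∀ x, |φ x| ≤ B) {s s' : ℝ} (hs : 0 ≤ s) (hss : s ≤ s')
    (x : X) :
    ∫⁻ r in Icc s s', descSlope (hopfLax φ r) x ^ 2 ≤ ENNReal.ofReal (2 * (hopfLax φ s x - hopfLax φ s' x)) := by
  set f : ℝ → ℝ := fun r => -hopfLax φ r x with hf
  have hmono : Monotone f := fun a b hab => neg_le_neg (hopfLax_antitone hB x hab)
  have hae := hmono.ae_differentiableAt
  have hint := (hmono.monotoneOn (uIcc s s')).intervalIntegrable_deriv
  have hle := (hmono.monotoneOn (uIcc s s')).intervalIntegral_deriv_mem_uIcc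
  have hfs : 0 ≤ f s' - f s := sub_nonneg.2 (hmono hss)
  rw [uIcc_of_le hfs] at hle
  have h1 : ∫⁻ r in Icc s s', descSlope (hopfLax φ r) x ^ 2
      ≤ ∫⁻ r in Icc s s', ENNReal.ofReal (2 * deriv f r) := by
    refine lintegral_mono_ae ?_
    filter_upwards [ae_restrict_of_ae hae, ae_restrict_mem measurableSet_Icc] with r hr hrm
    have h2 : HasDerivAt (fun r => hopfLax φ r x) (-(deriv f r)) r := by
      have h := hr.hasDerivAt.neg
      have he : (-f) = fun r => hopfLax φ r x := by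
        funext r
        simp [hf]
      rwa [he] at h
    have h3 := descSlope_sq_le hB (hs.trans hrm.1) x h2
    simpa using h3
  refine h1.trans ?_
  have hnn : ∀ r, 0 ≤ deriv f r := fun r => hmono.deriv_nonneg
  rw [intervalIntegrable_iff_integrableOn_Icc_of_le hss] at hint
  rw [← ofReal_integral_eq_lintegral_ofReal (hint.const_mul 2)
    (Eventually.of_forall fun r => by have := hnn r; positivity)]
  refine ENNReal.ofReal_le_ofReal ?_
  rw [integral_const_mul, integral_Icc_eq_integral_Ioc, ← intervalIntegral.integral_of_le hss]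
  have := hle.2
  simp only [hf] at this ⊢
  linarith

end Deriv

section Cone

variable {X : Type*} [MetricSpace X]

/-- The truncated cone used as initial datum: `min (d · dist x o) (d²/2) - d²/2`. -/
def cone (o : X) (d : ℝ) (x : X) : ℝ := min (d * dist x o) (d ^ 2 / 2) - d ^ 2 / 2

variable {o : X} {d : ℝ}

theorem cone_nonpos (x : X) : cone o d x ≤ 0 := by
  simp only [cone, sub_nonpos]
  exact min_le_right _ _

theorem neg_le_cone (hd : 0 ≤ d) (x : X) : -(d ^ 2 / 2) ≤ cone o d x := by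
  simp only [cone]
  have : 0 ≤ min (d * dist x o) (d ^ 2 / 2) := le_min (by positivity) (by positivity)
  linarith

theorem abs_cone_le (hd : 0 ≤ d) (x : X) : |cone o d x| ≤ d ^ 2 / 2 :=
  abs_le.2 ⟨neg_le_cone hd x, (cone_nonpos x).trans (by positivity)⟩

theorem cone_lipschitz (hd : 0 ≤ d) : LipschitzWith ⟨d, hd⟩ (cone o d) := by
  refine LipschitzWith.of_dist_le_mul fun x y => ?_
  rw [Real.dist_eq]
  simp only [cone, sub_sub_sub_cancel_right]
  refine (abs_min_sub_min_le_max _ _ _ _).trans ?_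
  simp only [sub_self, abs_zero]
  refine max_le ?_ (by positivity)
  rw [← mul_sub, abs_mul, abs_of_nonneg hd]
  exact mul_le_mul_of_nonneg_left (abs_dist_sub_le x y o) hd

theorem cone_eq_zero (hd : 0 ≤ d) {x : X} (hx : d / 2 ≤ dist x o) : cone o d x = 0 := by
  have h : d ^ 2 / 2 ≤ d * dist x o := by nlinarith
  simp [cone, min_eq_right h]

theorem cone_self : cone o d o = -(d ^ 2 / 2) := by
  have : 0 ≤ d ^ 2 / 2 := by positivity
  simp [cone, min_eq_left this]

/-- the support of `Q_s (cone)` stays in a fixed ball -/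
theorem hopfLax_cone_eq_zero (hd : 0 ≤ d) {s : ℝ} (hs : 0 ≤ s) {x : X}
    (hx : d / 2 + 2 * s * d ≤ dist x o) : hopfLax (cone o d) s x = 0 := by
  refine hopfLax_eq_zero (L := ⟨d, hd⟩) (cone_lipschitz hd) (abs_cone_le hd) hs fun y hy => ?_
  refine cone_eq_zero hd ?_
  change dist x y ≤ 2 * s * d at hy
  have := dist_triangle x y o
  linarith

theorem hopfLax_cone_nonpos (hd : 0 ≤ d) (s : ℝ) (x : X) : hopfLax (cone o d) s x ≤ 0 :=
  (hopfLax_le_self (abs_cone_le hd) s x).trans (cone_nonpos x)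

theorem hopfLax_cone_one (hd : 0 ≤ d) {x : X} (hx : dist x o = d) : hopfLax (cone o d) 1 x = 0 := by
  refine le_antisymm (hopfLax_cone_nonpos hd 1 x) ?_
  refine le_hopfLax one_pos fun y => ?_
  have h1 : d ≤ dist x y + dist y o := hx ▸ dist_triangle x y o
  have h2 : 0 ≤ dist y o := dist_nonneg
  have h3 : 0 ≤ dist x y := dist_nonneg
  rcases le_total (d / 2) (dist y o) with h | h
  · rw [cone_eq_zero hd h]; positivity
  · have h4 : d * dist y o ≤ d ^ 2 / 2 := by nlinarith
    simp only [cone, min_eq_left h4]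
    have h5 : (d - dist y o) ^ 2 ≤ dist x y ^ 2 := by
      apply pow_le_pow_left₀ <;> linarith
    nlinarith [sq_nonneg (dist y o)]

end Cone

end Crest.Agent.R242
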