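import Crest.Agent.R242.Defs

/-!
Row 242: frozen cross-module statements, part 1 (V, Opt, Kant, Ent, Mid, Dyad, Curve speeds).
NEVER imported by proofs of owners; owners restate these theorems under the same names in
namespace `Crest.Agent.R242` in their own module.
-/

set_option autoImplicit false

open MeasureTheory Filter Set
open scoped ENNReal NNReal Topology
open Crest.GeometryTopology.SyntheticRicci

noncomputable section

namespace Crest.Agent.R242.I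

/-! ### V (Vol.lean, helper151; exists_hyp uses Tau.lean, helper468) -/
section V
variable {X : Type*} [MetricSpace X] [CompleteSpace X] [TopologicalSpace.SeparableSpace X]
  [MeasurableSpace X] [BorelSpace X] {m : Measure X} [m.IsOpenPosMeasure] {k N : ℝ}

theorem exists_hyp {K : ℝ} (hfin : IsFiniteOnBalls m) (hN : 1 < N) (hRCD : IsRCD m K N) :
    ∃ k : ℝ, Hyp m k N := sorry

theorem vol_growth (H : Hyp m k N) : ∃ c : ℝ, 0 < c ∧ ∀ (x : X) (r s : ℝ), 0 < r → r ≤ s →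
    m (Metric.ball x s) ≤
      ENNReal.ofReal ((4 * s / r) ^ N * Real.exp (c * s)) * m (Metric.ball x r) := sorry

theorem properSpace_of_hyp (H : Hyp m k N) : ProperSpace X := sorry

theorem isLocallyFinite_of_hyp (H : Hyp m k N) : IsLocallyFiniteMeasure m := sorry

/-- uniform exponential integrability: for `a ≥ a₀`. -/
theorem exp_integral (H : Hyp m k N) : ∃ a₀ C : ℝ, 1 ≤ a₀ ∧ 0 < C ∧ ∀ a : ℝ, a₀ ≤ a → ∀ x : X,
    ∫⁻ y, ENNReal.ofReal ((1 + a * dist y x) ^ 4 * Real.exp (-(2 * a) * dist y x)) ∂m ≤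
      ENNReal.ofReal C * m (Metric.ball x (1 / a)) := sorry

/-- local doubling at scales `≤ 1`. -/
theorem doubling (H : Hyp m k N) : ∃ C : ℝ, 0 < C ∧ ∀ (x : X) (r : ℝ), 0 < r → r ≤ 1 →
    m (Metric.ball x (2 * r)) ≤ ENNReal.ofReal C * m (Metric.ball x r) := sorry
end V

variable {X : Type*} [MetricSpace X] [ProperSpace X] [MeasurableSpace X] [BorelSpace X]
  {m : Measure X} [IsLocallyFiniteMeasure m] [m.IsOpenPosMeasure] {k N : ℝ}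

/-! ### Curve.lean (helper282) -/

theorem measurable_upperSpeed : Measurable (fun p : UCurve X × ℝ => upperSpeed p.1 p.2) := sorry

theorem geod_speed {γ : UCurve X} (h : IsCSGeodesic γ) {t : ℝ} (ht : t ∈ Set.Icc (0 : ℝ) 1) :
    upperSpeed γ t = edist (γ.toMap 0) (γ.toMap 1) := sorry

theorem geod_hasL2Speed {γ : UCurve X} (h : IsCSGeodesic γ) : HasL2Speed γ := sorry

theorem edist_le_speed {γ : UCurve X} (h : HasL2Speed γ) {s t : ℝ} (hs : 0 ≤ s) (hst : s ≤ t)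
    (ht : t ≤ 1) : edist (γ.ext s) (γ.ext t) ≤ ∫⁻ r in Set.Icc s t, upperSpeed γ r := sorry

theorem subCurve_hasL2Speed {γ : UCurve X} (h : HasL2Speed γ) {a b : ℝ} (ha : 0 ≤ a) (hab : a ≤ b)
    (hb : b ≤ 1) : HasL2Speed (subCurve a b γ) := sorry

/-- change of variables for the weighted length of a restricted curve. -/
theorem subCurve_length {γ : UCurve X} {a b : ℝ} (ha : 0 ≤ a) (hab : a ≤ b) (hb : b ≤ 1)
    (g : X → ℝ≥0∞) :
    ∫⁻ t in Set.Icc (0 : ℝ) 1, g ((subCurve a b γ).ext t) * upperSpeed (subCurve a b γ) t =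
      ∫⁻ t in Set.Icc a b, g (γ.ext t) * upperSpeed γ t := sorry

theorem subCurve_energy {γ : UCurve X} {a b : ℝ} (ha : 0 ≤ a) (hab : a ≤ b) (hb : b ≤ 1) :
    ∫⁻ t in Set.Icc (0 : ℝ) 1, upperSpeed (subCurve a b γ) t ^ 2 =
      ENNReal.ofReal (b - a) * ∫⁻ t in Set.Icc a b, upperSpeed γ t ^ 2 := sorry

/-- curves dominated by a monotone function have finite energy. -/
theorem speed_of_monotone {γ : UCurve X} {A : ℝ → ℝ} (hA : MonotoneOn A (Set.Icc 0 1))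
    (h : ∀ s t : ℝ, 0 ≤ s → s ≤ t → t ≤ 1 →
      dist (γ.ext s) (γ.ext t) ^ 2 ≤ (t - s) * (A t - A s)) :
    HasL2Speed γ ∧ ∫⁻ t in Set.Icc (0 : ℝ) 1, upperSpeed γ t ^ 2 ≤ ENNReal.ofReal (A 1 - A 0) :=
  sorry

/-- restriction of a test plan to a measurable set of curves. -/
theorem testPlan_cond {P : Measure (UCurve X)} (hP : IsTestPlan2 m P) {Γ : Set (UCurve X)}
    (hΓ : MeasurableSet Γ) (hpos : P Γ ≠ 0) : IsTestPlan2 m (ProbabilityTheory.cond P Γ) := sorry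

/-- restriction of a test plan in time. -/
theorem testPlan_sub {P : Measure (UCurve X)} (hP : IsTestPlan2 m P) {a b : ℝ} (ha : 0 ≤ a)
    (hab : a ≤ b) (hb : b ≤ 1) : IsTestPlan2 m (P.map (subCurve a b)) := sorry

/-! ### Opt.lean (helper386) -/

theorem measurable_subCurve (a b : ℝ) : Measurable (subCurve (X := X) a b) := sorry

theorem IsOptGeo.marg_zero {P : Measure (UCurve X)} {μ₀ μ₁ : Measure X} (h : IsOptGeo P μ₀ μ₁) :
    timeMarginal P 0 = μ₀ := sorry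

theorem IsOptGeo.marg_one {P : Measure (UCurve X)} {μ₀ μ₁ : Measure X} (h : IsOptGeo P μ₀ μ₁) :
    timeMarginal P 1 = μ₁ := sorry

theorem IsOptGeo.cost_eq {P : Measure (UCurve X)} {μ₀ μ₁ : Measure X} (h : IsOptGeo P μ₀ μ₁) :
    ∫⁻ γ, edist (γ.toMap 0) (γ.toMap 1) ^ 2 ∂P = w2sq μ₀ μ₁ := sorry

/-- [O1] -/
theorem IsOptGeo.cond {P : Measure (UCurve X)} {μ₀ μ₁ : Measure X} (h : IsOptGeo P μ₀ μ₁)
    (hfin : w2sq μ₀ μ₁ < ⊤) {Γ : Set (UCurve X)} (hΓ : MeasurableSet Γ) (hpos : P Γ ≠ 0) :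
    IsOptGeo (ProbabilityTheory.cond P Γ) (timeMarginal (ProbabilityTheory.cond P Γ) 0)
      (timeMarginal (ProbabilityTheory.cond P Γ) 1) := sorry

/-- [O2] -/
theorem IsOptGeo.replace {P P' : Measure (UCurve X)} {μ₀ μ₁ : Measure X} (h : IsOptGeo P μ₀ μ₁)
    (hfin : w2sq μ₀ μ₁ < ⊤) {Γ : Set (UCurve X)} (hΓ : MeasurableSet Γ) (hpos : P Γ ≠ 0)
    (h' : IsOptGeo P' (timeMarginal (ProbabilityTheory.cond P Γ) 0)
      (timeMarginal (ProbabilityTheory.cond P Γ) 1)) {δ : ℝ≥0∞} (hδ : δ ≤ 1) :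
    IsOptGeo (P.restrict Γᶜ + (1 - δ) • P.restrict Γ + (δ * P Γ) • P') μ₀ μ₁ := sorry

/-- [O3] -/
theorem IsOptGeo.sub {P : Measure (UCurve X)} {μ₀ μ₁ : Measure X} (h : IsOptGeo P μ₀ μ₁)
    (hfin : w2sq μ₀ μ₁ < ⊤) {a b : unitInterval} (hab : (a : ℝ) ≤ b) :
    IsOptGeo (P.map (subCurve a b)) (timeMarginal P a) (timeMarginal P b) ∧
      w2sq (timeMarginal P a) (timeMarginal P b) =
        ENNReal.ofReal (((b : ℝ) - a) ^ 2) * w2sq μ₀ μ₁ := sorry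

theorem IsOptGeo.reverse {P : Measure (UCurve X)} {μ₀ μ₁ : Measure X} (h : IsOptGeo P μ₀ μ₁) :
    IsOptGeo (P.map (subCurve 1 0)) μ₁ μ₀ := sorry

theorem w2sq_comm (μ ν : Measure X) : w2sq μ ν = w2sq ν μ := sorry

theorem glue {P₁ P₂ : Measure (UCurve X)} [IsProbabilityMeasure P₁] [IsProbabilityMeasure P₂]
    (h : timeMarginal P₁ 1 = timeMarginal P₂ 0) :
    ∃ P : Measure (UCurve X), IsProbabilityMeasure P ∧ P.map (subCurve 0 (1 / 2)) = P₁ ∧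
      P.map (subCurve (1 / 2) 1) = P₂ := sorry

/-- [O4] -/
theorem IsOptGeo.glue {P₁ P₂ : Measure (UCurve X)} {μ₀ ν μ₁ : Measure X}
    (h₁ : IsOptGeo P₁ μ₀ ν) (h₂ : IsOptGeo P₂ ν μ₁) (hfin : w2sq μ₀ μ₁ < ⊤)
    (hW₁ : 4 * w2sq μ₀ ν = w2sq μ₀ μ₁) (hW₂ : 4 * w2sq ν μ₁ = w2sq μ₀ μ₁) :
    ∃ P : Measure (UCurve X), IsOptGeo P μ₀ μ₁ ∧ P.map (subCurve 0 (1 / 2)) = P₁ ∧
      P.map (subCurve (1 / 2) 1) = P₂ := sorry

theorem w2sq_triangle {μ₁ μ₂ μ₃ : Measure X} [IsProbabilityMeasure μ₁] [IsProbabilityMeasure μ₂]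
    [IsProbabilityMeasure μ₃] :
    w2sq μ₁ μ₃ ^ (1 / 2 : ℝ) ≤ w2sq μ₁ μ₂ ^ (1 / 2 : ℝ) + w2sq μ₂ μ₃ ^ (1 / 2 : ℝ) := sorry

/-- time marginals of a plan with finite energy. -/
theorem w2sq_marginals_le {P : Measure (UCurve X)} [IsProbabilityMeasure P]
    (hP : ∀ᵐ γ ∂P, HasL2Speed γ) {s t : unitInterval} (hst : (s : ℝ) ≤ t) :
    w2sq (timeMarginal P s) (timeMarginal P t) ≤
      ENNReal.ofReal ((t : ℝ) - s) *
        ∫⁻ γ, (∫⁻ r in Set.Icc (s : ℝ) t, upperSpeed γ r ^ 2) ∂P := sorry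

theorem IsOptGeo.supp {P : Measure (UCurve X)} {μ₀ μ₁ : Measure X} (h : IsOptGeo P μ₀ μ₁)
    {o : X} {R : ℝ} (h₀ : μ₀ (Metric.closedBall o R)ᶜ = 0) (h₁ : μ₁ (Metric.closedBall o R)ᶜ = 0) :
    ∀ᵐ γ ∂P, ∀ t : unitInterval, γ.toMap t ∈ Metric.closedBall o (2 * R) := sorry

/-! ### Kant.lean (helper475) -/

theorem exists_pot {o : X} {R : ℝ} {μ₀ μ₁ : Measure X} [IsProbabilityMeasure μ₀]
    [IsProbabilityMeasure μ₁] (h₀ : μ₀ (Metric.closedBall o R)ᶜ = 0)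
    (h₁ : μ₁ (Metric.closedBall o R)ᶜ = 0) : ∃ φ ψ : X → ℝ, IsPot o R μ₀ μ₁ φ ψ := sorry

theorem exists_optCoupling (μ₀ μ₁ : Measure X) [IsProbabilityMeasure μ₀]
    [IsProbabilityMeasure μ₁] : ∃ q, IsOptCouplingOf q μ₀ μ₁ := sorry

/-- [O5] -/
theorem isCompact_optGeo {o : X} {R : ℝ} {μ₀ μ₁ : Measure X} [IsProbabilityMeasure μ₀]
    [IsProbabilityMeasure μ₁] (h₀ : μ₀ (Metric.closedBall o R)ᶜ = 0)
    (h₁ : μ₁ (Metric.closedBall o R)ᶜ = 0) :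
    IsCompact {P : ProbabilityMeasure (UCurve X) | IsOptGeo (P : Measure (UCurve X)) μ₀ μ₁} :=
  sorry

theorem w2sq_lsc {μ ν : ℕ → ProbabilityMeasure X} {μ' ν' : ProbabilityMeasure X}
    (hμ : Tendsto μ atTop (𝓝 μ')) (hν : Tendsto ν atTop (𝓝 ν')) {c : ℝ≥0∞}
    (h : ∀ᶠ n in atTop, w2sq (μ n : Measure X) (ν n) ≤ c) :
    w2sq (μ' : Measure X) (ν' : Measure X) ≤ c := sorry

theorem w2sq_lt_top {μ ν : Measure X} [IsProbabilityMeasure μ] [IsProbabilityMeasure ν]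
    (hμ : HasFiniteSecondMoment μ) (hν : HasFiniteSecondMoment ν) : w2sq μ ν < ⊤ := sorry

/-- weak duality. -/
theorem weak_duality {o : X} {R : ℝ} {μ₀ μ₁ μ ν : Measure X} [IsProbabilityMeasure μ]
    [IsProbabilityMeasure ν] {φ ψ : X → ℝ} (hpot : IsPot o R μ₀ μ₁ φ ψ)
    (hμ : μ (Metric.closedBall o R)ᶜ = 0) (hν : ν (Metric.closedBall o R)ᶜ = 0) :
    ENNReal.ofReal (2 * (∫ x, φ x ∂μ + ∫ x, ψ x ∂ν)) ≤ w2sq μ ν := sorry

/-! ### Ent.lean (helper151) -/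

/-- the base measure has a density bound `M`. -/
theorem ENT (H : Hyp m k N) {o : X} {R M : ℝ} {μ₀ μ₁ : Measure X} [IsProbabilityMeasure μ₀]
    [IsProbabilityMeasure μ₁] (h₀ : μ₀ (Metric.closedBall o R)ᶜ = 0)
    (h₁ : μ₁ (Metric.closedBall o R)ᶜ = 0) (hM₀ : μ₀ ≤ ENNReal.ofReal M • m)
    (hM₁ : μ₁ ≤ ENNReal.ofReal M • m) :
    ∃ P, IsOptGeo P μ₀ μ₁ ∧ timeMarginal P half ≪ m ∧
      entB m (Metric.closedBall o (3 * R)) (timeMarginal P half) ≤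
        (entB m (Metric.closedBall o (3 * R)) μ₀ + entB m (Metric.closedBall o (3 * R)) μ₁) / 2 +
          ENNReal.ofReal (k / 8) * w2sq μ₀ μ₁ := sorry

/-! ### Mid.lean, Dyad.lean (helper518) -/

theorem MID (H : Hyp m k N) {o : X} {R M D C : ℝ} (hR : 0 ≤ R) {μ₀ μ₁ : Measure X}
    [IsProbabilityMeasure μ₀]
    [IsProbabilityMeasure μ₁] (h₀ : μ₀ (Metric.closedBall o R)ᶜ = 0)
    (h₁ : μ₁ (Metric.closedBall o R)ᶜ = 0) (hM₀ : μ₀ ≤ ENNReal.ofReal M • m)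
    (hM₁ : μ₁ ≤ ENNReal.ofReal M • m)
    (hD : ∀ P, IsOptGeo P μ₀ μ₁ → ∀ᵐ γ ∂P, dist (γ.toMap 0) (γ.toMap 1) ≤ D)
    (hC : M * Real.exp (k * D ^ 2 / 8) < C) (hC1 : 1 ≤ C) :
    ∃ P, IsOptGeo P μ₀ μ₁ ∧ timeMarginal P half ≤ ENNReal.ofReal C • m ∧
      entB m (Metric.closedBall o (3 * R)) (timeMarginal P half) ≤
        (entB m (Metric.closedBall o (3 * R)) μ₀ + entB m (Metric.closedBall o (3 * R)) μ₁) / 2 +
          ENNReal.ofReal (k / 8) * w2sq μ₀ μ₁ := sorry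

theorem DYAD (H : Hyp m k N) (o : X) {R M : ℝ} (hR : 0 ≤ R) (hM : 0 ≤ M) :
    ∃ C : ℝ, 0 ≤ C ∧ ∀ μ₀ μ₁ : Measure X, IsProbabilityMeasure μ₀ → IsProbabilityMeasure μ₁ →
      μ₀ (Metric.closedBall o R)ᶜ = 0 → μ₁ (Metric.closedBall o R)ᶜ = 0 →
      μ₀ ≤ ENNReal.ofReal M • m → μ₁ ≤ ENNReal.ofReal M • m →
      ∃ P, IsOptGeo P μ₀ μ₁ ∧ (∀ t, timeMarginal P t ≤ ENNReal.ofReal C • m) ∧
        ∀ n : ℕ, entB m (Metric.closedBall o (3 * R)) (timeMarginal P (dy n)) ≤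
          ENNReal.ofReal (1 - (1 / 2) ^ n) * entB m (Metric.closedBall o (3 * R)) μ₀ +
          ENNReal.ofReal ((1 / 2) ^ n) * entB m (Metric.closedBall o (3 * R)) μ₁ +
          ENNReal.ofReal (k / 2 * (1 / 2) ^ n * (1 - (1 / 2) ^ n)) * w2sq μ₀ μ₁ := sorry

end Crest.Agent.R242.I
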