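import Crest.Agent.R242.Defs

/-!
Row 242: frozen cross-module statements, part 2 (R, E1, C1, SUP, BE).
NEVER imported by proofs of owners; owners restate these theorems under the same names in
namespace `Crest.Agent.R242` in their own module.
-/

set_option autoImplicit false

open MeasureTheory Filter Set
open scoped ENNReal NNReal Topology
open Crest.GeometryTopology.SyntheticRicci

noncomputable section

namespace Crest.Agent.R242.I

variable {X : Type*} [MetricSpace X] [ProperSpace X] [MeasurableSpace X] [BorelSpace X]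
  {m : Measure X} [IsLocallyFiniteMeasure m] [m.IsOpenPosMeasure] {k N : ℝ}

/-! ### R1-R2 (Res.lean, helper847); everything for a bounded Lipschitz weight `V` -/
section R
variable {V : X → ℝ} {h : ℝ}

theorem Jr_isRes (H : Hyp m k N) (hV : BddLip V) (hh : 0 < h) {f : X → ℝ} (hf : MemLp f 2 m) :
    IsRes m V h f (Jr m V h f) := sorry

theorem IsRes.unique (H : Hyp m k N) (hV : BddLip V) (hh : 0 < h) {f u u' : X → ℝ}
    (hf : MemLp f 2 m) (hu : IsRes m V h f u) (hu' : IsRes m V h f u') : u =ᵐ[m] u' := sorry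

theorem Jr_sob (H : Hyp m k N) (hV : BddLip V) (hh : 0 < h) {f : X → ℝ} (hf : MemLp f 2 m) :
    IsSobolev m (Jr m V h f) := sorry

theorem Jr_congr (H : Hyp m k N) (hV : BddLip V) (hh : 0 < h) {f g : X → ℝ} (hf : MemLp f 2 m)
    (hfg : f =ᵐ[m] g) : Jr m V h f =ᵐ[m] Jr m V h g := sorry

theorem Jr_add (H : Hyp m k N) (hV : BddLip V) (hh : 0 < h) {f g : X → ℝ} (hf : MemLp f 2 m)
    (hg : MemLp g 2 m) :
    Jr m V h (fun x => f x + g x) =ᵐ[m] fun x => Jr m V h f x + Jr m V h g x := sorry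

theorem Jr_smul (H : Hyp m k N) (hV : BddLip V) (hh : 0 < h) (c : ℝ) {f : X → ℝ}
    (hf : MemLp f 2 m) : Jr m V h (fun x => c * f x) =ᵐ[m] fun x => c * Jr m V h f x := sorry

theorem Jr_nonneg (H : Hyp m k N) (hV : BddLip V) (hh : 0 < h) {f : X → ℝ} (hf : MemLp f 2 m)
    (h0 : 0 ≤ᵐ[m] f) : 0 ≤ᵐ[m] Jr m V h f := sorry

theorem Jr_le_const (H : Hyp m k N) (hV : BddLip V) (hh : 0 < h) {f : X → ℝ} (hf : MemLp f 2 m)
    {c : ℝ} (hc : 0 ≤ c) (hfc : ∀ᵐ x ∂m, f x ≤ c) : ∀ᵐ x ∂m, Jr m V h f x ≤ c := sorry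

theorem Jr_abs_le (H : Hyp m k N) (hV : BddLip V) (hh : 0 < h) {f : X → ℝ} (hf : MemLp f 2 m)
    {c : ℝ} (hfc : ∀ᵐ x ∂m, |f x| ≤ c) : ∀ᵐ x ∂m, |Jr m V h f x| ≤ c := sorry

theorem Jr_symm (H : Hyp m k N) (hV : BddLip V) (hh : 0 < h) {f g : X → ℝ} (hf : MemLp f 2 m)
    (hg : MemLp g 2 m) :
    ∫ x, Jr m V h f x * g x ∂(wm m V) = ∫ x, f x * Jr m V h g x ∂(wm m V) := sorry

theorem Jr_l2 (H : Hyp m k N) (hV : BddLip V) (hh : 0 < h) {f : X → ℝ} (hf : MemLp f 2 m) :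
    ∫ x, Jr m V h f x ^ 2 ∂(wm m V) + 2 * h * En m V (Jr m V h f) (Jr m V h f) ≤
      ∫ x, f x ^ 2 ∂(wm m V) := sorry

theorem Jr_l1 (H : Hyp m k N) (hV : BddLip V) (hh : 0 < h) {f : X → ℝ} (hf : MemLp f 2 m)
    (hf1 : Integrable f m) : Integrable (Jr m V h f) m ∧
      ∫ x, |Jr m V h f x| ∂(wm m V) ≤ ∫ x, |f x| ∂(wm m V) := sorry

theorem Jr_energy_le (H : Hyp m k N) (hV : BddLip V) (hh : 0 < h) {f : X → ℝ}
    (hf : IsSobolev m f) : En m V (Jr m V h f) (Jr m V h f) ≤ En m V f f := sorry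

theorem Jr_isWLap (H : Hyp m k N) (hV : BddLip V) (hh : 0 < h) {f : X → ℝ} (hf : MemLp f 2 m) :
    IsWLap m V (Jr m V h f) (fun x => (Jr m V h f x - f x) / h) := sorry

theorem IsWLap.eq_Jr (H : Hyp m k N) (hV : BddLip V) (hh : 0 < h) {u g : X → ℝ}
    (hu : IsWLap m V u g) : u =ᵐ[m] Jr m V h (fun x => u x - h * g x) := sorry

/-- `L` commutes with the resolvent. -/
theorem IsWLap.Jr (H : Hyp m k N) (hV : BddLip V) (hh : 0 < h) {u g : X → ℝ}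
    (hu : IsWLap m V u g) : IsWLap m V (Jr m V h u) (Jr m V h g) := sorry

theorem Jr_comm (H : Hyp m k N) (hV : BddLip V) (hh : 0 < h) {h' : ℝ} (hh' : 0 < h') {f : X → ℝ}
    (hf : MemLp f 2 m) : Jr m V h (Jr m V h' f) =ᵐ[m] Jr m V h' (Jr m V h f) := sorry

theorem Jr_tendsto_l2 (H : Hyp m k N) (hV : BddLip V) {f : X → ℝ} (hf : MemLp f 2 m) :
    Tendsto (fun h => ∫ x, (Jr m V h f x - f x) ^ 2 ∂m) (𝓝[>] 0) (𝓝 0) := sorry

theorem Jr_tendsto_sob (H : Hyp m k N) (hV : BddLip V) {f : X → ℝ} (hf : IsSobolev m f) :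
    Tendsto (fun h => ∫ x, minWeakGrad m (fun x => Jr m V h f x - f x) x ^ 2 ∂m)
      (𝓝[>] 0) (𝓝 0) := sorry

/-- change of weight for the Laplacian. -/
theorem isWLap_iff (H : Hyp m k N) (hV : BddLip V) {u g : X → ℝ} :
    IsWLap m V u g ↔ IsWeakLaplacian m u (fun x => g x - gradPairing m V u x) := sorry

theorem isWLap_zero_iff {u g : X → ℝ} : IsWLap m (fun _ => 0) u g ↔ IsWeakLaplacian m u g := sorry

/-- Davies estimate, `V = 0`. -/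
theorem davies (H : Hyp m k N) (hh : 0 < h) {a : ℝ} (ha : 0 ≤ a) (ha8 : 8 * h * a ^ 2 ≤ 1)
    {f : X → ℝ} (hf : MemLp f 2 m) (x₀ : X)
    (hfi : Integrable (fun x => f x ^ 2 * Real.exp (2 * a * dist x x₀)) m) :
    Integrable (fun x => J m h f x ^ 2 * Real.exp (2 * a * dist x x₀)) m ∧
    Integrable (fun x => minWeakGrad m (J m h f) x ^ 2 * Real.exp (2 * a * dist x x₀)) m ∧
    ∫ x, J m h f x ^ 2 * Real.exp (2 * a * dist x x₀) ∂m ≤
      2 * ∫ x, f x ^ 2 * Real.exp (2 * a * dist x x₀) ∂m ∧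
    h * ∫ x, minWeakGrad m (J m h f) x ^ 2 * Real.exp (2 * a * dist x x₀) ∂m ≤
      2 * ∫ x, f x ^ 2 * Real.exp (2 * a * dist x x₀) ∂m := sorry

/-- consequences of Davies + exponential integrability for small `h`: moments, mass
conservation, weak equation against functions of quadratic growth. -/
theorem J_mass (H : Hyp m k N) : ∃ h₀ : ℝ, 0 < h₀ ∧ ∀ h, 0 < h → h ≤ h₀ → ∀ f : X → ℝ,
    MemLp f 2 m → BddSupp m f → ∀ o : X,
      Integrable (fun x => (1 + dist x o ^ 2) * |J m h f x|) m ∧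
      Integrable (fun x => (1 + dist x o) * minWeakGrad m (J m h f) x) m ∧
      ∫ x, J m h f x ∂m = ∫ x, f x ∂m ∧
      ∀ φ : X → ℝ, (∃ A : ℝ, ∀ x x', |φ x - φ x'| ≤ A * dist x x' * (1 + dist x o + dist x' o)) →
        Integrable (fun x => gradPairing m φ (J m h f) x) m ∧
        h * ∫ x, gradPairing m φ (J m h f) x ∂m + ∫ x, φ x * J m h f x ∂m =
          ∫ x, φ x * f x ∂m := sorry

end R

/-! ### R4 (Semi.lean, helper690) -/

theorem exists_semigroup (H : Hyp m k N) {V : X → ℝ} (hV : BddLip V) :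
    ∃ P : ℝ → (X → ℝ) → (X → ℝ), SemigroupSpec m V P := sorry

/-! ### E1 (E1.lean, helper403) -/

theorem E1 (H : Hyp m k N) (o : X) {R M e : ℝ} (hR : 1 ≤ R) {r₀ : X → ℝ}
    (hr₀ : IsSobolevLoc m r₀) (hM : ∀ᵐ x ∂m, r₀ x ≤ M)
    (hpos : ∀ S : ℝ, ∃ c : ℝ, 0 < c ∧ ∀ᵐ x ∂(m.restrict (Metric.ball o S)), c ≤ r₀ x)
    {μ₀ μ₁ : Measure X}
    (hμ₀ : μ₀ = (m.restrict (Metric.closedBall o R)).withDensity (fun x => ENNReal.ofReal (r₀ x)))
    [IsProbabilityMeasure μ₀] [IsProbabilityMeasure μ₁]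
    (hμ₁ : μ₁ (Metric.closedBall o R)ᶜ = 0) (hμ₁M : μ₁ ≤ ENNReal.ofReal M • m)
    {φ ψ : X → ℝ} (hpot : IsPot o R μ₀ μ₁ φ ψ)
    (he : ∀ᶠ t : ℝ in 𝓝[>] 0,
      (∫ x in Metric.closedBall o (R + 2 * R * t) \ Metric.closedBall o R, r₀ x ∂m) ≤ e * t) :
    -(∫ x in Metric.closedBall o R, gradPairing m φ r₀ x ∂m) ≤
      (entB m (Metric.closedBall o (3 * R)) μ₁).toReal -
        (entB m (Metric.closedBall o (3 * R)) μ₀).toReal +
        k / 2 * (w2sq μ₀ μ₁).toReal + e := sorry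

/-! ### C1 (Contr.lean, helper851) -/

theorem contraction (H : Hyp m k N) : ∃ h₀ : ℝ, 0 < h₀ ∧ ∀ h, 0 < h → h ≤ h₀ → 2 * h * k < 1 →
    ∀ ρ ρ' : X → ℝ, MemLp ρ 2 m → MemLp ρ' 2 m → BddSupp m ρ → BddSupp m ρ' →
      (∃ M : ℝ, ∀ᵐ x ∂m, ρ x ≤ M ∧ ρ' x ≤ M) → 0 ≤ᵐ[m] ρ → 0 ≤ᵐ[m] ρ' →
      ∫ x, ρ x ∂m = 1 → ∫ x, ρ' x ∂m = 1 →
      ENNReal.ofReal (1 - 2 * h * k) * w2sq (dens m (J m h ρ)) (dens m (J m h ρ')) ≤
        w2sq (dens m ρ) (dens m ρ') := sorry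

/-! ### SUP (Sup.lean, helper720) -/

theorem superposition (H : Hyp m k N) {ν : unitInterval → Measure X} {C : ℝ}
    (hprob : ∀ t, IsProbabilityMeasure (ν t)) (hdens : ∀ t, ν t ≤ ENNReal.ofReal C • m)
    (hmom : ∀ t, HasFiniteSecondMoment (ν t)) {A : ℝ → ℝ} (hA : MonotoneOn A (Set.Icc 0 1))
    (hAC : ∀ s t : unitInterval, (s : ℝ) ≤ t →
      w2sq (ν s) (ν t) ≤ ENNReal.ofReal (((t : ℝ) - s) * (A t - A s))) :
    ∃ P : Measure (UCurve X), IsTestPlan2 m P ∧ (∀ t, timeMarginal P t = ν t) ∧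
      ∫⁻ γ, (∫⁻ t in Set.Icc (0 : ℝ) 1, upperSpeed γ t ^ 2) ∂P ≤ ENNReal.ofReal (A 1 - A 0) :=
  sorry

/-! ### BE (BE.lean, helper216) -/

/-- there is `h₀` with all the good properties. -/
theorem exists_goodJ (H : Hyp m k N) : ∃ h₀ : ℝ, GoodJ m k h₀ := sorry

end Crest.Agent.R242.I
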