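import Mathlib
import Crest.Prelude.Def_SyntheticRicci

/-!
Row 242, block O6: Kantorovich duality on a compact metric space, by the dominated extension
theorem and the Riesz-Markov-Kakutani theorem, and attainment by equi-Lipschitz c-transforms.
-/

set_option autoImplicit false
set_option linter.unusedSectionVars false

open MeasureTheory Filter Set Topology
open scoped ENNReal NNReal BoundedContinuousFunction

noncomputable section

namespace Crest.Agent.R242

section Compact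

variable {Z : Type*} [MetricSpace Z] [CompactSpace Z] [MeasurableSpace Z] [BorelSpace Z]

/-- set of dual values above `f`. -/
def dualVals (μ₀ μ₁ : Measure Z) (f : C(Z × Z, ℝ)) : Set ℝ :=
  {r | ∃ φ ψ : C(Z, ℝ), (∀ x y, f (x, y) ≤ φ x + ψ y) ∧ r = ∫ x, φ x ∂μ₀ + ∫ y, ψ y ∂μ₁}

/-- the sublinear functional of the duality. -/
def dualN (μ₀ μ₁ : Measure Z) (f : C(Z × Z, ℝ)) : ℝ := sInf (dualVals μ₀ μ₁ f)

variable (μ₀ μ₁ : Measure Z) [IsProbabilityMeasure μ₀] [IsProbabilityMeasure μ₁]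

lemma integrable_cont (μ : Measure Z) [IsFiniteMeasure μ] (φ : C(Z, ℝ)) :
    Integrable (fun x => φ x) μ := by
  exact (BoundedContinuousFunction.mkOfCompact φ).integrable μ

lemma dualVals_nonempty (f : C(Z × Z, ℝ)) : (dualVals μ₀ μ₁ f).Nonempty := by
  refine ⟨_, ContinuousMap.const Z ‖f‖, ContinuousMap.const Z 0, ?_, rfl⟩
  intro x y
  simpa using (le_abs_self _).trans (f.norm_coe_le_norm (x, y))

lemma dualVals_lower (f : C(Z × Z, ℝ)) (M : ℝ) (hM : ∀ p, M ≤ f p) :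
    ∀ r ∈ dualVals μ₀ μ₁ f, M ≤ r := by
  rintro r ⟨φ, ψ, h, rfl⟩
  have h1 : ∀ y, M ≤ ∫ x, φ x ∂μ₀ + ψ y := by
    intro y
    have : ∫ x, (M - ψ y) ∂μ₀ ≤ ∫ x, φ x ∂μ₀ := by
      refine integral_mono (integrable_const _) (integrable_cont _ φ) ?_
      intro x
      have := h x y
      have := hM (x, y)
      simp only
      linarith
    simp at this
    linarith
  have : ∫ y, (M - ∫ x, φ x ∂μ₀) ∂μ₁ ≤ ∫ y, ψ y ∂μ₁ := by
    refine integral_mono (integrable_const _) (integrable_cont _ ψ) ?_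
    intro y
    have := h1 y
    simp only
    linarith
  simp at this
  linarith

lemma dualVals_bddBelow (f : C(Z × Z, ℝ)) : BddBelow (dualVals μ₀ μ₁ f) := by
  refine ⟨-‖f‖, dualVals_lower μ₀ μ₁ f _ ?_⟩
  intro p
  exact neg_le_of_abs_le (f.norm_coe_le_norm p)

lemma dualN_le (f : C(Z × Z, ℝ)) (φ ψ : C(Z, ℝ)) (h : ∀ x y, f (x, y) ≤ φ x + ψ y) :
    dualN μ₀ μ₁ f ≤ ∫ x, φ x ∂μ₀ + ∫ y, ψ y ∂μ₁ :=
  csInf_le (dualVals_bddBelow μ₀ μ₁ f) ⟨φ, ψ, h, rfl⟩

lemma exists_dual_lt (f : C(Z × Z, ℝ)) {r : ℝ} (h : dualN μ₀ μ₁ f < r) :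
    ∃ φ ψ : C(Z, ℝ), (∀ x y, f (x, y) ≤ φ x + ψ y) ∧ ∫ x, φ x ∂μ₀ + ∫ y, ψ y ∂μ₁ < r := by
  obtain ⟨a, ⟨φ, ψ, h1, rfl⟩, h2⟩ := exists_lt_of_csInf_lt (dualVals_nonempty μ₀ μ₁ f) h
  exact ⟨φ, ψ, h1, h2⟩

lemma dualN_add (f g : C(Z × Z, ℝ)) :
    dualN μ₀ μ₁ (f + g) ≤ dualN μ₀ μ₁ f + dualN μ₀ μ₁ g := by
  refine le_of_forall_pos_le_add ?_
  intro ε hε
  obtain ⟨φ, ψ, h1, h2⟩ := exists_dual_lt μ₀ μ₁ f (r := dualN μ₀ μ₁ f + ε / 2) (by linarith)
  obtain ⟨φ', ψ', h1', h2'⟩ := exists_dual_lt μ₀ μ₁ g (r := dualN μ₀ μ₁ g + ε / 2) (by linarith)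
  have := dualN_le μ₀ μ₁ (f + g) (φ + φ') (ψ + ψ') (by
    intro x y
    have := h1 x y
    have := h1' x y
    simp only [ContinuousMap.add_apply]
    linarith)
  simp only [ContinuousMap.add_apply] at this
  rw [integral_add (integrable_cont _ _) (integrable_cont _ _),
    integral_add (integrable_cont _ _) (integrable_cont _ _)] at this
  linarith

lemma dualN_smul_le (c : ℝ) (hc : 0 < c) (f : C(Z × Z, ℝ)) :
    dualN μ₀ μ₁ (c • f) ≤ c * dualN μ₀ μ₁ f := by
  refine le_of_forall_pos_le_add ?_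
  intro ε hε
  obtain ⟨φ, ψ, h1, h2⟩ := exists_dual_lt μ₀ μ₁ f (r := dualN μ₀ μ₁ f + ε / c)
    (by have := div_pos hε hc; linarith)
  have := dualN_le μ₀ μ₁ (c • f) (c • φ) (c • ψ) (by
    intro x y
    have := mul_le_mul_of_nonneg_left (h1 x y) hc.le
    simp only [ContinuousMap.smul_apply, smul_eq_mul]
    linarith)
  simp only [ContinuousMap.smul_apply, smul_eq_mul] at this
  rw [integral_const_mul, integral_const_mul] at this
  have h3 := mul_lt_mul_of_pos_left h2 hc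
  have h4 : c * (ε / c) = ε := by field_simp
  nlinarith

lemma dualN_smul (c : ℝ) (hc : 0 < c) (f : C(Z × Z, ℝ)) :
    dualN μ₀ μ₁ (c • f) = c * dualN μ₀ μ₁ f := by
  refine le_antisymm (dualN_smul_le μ₀ μ₁ c hc f) ?_
  have := dualN_smul_le μ₀ μ₁ c⁻¹ (inv_pos.2 hc) (c • f)
  rw [smul_smul, inv_mul_cancel₀ hc.ne', one_smul] at this
  have h2 := mul_le_mul_of_nonneg_left this hc.le
  rwa [← mul_assoc, mul_inv_cancel₀ hc.ne', one_mul] at h2

lemma dualN_zero : dualN μ₀ μ₁ (0 : C(Z × Z, ℝ)) = 0 := by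
  have := dualN_smul μ₀ μ₁ 2 (by norm_num) 0
  rw [smul_zero] at this
  linarith

/-- the linear functional provided by the dominated extension theorem. -/
lemma exists_functional (c : C(Z × Z, ℝ)) :
    ∃ L : C(Z × Z, ℝ) →ₗ[ℝ] ℝ, (∀ f, L f ≤ dualN μ₀ μ₁ f) ∧ L c = dualN μ₀ μ₁ c := by
  have H : ∀ t : ℝ, t • c = 0 → (RingHom.id ℝ) t • (dualN μ₀ μ₁ c) = 0 := by
    intro t ht
    rcases smul_eq_zero.1 ht with h | h
    · rw [h, map_zero, zero_smul]
    · rw [h, dualN_zero, smul_zero]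
  obtain ⟨g, h1, h2⟩ := exists_extension_of_le_sublinear
    (LinearPMap.mkSpanSingleton' c (dualN μ₀ μ₁ c) H)
    (dualN μ₀ μ₁) (fun c hc f => dualN_smul μ₀ μ₁ c hc f) (dualN_add μ₀ μ₁) (by
      rintro ⟨x, hx⟩
      obtain ⟨t, rfl⟩ := Submodule.mem_span_singleton.1 hx
      rw [LinearPMap.mkSpanSingleton'_apply]
      simp only [smul_eq_mul, RingHom.id_apply]
      rcases lt_trichotomy t 0 with ht | ht | ht
      · have h3 := dualN_smul μ₀ μ₁ (-t) (by linarith) c
        have h4 := dualN_add μ₀ μ₁ ((-t) • c) (t • c)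
        rw [← add_smul, neg_add_cancel, zero_smul, dualN_zero] at h4
        linarith
      · subst ht
        simp [dualN_zero]
      · rw [dualN_smul μ₀ μ₁ t ht c])
  refine ⟨g, h2, ?_⟩
  have hc : (1 : ℝ) • c ∈ (LinearPMap.mkSpanSingleton' c (dualN μ₀ μ₁ c) H).domain :=
    Submodule.mem_span_singleton.2 ⟨1, rfl⟩
  have := h1 ⟨(1 : ℝ) • c, hc⟩
  rw [LinearPMap.mkSpanSingleton'_apply] at this
  simpa using this

/-- a functional dominated by `dualN` is integration against a coupling. -/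
lemma exists_coupling_of_functional (L : C(Z × Z, ℝ) →ₗ[ℝ] ℝ) (hL : ∀ f, L f ≤ dualN μ₀ μ₁ f) :
    ∃ q : Measure (Z × Z), IsProbabilityMeasure q ∧ q.map Prod.fst = μ₀ ∧ q.map Prod.snd = μ₁ ∧
      ∀ f : C(Z × Z, ℝ), ∫ p, f p ∂q = L f := by
  have hpos : ∀ f : C(Z × Z, ℝ), (∀ p, 0 ≤ f p) → 0 ≤ L f := by
    intro f hf
    have h1 := hL (-f)
    have h2 := dualN_le μ₀ μ₁ (-f) 0 0 (by
      intro x y
      simpa using hf (x, y))
    simp only [ContinuousMap.zero_apply, integral_zero, add_zero, map_neg] at h1 h2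
    linarith
  let Λ : CompactlySupportedContinuousMap (Z × Z) ℝ →ₚ[ℝ] ℝ :=
  { toFun g := L g.toContinuousMap
    map_add' g g' := by
      rw [← map_add]; rfl
    map_smul' c g := by
      rw [RingHom.id_apply, ← map_smul]; rfl
    monotone' g g' hgg' := by
      have : 0 ≤ L (g'.toContinuousMap - g.toContinuousMap) := by
        apply hpos
        intro p
        have := hgg' p
        simpa using this
      rw [map_sub] at this
      simp only
      linarith }
  set q := RealRMK.rieszMeasure Λ with hq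
  have hint : ∀ f : C(Z × Z, ℝ), ∫ p, f p ∂q = L f := by
    intro f
    let g' : CompactlySupportedContinuousMap (Z × Z) ℝ :=
    { toContinuousMap := f
      hasCompactSupport' := HasCompactSupport.of_compactSpace _ }
    exact RealRMK.integral_rieszMeasure Λ g'
  have : IsFiniteMeasure q := by rw [hq]; infer_instance
  have hfst : q.map Prod.fst = μ₀ := by
    apply ext_of_forall_integral_eq_of_IsFiniteMeasure
    intro φ
    rw [integral_map (by fun_prop) (by fun_prop)]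
    let F : C(Z × Z, ℝ) := ⟨fun p => φ p.1, by fun_prop⟩
    have h1 : ∫ p, φ p.1 ∂q = L F := hint F
    rw [h1]
    have h2 : L F ≤ ∫ x, φ x ∂μ₀ := by
      refine (hL F).trans ?_
      have := dualN_le μ₀ μ₁ F φ.toContinuousMap 0 (by intro x y; simp [F])
      simpa using this
    have h3 : L (-F) ≤ -∫ x, φ x ∂μ₀ := by
      refine (hL (-F)).trans ?_
      have := dualN_le μ₀ μ₁ (-F) (-φ.toContinuousMap) 0 (by intro x y; simp [F])
      simpa [integral_neg] using this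
    rw [map_neg] at h3
    linarith
  have hsnd : q.map Prod.snd = μ₁ := by
    apply ext_of_forall_integral_eq_of_IsFiniteMeasure
    intro φ
    rw [integral_map (by fun_prop) (by fun_prop)]
    let F : C(Z × Z, ℝ) := ⟨fun p => φ p.2, by fun_prop⟩
    have h1 : ∫ p, φ p.2 ∂q = L F := hint F
    rw [h1]
    have h2 : L F ≤ ∫ x, φ x ∂μ₁ := by
      refine (hL F).trans ?_
      have := dualN_le μ₀ μ₁ F 0 φ.toContinuousMap (by intro x y; simp [F])
      simpa using this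
    have h3 : L (-F) ≤ -∫ x, φ x ∂μ₁ := by
      refine (hL (-F)).trans ?_
      have := dualN_le μ₀ μ₁ (-F) 0 (-φ.toContinuousMap) (by intro x y; simp [F])
      simpa [integral_neg] using this
    rw [map_neg] at h3
    linarith
  have hprob : IsProbabilityMeasure q := by
    constructor
    have : (q.map Prod.fst) univ = 1 := by rw [hfst]; exact measure_univ
    rwa [Measure.map_apply measurable_fst MeasurableSet.univ, preimage_univ] at this
  exact ⟨q, hprob, hfst, hsnd, hint⟩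

/-- Kantorovich duality without attainment of the dual problem: an optimal coupling and dual
pairs whose values come arbitrarily close to its cost. -/
lemma duality_eps (c : C(Z × Z, ℝ)) :
    ∃ q : Measure (Z × Z), IsProbabilityMeasure q ∧ q.map Prod.fst = μ₀ ∧ q.map Prod.snd = μ₁ ∧
      ∀ ε > 0, ∃ φ ψ : C(Z, ℝ), (∀ x y, φ x + ψ y ≤ c (x, y)) ∧
        ∫ p, c p ∂q < ∫ x, φ x ∂μ₀ + ∫ y, ψ y ∂μ₁ + ε := by
  obtain ⟨L, hL, hLc⟩ := exists_functional μ₀ μ₁ (-c)
  obtain ⟨q, hq, h1, h2, hint⟩ := exists_coupling_of_functional μ₀ μ₁ L hL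
  refine ⟨q, hq, h1, h2, ?_⟩
  intro ε hε
  obtain ⟨φ, ψ, h3, h4⟩ := exists_dual_lt μ₀ μ₁ (-c) (r := dualN μ₀ μ₁ (-c) + ε) (by linarith)
  refine ⟨-φ, -ψ, ?_, ?_⟩
  · intro x y
    have := h3 x y
    simp only [ContinuousMap.neg_apply] at this ⊢
    linarith
  · rw [hint c]
    rw [map_neg] at hLc
    simp only [ContinuousMap.neg_apply, integral_neg]
    linarith

/-- the set of equi-Lipschitz, equi-bounded functions is compact. -/
lemma isCompact_lipSet (K : ℝ≥0) (B : ℝ) :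
    IsCompact {f : Z →ᵇ ℝ | LipschitzWith K f ∧ ∀ x, f x ∈ Icc (-B) B} := by
  refine BoundedContinuousFunction.arzela_ascoli₂ (Icc (-B) B) isCompact_Icc _ ?_ ?_ ?_
  · have h1 : IsClosed {f : Z →ᵇ ℝ | LipschitzWith K f} := by
      have : {f : Z →ᵇ ℝ | LipschitzWith K f} = ⋂ x : Z, ⋂ y : Z,
          {f : Z →ᵇ ℝ | dist (f x) (f y) ≤ K * dist x y} := by
        ext f
        simp [lipschitzWith_iff_dist_le_mul]
      rw [this]
      refine isClosed_iInter fun x => isClosed_iInter fun y => ?_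
      refine isClosed_le ?_ continuous_const
      exact (continuous_eval_const _).dist
        (continuous_eval_const _)
    have h2 : IsClosed {f : Z →ᵇ ℝ | ∀ x, f x ∈ Icc (-B) B} := by
      have : {f : Z →ᵇ ℝ | ∀ x, f x ∈ Icc (-B) B} = ⋂ x : Z,
          {f : Z →ᵇ ℝ | f x ∈ Icc (-B) B} := by
        ext f
        simp
      rw [this]
      exact isClosed_iInter fun x => isClosed_Icc.preimage
        (continuous_eval_const _)
    exact h1.inter h2
  · intro f x hf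
    exact hf.2 x
  · have : UniformEquicontinuous ((↑) : {f : Z →ᵇ ℝ | LipschitzWith K f ∧
        ∀ x, f x ∈ Icc (-B) B} → Z → ℝ) := by
      refine LipschitzWith.uniformEquicontinuous _ K ?_
      intro f
      exact f.2.1
    exact this.equicontinuous

lemma continuous_integral_bcf (μ : Measure Z) [IsProbabilityMeasure μ] :
    Continuous (fun f : Z →ᵇ ℝ => ∫ x, f x ∂μ) := by
  refine LipschitzWith.continuous (K := 1) (LipschitzWith.of_dist_le_mul ?_)
  intro f g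
  rw [Real.dist_eq, ← integral_sub (f.integrable μ) (g.integrable μ)]
  have := (f - g).norm_integral_le_norm (μ := μ)
  simpa [dist_eq_norm] using this

end Compact

section Transform

variable {X : Type*} [MetricSpace X]

/-- the quadratic c-transform of a function on `Y`. -/
def ctr (Y : Set X) (ψ : Y → ℝ) (x : X) : ℝ := ⨅ y : Y, (dist x y ^ 2 / 2 - ψ y)

variable {Y : Set X}

lemma exists_ctr (hY : IsCompact Y) (hne : Y.Nonempty) {ψ : Y → ℝ} (hψ : Continuous ψ) (x : X) :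
    ∃ y : Y, ctr Y ψ x = dist x y ^ 2 / 2 - ψ y ∧
      ∀ z : Y, dist x y ^ 2 / 2 - ψ y ≤ dist x z ^ 2 / 2 - ψ z := by
  have : CompactSpace Y := isCompact_iff_compactSpace.mp hY
  have : Nonempty Y := hne.to_subtype
  have hc : Continuous (fun y : Y => dist x y ^ 2 / 2 - ψ y) := by fun_prop
  obtain ⟨y, -, hy⟩ := isCompact_univ.exists_isMinOn univ_nonempty hc.continuousOn
  have hy' : ∀ z : Y, dist x y ^ 2 / 2 - ψ y ≤ dist x z ^ 2 / 2 - ψ z := fun z => hy (mem_univ z)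
  refine ⟨y, ?_, hy'⟩
  refine le_antisymm (ciInf_le ⟨dist x y ^ 2 / 2 - ψ y, ?_⟩ y) (le_ciInf hy')
  rintro _ ⟨z, rfl⟩
  exact hy' z

lemma ctr_le (hY : IsCompact Y) {ψ : Y → ℝ} (hψ : Continuous ψ) (x : X) (y : Y) :
    ctr Y ψ x ≤ dist x y ^ 2 / 2 - ψ y := by
  obtain ⟨z, h1, h2⟩ := exists_ctr hY ⟨y.1, y.2⟩ hψ x
  rw [h1]
  exact h2 y

lemma ctr_sub_le (hY : IsCompact Y) (hne : Y.Nonempty) {ψ : Y → ℝ} (hψ : Continuous ψ) (x x' : X) :
    ∃ y ∈ Y, ctr Y ψ x - ctr Y ψ x' ≤ dist x x' * ((dist x y + dist x' y) / 2) := by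
  obtain ⟨y, h1, h2⟩ := exists_ctr hY hne hψ x'
  refine ⟨y, y.2, ?_⟩
  have h3 := ctr_le hY hψ x y
  have h4 : dist x y - dist x' y ≤ dist x x' := by
    have := dist_triangle x x' y
    linarith
  have h5 : 0 ≤ dist x y + dist x' y := by positivity
  nlinarith [mul_le_mul_of_nonneg_right h4 h5]

/-- modulus of continuity of a c-transform. -/
lemma abs_ctr_sub_le (hY : IsCompact Y) (hne : Y.Nonempty) {ψ : Y → ℝ} (hψ : Continuous ψ)
    (x x' : X) :
    ∃ y ∈ Y, |ctr Y ψ x - ctr Y ψ x'| ≤ dist x x' * ((dist x y + dist x' y) / 2) := by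
  obtain ⟨y, hy, h⟩ := ctr_sub_le hY hne hψ x x'
  obtain ⟨z, hz, h'⟩ := ctr_sub_le hY hne hψ x' x
  rcases le_total (ctr Y ψ x) (ctr Y ψ x') with h1 | h1
  · refine ⟨z, hz, ?_⟩
    rw [abs_of_nonpos (by linarith), dist_comm x x']
    linarith [h', add_comm (dist x z) (dist x' z), congrArg (fun t => dist x' x * (t / 2))
      (add_comm (dist x z) (dist x' z))]
  · refine ⟨y, hy, ?_⟩
    rw [abs_of_nonneg (by linarith)]
    exact h

lemma abs_ctr_sub_le' (hY : IsCompact Y) (hne : Y.Nonempty) {ψ : Y → ℝ} (hψ : Continuous ψ)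
    {o : X} {R : ℝ} (hR : Y ⊆ Metric.closedBall o R) (x x' : X) :
    |ctr Y ψ x - ctr Y ψ x'| ≤ dist x x' * ((dist x o + dist x' o) / 2 + R) := by
  obtain ⟨y, hy, h⟩ := abs_ctr_sub_le hY hne hψ x x'
  refine h.trans ?_
  have h1 : dist o y ≤ R := by
    have := hR hy
    rwa [Metric.mem_closedBall, dist_comm] at this
  have h2 := dist_triangle x o y
  have h3 := dist_triangle x' o y
  have h4 : (dist x y + dist x' y) / 2 ≤ (dist x o + dist x' o) / 2 + R := by linarith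
  exact mul_le_mul_of_nonneg_left h4 dist_nonneg

lemma continuous_ctr (hY : IsCompact Y) (hne : Y.Nonempty) {ψ : Y → ℝ} (hψ : Continuous ψ) :
    Continuous (ctr Y ψ) := by
  obtain ⟨o, ho⟩ := id hne
  obtain ⟨R, hR⟩ := hY.isBounded.subset_closedBall o
  rw [continuous_iff_continuousAt]
  intro x
  rw [ContinuousAt, tendsto_iff_dist_tendsto_zero]
  have h1 : Tendsto (fun x' => dist x' x * ((dist x' o + dist x o) / 2 + R)) (𝓝 x) (𝓝 0) := by
    have : Continuous (fun x' => dist x' x * ((dist x' o + dist x o) / 2 + R)) := by fun_prop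
    have := this.tendsto x
    simpa using this
  refine squeeze_zero (fun _ => dist_nonneg) ?_ h1
  intro x'
  rw [Real.dist_eq]
  exact abs_ctr_sub_le' hY hne hψ hR x' x

end Transform

section Attain

variable {X : Type*} [MetricSpace X] [MeasurableSpace X] [BorelSpace X] {Y : Set X}

/-- improvement of a dual pair by c-transforms and normalisation. -/
lemma improve_pair (hY : IsCompact Y) (hne : Y.Nonempty) (ν₀ ν₁ : Measure Y)
    [IsProbabilityMeasure ν₀] [IsProbabilityMeasure ν₁] (D : ℝ≥0)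
    (hD : ∀ x y : Y, dist (x : X) y ≤ D) (φ ψ : C(Y, ℝ))
    (h : ∀ x y : Y, φ x + ψ y ≤ dist (x : X) y ^ 2 / 2) :
    ∃ f g : Y →ᵇ ℝ, (LipschitzWith D f ∧ ∀ x, f x ∈ Icc (-(D ^ 2 : ℝ)) (D ^ 2)) ∧
      (LipschitzWith D g ∧ ∀ x, g x ∈ Icc (-(D ^ 2 : ℝ)) (D ^ 2)) ∧
      (∀ x y : Y, f x + g y ≤ dist (x : X) y ^ 2 / 2) ∧
      ∫ x, φ x ∂ν₀ + ∫ y, ψ y ∂ν₁ ≤ ∫ x, f x ∂ν₀ + ∫ y, g y ∂ν₁ := by
  have : CompactSpace Y := isCompact_iff_compactSpace.mp hY
  obtain ⟨z0, hz0⟩ := id hne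
  have hcφ : Continuous φ := φ.continuous
  have hcψ : Continuous ψ := ψ.continuous
  set ψ1 : Y → ℝ := fun y => ctr Y φ y with hψ1
  have hcψ1 : Continuous ψ1 := (continuous_ctr hY hne hcφ).comp continuous_subtype_val
  set φ1 : Y → ℝ := fun y => ctr Y ψ1 y with hφ1
  have hcφ1 : Continuous φ1 := (continuous_ctr hY hne hcψ1).comp continuous_subtype_val
  have hlip : ∀ (θ : Y → ℝ), Continuous θ → ∀ x y : Y,
      |ctr Y θ x - ctr Y θ y| ≤ D * dist x y := by
    intro θ hθ x y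
    obtain ⟨z, hz, h⟩ := abs_ctr_sub_le hY hne hθ (x : X) y
    refine h.trans ?_
    have h1 := hD x ⟨z, hz⟩
    have h2 := hD y ⟨z, hz⟩
    simp only at h1 h2
    have h3 : (dist (x : X) z + dist (y : X) z) / 2 ≤ D := by linarith
    calc dist (x : X) y * ((dist (x : X) z + dist (y : X) z) / 2)
        ≤ dist (x : X) y * D := mul_le_mul_of_nonneg_left h3 dist_nonneg
      _ = D * dist x y := by rw [mul_comm]; rfl
  have h1 : ∀ y, ψ y ≤ ψ1 y := by
    intro y
    obtain ⟨z, hz1, hz2⟩ := exists_ctr hY hne hcφ (y : X)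
    simp only [hψ1]
    rw [hz1]
    have := h z y
    rw [dist_comm] at this
    linarith
  have h2 : ∀ x y : Y, φ x + ψ1 y ≤ dist (x : X) y ^ 2 / 2 := by
    intro x y
    have := ctr_le hY hcφ (y : X) x
    rw [dist_comm] at this
    simp only [hψ1]
    linarith
  have h3 : ∀ x, φ x ≤ φ1 x := by
    intro x
    obtain ⟨z, hz1, hz2⟩ := exists_ctr hY hne hcψ1 (x : X)
    simp only [hφ1]
    rw [hz1]
    have := h2 x z
    linarith
  have h4 : ∀ x y : Y, φ1 x + ψ1 y ≤ dist (x : X) y ^ 2 / 2 := by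
    intro x y
    have := ctr_le hY hcψ1 (x : X) y
    simp only [hφ1]
    linarith
  set t : ℝ := φ1 ⟨z0, hz0⟩ with ht
  let f : Y →ᵇ ℝ := BoundedContinuousFunction.mkOfCompact ⟨fun x => φ1 x - t, by fun_prop⟩
  let g : Y →ᵇ ℝ := BoundedContinuousFunction.mkOfCompact ⟨fun x => ψ1 x + t, by fun_prop⟩
  have hf : ∀ x, f x = φ1 x - t := fun x => rfl
  have hg : ∀ x, g x = ψ1 x + t := fun x => rfl
  have hfb : ∀ x, |f x| ≤ (D : ℝ) ^ 2 := by
    intro x
    rw [hf, ht]
    have h5 := hlip ψ1 hcψ1 x ⟨z0, hz0⟩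
    refine h5.trans ?_
    have h6 := hD x ⟨z0, hz0⟩
    have h7 : dist x (⟨z0, hz0⟩ : Y) ≤ D := h6
    calc (D : ℝ) * dist x ⟨z0, hz0⟩ ≤ D * D := mul_le_mul_of_nonneg_left h7 D.2
      _ = (D : ℝ) ^ 2 := by ring
  refine ⟨f, g, ⟨?_, ?_⟩, ⟨?_, ?_⟩, ?_, ?_⟩
  · refine LipschitzWith.of_dist_le_mul ?_
    intro x y
    rw [Real.dist_eq, hf, hf]
    have := hlip ψ1 hcψ1 x y
    simpa using this
  · intro x
    exact abs_le.1 (hfb x)
  · refine LipschitzWith.of_dist_le_mul ?_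
    intro x y
    rw [Real.dist_eq, hg, hg]
    have := hlip φ hcφ x y
    simpa using this
  · intro y
    rw [hg]
    constructor
    · obtain ⟨z, hz1, hz2⟩ := exists_ctr hY hne hcφ (y : X)
      have h5 : ψ1 y = dist (y : X) z ^ 2 / 2 - φ z := hz1
      have h6 := h3 z
      have h7 := (abs_le.1 (hfb z)).2
      rw [hf] at h7
      have h8 : 0 ≤ dist (y : X) z ^ 2 / 2 := by positivity
      linarith
    · have h5 := h4 ⟨z0, hz0⟩ y
      have h6 := hD ⟨z0, hz0⟩ y
      have h7 : dist ((⟨z0, hz0⟩ : Y) : X) y ^ 2 ≤ (D : ℝ) ^ 2 :=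
        pow_le_pow_left₀ dist_nonneg h6 2
      have h8 : (0 : ℝ) ≤ (D : ℝ) ^ 2 := by positivity
      linarith
  · intro x y
    rw [hf, hg]
    have := h4 x y
    linarith
  · have h5 : ∫ x, φ x ∂ν₀ ≤ ∫ x, φ1 x ∂ν₀ :=
      integral_mono (integrable_cont ν₀ φ) (integrable_cont ν₀ ⟨φ1, hcφ1⟩) h3
    have h6 : ∫ x, ψ x ∂ν₁ ≤ ∫ x, ψ1 x ∂ν₁ :=
      integral_mono (integrable_cont ν₁ ψ) (integrable_cont ν₁ ⟨ψ1, hcψ1⟩) h1
    have h7 : ∫ x, f x ∂ν₀ = ∫ x, φ1 x ∂ν₀ - t := by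
      simp only [hf]
      have hi : Integrable φ1 ν₀ := integrable_cont ν₀ ⟨φ1, hcφ1⟩
      rw [integral_sub hi (integrable_const _)]
      simp
    have h8 : ∫ x, g x ∂ν₁ = ∫ x, ψ1 x ∂ν₁ + t := by
      simp only [hg]
      have hi : Integrable ψ1 ν₁ := integrable_cont ν₁ ⟨ψ1, hcψ1⟩
      rw [integral_add hi (integrable_const _)]
      simp
    linarith

/-- attainment of the dual problem on a compact set. -/
lemma exists_max_pair (hY : IsCompact Y) (hne : Y.Nonempty) (ν₀ ν₁ : Measure Y)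
    [IsProbabilityMeasure ν₀] [IsProbabilityMeasure ν₁] :
    ∃ φ ψ : C(Y, ℝ), (∀ x y : Y, φ x + ψ y ≤ dist (x : X) y ^ 2 / 2) ∧
      ∀ φ' ψ' : C(Y, ℝ), (∀ x y : Y, φ' x + ψ' y ≤ dist (x : X) y ^ 2 / 2) →
        ∫ x, φ' x ∂ν₀ + ∫ y, ψ' y ∂ν₁ ≤ ∫ x, φ x ∂ν₀ + ∫ y, ψ y ∂ν₁ := by
  have : CompactSpace Y := isCompact_iff_compactSpace.mp hY
  obtain ⟨D, hD⟩ : ∃ D : ℝ≥0, ∀ x y : Y, dist (x : X) y ≤ D := by
    refine ⟨⟨Metric.diam Y, Metric.diam_nonneg⟩, ?_⟩
    intro x y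
    exact Metric.dist_le_diam_of_mem hY.isBounded x.2 y.2
  set A : Set (Y →ᵇ ℝ) := {f | LipschitzWith D f ∧ ∀ x, f x ∈ Icc (-(D ^ 2 : ℝ)) (D ^ 2)} with hA
  have hAc : IsCompact A := isCompact_lipSet D _
  set S : Set ((Y →ᵇ ℝ) × (Y →ᵇ ℝ)) := (A ×ˢ A) ∩
    {p | ∀ x y : Y, p.1 x + p.2 y ≤ dist (x : X) y ^ 2 / 2} with hS
  have hSc : IsCompact S := by
    refine (hAc.prod hAc).inter_right ?_
    have : {p : (Y →ᵇ ℝ) × (Y →ᵇ ℝ) | ∀ x y : Y, p.1 x + p.2 y ≤ dist (x : X) y ^ 2 / 2} =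
        ⋂ x : Y, ⋂ y : Y, {p | p.1 x + p.2 y ≤ dist (x : X) y ^ 2 / 2} := by
      ext p
      simp
    rw [this]
    refine isClosed_iInter fun x => isClosed_iInter fun y => ?_
    refine isClosed_le ?_ continuous_const
    exact ((continuous_eval_const x).comp continuous_fst).add
      ((continuous_eval_const y).comp continuous_snd)
  have hJ : Continuous (fun p : (Y →ᵇ ℝ) × (Y →ᵇ ℝ) => ∫ x, p.1 x ∂ν₀ + ∫ y, p.2 y ∂ν₁) :=
    ((continuous_integral_bcf ν₀).comp continuous_fst).add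
      ((continuous_integral_bcf ν₁).comp continuous_snd)
  have hSne : S.Nonempty := by
    obtain ⟨f, g, h1, h2, h3, -⟩ := improve_pair hY hne ν₀ ν₁ D hD 0 0 (by
      intro x y
      simp only [ContinuousMap.zero_apply, add_zero]
      positivity)
    exact ⟨(f, g), ⟨h1, h2⟩, h3⟩
  obtain ⟨p, hp, hmax⟩ := hSc.exists_isMaxOn hSne hJ.continuousOn
  refine ⟨p.1.toContinuousMap, p.2.toContinuousMap, hp.2, ?_⟩
  intro φ' ψ' h
  obtain ⟨f, g, h1, h2, h3, h4⟩ := improve_pair hY hne ν₀ ν₁ D hD φ' ψ' h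
  have : (f, g) ∈ S := ⟨⟨h1, h2⟩, h3⟩
  exact h4.trans (hmax this)

end Attain

section Main

open Crest.GeometryTopology.SyntheticRicci

variable {X : Type*} [MetricSpace X] [MeasurableSpace X] [BorelSpace X]
  [SecondCountableTopology X] {Y : Set X}

lemma map_comap_val (hY : MeasurableSet Y) (μ : Measure X) (h : μ Yᶜ = 0) :
    (μ.comap (Subtype.val : Y → X)).map Subtype.val = μ := by
  rw [map_comap_subtype_coe hY]
  exact Measure.restrict_eq_self_of_ae_mem h

lemma isProb_comap_val (hY : MeasurableSet Y) (μ : Measure X) [IsProbabilityMeasure μ]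
    (h : μ Yᶜ = 0) : IsProbabilityMeasure (μ.comap (Subtype.val : Y → X)) := by
  constructor
  have : ((μ.comap (Subtype.val : Y → X)).map Subtype.val) univ = 1 := by
    rw [map_comap_val hY μ h]; exact measure_univ
  rwa [Measure.map_apply measurable_subtype_coe MeasurableSet.univ, preimage_univ] at this

lemma integral_comap_val (hY : MeasurableSet Y) (μ : Measure X) (h : μ Yᶜ = 0) {f : X → ℝ}
    (hf : Continuous f) :
    ∫ y : Y, f y ∂(μ.comap (Subtype.val : Y → X)) = ∫ x, f x ∂μ := by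
  conv_rhs => rw [← map_comap_val hY μ h]
  rw [integral_map (by fun_prop) (hf.aestronglyMeasurable)]

/-- a coupling of measures carried by `Y` is carried by `Y × Y`. -/
lemma coupling_ae_mem (_hY : MeasurableSet Y) {q : Measure (X × X)} {μ₀ μ₁ : Measure X}
    (hq : IsCouplingOf q μ₀ μ₁) (h0 : μ₀ Yᶜ = 0) (h1 : μ₁ Yᶜ = 0) :
    ∀ᵐ p ∂q, p.1 ∈ Y ∧ p.2 ∈ Y := by
  have h2 : ∀ᵐ p ∂q, p.1 ∈ Y := by
    have : ∀ᵐ x ∂(q.map Prod.fst), x ∈ Y := by rw [hq.1]; exact h0
    exact ae_of_ae_map measurable_fst.aemeasurable this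
  have h3 : ∀ᵐ p ∂q, p.2 ∈ Y := by
    have : ∀ᵐ x ∂(q.map Prod.snd), x ∈ Y := by rw [hq.2]; exact h1
    exact ae_of_ae_map measurable_snd.aemeasurable this
  filter_upwards [h2, h3] with p h2 h3 using ⟨h2, h3⟩

lemma coupling_isProb {q : Measure (X × X)} {μ₀ μ₁ : Measure X} [IsProbabilityMeasure μ₀]
    (hq : IsCouplingOf q μ₀ μ₁) : IsProbabilityMeasure q := by
  constructor
  have : (q.map Prod.fst) univ = 1 := by rw [hq.1]; exact measure_univ
  rwa [Measure.map_apply measurable_fst MeasurableSet.univ, preimage_univ] at this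

lemma integrable_of_carried (hY : IsCompact Y) {μ : Measure X} [IsFiniteMeasure μ]
    (h : μ Yᶜ = 0) {f : X → ℝ} (hf : Continuous f) : Integrable f μ := by
  obtain ⟨C, hC⟩ := hY.exists_bound_of_continuousOn hf.continuousOn
  refine Integrable.mono' (integrable_const C) hf.aestronglyMeasurable ?_
  have : ∀ᵐ x ∂μ, x ∈ Y := h
  filter_upwards [this] with x hx using hC x hx

lemma integrable_dist_sq (hY : IsCompact Y) {q : Measure (X × X)} [IsFiniteMeasure q]
    (h : ∀ᵐ p ∂q, p.1 ∈ Y ∧ p.2 ∈ Y) : Integrable (fun p : X × X => dist p.1 p.2 ^ 2) q := by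
  have hc : Continuous (fun p : X × X => dist p.1 p.2 ^ 2) := by fun_prop
  obtain ⟨C, hC⟩ := (hY.prod hY).exists_bound_of_continuousOn hc.continuousOn
  refine Integrable.mono' (integrable_const C) hc.aestronglyMeasurable ?_
  filter_upwards [h] with p hp using hC p ⟨hp.1, hp.2⟩

lemma quadCost_eq (hY : IsCompact Y) {q : Measure (X × X)} [IsFiniteMeasure q]
    (h : ∀ᵐ p ∂q, p.1 ∈ Y ∧ p.2 ∈ Y) :
    quadCost q = ENNReal.ofReal (∫ p, dist p.1 p.2 ^ 2 ∂q) := by
  rw [ofReal_integral_eq_lintegral_ofReal (integrable_dist_sq hY h)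
    (Eventually.of_forall fun p => by positivity)]
  unfold quadCost
  refine lintegral_congr fun p => ?_
  rw [edist_dist, ENNReal.ofReal_pow dist_nonneg]

/-- **Kantorovich potentials** (block O6). For two probability measures carried by a compact set
`Y` there are continuous functions `φ, ψ` on the whole space, with the modulus of continuity of
c-transforms, with `φ x + ψ y ≤ d(x,y)²/2` on `X × Y` and on `Y × X`, equality a.e. for every
optimal coupling; an optimal coupling exists. -/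
theorem kantorovich_potentials (hY : IsCompact Y) (μ₀ μ₁ : Measure X)
    [IsProbabilityMeasure μ₀] [IsProbabilityMeasure μ₁] (h0 : μ₀ Yᶜ = 0) (h1 : μ₁ Yᶜ = 0) :
    ∃ φ ψ : X → ℝ, Continuous φ ∧ Continuous ψ ∧
      (∀ x x', ∃ y ∈ Y, |φ x - φ x'| ≤ dist x x' * ((dist x y + dist x' y) / 2)) ∧
      (∀ x x', ∃ y ∈ Y, |ψ x - ψ x'| ≤ dist x x' * ((dist x y + dist x' y) / 2)) ∧
      (∀ x, ∀ y ∈ Y, φ x + ψ y ≤ dist x y ^ 2 / 2) ∧
      (∀ x ∈ Y, ∀ y, φ x + ψ y ≤ dist x y ^ 2 / 2) ∧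
      (∀ q : Measure (X × X), IsOptCouplingOf q μ₀ μ₁ →
        (∀ᵐ p ∂q, φ p.1 + ψ p.2 = dist p.1 p.2 ^ 2 / 2) ∧
        quadCost q = ENNReal.ofReal (2 * (∫ x, φ x ∂μ₀ + ∫ y, ψ y ∂μ₁))) ∧
      ∃ q : Measure (X × X), IsOptCouplingOf q μ₀ μ₁ := by
  have hYm : MeasurableSet Y := hY.measurableSet
  have hne : Y.Nonempty := by
    by_contra hcon
    rw [not_nonempty_iff_eq_empty] at hcon
    rw [hcon, compl_empty, measure_univ] at h0
    exact one_ne_zero h0
  have : CompactSpace Y := isCompact_iff_compactSpace.mp hY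
  set ν₀ : Measure Y := μ₀.comap (Subtype.val : Y → X) with hν₀
  set ν₁ : Measure Y := μ₁.comap (Subtype.val : Y → X) with hν₁
  have : IsProbabilityMeasure ν₀ := isProb_comap_val hYm μ₀ h0
  have : IsProbabilityMeasure ν₁ := isProb_comap_val hYm μ₁ h1
  let c : C(Y × Y, ℝ) := ⟨fun p => dist (p.1 : X) p.2 ^ 2 / 2, by fun_prop⟩
  obtain ⟨q₀, hq₀, hq1, hq2, hq3⟩ := duality_eps ν₀ ν₁ c
  obtain ⟨φ₀, ψ₀, hadm, hmax⟩ := exists_max_pair hY hne ν₀ ν₁
  have hle : ∫ p, c p ∂q₀ ≤ ∫ x, φ₀ x ∂ν₀ + ∫ y, ψ₀ y ∂ν₁ := by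
    refine le_of_forall_pos_le_add ?_
    intro ε hε
    obtain ⟨φ', ψ', h2, h3⟩ := hq3 ε hε
    have := hmax φ' ψ' (fun x y => h2 x y)
    linarith
  -- the potentials
  have hcψ₀ : Continuous ψ₀ := ψ₀.continuous
  set Φ : X → ℝ := ctr Y ψ₀ with hΦ
  have hΦc : Continuous Φ := continuous_ctr hY hne hcψ₀
  set Φr : Y → ℝ := fun y => Φ y with hΦr
  have hΦrc : Continuous Φr := hΦc.comp continuous_subtype_val
  set ψ : X → ℝ := ctr Y Φr with hψ
  have hψc : Continuous ψ := continuous_ctr hY hne hΦrc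
  set ψr : Y → ℝ := fun y => ψ y with hψr
  have hψrc : Continuous ψr := hψc.comp continuous_subtype_val
  set φ : X → ℝ := ctr Y ψr with hφ
  have hφc : Continuous φ := continuous_ctr hY hne hψrc
  have hΦge : ∀ x : Y, φ₀ x ≤ Φ x := by
    intro x
    obtain ⟨z, hz1, hz2⟩ := exists_ctr hY hne hcψ₀ (x : X)
    rw [hΦ, hz1]
    have := hadm x z
    linarith
  have hΦle : ∀ (x : X) (y : Y), Φ x + ψ₀ y ≤ dist x y ^ 2 / 2 := by
    intro x y
    have := ctr_le hY hcψ₀ x y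
    rw [hΦ]
    linarith
  have hψle : ∀ (x : Y) (y : X), Φ x + ψ y ≤ dist (x : X) y ^ 2 / 2 := by
    intro x y
    have := ctr_le hY hΦrc y x
    rw [dist_comm] at this
    rw [hψ]
    have h5 : Φr x = Φ x := rfl
    linarith
  have hψge : ∀ y : Y, ψ₀ y ≤ ψ y := by
    intro y
    obtain ⟨z, hz1, hz2⟩ := exists_ctr hY hne hΦrc (y : X)
    rw [hψ, hz1]
    have := hΦle z y
    rw [dist_comm] at this
    have h5 : Φr z = Φ z := rfl
    linarith
  have hφle : ∀ (x : X) (y : Y), φ x + ψ y ≤ dist x y ^ 2 / 2 := by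
    intro x y
    have := ctr_le hY hψrc x y
    rw [hφ]
    have h5 : ψr y = ψ y := rfl
    linarith
  have hφΦ : ∀ x : Y, φ x = Φ x := by
    intro x
    refine le_antisymm ?_ ?_
    · obtain ⟨z, hz1, hz2⟩ := exists_ctr hY hne hcψ₀ (x : X)
      have h5 : Φ x = dist (x : X) z ^ 2 / 2 - ψ₀ z := hz1
      rw [h5]
      have h6 := hφle x z
      have h7 := hψge z
      linarith
    · obtain ⟨z, hz1, hz2⟩ := exists_ctr hY hne hψrc (x : X)
      have h5 : φ x = dist (x : X) z ^ 2 / 2 - ψr z := hz1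
      rw [h5]
      have h6 := hψle x z
      have h7 : ψr z = ψ z := rfl
      linarith
  have hφle2 : ∀ x ∈ Y, ∀ y, φ x + ψ y ≤ dist x y ^ 2 / 2 := by
    intro x hx y
    have := hψle ⟨x, hx⟩ y
    have h5 := hφΦ ⟨x, hx⟩
    simp only at h5 this
    rw [h5]
    exact this
  -- the value
  have hval : ∫ p, c p ∂q₀ ≤ ∫ x, φ x ∂μ₀ + ∫ y, ψ y ∂μ₁ := by
    refine hle.trans ?_
    rw [← integral_comap_val hYm μ₀ h0 hφc, ← integral_comap_val hYm μ₁ h1 hψc]
    refine add_le_add ?_ ?_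
    · refine integral_mono (integrable_cont ν₀ φ₀)
        (integrable_cont ν₀ ⟨fun y : Y => φ y, hφc.comp continuous_subtype_val⟩) ?_
      intro x
      have h5 := hφΦ x
      have h6 := hΦge x
      simp only [ContinuousMap.coe_mk]
      linarith
    · refine integral_mono (integrable_cont ν₁ ψ₀)
        (integrable_cont ν₁ ⟨fun y : Y => ψ y, hψc.comp continuous_subtype_val⟩) ?_
      intro x
      exact hψge x
  -- weak duality
  have hweak : ∀ q : Measure (X × X), IsCouplingOf q μ₀ μ₁ →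
      2 * (∫ x, φ x ∂μ₀ + ∫ y, ψ y ∂μ₁) ≤ ∫ p, dist p.1 p.2 ^ 2 ∂q := by
    intro q hq
    have := coupling_isProb hq
    have hm := coupling_ae_mem hYm hq h0 h1
    have h2 : ∫ x, φ x ∂μ₀ = ∫ p, φ p.1 ∂q := by
      rw [← hq.1, integral_map measurable_fst.aemeasurable hφc.aestronglyMeasurable]
    have h3 : ∫ x, ψ x ∂μ₁ = ∫ p, ψ p.2 ∂q := by
      rw [← hq.2, integral_map measurable_snd.aemeasurable hψc.aestronglyMeasurable]
    have hi1 : Integrable (fun p : X × X => φ p.1) q := by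
      have h5 : Integrable φ (q.map Prod.fst) := by
        rw [hq.1]; exact integrable_of_carried hY h0 hφc
      exact h5.comp_measurable measurable_fst
    have hi2 : Integrable (fun p : X × X => ψ p.2) q := by
      have h5 : Integrable ψ (q.map Prod.snd) := by
        rw [hq.2]; exact integrable_of_carried hY h1 hψc
      exact h5.comp_measurable measurable_snd
    rw [h2, h3, ← integral_add hi1 hi2, ← integral_const_mul]
    refine integral_mono_ae ((hi1.add hi2).const_mul 2) (integrable_dist_sq hY hm) ?_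
    filter_upwards [hm] with p hp
    have := hφle2 p.1 hp.1 p.2
    linarith
  -- the optimal coupling
  set q₁ : Measure (X × X) := q₀.map (fun p : Y × Y => ((p.1 : X), (p.2 : X))) with hq₁
  have hmeas : Measurable (fun p : Y × Y => ((p.1 : X), (p.2 : X))) := by fun_prop
  have hq₁c : IsCouplingOf q₁ μ₀ μ₁ := by
    constructor
    · rw [hq₁, Measure.map_map measurable_fst hmeas]
      have : (Prod.fst ∘ fun p : Y × Y => ((p.1 : X), (p.2 : X))) = Subtype.val ∘ Prod.fst := rfl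
      rw [this, ← Measure.map_map measurable_subtype_coe measurable_fst, hq1,
        map_comap_val hYm μ₀ h0]
    · rw [hq₁, Measure.map_map measurable_snd hmeas]
      have : (Prod.snd ∘ fun p : Y × Y => ((p.1 : X), (p.2 : X))) = Subtype.val ∘ Prod.snd := rfl
      rw [this, ← Measure.map_map measurable_subtype_coe measurable_snd, hq2,
        map_comap_val hYm μ₁ h1]
  have := coupling_isProb hq₁c
  have hm₁ := coupling_ae_mem hYm hq₁c h0 h1
  have hq₁v : ∫ p, dist p.1 p.2 ^ 2 ∂q₁ = 2 * ∫ p, c p ∂q₀ := by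
    have hc : Continuous (fun p : X × X => dist p.1 p.2 ^ 2) := by fun_prop
    rw [hq₁, integral_map hmeas.aemeasurable hc.aestronglyMeasurable, ← integral_const_mul]
    refine integral_congr_ae (Eventually.of_forall fun p => ?_)
    simp only [c, ContinuousMap.coe_mk]
    ring
  have hopt : IsOptCouplingOf q₁ μ₀ μ₁ := by
    refine ⟨hq₁c, ?_⟩
    intro q' hq'
    have := coupling_isProb hq'
    rw [quadCost_eq hY hm₁, quadCost_eq hY (coupling_ae_mem hYm hq' h0 h1)]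
    refine ENNReal.ofReal_le_ofReal ?_
    have := hweak q' hq'
    linarith
  have hoptval : ∀ q : Measure (X × X), IsOptCouplingOf q μ₀ μ₁ →
      ∫ p, dist p.1 p.2 ^ 2 ∂q = 2 * (∫ x, φ x ∂μ₀ + ∫ y, ψ y ∂μ₁) := by
    intro q hq
    refine le_antisymm ?_ (hweak q hq.1)
    have := coupling_isProb hq.1
    have h2 := hq.2 q₁ hq₁c
    rw [quadCost_eq hY hm₁, quadCost_eq hY (coupling_ae_mem hYm hq.1 h0 h1)] at h2
    have h3 := (ENNReal.ofReal_le_ofReal_iff (by positivity)).1 h2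
    linarith
  refine ⟨φ, ψ, hφc, hψc, abs_ctr_sub_le hY hne hψrc, abs_ctr_sub_le hY hne hΦrc,
    fun x y hy => hφle x ⟨y, hy⟩, hφle2, ?_, q₁, hopt⟩
  intro q hq
  have := coupling_isProb hq.1
  have hm := coupling_ae_mem hYm hq.1 h0 h1
  refine ⟨?_, ?_⟩
  · have h2 : ∫ x, φ x ∂μ₀ = ∫ p, φ p.1 ∂q := by
      rw [← hq.1.1, integral_map measurable_fst.aemeasurable hφc.aestronglyMeasurable]
    have h3 : ∫ x, ψ x ∂μ₁ = ∫ p, ψ p.2 ∂q := by
      rw [← hq.1.2, integral_map measurable_snd.aemeasurable hψc.aestronglyMeasurable]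
    have hi1 : Integrable (fun p : X × X => φ p.1) q := by
      have h5 : Integrable φ (q.map Prod.fst) := by
        rw [hq.1.1]; exact integrable_of_carried hY h0 hφc
      exact h5.comp_measurable measurable_fst
    have hi2 : Integrable (fun p : X × X => ψ p.2) q := by
      have h5 : Integrable ψ (q.map Prod.snd) := by
        rw [hq.1.2]; exact integrable_of_carried hY h1 hψc
      exact h5.comp_measurable measurable_snd
    have hi3 := integrable_dist_sq hY hm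
    have hnn : 0 ≤ᵐ[q] fun p : X × X => dist p.1 p.2 ^ 2 - 2 * (φ p.1 + ψ p.2) := by
      filter_upwards [hm] with p hp
      have := hφle2 p.1 hp.1 p.2
      simp only [Pi.zero_apply]
      linarith
    have hint : Integrable (fun p : X × X => dist p.1 p.2 ^ 2 - 2 * (φ p.1 + ψ p.2)) q :=
      hi3.sub ((hi1.add hi2).const_mul 2)
    have hzero : ∫ p, (dist p.1 p.2 ^ 2 - 2 * (φ p.1 + ψ p.2)) ∂q = 0 := by
      have e1 : ∫ p, (dist p.1 p.2 ^ 2 - 2 * (φ p.1 + ψ p.2)) ∂q =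
          ∫ p, dist p.1 p.2 ^ 2 ∂q - ∫ p, 2 * (φ p.1 + ψ p.2) ∂q :=
        integral_sub hi3 ((hi1.add hi2).const_mul 2)
      have e2 : ∫ p, 2 * (φ p.1 + ψ p.2) ∂q = 2 * (∫ p, φ p.1 ∂q + ∫ p, ψ p.2 ∂q) := by
        rw [integral_const_mul, integral_add hi1 hi2]
      rw [e1, e2, hoptval q hq, h2, h3, sub_self]
    have := (integral_eq_zero_iff_of_nonneg_ae hnn hint).1 hzero
    filter_upwards [this] with p hp
    simp only [Pi.zero_apply] at hp
    linarith
  · rw [quadCost_eq hY hm, hoptval q hq]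

end Main

end Crest.Agent.R242
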