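import Crest.Agent.R242.Fin1
import Crest.Agent.R242.BL
import Crest.Agent.R242.Res
import Crest.Agent.R242.ResW
import Crest.Agent.R242.Sob2Lip
import Crest.Agent.R242.SobLip
import Crest.Agent.R242.GamA

/-!
Row 242, part F: instantiation of `Fin.Lam` by `Λ θ x g = Jc m δ (P (ε θ) g) x`, where `P` is the
semigroup of `Δ + ⟨∇V, ∇·⟩`, `V = F / ε`.
(statements frozen by helper193; proofs by helper151)
-/

set_option autoImplicit false
set_option linter.unusedSectionVars false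
set_option linter.unusedVariables false

open MeasureTheory Filter Set
open scoped ENNReal NNReal Topology
open Crest.GeometryTopology.SyntheticRicci

noncomputable section

namespace Crest.Agent.R242
namespace Fin

variable {X : Type*} [MetricSpace X] [ProperSpace X] [MeasurableSpace X] [BorelSpace X]
  {m : Measure X} [IsLocallyFiniteMeasure m] [m.IsOpenPosMeasure] [IsUnifLocDoublingMeasure m]
  {k N h₀ δ ε : ℝ} {F Gf : X → ℝ}

/-- the functional -/
def lam (m : Measure X) (δ ε : ℝ) (P : ℝ → (X → ℝ) → (X → ℝ)) (θ : ℝ) (x : X) (g : X → ℝ) : ℝ :=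
  Jc m δ (P (ε * θ) g) x

/-! ### auxiliary facts -/

theorem ae_neBot_of_point (x : X) : (ae m).NeBot := by
  refine ae_neBot.2 fun h => ?_
  have : m univ ≠ 0 := isOpen_univ.measure_ne_zero m ⟨x, mem_univ x⟩
  exact this (by rw [h]; rfl)

theorem nonneg_of_ae_abs_le (x : X) {g : X → ℝ} {C : ℝ} (h : ∀ᵐ y ∂m, |g y| ≤ C) : 0 ≤ C := by
  have := ae_neBot_of_point (m := m) x
  obtain ⟨y, hy⟩ := h.exists
  exact (abs_nonneg _).trans hy

/-- the semigroup preserves bounds -/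
theorem sg_abs_le {V : X → ℝ} {P : ℝ → (X → ℝ) → (X → ℝ)} (hP : SemigroupSpec m V P) {t : ℝ}
    (ht : 0 ≤ t) {g : X → ℝ} (hg : MemLp g 2 m) {C : ℝ} (hC : ∀ᵐ x ∂m, |g x| ≤ C) :
    ∀ᵐ x ∂m, |P t g x| ≤ C := by
  by_cases hC0 : 0 ≤ C
  · have h1 := hP.le_const t ht g hg C hC0 (hC.mono fun x hx => (abs_le.1 hx).2)
    have h2 := hP.le_const t ht (fun x => -1 * g x) (hg.const_mul _) C hC0
      (hC.mono fun x hx => by
        have := (abs_le.1 hx).1
        linarith)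
    have h3 := hP.smul t ht (-1) g hg
    filter_upwards [h1, h2, h3] with x a1 a2 a3
    rw [a3] at a2
    exact abs_le.2 ⟨by linarith, a1⟩
  · filter_upwards [hC] with x hx
    exact absurd ((abs_nonneg _).trans hx) hC0

theorem int_sq_le_wm {V : X → ℝ} (hV : Measurable V) {B : ℝ} (hB : ∀ x, |V x| ≤ B) {f : X → ℝ}
    (hf : MemLp f 2 m) : ∫ x, f x ^ 2 ∂m ≤ Real.exp B * ∫ x, f x ^ 2 ∂(wm m V) := by
  have hi : Integrable (fun x => f x ^ 2) m := hf.integrable_sq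
  rw [integral_wm ⟨hV, B, hB⟩, ← integral_const_mul]
  refine integral_mono hi ((integrable_exp_mul ⟨hV, B, hB⟩ hi).const_mul _) fun x => ?_
  dsimp only
  rw [← mul_assoc, ← Real.exp_add]
  have h1 : 1 ≤ Real.exp (B + V x) := Real.one_le_exp (by have := (abs_le.1 (hB x)).1; linarith)
  nlinarith [sq_nonneg (f x)]

theorem int_wm_le_sq {V : X → ℝ} (hV : Measurable V) {B : ℝ} (hB : ∀ x, |V x| ≤ B) {f : X → ℝ}
    (hf : MemLp f 2 m) : ∫ x, f x ^ 2 ∂(wm m V) ≤ Real.exp B * ∫ x, f x ^ 2 ∂m := by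
  have hi : Integrable (fun x => f x ^ 2) m := hf.integrable_sq
  rw [integral_wm ⟨hV, B, hB⟩, ← integral_const_mul]
  refine integral_mono (integrable_exp_mul ⟨hV, B, hB⟩ hi) (hi.const_mul _) fun x => ?_
  dsimp only
  have h1 : Real.exp (V x) ≤ Real.exp B := Real.exp_le_exp.2 (abs_le.1 (hB x)).2
  have := sq_nonneg (f x)
  gcongr

theorem BddLip.meas {V : X → ℝ} (hV : BddLip V) : Measurable V := by
  obtain ⟨-, L, hL⟩ := hV
  exact hL.continuous.measurable

/-- the operator `Jc ∘ P` is Lipschitz in space, uniformly -/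
theorem lam_dist_le (H : Hyp m k N) (GJ : GoodJ m k h₀) (hgeo : HasBddGeoPlans m)
    (hδ : 0 < δ) (hδ' : δ ≤ h₀) {f : X → ℝ} (hf : MemLp f 2 m) {M : ℝ}
    (hM : ∀ᵐ x ∂m, |f x| ≤ M) (x y : X) :
    |Jc m δ f y - Jc m δ f x| ≤ M / Real.sqrt δ * dist y x := by
  have hM0 : 0 ≤ M := nonneg_of_ae_abs_le x hM
  have h := (Jc_spec H (calc_of_hyp H) GJ hgeo hδ hδ' hf hM).2.dist_le_mul y x
  rw [Real.dist_eq, Real.coe_toNNReal _ (by positivity)] at h
  exact h

/-- joint continuity (field `cont`) -/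
theorem lam_cont (H : Hyp m k N) (GJ : GoodJ m k h₀) (hgeo : HasBddGeoPlans m)
    (hδ : 0 < δ) (hδ' : δ ≤ h₀) (hε : 0 < ε) {V : X → ℝ} (hV : BddLip V)
    {P : ℝ → (X → ℝ) → (X → ℝ)} (hP : SemigroupSpec m V P) {g : X → ℝ} (hg : B2 m g) :
    ContinuousOn (fun p : ℝ × X => lam m δ ε P p.1 p.2 g) (Ici 0 ×ˢ univ) := by
  obtain ⟨hg2, M, hM⟩ := hg
  have hpos : ∀ θ : ℝ, 0 ≤ ε * max θ 0 := fun θ => mul_nonneg hε.le (le_max_right _ _)
  have hmem : ∀ θ : ℝ, MemLp (P (ε * max θ 0) g) 2 m := fun θ => hP.memLp _ (hpos θ) g hg2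
  have hbd : ∀ θ : ℝ, ∀ᵐ x ∂m, |P (ε * max θ 0) g x| ≤ M := fun θ => sg_abs_le hP (hpos θ) hg2 hM
  -- continuity in time
  have htime : ∀ x : X, Continuous fun θ : ℝ => Jc m δ (P (ε * max θ 0) g) x := by
    intro x
    rw [continuous_iff_continuousAt]
    intro θ
    refine Jc_tendsto H (calc_of_hyp H) GJ hgeo hδ hδ' (M := M) hmem hbd (hmem θ) (hbd θ) ?_ x
    have h1 := hP.cont_l2 g hg2 (ε * max θ 0) (hpos θ)
    refine h1.comp ?_
    rw [tendsto_nhdsWithin_iff]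
    refine ⟨?_, Eventually.of_forall fun θ' => hpos θ'⟩
    exact Continuous.tendsto (by fun_prop) θ
  have hjoint : Continuous fun p : ℝ × X => Jc m δ (P (ε * max p.1 0) g) p.2 := by
    rw [continuous_iff_continuousAt]
    rintro ⟨θ, x⟩
    rw [ContinuousAt, tendsto_iff_dist_tendsto_zero]
    have h1 : Tendsto (fun p : ℝ × X => M / Real.sqrt δ * dist p.2 x +
        |Jc m δ (P (ε * max p.1 0) g) x - Jc m δ (P (ε * max θ 0) g) x|) (𝓝 (θ, x)) (𝓝 0) := by
      have h2 : Tendsto (fun p : ℝ × X => M / Real.sqrt δ * dist p.2 x) (𝓝 (θ, x)) (𝓝 0) := by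
        have : Continuous fun p : ℝ × X => M / Real.sqrt δ * dist p.2 x := by fun_prop
        have h3 := this.tendsto (θ, x)
        simpa using h3
      have h4 : Tendsto (fun p : ℝ × X => |Jc m δ (P (ε * max p.1 0) g) x -
          Jc m δ (P (ε * max θ 0) g) x|) (𝓝 (θ, x)) (𝓝 0) := by
        have : Continuous fun p : ℝ × X => |Jc m δ (P (ε * max p.1 0) g) x -
          Jc m δ (P (ε * max θ 0) g) x| := by
          have := (htime x).comp (continuous_fst : Continuous (Prod.fst : ℝ × X → ℝ))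
          exact (this.sub continuous_const).abs
        have h5 := this.tendsto (θ, x)
        simpa using h5
      simpa using h2.add h4
    refine squeeze_zero (fun _ => dist_nonneg) (fun p => ?_) h1
    rw [Real.dist_eq]
    have h6 := lam_dist_le H GJ hgeo hδ hδ' (hmem p.1) (hbd p.1) x p.2
    calc |Jc m δ (P (ε * max p.1 0) g) p.2 - Jc m δ (P (ε * max θ 0) g) x|
        = |(Jc m δ (P (ε * max p.1 0) g) p.2 - Jc m δ (P (ε * max p.1 0) g) x) +
          (Jc m δ (P (ε * max p.1 0) g) x - Jc m δ (P (ε * max θ 0) g) x)| := by ring_nf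
      _ ≤ _ := (abs_add_le _ _).trans (add_le_add h6 le_rfl)
  refine hjoint.continuousOn.congr fun p hp => ?_
  have hp0 : 0 ≤ p.1 := hp.1
  simp only [lam, max_eq_left hp0]

/-- small functions (field `small`) -/
theorem lam_small (H : Hyp m k N) (GJ : GoodJ m k h₀) (hgeo : HasBddGeoPlans m)
    (hδ : 0 < δ) (hδ' : δ ≤ h₀) (hε : 0 < ε) {V : X → ℝ} (hV : BddLip V)
    {P : ℝ → (X → ℝ) → (X → ℝ)} (hP : SemigroupSpec m V P)
    (θ : ℕ → ℝ) (x : ℕ → X) (g : ℕ → X → ℝ) (T C : ℝ) (x₀ : X)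
    (hθ : ∀ n, θ n ∈ Icc 0 T) (hx : Tendsto x atTop (𝓝 x₀)) (hg : ∀ n, MemLp (g n) 2 m)
    (hgC : ∀ n, ∀ᵐ y ∂m, |g n y| ≤ C)
    (hlim : Tendsto (fun n => ∫ y, (g n y) ^ 2 ∂m) atTop (𝓝 0)) :
    Tendsto (fun n => lam m δ ε P (θ n) (x n) (g n)) atTop (𝓝 0) := by
  have hC0 : 0 ≤ C := nonneg_of_ae_abs_le x₀ (hgC 0)
  have hVm := BddLip.meas hV
  obtain ⟨⟨B, hB⟩, -⟩ := hV
  have ht : ∀ n, 0 ≤ ε * θ n := fun n => mul_nonneg hε.le (hθ n).1
  have hmem : ∀ n, MemLp (P (ε * θ n) (g n)) 2 m := fun n => hP.memLp _ (ht n) _ (hg n)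
  have hbd : ∀ n, ∀ᵐ y ∂m, |P (ε * θ n) (g n) y| ≤ C := fun n => sg_abs_le hP (ht n) (hg n) (hgC n)
  have hsq : Tendsto (fun n => ∫ y, (P (ε * θ n) (g n) y) ^ 2 ∂m) atTop (𝓝 0) := by
    have h1 : Tendsto (fun n => Real.exp B * (Real.exp B * ∫ y, (g n y) ^ 2 ∂m)) atTop (𝓝 0) := by
      have := (hlim.const_mul (Real.exp B)).const_mul (Real.exp B)
      simpa using this
    refine squeeze_zero (fun n => integral_nonneg fun y => sq_nonneg _) (fun n => ?_) h1
    calc ∫ y, (P (ε * θ n) (g n) y) ^ 2 ∂m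
        ≤ Real.exp B * ∫ y, (P (ε * θ n) (g n) y) ^ 2 ∂(wm m V) := int_sq_le_wm hVm hB (hmem n)
      _ ≤ Real.exp B * ∫ y, (g n y) ^ 2 ∂(wm m V) := by
          have := hP.l2 _ (ht n) _ (hg n)
          gcongr
      _ ≤ Real.exp B * (Real.exp B * ∫ y, (g n y) ^ 2 ∂m) := by
          have := int_wm_le_sq hVm hB (hg n)
          gcongr
  have h0 : Tendsto (fun n => Jc m δ (P (ε * θ n) (g n)) x₀) atTop
      (𝓝 (Jc m δ (fun _ => 0) x₀)) := by
    refine Jc_tendsto H (calc_of_hyp H) GJ hgeo hδ hδ' (M := C) hmem hbd MemLp.zero'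
      (Eventually.of_forall fun y => by simpa using hC0) ?_ x₀
    simpa using hsq
  have hz : Jc m δ (fun _ : X => (0 : ℝ)) x₀ = 0 := by
    have := Jc_abs_le H (calc_of_hyp H) GJ hgeo hδ hδ' (f := fun _ : X => (0 : ℝ)) MemLp.zero'
      (M := 0) (Eventually.of_forall fun y => by simp) x₀
    exact abs_nonpos_iff.1 this
  rw [hz] at h0
  have h1 : Tendsto (fun n => C / Real.sqrt δ * dist (x n) x₀ +
      |Jc m δ (P (ε * θ n) (g n)) x₀|) atTop (𝓝 0) := by
    have h2 : Tendsto (fun n => C / Real.sqrt δ * dist (x n) x₀) atTop (𝓝 0) := by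
      have := (tendsto_iff_dist_tendsto_zero.1 hx).const_mul (C / Real.sqrt δ)
      simpa using this
    have h3 := h0.abs
    rw [abs_zero] at h3
    simpa using h2.add h3
  refine squeeze_zero_norm (fun n => ?_) h1
  rw [Real.norm_eq_abs, lam]
  have h6 := lam_dist_le H GJ hgeo hδ hδ' (hmem n) (hbd n) x₀ (x n)
  calc |Jc m δ (P (ε * θ n) (g n)) (x n)|
      = |(Jc m δ (P (ε * θ n) (g n)) (x n) - Jc m δ (P (ε * θ n) (g n)) x₀) +
        Jc m δ (P (ε * θ n) (g n)) x₀| := by ring_nf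
    _ ≤ _ := (abs_add_le _ _).trans (add_le_add h6 le_rfl)

/-! ### Bakry-Emery -/

theorem c_pos (H : Hyp m k N) (GJ : GoodJ m k h₀) (hδ' : δ ≤ h₀) :
    0 < 1 - 2 * δ * k := by
  have h1 := GJ.small
  have h2 := H.kpos
  nlinarith

theorem bddLip_zero : BddLip (fun _ : X => (0 : ℝ)) :=
  ⟨⟨0, fun _ => by simp⟩, 0, LipschitzWith.const 0⟩

theorem J_symm (H : Hyp m k N) (hδ : 0 < δ) {f g : X → ℝ} (hf : MemLp f 2 m)
    (hg : MemLp g 2 m) : ∫ x, J m δ f x * g x ∂m = ∫ x, f x * J m δ g x ∂m := by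
  have := Jr_symm H bddLip_zero hδ hf hg
  rwa [wm_zero] at this

/-- Bakry-Emery, pointwise a.e., for `f ∈ W^{1,2}` with `wg f ^ 2 ∈ L²` -/
theorem be_ae (H : Hyp m k N) (GJ : GoodJ m k h₀) (hδ : 0 < δ) (hδ' : δ ≤ h₀) {f : X → ℝ}
    (hf : IsSobolev m f) (hf2 : MemLp (fun x => minWeakGrad m f x ^ 2) 2 m) :
    ∀ᵐ x ∂m, minWeakGrad m (J m δ f) x ^ 2 ≤
      (1 - 2 * δ * k)⁻¹ * J m δ (fun x => minWeakGrad m f x ^ 2) x := by
  have hJf : IsSobolev m (J m δ f) := Jr_sob H bddLip_zero hδ hf.1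
  have hi1 : Integrable (fun x => minWeakGrad m (J m δ f) x ^ 2) m := integrable_wg_sq H hJf
  have hi2 : Integrable (fun x => minWeakGrad m f x ^ 2) m := integrable_wg_sq H hf
  have hi3 : Integrable (J m δ (fun x => minWeakGrad m f x ^ 2)) m :=
    (Jr_l1 H bddLip_zero hδ hf2 hi2).1
  refine ae_le_of_forall_setIntegral_le hi1 (hi3.const_mul _) fun s hs hms => ?_
  have hq2 : MemLp (s.indicator fun _ : X => (1 : ℝ)) 2 m :=
    memLp_indicator_const 2 hs 1 (Or.inr hms.ne)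
  have h := be_l2 H (calc_of_hyp H) GJ hδ hδ' hf (q := s.indicator fun _ : X => (1 : ℝ))
    (Eventually.of_forall fun x => indicator_nonneg (fun _ _ => zero_le_one) x) hq2
    ⟨1, Eventually.of_forall fun x => by
      by_cases hx : x ∈ s
      · simp [indicator_of_mem hx]
      · simp [indicator_of_notMem hx]⟩
  rw [J_symm H hδ hq2 hf2] at h
  have e : ∀ F : X → ℝ, (fun x => s.indicator (fun _ : X => (1 : ℝ)) x * F x) =
      s.indicator F := by
    intro F
    funext x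
    by_cases hx : x ∈ s
    · simp [indicator_of_mem hx]
    · simp [indicator_of_notMem hx]
  rw [e, e, integral_indicator hs, integral_indicator hs] at h
  rw [integral_const_mul]
  exact h

theorem wg_sq_memLp (H : Hyp m k N) {f : X → ℝ} (hf : IsSobolev m f) {L : ℝ}
    (hL : ∀ᵐ x ∂m, minWeakGrad m f x ≤ L) : MemLp (fun x => minWeakGrad m f x ^ 2) 2 m := by
  refine MemLp.of_le_mul (c := |L|) hf.2.2 ((aesm_wg H hf.2.1).pow 2) ?_
  filter_upwards [wg_nonneg H hf.2.1, hL] with x h1 h2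
  rw [Real.norm_of_nonneg (sq_nonneg _), Real.norm_of_nonneg h1, pow_two]
  have : L ≤ |L| := le_abs_self L
  nlinarith

/-- two steps of Bakry-Emery -/
theorem be_twice (H : Hyp m k N) (GJ : GoodJ m k h₀) (hgeo : HasBddGeoPlans m)
    (hδ : 0 < δ) (hδ' : δ ≤ h₀) {f : X → ℝ} (hf : IsSobolev m f) {L : ℝ}
    (hL : ∀ᵐ x ∂m, minWeakGrad m f x ≤ L) :
    ∀ᵐ x ∂m, minWeakGrad m (J m δ (J m δ f)) x ^ 2 ≤
      (1 - 2 * δ * k)⁻¹ ^ 2 * Jc m δ (fun x => minWeakGrad m f x ^ 2) x := by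
  have hc := c_pos H GJ hδ'
  have hc' : 0 < (1 - 2 * δ * k)⁻¹ := inv_pos.2 hc
  have hJf : IsSobolev m (J m δ f) := Jr_sob H bddLip_zero hδ hf.1
  have hw2 := wg_sq_memLp H hf hL
  have hwb : ∀ᵐ x ∂m, minWeakGrad m f x ^ 2 ≤ L ^ 2 := by
    filter_upwards [wg_nonneg H hf.2.1, hL] with x h1 h2
    exact pow_le_pow_left₀ h1 h2 2
  have b1 := be_ae H GJ hδ hδ' hf hw2
  have hJw : ∀ᵐ x ∂m, J m δ (fun x => minWeakGrad m f x ^ 2) x ≤ L ^ 2 :=
    Jr_le_const H bddLip_zero hδ hw2 (sq_nonneg L) hwb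
  have hJw2 : MemLp (J m δ (fun x => minWeakGrad m f x ^ 2)) 2 m :=
    Jr_memLp H bddLip_zero hδ hw2
  -- gradient bound of `J f`
  have hL1 : ∀ᵐ x ∂m, minWeakGrad m (J m δ f) x ≤ Real.sqrt ((1 - 2 * δ * k)⁻¹ * L ^ 2) := by
    filter_upwards [b1, hJw] with x h1 h2
    refine Real.le_sqrt_of_sq_le (h1.trans ?_)
    gcongr
  have hw2' := wg_sq_memLp H hJf hL1
  have b2 := be_ae H GJ hδ hδ' hJf hw2'
  -- monotonicity of `J`
  have hmono : ∀ᵐ x ∂m, J m δ (fun x => minWeakGrad m (J m δ f) x ^ 2) x ≤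
      J m δ (fun x => (1 - 2 * δ * k)⁻¹ * J m δ (fun x => minWeakGrad m f x ^ 2) x) x :=
    Jr_mono H bddLip_zero hδ hw2' (hJw2.const_mul _) b1
  have hsm := Jr_smul H bddLip_zero hδ (1 - 2 * δ * k)⁻¹ hJw2
  have hspec := (Jc_spec H (calc_of_hyp H) GJ hgeo hδ hδ' hw2 (M := L ^ 2) (by
    filter_upwards [hwb] with x hx
    rw [abs_of_nonneg (sq_nonneg _)]
    exact hx)).1
  filter_upwards [b2, hmono, hsm, hspec] with x h1 h2 h3 h4
  rw [h4]
  have h5 : J m δ (fun x => (1 - 2 * δ * k)⁻¹ * J m δ (fun x => minWeakGrad m f x ^ 2) x) x =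
      (1 - 2 * δ * k)⁻¹ * J m δ (J m δ (fun x => minWeakGrad m f x ^ 2)) x := h3
  rw [h5] at h2
  calc minWeakGrad m (J m δ (J m δ f)) x ^ 2
      ≤ (1 - 2 * δ * k)⁻¹ * J m δ (fun x => minWeakGrad m (J m δ f) x ^ 2) x := h1
    _ ≤ (1 - 2 * δ * k)⁻¹ * ((1 - 2 * δ * k)⁻¹ *
        J m δ (J m δ (fun x => minWeakGrad m f x ^ 2)) x) := by gcongr
    _ = _ := by ring

theorem wg_sq_congr (H : Hyp m k N) {f g : X → ℝ} (hf : IsSobolevLoc m f)
    (hg : IsSobolevLoc m g) (h : f =ᵐ[m] g) :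
    ∀ᵐ x ∂m, minWeakGrad m f x = minWeakGrad m g x := by
  filter_upwards [gp_congr H hf hf h h, gp_self H hf, gp_self H hg, wg_nonneg H hf,
    wg_nonneg H hg] with x h1 h2 h3 h4 h5
  rw [h2, h3] at h1
  exact (pow_left_inj₀ h4 h5 two_ne_zero).1 h1

/-- a continuous representative of a Sobolev function with gradient bounded near `x` -/
theorem abs_sub_le_of_wg (H : Hyp m k N) (hgeo : HasBddGeoPlans m) {u v : X → ℝ}
    (hv : IsSobolev m v) (huv : u =ᵐ[m] v) (hc : Continuous u) {y z : X} {ρ L : ℝ}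
    (hρ : dist y z < ρ) (hL : 0 ≤ L)
    (hD : ∀ᵐ x ∂m, x ∈ Metric.ball y ρ → minWeakGrad m v x ≤ L) :
    |u y - u z| ≤ L * dist y z := by
  have hu : IsSobolev m u := sob_congr H hv huv.symm
  obtain ⟨hL2, hex⟩ := hu.2.1
  have hmin : IsMinWUGLoc m u (minWeakGrad m u) := by
    have e : minWeakGrad m u = Classical.choose hex := by
      unfold minWeakGrad
      rw [dif_pos hex]
    rw [e]
    exact Classical.choose_spec hex
  refine abs_sub_le_of_wug H.fin hgeo hL2 hmin.1 hc hρ hL ?_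
  filter_upwards [hD, wg_sq_congr H hu.2.1 hv.2.1 huv] with x h1 h2 hx
  rw [h2]
  exact h1 hx

/-- spatial estimates for `Jc f`, `f ∈ W^{1,2}` with bounded gradient: local -/
theorem Jc_lip_local (H : Hyp m k N) (GJ : GoodJ m k h₀) (hgeo : HasBddGeoPlans m)
    (hδ : 0 < δ) (hδ' : δ ≤ h₀) {f : X → ℝ} (hf : IsSobolev m f)
    (hfb : ∃ C, ∀ᵐ x ∂m, |f x| ≤ C) {L : ℝ} (hL : ∀ᵐ x ∂m, minWeakGrad m f x ≤ L) (x : X)
    {ρ : ℝ} (hρ : 0 ≤ ρ)
    (h : (1 - 2 * δ * k)⁻¹ ^ 2 * Jc m δ (fun y => minWeakGrad m f y ^ 2) x < ρ ^ 2) :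
    ∀ᶠ y in 𝓝 x, |Jc m δ f y - Jc m δ f x| ≤ ρ * dist y x := by
  obtain ⟨C, hC⟩ := hfb
  have hspec := Jc_spec H (calc_of_hyp H) GJ hgeo hδ hδ' hf.1 hC
  have hJJ : IsSobolev m (J m δ (J m δ f)) :=
    Jr_sob H bddLip_zero hδ (Jr_memLp H bddLip_zero hδ hf.1)
  have hw2 := wg_sq_memLp H hf hL
  have hwc : Continuous (Jc m δ (fun y => minWeakGrad m f y ^ 2)) :=
    (Jc_spec H (calc_of_hyp H) GJ hgeo hδ hδ' hw2 (M := L ^ 2) (by
      filter_upwards [wg_nonneg H hf.2.1, hL] with x h1 h2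
      rw [abs_of_nonneg (sq_nonneg _)]
      exact pow_le_pow_left₀ h1 h2 2)).2.continuous
  have hopen : ∀ᶠ y in 𝓝 x, (1 - 2 * δ * k)⁻¹ ^ 2 *
      Jc m δ (fun y => minWeakGrad m f y ^ 2) y < ρ ^ 2 :=
    (continuous_const.mul hwc).continuousAt.eventually_lt continuousAt_const h
  obtain ⟨r, hr, hball⟩ := Metric.eventually_nhds_iff_ball.1 hopen
  filter_upwards [Metric.ball_mem_nhds x hr] with y hy
  rw [abs_sub_comm, dist_comm]
  refine abs_sub_le_of_wg H hgeo hJJ hspec.1 hspec.2.continuous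
    (ρ := r) (by rw [dist_comm]; exact hy) hρ ?_
  filter_upwards [be_twice H GJ hgeo hδ hδ' hf hL] with z h1 hz
  exact (abs_le_of_sq_le_sq' (h1.trans (hball z hz).le) hρ).2

/-- spatial estimates for `Jc f`, `f ∈ W^{1,2}` with bounded gradient: global -/
theorem Jc_lip (H : Hyp m k N) (GJ : GoodJ m k h₀) (hgeo : HasBddGeoPlans m)
    (hδ : 0 < δ) (hδ' : δ ≤ h₀) {f : X → ℝ} (hf : IsSobolev m f)
    (hfb : ∃ C, ∀ᵐ x ∂m, |f x| ≤ C) {L : ℝ} (hL : ∀ᵐ x ∂m, minWeakGrad m f x ≤ L) (x y : X) :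
    |Jc m δ f y - Jc m δ f x| ≤ (1 - 2 * δ * k)⁻¹ * L * dist y x := by
  obtain ⟨C, hC⟩ := hfb
  have := ae_neBot_of_point (m := m) x
  have hL0 : 0 ≤ L := by
    obtain ⟨z, h1, h2⟩ := ((wg_nonneg H hf.2.1).and hL).exists
    exact h1.trans h2
  have hc' : 0 < (1 - 2 * δ * k)⁻¹ := inv_pos.2 (c_pos H GJ hδ')
  have hspec := Jc_spec H (calc_of_hyp H) GJ hgeo hδ hδ' hf.1 hC
  have hJJ : IsSobolev m (J m δ (J m δ f)) :=
    Jr_sob H bddLip_zero hδ (Jr_memLp H bddLip_zero hδ hf.1)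
  have hw2 := wg_sq_memLp H hf hL
  refine abs_sub_le_of_wg H hgeo hJJ hspec.1 hspec.2.continuous
    (ρ := dist y x + 1) (by linarith) (by positivity) ?_
  filter_upwards [be_twice H GJ hgeo hδ hδ' hf hL, wg_nonneg H hJJ.2.1] with z h1 h2 _
  have h3 : Jc m δ (fun y => minWeakGrad m f y ^ 2) z ≤ L ^ 2 :=
    Jc_le_const H (calc_of_hyp H) GJ hgeo hδ hδ' hw2 ⟨L ^ 2, by
      filter_upwards [wg_nonneg H hf.2.1, hL] with x h1 h2
      rw [abs_of_nonneg (sq_nonneg _)]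
      exact pow_le_pow_left₀ h1 h2 2⟩ (sq_nonneg L) (by
      filter_upwards [wg_nonneg H hf.2.1, hL] with x h1 h2
      exact pow_le_pow_left₀ h1 h2 2) z
  refine (abs_le_of_sq_le_sq' ?_ (by positivity)).2
  calc minWeakGrad m (J m δ (J m δ f)) z ^ 2 ≤ _ := h1
    _ ≤ (1 - 2 * δ * k)⁻¹ ^ 2 * L ^ 2 := by gcongr
    _ = _ := by ring

/-! ### the generator -/

/-- averages of `Jc f` over small balls -/
theorem abs_setIntegral_Jc_sub_le (H : Hyp m k N) (GJ : GoodJ m k h₀) (hgeo : HasBddGeoPlans m)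
    (hδ : 0 < δ) (hδ' : δ ≤ h₀) {f : X → ℝ} (hf : MemLp f 2 m) {M : ℝ}
    (hM : ∀ᵐ x ∂m, |f x| ≤ M) (x : X) {r : ℝ} (hr : 0 < r) :
    |∫ y in Metric.ball x r, Jc m δ f y ∂m - m.real (Metric.ball x r) * Jc m δ f x| ≤
      m.real (Metric.ball x r) * (M / Real.sqrt δ * r) := by
  have hM0 : 0 ≤ M := nonneg_of_ae_abs_le x hM
  have hfin : m (Metric.ball x r) < ⊤ := H.fin x r
  have hcont : Continuous (Jc m δ f) :=
    (Jc_spec H (calc_of_hyp H) GJ hgeo hδ hδ' hf hM).2.continuous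
  have hb : ∀ y ∈ Metric.ball x r, ‖Jc m δ f y - Jc m δ f x‖ ≤ M / Real.sqrt δ * r := by
    intro y hy
    refine (lam_dist_le H GJ hgeo hδ hδ' hf hM x y).trans ?_
    have : dist y x ≤ r := (Metric.mem_ball.1 hy).le
    gcongr
  have h1 := norm_setIntegral_le_of_norm_le_const (μ := m) hfin hb
  have hi : IntegrableOn (Jc m δ f) (Metric.ball x r) m := by
    refine Measure.integrableOn_of_bounded (M := M) hfin.ne hcont.aestronglyMeasurable ?_
    exact Eventually.of_forall fun y => Jc_abs_le H (calc_of_hyp H) GJ hgeo hδ hδ' hf hM y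
  have h2 : ∫ y in Metric.ball x r, (Jc m δ f y - Jc m δ f x) ∂m =
      ∫ y in Metric.ball x r, Jc m δ f y ∂m - m.real (Metric.ball x r) * Jc m δ f x := by
    rw [integral_sub hi (integrableOn_const hfin.ne), setIntegral_const, smul_eq_mul]
  rw [h2, Real.norm_eq_abs] at h1
  exact h1.trans (le_of_eq (mul_comm _ _))

/-- averages of `Jc f` as a pairing in `L²(e^V m)` -/
theorem exists_dual (H : Hyp m k N) (GJ : GoodJ m k h₀) (hgeo : HasBddGeoPlans m)
    (hδ : 0 < δ) (hδ' : δ ≤ h₀) {V : X → ℝ} (hV : BddLip V) (x : X) (r : ℝ) :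
    ∃ q : X → ℝ, MemLp q 2 m ∧ ∀ f : X → ℝ, B2 m f →
      ∫ y in Metric.ball x r, Jc m δ f y ∂m = ∫ y, f y * q y ∂(wm m V) := by
  have hVm := BddLip.meas hV
  obtain ⟨B, hB⟩ := hV.1
  set q0 := J m δ (J m δ ((Metric.ball x r).indicator fun _ => 1)) with hq0
  have hi2 : MemLp ((Metric.ball x r).indicator fun _ : X => (1 : ℝ)) 2 m :=
    memLp_indicator_const 2 Metric.isOpen_ball.measurableSet 1 (Or.inr (H.fin x r).ne)
  have hJ1 : MemLp (J m δ ((Metric.ball x r).indicator fun _ : X => (1 : ℝ))) 2 m :=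
    Jr_memLp H bddLip_zero hδ hi2
  have hq02 : MemLp q0 2 m := Jr_memLp H bddLip_zero hδ hJ1
  refine ⟨fun y => Real.exp (-V y) * q0 y, ?_, ?_⟩
  · refine MemLp.of_le_mul (c := Real.exp B) hq02 (by
      exact (Real.continuous_exp.measurable.comp hVm.neg).aestronglyMeasurable.mul
        hq02.aestronglyMeasurable) (Eventually.of_forall fun y => ?_)
    rw [norm_mul, Real.norm_of_nonneg (Real.exp_pos _).le]
    have : Real.exp (-V y) ≤ Real.exp B :=
      Real.exp_le_exp.2 (by have := (abs_le.1 (hB y)).1; linarith)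
    gcongr
  · rintro f ⟨hf, M, hM⟩
    have hspec := (Jc_spec H (calc_of_hyp H) GJ hgeo hδ hδ' hf hM).1
    have hJf : MemLp (J m δ f) 2 m := Jr_memLp H bddLip_zero hδ hf
    calc ∫ y in Metric.ball x r, Jc m δ f y ∂m
        = ∫ y, (Metric.ball x r).indicator (fun _ => (1 : ℝ)) y * J m δ (J m δ f) y ∂m := by
          rw [← integral_indicator Metric.isOpen_ball.measurableSet]
          refine integral_congr_ae ?_
          filter_upwards [hspec] with y hy
          by_cases hyb : y ∈ Metric.ball x r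
          · rw [indicator_of_mem hyb, indicator_of_mem hyb, one_mul, hy]
          · rw [indicator_of_notMem hyb, indicator_of_notMem hyb, zero_mul]
      _ = ∫ y, J m δ ((Metric.ball x r).indicator fun _ => (1 : ℝ)) y * J m δ f y ∂m :=
          (J_symm H hδ hi2 hJf).symm
      _ = ∫ y, q0 y * f y ∂m := (J_symm H hδ hJ1 hf).symm
      _ = ∫ y, f y * (Real.exp (-V y) * q0 y) ∂(wm m V) := by
          rw [integral_wm ⟨hVm, B, hB⟩]
          refine integral_congr_ae (Eventually.of_forall fun y => ?_)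
          dsimp only
          have : Real.exp (V y) * Real.exp (-V y) = 1 := by
            rw [← Real.exp_add]; simp
          calc q0 y * f y = (Real.exp (V y) * Real.exp (-V y)) * (q0 y * f y) := by
                rw [this, one_mul]
            _ = _ := by ring

/-- the integrated generator identity for `Jc ∘ P` -/
theorem Jc_gen (H : Hyp m k N) (GJ : GoodJ m k h₀) (hgeo : HasBddGeoPlans m)
    (hδ : 0 < δ) (hδ' : δ ≤ h₀) {V : X → ℝ} (hV : BddLip V)
    {P : ℝ → (X → ℝ) → (X → ℝ)} (hP : SemigroupSpec m V P) {u g : X → ℝ}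
    (hug : IsWLap m V u g) (hu : B2 m u) (hg : B2 m g) (x : X) {t : ℝ} (ht : 0 ≤ t) :
    Jc m δ (P t u) x - Jc m δ u x = ∫ s in (0 : ℝ)..t, Jc m δ (P s g) x := by
  obtain ⟨hu2, Mu, hMu⟩ := hu
  obtain ⟨hg2, Mg, hMg⟩ := hg
  have hMg0 : 0 ≤ Mg := nonneg_of_ae_abs_le x hMg
  have hMu0 : 0 ≤ Mu := nonneg_of_ae_abs_le x hMu
  have hPu2 := hP.memLp t ht u hu2
  have hPu := sg_abs_le hP ht hu2 hMu
  have hd2 : MemLp (fun y => P t u y - u y) 2 m := hPu2.sub hu2
  have hd : ∀ᵐ y ∂m, |P t u y - u y| ≤ 2 * Mu := by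
    filter_upwards [hPu, hMu] with y h1 h2
    exact (abs_sub _ _).trans (by linarith)
  -- continuity of the integrand
  have hcont : ContinuousOn (fun s : ℝ => Jc m δ (P s g) x) (Ici 0) := by
    have h1 := lam_cont (ε := 1) H GJ hgeo hδ hδ' one_pos hV hP ⟨hg2, Mg, hMg⟩
    have h2 : ContinuousOn (fun s : ℝ => (s, x)) (Ici 0) := by fun_prop
    have h3 := h1.comp h2 fun s hs => ⟨hs, mem_univ _⟩
    refine h3.congr fun s _ => ?_
    simp [lam]
  have hint : IntervalIntegrable (fun s : ℝ => Jc m δ (P s g) x) volume 0 t := by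
    refine ContinuousOn.intervalIntegrable (hcont.mono ?_)
    rw [uIcc_of_le ht]
    exact Icc_subset_Ici_self
  set D := (Jc m δ (P t u) x - Jc m δ u x) - ∫ s in (0 : ℝ)..t, Jc m δ (P s g) x with hD
  -- main estimate
  have key : ∀ r : ℝ, 0 < r → |D| ≤ (2 * Mu / Real.sqrt δ + t * (Mg / Real.sqrt δ)) * r := by
    intro r hr
    obtain ⟨q, hq, hdual⟩ := exists_dual H GJ hgeo hδ hδ' hV x r
    set b := m.real (Metric.ball x r) with hb
    have hb0 : 0 < b := by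
      rw [hb, Measure.real]
      exact ENNReal.toReal_pos (Metric.measure_ball_pos m x hr).ne' (H.fin x r).ne
    obtain ⟨hint2, hgen⟩ := hP.gen_int u g hug t ht q hq
    have e1 := hdual _ ⟨hd2, 2 * Mu, hd⟩
    have e2 : ∀ s, 0 ≤ s → ∫ y, P s g y * q y ∂(wm m V) =
        ∫ y in Metric.ball x r, Jc m δ (P s g) y ∂m := fun s hs =>
      (hdual _ ⟨hP.memLp s hs g hg2, Mg, sg_abs_le hP hs hg2 hMg⟩).symm
    have a1 := abs_setIntegral_Jc_sub_le H GJ hgeo hδ hδ' hd2 hd x hr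
    have a2 : ∀ s, 0 ≤ s → |(∫ y, P s g y * q y ∂(wm m V)) - b * Jc m δ (P s g) x| ≤
        b * (Mg / Real.sqrt δ * r) := fun s hs => by
      rw [e2 s hs]
      exact abs_setIntegral_Jc_sub_le H GJ hgeo hδ hδ' (hP.memLp s hs g hg2)
        (sg_abs_le hP hs hg2 hMg) x hr
    have a3 : |∫ s in (0 : ℝ)..t, ((∫ y, P s g y * q y ∂(wm m V)) - b * Jc m δ (P s g) x)| ≤
        b * (Mg / Real.sqrt δ * r) * |t - 0| := by
      rw [← Real.norm_eq_abs]
      refine intervalIntegral.norm_integral_le_of_norm_le_const fun s hs => ?_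
      rw [uIoc_of_le ht] at hs
      exact a2 s hs.1.le
    rw [intervalIntegral.integral_sub hint2 (hint.const_mul b),
      intervalIntegral.integral_const_mul, ← hgen, ← e1, sub_zero, abs_of_nonneg ht] at a3
    have hsub : Jc m δ (fun y => P t u y - u y) x = Jc m δ (P t u) x - Jc m δ u x :=
      Jc_sub H (calc_of_hyp H) GJ hgeo hδ hδ' hPu2 ⟨Mu, hPu⟩ hu2 ⟨Mu, hMu⟩ x
    rw [hsub, ← hb] at a1
    set A := ∫ y in Metric.ball x r, Jc m δ (fun y => P t u y - u y) y ∂m with hA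
    have hbD : b * |D| ≤ b * ((2 * Mu / Real.sqrt δ + t * (Mg / Real.sqrt δ)) * r) := by
      have : b * |D| = |b * D| := by rw [abs_mul, abs_of_pos hb0]
      rw [this]
      have e3 : b * D = (A - b * ∫ s in (0 : ℝ)..t, Jc m δ (P s g) x) -
          (A - b * (Jc m δ (P t u) x - Jc m δ u x)) := by
        rw [hD]; ring
      rw [e3]
      calc _ ≤ _ := abs_sub _ _
        _ ≤ b * (Mg / Real.sqrt δ * r) * t + b * (2 * Mu / Real.sqrt δ * r) := add_le_add a3 a1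
        _ = _ := by ring
    exact le_of_mul_le_mul_left hbD hb0
  have hD0 : |D| ≤ 0 := by
    have h1 : Tendsto (fun r : ℝ => (2 * Mu / Real.sqrt δ + t * (Mg / Real.sqrt δ)) * r)
        (𝓝[>] 0) (𝓝 0) := by
      have : Continuous fun r : ℝ => (2 * Mu / Real.sqrt δ + t * (Mg / Real.sqrt δ)) * r := by
        fun_prop
      have h2 := this.tendsto 0
      rw [mul_zero] at h2
      exact h2.mono_left nhdsWithin_le_nhds
    refine ge_of_tendsto h1 ?_
    filter_upwards [self_mem_nhdsWithin] with r hr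
    exact key r hr
  have := abs_nonpos_iff.1 hD0
  linarith

/-- gradient of a Lipschitz function -/
theorem wg_le_of_lip (H : Hyp m k N) {f : X → ℝ} {L : ℝ≥0} (hf : LipschitzWith L f) :
    ∀ᵐ x ∂m, minWeakGrad m f x ≤ L := by
  have h := minWeakGrad_le_of_lipschitzOnWith H.fin (m := m) (LipschitzWith.lipOnBalls hf)
    isOpen_univ (L := L) (hf.lipschitzOnWith (s := univ))
  filter_upwards [h] with x hx
  exact hx (mem_univ x)

/-- generator (field `gen`), `V = F / ε` -/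
theorem lam_gen (H : Hyp m k N) (GJ : GoodJ m k h₀) (hgeo : HasBddGeoPlans m)
    (hδ : 0 < δ) (hδ' : δ ≤ h₀) (hε : 0 < ε) (hF : BddLip F)
    {P : ℝ → (X → ℝ) → (X → ℝ)} (hP : SemigroupSpec m (fun x => F x / ε) P)
    (u L : X → ℝ) (hu : IsWeakLaplacian m u L) (huB : B2 m u) (hL : B2 m L)
    (hw : ∃ C, ∀ᵐ x ∂m, minWeakGrad m u x ≤ C) :
    B2 m (fun y => ε * L y + gradPairing m F u y) ∧
    ∀ θ θ' x, 0 ≤ θ → 0 ≤ θ' →
      lam m δ ε P θ' x u - lam m δ ε P θ x u =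
        ∫ r in θ..θ', lam m δ ε P r x (fun y => ε * L y + gradPairing m F u y) := by
  obtain ⟨-, LF, hLF⟩ := id hF
  have hFs : IsSobolevLoc m F := sobLoc_of_lipschitz H hLF
  have hus : IsSobolev m u := hu.1
  obtain ⟨C, hC⟩ := hw
  -- the pairing is in `L² ∩ L^∞`
  have hgp : B2 m (gradPairing m F u) := by
    have hle : ∀ᵐ x ∂m, |gradPairing m F u x| ≤ LF * minWeakGrad m u x := by
      filter_upwards [gp_abs_le H hFs hus.2.1, wg_le_of_lip H hLF, wg_nonneg H hus.2.1]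
        with x h1 h2 h3
      exact h1.trans (mul_le_mul_of_nonneg_right h2 h3)
    refine ⟨?_, LF * C, ?_⟩
    · refine MemLp.of_le_mul (c := LF) hus.2.2 (aesm_gp H hFs hus.2.1) ?_
      filter_upwards [hle, wg_nonneg H hus.2.1] with x h1 h2
      rw [Real.norm_eq_abs, Real.norm_of_nonneg h2]
      exact h1
    · filter_upwards [hle, hC] with x h1 h2
      exact h1.trans (mul_le_mul_of_nonneg_left h2 LF.2)
  have hG : B2 m (fun y => ε * L y + gradPairing m F u y) := (hL.const_mul ε).add hgp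
  refine ⟨hG, ?_⟩
  -- the weak generator
  have hV : BddLip (fun x => F x / ε) := by
    have := hF.const_mul ε⁻¹
    refine (congrArg BddLip ?_).mp this
    funext x
    rw [div_eq_inv_mul]
  set g' : X → ℝ := fun y => L y + gradPairing m (fun x => F x / ε) u y with hg'
  have hug : IsWLap m (fun x => F x / ε) u g' := by
    rw [isWLap_iff H hV]
    have : (fun x => g' x - gradPairing m (fun x => F x / ε) u x) = L := by
      funext x
      rw [hg']
      ring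
    rw [this]
    exact hu
  have hgpV : gradPairing m (fun x => F x / ε) u =ᵐ[m] fun x => ε⁻¹ * gradPairing m F u x := by
    have h1 := gp_smul_left H ε⁻¹ hFs hus.2.1
    have h2 : (fun x => F x / ε) = fun x => ε⁻¹ * F x := by
      funext x
      rw [div_eq_inv_mul]
    rw [h2]
    exact h1
  have hg'ae : g' =ᵐ[m] fun y => ε⁻¹ * (ε * L y + gradPairing m F u y) := by
    filter_upwards [hgpV] with y hy
    rw [hg']
    dsimp only
    rw [hy]
    field_simp
  have hg'ae2 : (fun y => ε * L y + gradPairing m F u y) =ᵐ[m] fun y => ε * g' y := by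
    filter_upwards [hg'ae] with y hy
    rw [hy]
    field_simp
  have hgB : B2 m g' := by
    obtain ⟨h1, M, h2⟩ := hG.const_mul ε⁻¹
    refine ⟨h1.ae_eq hg'ae.symm, M, ?_⟩
    filter_upwards [h2, hg'ae] with y hy hy'
    rw [hy']
    exact hy
  have hcont : ∀ x, ContinuousOn (fun s : ℝ => Jc m δ (P s g') x) (Ici 0) := by
    intro x
    have h1 := lam_cont (ε := 1) H GJ hgeo hδ hδ' one_pos hV hP hgB
    have h2 : ContinuousOn (fun s : ℝ => (s, x)) (Ici 0) := by fun_prop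
    have h3 := h1.comp h2 fun s hs => ⟨hs, mem_univ _⟩
    refine h3.congr fun s _ => ?_
    simp [lam]
  have hint : ∀ x (s t : ℝ), 0 ≤ s → 0 ≤ t →
      IntervalIntegrable (fun s : ℝ => Jc m δ (P s g') x) volume s t := by
    intro x s t hs ht
    refine ContinuousOn.intervalIntegrable ((hcont x).mono ?_)
    intro z hz
    exact le_trans (le_min hs ht) hz.1
  intro θ θ' x hθ hθ'
  have h1 := Jc_gen H GJ hgeo hδ hδ' hV hP hug huB hgB x (mul_nonneg hε.le hθ)
  have h2 := Jc_gen H GJ hgeo hδ hδ' hV hP hug huB hgB x (mul_nonneg hε.le hθ')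
  have h3 : lam m δ ε P θ' x u - lam m δ ε P θ x u = ∫ s in (ε * θ)..(ε * θ'), Jc m δ (P s g') x := by
    rw [← intervalIntegral.integral_interval_sub_left
      (hint x 0 (ε * θ') le_rfl (mul_nonneg hε.le hθ'))
      (hint x 0 (ε * θ) le_rfl (mul_nonneg hε.le hθ)), ← h1, ← h2, lam, lam]
    ring
  rw [h3, ← intervalIntegral.smul_integral_comp_mul_left, smul_eq_mul,
    ← intervalIntegral.integral_const_mul]
  refine intervalIntegral.integral_congr fun r hr => ?_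
  have hr0 : 0 ≤ r := le_trans (le_min hθ hθ') hr.1
  have hεr : 0 ≤ ε * r := mul_nonneg hε.le hr0
  dsimp only [lam]
  rw [← Jc_smul H (calc_of_hyp H) GJ hgeo hδ hδ' ε (hP.memLp _ hεr g' hgB.1)
    (by obtain ⟨a, M, b⟩ := hgB
        exact ⟨M, sg_abs_le hP hεr a b⟩)]
  refine congrFun (Jc_congr ?_) x
  have e1 := hP.smul _ hεr ε g' hgB.1
  have e2 := hP.congr _ hεr _ _ hG.1 hg'ae2
  exact (e2.trans e1).symm

end Fin
end Crest.Agent.R242
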