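import Mathlib
import Crest.Agent.R242.Form

/-!
Row 242, part R4 (abstract part): strong convergence of the resolvents, the generator relation,
the Yosida semigroup `Q.sg t` of a closed form `Q : CForm H`.
-/

set_option autoImplicit false

noncomputable section

open Filter Topology
open scoped RealInnerProductSpace

namespace Crest.Agent.R242

/-! ### invariance of closed convex sets under `exp (c (J - 1))` -/

section ExpConvex

variable {H : Type*} [NormedAddCommGroup H] [NormedSpace ℝ H] [CompleteSpace H]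

lemma exp_smul_sub_one (J : H →L[ℝ] H) (c : ℝ) :
    NormedSpace.exp (c • (J - 1)) = Real.exp (-c) • NormedSpace.exp (c • J) := by
  have h1 : c • (J - 1) = c • J + algebraMap ℝ (H →L[ℝ] H) (-c) := by
    rw [smul_sub, Algebra.algebraMap_eq_smul_one, neg_smul, sub_eq_add_neg]
  rw [h1, NormedSpace.exp_add_of_commute_of_mem_ball (𝕂 := ℝ)
    (Algebra.commute_algebraMap_right _ _)
    ((NormedSpace.expSeries_radius_eq_top ℝ (H →L[ℝ] H)).symm ▸ edist_lt_top _ _)
    ((NormedSpace.expSeries_radius_eq_top ℝ (H →L[ℝ] H)).symm ▸ edist_lt_top _ _),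
    ← NormedSpace.algebraMap_exp_comm, ← Real.exp_eq_exp_ℝ, Algebra.algebraMap_eq_smul_one,
    mul_smul_comm, mul_one]

lemma exp_mem_of_convex {C : Set H} (hC : Convex ℝ C) (hcl : IsClosed C) (J : H →L[ℝ] H)
    (hJ : ∀ x ∈ C, J x ∈ C) {c : ℝ} (hc : 0 ≤ c) {f : H} (hf : f ∈ C) :
    NormedSpace.exp (c • (J - 1)) f ∈ C := by
  have hpow : ∀ k : ℕ, (J ^ k) f ∈ C := by
    intro k
    induction k with
    | zero => simpa using hf
    | succ k ih => rw [pow_succ']; exact hJ _ ih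
  set a : ℕ → ℝ := fun k => (k.factorial : ℝ)⁻¹ * c ^ k with ha
  have ha0 : ∀ k, 0 ≤ a k := fun k => by simp only [ha]; positivity
  have hs1 : HasSum a (Real.exp c) := by
    have := NormedSpace.exp_series_hasSum_exp' (𝕂 := ℝ) c
    rw [← Real.exp_eq_exp_ℝ] at this
    simpa [ha, smul_eq_mul] using this
  have hs2 : HasSum (fun k => a k • (J ^ k) f) (NormedSpace.exp (c • J) f) := by
    have h1 := NormedSpace.exp_series_hasSum_exp' (𝕂 := ℝ) (c • J)
    have h2 := h1.mapL (ContinuousLinearMap.apply ℝ H f)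
    simp only [ContinuousLinearMap.apply_apply] at h2
    refine h2.congr_fun ?_ |> fun h => h
    intro k
    simp [ha, smul_pow, smul_smul]
  have ht1 : Tendsto (fun K => ∑ k ∈ Finset.range (K + 1), a k) atTop (𝓝 (Real.exp c)) :=
    (hs1.tendsto_sum_nat).comp (tendsto_add_atTop_nat 1)
  have ht2 : Tendsto (fun K => ∑ k ∈ Finset.range (K + 1), a k • (J ^ k) f) atTop
      (𝓝 (NormedSpace.exp (c • J) f)) :=
    (hs2.tendsto_sum_nat).comp (tendsto_add_atTop_nat 1)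
  have ht3 := (ht1.inv₀ (Real.exp_pos c).ne').smul ht2
  rw [exp_smul_sub_one, smul_apply, Real.exp_neg]
  refine hcl.mem_of_tendsto ht3 (Eventually.of_forall fun K => ?_)
  have hpos : 0 < ∑ k ∈ Finset.range (K + 1), a k := by
    apply Finset.sum_pos' (fun k _ => ha0 k)
    exact ⟨0, by simp, by simp [ha]⟩
  have := hC.centerMass_mem (t := Finset.range (K + 1)) (w := a) (z := fun k => (J ^ k) f)
    (fun k _ => ha0 k) hpos (fun k _ => hpow k)
  simpa [Finset.centerMass] using this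

end ExpConvex

namespace CForm

variable {H : Type*} [NormedAddCommGroup H] [InnerProductSpace ℝ H] (Q : CForm H)

/-! ### energy seminorm -/

/-- The energy seminorm. -/
def en (u : H) : ℝ := √(Q.E u u)

lemma en_nonneg (u : H) : 0 ≤ Q.en u := Real.sqrt_nonneg _

lemma en_sq {u : H} (hu : u ∈ Q.dom) : Q.en u ^ 2 = Q.E u u := Real.sq_sqrt (Q.nonneg hu)

lemma en_add_le {u v : H} (hu : u ∈ Q.dom) (hv : v ∈ Q.dom) : Q.en (u + v) ≤ Q.en u + Q.en v :=
  Q.sqrt_add_le hu hv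

lemma en_smul {u : H} (c : ℝ) (hu : u ∈ Q.dom) : Q.en (c • u) = |c| * Q.en u := by
  unfold en
  rw [Q.smul_left c hu (Q.dom.smul_mem c hu), Q.smul_right c hu hu, ← mul_assoc,
    Real.sqrt_mul (mul_self_nonneg c), Real.sqrt_mul_self_eq_abs]

lemma en_neg {u : H} (hu : u ∈ Q.dom) : Q.en (-u) = Q.en u := by
  have := Q.en_smul (-1) hu
  simpa using this

lemma en_sub_le {u v : H} (hu : u ∈ Q.dom) (hv : v ∈ Q.dom) : Q.en (u - v) ≤ Q.en u + Q.en v := by
  rw [sub_eq_add_neg, ← Q.en_neg hv]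
  exact Q.en_add_le hu (Q.dom.neg_mem hv)

lemma en_sub_comm {u v : H} (hu : u ∈ Q.dom) (hv : v ∈ Q.dom) : Q.en (u - v) = Q.en (v - u) := by
  rw [← Q.en_neg (Q.dom.sub_mem hu hv), neg_sub]

/-- sublevel sets of the energy are closed and convex -/
lemma isClosed_energy (C : ℝ) : IsClosed {u : H | u ∈ Q.dom ∧ Q.E u u ≤ C} := by
  rw [← isSeqClosed_iff_isClosed]
  intro u f hu hf
  exact Q.closed' u f C (fun n => (hu n).1) (fun n => (hu n).2) hf

lemma convex_energy (C : ℝ) : Convex ℝ {u : H | u ∈ Q.dom ∧ Q.E u u ≤ C} := by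
  rw [convex_iff_forall_pos]
  intro x hx y hy a b ha hb hab
  refine ⟨Q.dom.add_mem (Q.dom.smul_mem _ hx.1) (Q.dom.smul_mem _ hy.1), ?_⟩
  have h1 := Q.expand (Q.dom.smul_mem a hx.1) hy.1 b
  rw [h1, Q.smul_left a hx.1 (Q.dom.smul_mem a hx.1), Q.smul_right a hx.1 hx.1,
    Q.smul_left a hx.1 hy.1]
  have h2 := Q.two_mul_le hx.1 hy.1
  have h3 := hx.2
  have h4 := hy.2
  have hb' : b = 1 - a := by linarith
  subst hb'
  have h5 : a * (1 - a) * (2 * Q.E x y) ≤ a * (1 - a) * (Q.E x x + Q.E y y) :=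
    mul_le_mul_of_nonneg_left h2 (by positivity)
  nlinarith [mul_le_mul_of_nonneg_left h3 ha.le, mul_le_mul_of_nonneg_left h4 hb.le]

variable [CompleteSpace H]

/-! ### strong convergence of the resolvents -/

lemma tendsto_res (f : H) : Tendsto (fun h : ℝ => Q.res h f) (𝓝[>] 0) (𝓝 f) := by
  rw [Metric.tendsto_nhds]
  intro ε hε
  obtain ⟨g, hg, hgd⟩ := Metric.mem_closure_iff.1 (Q.dense' f) (ε / 4) (by positivity)
  have hg : g ∈ Q.dom := hg
  have h0 : 0 ≤ Q.E g g := Q.nonneg hg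
  have h1 : ∀ᶠ h : ℝ in 𝓝[>] 0, h < (ε / 4) ^ 2 / (Q.E g g + 1) := by
    have : (0 : ℝ) < (ε / 4) ^ 2 / (Q.E g g + 1) := by positivity
    exact (eventually_lt_nhds this).filter_mono nhdsWithin_le_nhds
  filter_upwards [h1, self_mem_nhdsWithin] with h h2 h3
  have h3 : 0 < h := h3
  have h4 := Q.norm_sub_res_sq_le h3 hg
  have h5 : ‖g - Q.res h g‖ ^ 2 ≤ (ε / 4) ^ 2 := by
    rw [lt_div_iff₀ (by positivity)] at h2
    nlinarith
  have h6 : ‖g - Q.res h g‖ ≤ ε / 4 := by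
    have := Real.sqrt_le_sqrt h5
    rwa [Real.sqrt_sq (norm_nonneg _), Real.sqrt_sq (by positivity)] at this
  have h7 : Q.res h f - f = Q.res h (f - g) - (g - Q.res h g) + (g - f) := by
    rw [map_sub]; abel
  rw [dist_eq_norm, h7]
  have h8 := Q.norm_res_le (h := h) (f - g)
  rw [dist_eq_norm] at hgd
  have h9 : ‖g - f‖ < ε / 4 := by rw [norm_sub_rev]; exact hgd
  have h10 := norm_add_le (Q.res h (f - g) - (g - Q.res h g)) (g - f)
  have h11 := norm_sub_le (Q.res h (f - g)) (g - Q.res h g)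
  linarith

lemma tendsto_E_res {f : H} (hf : f ∈ Q.dom) :
    Tendsto (fun h : ℝ => Q.E (Q.res h f) (Q.res h f)) (𝓝[>] 0) (𝓝 (Q.E f f)) := by
  rw [tendsto_order]
  constructor
  · intro a ha
    by_contra hcon
    rw [not_eventually] at hcon
    obtain ⟨h, hh, hfreq⟩ : ∃ h : ℕ → ℝ, Tendsto h atTop (𝓝[>] 0) ∧
        ∀ n, ¬ a < Q.E (Q.res (h n) f) (Q.res (h n) f) ∧ 0 < h n := by
      have hfr : ∃ᶠ h : ℝ in 𝓝[>] 0, (¬ a < Q.E (Q.res h f) (Q.res h f)) ∧ 0 < h :=
        hcon.and_eventually self_mem_nhdsWithin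
      obtain ⟨h, h1, h2⟩ := exists_seq_forall_of_frequently hfr
      exact ⟨h, h1, h2⟩
    have h1 := Q.closed' (fun n => Q.res (h n) f) f a (fun n => Q.res_mem (hfreq n).2 f)
      (fun n => not_lt.1 (hfreq n).1) ((Q.tendsto_res f).comp hh)
    linarith [h1.2]
  · intro a ha
    filter_upwards [self_mem_nhdsWithin] with h hh
    exact lt_of_le_of_lt (Q.E_res_le hh hf) ha

lemma tendsto_E_sub_res {f : H} (hf : f ∈ Q.dom) :
    Tendsto (fun h : ℝ => Q.E (f - Q.res h f) (f - Q.res h f)) (𝓝[>] 0) (𝓝 0) := by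
  have h1 : Tendsto (fun h : ℝ => Q.E f f - Q.E (Q.res h f) (Q.res h f)) (𝓝[>] 0) (𝓝 0) := by
    have := (Q.tendsto_E_res hf).const_sub (Q.E f f)
    simpa using this
  refine tendsto_of_tendsto_of_tendsto_of_le_of_le' tendsto_const_nhds h1 ?_ ?_
  · filter_upwards [self_mem_nhdsWithin] with h hh
    exact Q.nonneg (Q.dom.sub_mem hf (Q.res_mem hh f))
  · filter_upwards [self_mem_nhdsWithin] with h hh
    exact Q.E_sub_res_le hh hf

/-! ### generator -/

/-- `l = L u` for the generator `L` of the form. -/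
def IsGen (u l : H) : Prop := u ∈ Q.dom ∧ ∀ v ∈ Q.dom, Q.E u v = -⟪l, v⟫

section gen

variable {Q}

omit [CompleteSpace H]

lemma IsGen.mem {u l : H} (hg : Q.IsGen u l) : u ∈ Q.dom := hg.1

lemma IsGen.add {u l u' l' : H} (hg : Q.IsGen u l) (hg' : Q.IsGen u' l') :
    Q.IsGen (u + u') (l + l') :=
  ⟨Q.dom.add_mem hg.1 hg'.1, fun v hv => by
    rw [Q.add_left hg.1 hg'.1 hv, hg.2 v hv, hg'.2 v hv, inner_add_left]; ring⟩

lemma IsGen.smul {u l : H} (c : ℝ) (hg : Q.IsGen u l) : Q.IsGen (c • u) (c • l) :=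
  ⟨Q.dom.smul_mem c hg.1, fun v hv => by
    rw [Q.smul_left c hg.1 hv, hg.2 v hv, real_inner_smul_left]; ring⟩

lemma IsGen.sub {u l u' l' : H} (hg : Q.IsGen u l) (hg' : Q.IsGen u' l') :
    Q.IsGen (u - u') (l - l') := by
  have := hg.add (hg'.smul (-1))
  simpa [sub_eq_add_neg] using this

lemma IsGen.unique {u l l' : H} (hg : Q.IsGen u l) (hg' : Q.IsGen u l') : l = l' := by
  have h1 : ∀ v ∈ Q.dom, ⟪l - l', v⟫ = 0 := by
    intro v hv
    have h2 := hg.2 v hv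
    have h3 := hg'.2 v hv
    rw [inner_sub_left]
    linarith
  have h4 : l - l' = 0 := Q.dense'.eq_zero_of_inner_left ℝ h1
  exact sub_eq_zero.1 h4

lemma IsGen.symm {u l u' l' : H} (hg : Q.IsGen u l) (hg' : Q.IsGen u' l') :
    ⟪l, u'⟫ = ⟪u, l'⟫ := by
  have h1 := hg.2 _ hg'.1
  have h2 := hg'.2 _ hg.1
  rw [Q.symm hg.1 hg'.1, h2] at h1
  rw [real_inner_comm l' u]
  linarith

lemma IsGen.energy {u l : H} (hg : Q.IsGen u l) : Q.E u u = -⟪l, u⟫ := hg.2 u hg.1

end gen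

lemma isGen_res {h : ℝ} (hh : 0 < h) (f : H) : Q.IsGen (Q.res h f) (h⁻¹ • (Q.res h f - f)) :=
  ⟨Q.res_mem hh f, fun v hv => by
    have h1 := Q.res_eq hh f hv
    rw [real_inner_smul_left, inner_sub_left]
    field_simp
    linarith⟩

lemma isGen_iff {h : ℝ} (hh : 0 < h) {u l : H} : Q.IsGen u l ↔ u = Q.res h (u - h • l) := by
  constructor
  · intro hg
    apply Q.eq_res hh hg.1
    intro v hv
    rw [hg.2 v hv, inner_sub_left, real_inner_smul_left]
    ring
  · intro he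
    have h1 := Q.isGen_res hh (u - h • l)
    rw [← he] at h1
    have h2 : h⁻¹ • (u - (u - h • l)) = l := by
      rw [sub_sub_cancel, smul_smul, inv_mul_cancel₀ hh.ne', one_smul]
    rwa [h2] at h1

variable {Q} in
lemma IsGen.res_sub {u l : H} (hg : Q.IsGen u l) {h : ℝ} (hh : 0 < h) :
    Q.res h u - u = h • Q.res h l := by
  have h1 := (Q.isGen_iff hh).1 hg
  nth_rewrite 2 [h1]
  rw [map_sub, map_smul]
  abel

variable {Q} in
/-- The resolvent preserves the generator relation. -/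
lemma IsGen.res {u l : H} (hg : Q.IsGen u l) {h : ℝ} (hh : 0 < h) :
    Q.IsGen (Q.res h u) (Q.res h l) := by
  have h2 := Q.isGen_res hh u
  rwa [hg.res_sub hh, smul_smul, inv_mul_cancel₀ hh.ne', one_smul] at h2

/-- continuous operators commuting with the resolvent preserve the generator relation -/
lemma isGen_of_commute {h : ℝ} (hh : 0 < h) {T : H → H}
    (hsub : ∀ x y, T (x - y) = T x - T y) (hsmul : ∀ (c : ℝ) x, T (c • x) = c • T x)
    (hT : ∀ x, T (Q.res h x) = Q.res h (T x)) {u l : H} (hg : Q.IsGen u l) :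
    Q.IsGen (T u) (T l) := by
  rw [Q.isGen_iff hh] at hg ⊢
  rw [← hsmul, ← hsub, ← hT, ← hg]

/-- the domain of the generator is dense for the form norm -/
lemma exists_isGen_near {f : H} (hf : f ∈ Q.dom) {ε : ℝ} (hε : 0 < ε) :
    ∃ u l : H, Q.IsGen u l ∧ Q.en (f - u) < ε ∧ ‖f - u‖ < ε := by
  have h1 : ∀ᶠ h : ℝ in 𝓝[>] 0, Q.E (f - Q.res h f) (f - Q.res h f) < ε ^ 2 :=
    (Q.tendsto_E_sub_res hf).eventually_lt_const (by positivity)
  have h2 : ∀ᶠ h : ℝ in 𝓝[>] 0, ‖f - Q.res h f‖ < ε := by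
    have := ((Q.tendsto_res f).const_sub f).norm
    simp only [sub_self, norm_zero] at this
    exact this.eventually_lt_const hε
  obtain ⟨h, h3, h4, h5⟩ := (h1.and (h2.and self_mem_nhdsWithin)).exists
  refine ⟨_, _, Q.isGen_res h5 f, ?_, h4⟩
  unfold en
  rw [Real.sqrt_lt' hε]
  exact h3

/-! ### Yosida approximation -/

/-- parameters `1/(n+1)` -/
def hn (n : ℕ) : ℝ := ((n : ℝ) + 1)⁻¹

lemma hn_pos (n : ℕ) : 0 < hn n := by unfold hn; positivity

lemma tendsto_hn : Tendsto hn atTop (𝓝[>] 0) := by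
  rw [tendsto_nhdsWithin_iff]
  refine ⟨?_, Eventually.of_forall fun n => hn_pos n⟩
  have := tendsto_one_div_add_atTop_nhds_zero_nat (𝕜 := ℝ)
  refine this.congr fun n => ?_
  unfold hn
  rw [one_div]

/-- Yosida approximation of the generator -/
def yos (n : ℕ) : H →L[ℝ] H := (hn n)⁻¹ • (Q.res (hn n) - 1)

/-- Yosida approximation of the semigroup -/
def ys (n : ℕ) (t : ℝ) : H →L[ℝ] H := NormedSpace.exp (t • Q.yos n)

lemma ys_eq (n : ℕ) (t : ℝ) :
    Q.ys n t = NormedSpace.exp ((t * (hn n)⁻¹) • (Q.res (hn n) - 1)) := by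
  unfold ys yos
  rw [smul_smul]

/-- closed convex sets invariant under the resolvents are invariant under `ys` -/
lemma ys_mem {C : Set H} (hC : Convex ℝ C) (hcl : IsClosed C)
    (hJ : ∀ h : ℝ, 0 < h → ∀ x ∈ C, Q.res h x ∈ C) (n : ℕ) {t : ℝ} (ht : 0 ≤ t) {f : H}
    (hf : f ∈ C) : Q.ys n t f ∈ C := by
  rw [ys_eq]
  exact exp_mem_of_convex hC hcl _ (hJ _ (hn_pos n)) (mul_nonneg ht (inv_nonneg.2 (hn_pos n).le)) hf

lemma norm_ys_le (n : ℕ) {t : ℝ} (ht : 0 ≤ t) (f : H) : ‖Q.ys n t f‖ ≤ ‖f‖ := by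
  have := Q.ys_mem (convex_closedBall (0 : H) ‖f‖) Metric.isClosed_closedBall
    (fun _ hh x hx => by
      simp only [Metric.mem_closedBall, dist_zero_right] at hx ⊢
      exact (Q.norm_res_le x).trans hx) n ht (f := f) (by simp)
  simpa using this

lemma ys_dom (n : ℕ) {t : ℝ} (ht : 0 ≤ t) {f : H} (hf : f ∈ Q.dom) :
    Q.ys n t f ∈ Q.dom ∧ Q.E (Q.ys n t f) (Q.ys n t f) ≤ Q.E f f :=
  Q.ys_mem (Q.convex_energy (Q.E f f)) (Q.isClosed_energy (Q.E f f))
    (fun _ hh x hx => ⟨Q.res_mem hh x, (Q.E_res_le hh hx.1).trans hx.2⟩) n ht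
    (show f ∈ {u : H | u ∈ Q.dom ∧ Q.E u u ≤ Q.E f f} from ⟨hf, le_rfl⟩)

lemma yos_commute (n k : ℕ) : Commute (Q.yos n) (Q.yos k) := by
  have h1 : Commute (Q.res (hn n)) (Q.res (hn k)) := by
    ext f
    exact Q.res_comm _ _ f
  unfold yos
  exact ((h1.sub_left (Commute.one_left _)).sub_right (Commute.one_right _)).smul_left _
    |>.smul_right _

lemma yos_commute_res (n : ℕ) (h : ℝ) : Commute (Q.yos n) (Q.res h) := by
  have h1 : Commute (Q.res (hn n)) (Q.res h) := by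
    ext f
    exact Q.res_comm _ _ f
  unfold yos
  exact (h1.sub_left (Commute.one_left _)).smul_left _

lemma ys_commute_res (n : ℕ) (t h : ℝ) : Commute (Q.ys n t) (Q.res h) :=
  ((Q.yos_commute_res n h).smul_left t).exp_left

lemma ys_commute_yos (n k : ℕ) (t : ℝ) : Commute (Q.ys n t) (Q.yos k) :=
  ((Q.yos_commute n k).smul_left t).exp_left

lemma ys_commute (n k : ℕ) (t s : ℝ) : Commute (Q.ys n t) (Q.ys k s) :=
  ((((Q.yos_commute n k).smul_left t).smul_right s).exp_left).exp_right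

lemma ys_zero (n : ℕ) : Q.ys n 0 = 1 := by
  unfold ys; rw [zero_smul, NormedSpace.exp_zero]

lemma ys_add (n : ℕ) (s t : ℝ) : Q.ys n (s + t) = Q.ys n s * Q.ys n t := by
  unfold ys
  rw [add_smul, NormedSpace.exp_add_of_commute_of_mem_ball (𝕂 := ℝ)
    (((Commute.refl (Q.yos n)).smul_left s).smul_right t)
    ((NormedSpace.expSeries_radius_eq_top ℝ (H →L[ℝ] H)).symm ▸ edist_lt_top _ _)
    ((NormedSpace.expSeries_radius_eq_top ℝ (H →L[ℝ] H)).symm ▸ edist_lt_top _ _)]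

lemma ys_hasDerivAt (n : ℕ) (t : ℝ) (f : H) :
    HasDerivAt (fun s => Q.ys n s f) (Q.ys n t (Q.yos n f)) t := by
  have h1 := hasDerivAt_exp_smul_const (𝕂 := ℝ) (Q.yos n) t
  exact h1.clm_apply (hasDerivAt_const t f) |>.congr_deriv (by simp [ys])

lemma yos_selfAdjoint (n : ℕ) : IsSelfAdjoint (Q.yos n) := by
  have h1 : IsSelfAdjoint (Q.res (hn n)) := by
    rw [ContinuousLinearMap.isSelfAdjoint_iff_isSymmetric]
    intro x y
    exact Q.res_symm _ x y
  have h2 : IsSelfAdjoint (1 : H →L[ℝ] H) := IsSelfAdjoint.one _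
  unfold yos
  exact (IsSelfAdjoint.all ((hn n)⁻¹)).smul (h1.sub h2)

lemma ys_symm (n : ℕ) (t : ℝ) (f g : H) : ⟪Q.ys n t f, g⟫ = ⟪f, Q.ys n t g⟫ := by
  have h1 : IsSelfAdjoint (Q.ys n t) := ((IsSelfAdjoint.all t).smul (Q.yos_selfAdjoint n)).exp
  exact h1.isSymmetric f g

lemma ys_dist (n k : ℕ) {t : ℝ} (ht : 0 ≤ t) (f : H) :
    ‖Q.ys n t f - Q.ys k t f‖ ≤ t * ‖Q.yos n f - Q.yos k f‖ := by
  have hd : ∀ s : ℝ, HasDerivAt (fun s => Q.ys n s (Q.ys k (t - s) f))
      (Q.ys n s (Q.ys k (t - s) (Q.yos n f - Q.yos k f))) s := by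
    intro s
    have h1 : HasDerivAt (fun s => Q.ys n s) (Q.ys n s * Q.yos n) s :=
      hasDerivAt_exp_smul_const (𝕂 := ℝ) (Q.yos n) s
    have h2 : HasDerivAt (fun s => Q.ys k (t - s) f) (-(Q.ys k (t - s) (Q.yos k f))) s := by
      have h3 := (Q.ys_hasDerivAt k (t - s) f).scomp s ((hasDerivAt_id s).const_sub t)
      exact h3.congr_deriv (by simp)
    have h4 := h1.clm_apply h2
    refine h4.congr_deriv ?_
    rw [map_neg, map_sub, map_sub]
    have h5 : (Q.ys n s * Q.yos n) (Q.ys k (t - s) f) = Q.ys n s (Q.ys k (t - s) (Q.yos n f)) := by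
      have := congrArg (fun A : H →L[ℝ] H => A f) (Q.ys_commute_yos k n (t - s)).eq
      change Q.ys k (t - s) (Q.yos n f) = Q.yos n (Q.ys k (t - s) f) at this
      rw [this]
      rfl
    rw [h5, ← sub_eq_add_neg]
  have h2 := norm_image_sub_le_of_norm_deriv_le_segment' (a := 0) (b := t)
    (f := fun s => Q.ys n s (Q.ys k (t - s) f)) (C := ‖Q.yos n f - Q.yos k f‖)
    (fun s _ => (hd s).hasDerivWithinAt) (fun s hs => by
      exact (Q.norm_ys_le n hs.1 _).trans (Q.norm_ys_le k (sub_nonneg.2 hs.2.le) _))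
    t ⟨ht, le_rfl⟩
  simp only [sub_self, sub_zero, ys_zero, one_apply_eq_self] at h2
  linarith

variable {Q} in
lemma IsGen.yos_eq {u l : H} (hg : Q.IsGen u l) (n : ℕ) : Q.yos n u = Q.res (hn n) l := by
  have h1 := hg.res_sub (hn_pos n)
  unfold yos
  rw [smul_apply, sub_apply, one_apply_eq_self, h1, smul_smul,
    inv_mul_cancel₀ (hn_pos n).ne', one_smul]

lemma cauchySeq_ys_gen {u l : H} (hg : Q.IsGen u l) {t : ℝ} (ht : 0 ≤ t) :
    CauchySeq (fun n => Q.ys n t u) := by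
  have h1 : CauchySeq (fun n => Q.res (hn n) l) :=
    ((Q.tendsto_res l).comp tendsto_hn).cauchySeq
  rw [Metric.cauchySeq_iff] at h1 ⊢
  intro ε hε
  obtain ⟨N, hN⟩ := h1 (ε / (t + 1)) (by positivity)
  refine ⟨N, fun n hn' k hk => ?_⟩
  have h2 := Q.ys_dist n k ht u
  have h3 := hN n hn' k hk
  rw [hg.yos_eq, hg.yos_eq] at h2
  rw [dist_eq_norm] at h3 ⊢
  rw [lt_div_iff₀ (by positivity)] at h3
  nlinarith [norm_nonneg (Q.res (hn n) l - Q.res (hn k) l)]

lemma exists_isGen_near' (f : H) {ε : ℝ} (hε : 0 < ε) :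
    ∃ u l : H, Q.IsGen u l ∧ ‖f - u‖ < ε := by
  have h2 : ∀ᶠ h : ℝ in 𝓝[>] 0, ‖f - Q.res h f‖ < ε := by
    have := ((Q.tendsto_res f).const_sub f).norm
    simp only [sub_self, norm_zero] at this
    exact this.eventually_lt_const hε
  obtain ⟨h, h4, h5⟩ := (h2.and self_mem_nhdsWithin).exists
  exact ⟨_, _, Q.isGen_res h5 f, h4⟩

lemma cauchySeq_ys (f : H) {t : ℝ} (ht : 0 ≤ t) : CauchySeq (fun n => Q.ys n t f) := by
  rw [Metric.cauchySeq_iff]
  intro ε hε
  obtain ⟨u, l, hg, hu⟩ := Q.exists_isGen_near' f (show 0 < ε / 3 by positivity)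
  have h1 := Q.cauchySeq_ys_gen hg ht
  rw [Metric.cauchySeq_iff] at h1
  obtain ⟨N, hN⟩ := h1 (ε / 3) (by positivity)
  refine ⟨N, fun n hn' k hk => ?_⟩
  have h3 := hN n hn' k hk
  rw [dist_eq_norm] at h3 ⊢
  have h4 : Q.ys n t f - Q.ys k t f = Q.ys n t (f - u) + (Q.ys n t u - Q.ys k t u) -
      Q.ys k t (f - u) := by
    rw [map_sub, map_sub]; abel
  rw [h4]
  have h5 := Q.norm_ys_le n ht (f - u)
  have h6 := Q.norm_ys_le k ht (f - u)
  have h7 := norm_sub_le (Q.ys n t (f - u) + (Q.ys n t u - Q.ys k t u)) (Q.ys k t (f - u))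
  have h8 := norm_add_le (Q.ys n t (f - u)) (Q.ys n t u - Q.ys k t u)
  linarith

/-! ### the semigroup -/

/-- the value of the semigroup -/
def sgFun (t : ℝ) (f : H) : H := limUnder atTop (fun n => Q.ys n t f)

lemma tendsto_ys {t : ℝ} (ht : 0 ≤ t) (f : H) :
    Tendsto (fun n => Q.ys n t f) atTop (𝓝 (Q.sgFun t f)) :=
  tendsto_nhds_limUnder (cauchySeq_tendsto_of_complete (Q.cauchySeq_ys f ht))

/-- The semigroup `exp (t L)` (identity for `t < 0`). -/
def sg (t : ℝ) : H →L[ℝ] H :=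
  open Classical in
  if ht : 0 ≤ t then
    LinearMap.mkContinuous
      { toFun := Q.sgFun t
        map_add' := fun f g => by
          refine tendsto_nhds_unique (Q.tendsto_ys ht (f + g)) ?_
          simpa using (Q.tendsto_ys ht f).add (Q.tendsto_ys ht g)
        map_smul' := fun c f => by
          refine tendsto_nhds_unique (Q.tendsto_ys ht (c • f)) ?_
          simpa using (Q.tendsto_ys ht f).const_smul c } 1
      (fun f => by
        rw [one_mul]
        exact le_of_tendsto (Q.tendsto_ys ht f).norm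
          (Eventually.of_forall fun n => Q.norm_ys_le n ht f))
  else ContinuousLinearMap.id ℝ H

lemma tendsto_sg {t : ℝ} (ht : 0 ≤ t) (f : H) :
    Tendsto (fun n => Q.ys n t f) atTop (𝓝 (Q.sg t f)) := by
  unfold sg
  rw [dif_pos ht]
  exact Q.tendsto_ys ht f

lemma sg_neg {t : ℝ} (ht : t < 0) : Q.sg t = ContinuousLinearMap.id ℝ H := by
  unfold sg
  rw [dif_neg (not_le.2 ht)]

/-- closed convex sets invariant under all resolvents are invariant under the semigroup -/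
lemma sg_mem {C : Set H} (hC : Convex ℝ C) (hcl : IsClosed C)
    (hJ : ∀ h : ℝ, 0 < h → ∀ x ∈ C, Q.res h x ∈ C) {t : ℝ} (ht : 0 ≤ t) {f : H}
    (hf : f ∈ C) : Q.sg t f ∈ C :=
  hcl.mem_of_tendsto (Q.tendsto_sg ht f) (Eventually.of_forall fun n => Q.ys_mem hC hcl hJ n ht hf)

lemma norm_sg_le (t : ℝ) (f : H) : ‖Q.sg t f‖ ≤ ‖f‖ := by
  rcases lt_or_ge t 0 with ht | ht
  · rw [Q.sg_neg ht]; rfl
  · exact le_of_tendsto (Q.tendsto_sg ht f).norm
      (Eventually.of_forall fun n => Q.norm_ys_le n ht f)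

lemma sg_dom {t : ℝ} (ht : 0 ≤ t) {f : H} (hf : f ∈ Q.dom) :
    Q.sg t f ∈ Q.dom ∧ Q.E (Q.sg t f) (Q.sg t f) ≤ Q.E f f :=
  Q.sg_mem (Q.convex_energy (Q.E f f)) (Q.isClosed_energy (Q.E f f))
    (fun _ hh x hx => ⟨Q.res_mem hh x, (Q.E_res_le hh hx.1).trans hx.2⟩) ht
    (show f ∈ {u : H | u ∈ Q.dom ∧ Q.E u u ≤ Q.E f f} from ⟨hf, le_rfl⟩)

lemma sg_zero : Q.sg 0 = 1 := by
  ext f
  refine tendsto_nhds_unique (Q.tendsto_sg le_rfl f) ?_
  simp only [ys_zero, one_apply_eq_self]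
  exact tendsto_const_nhds

lemma sg_symm (t : ℝ) (f g : H) : ⟪Q.sg t f, g⟫ = ⟪f, Q.sg t g⟫ := by
  rcases lt_or_ge t 0 with ht | ht
  · rw [Q.sg_neg ht]; rfl
  · have h1 : Tendsto (fun n => ⟪Q.ys n t f, g⟫) atTop (𝓝 ⟪Q.sg t f, g⟫) :=
      (Q.tendsto_sg ht f).inner tendsto_const_nhds
    have h2 : Tendsto (fun n => ⟪f, Q.ys n t g⟫) atTop (𝓝 ⟪f, Q.sg t g⟫) :=
      tendsto_const_nhds.inner (Q.tendsto_sg ht g)
    refine tendsto_nhds_unique h1 (h2.congr fun n => ?_)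
    rw [Q.ys_symm]

lemma sg_comm_res (t h : ℝ) (f : H) : Q.sg t (Q.res h f) = Q.res h (Q.sg t f) := by
  rcases lt_or_ge t 0 with ht | ht
  · rw [Q.sg_neg ht]; rfl
  · refine tendsto_nhds_unique (Q.tendsto_sg ht (Q.res h f)) ?_
    have h1 := ((Q.res h).continuous.tendsto _).comp (Q.tendsto_sg ht f)
    refine h1.congr fun n => ?_
    have := congrArg (fun A : H →L[ℝ] H => A f) (Q.ys_commute_res n t h).eq
    simpa using this.symm

lemma sg_add {s t : ℝ} (hs : 0 ≤ s) (ht : 0 ≤ t) (f : H) :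
    Q.sg (s + t) f = Q.sg s (Q.sg t f) := by
  refine tendsto_nhds_unique (Q.tendsto_sg (add_nonneg hs ht) f) ?_
  simp only [ys_add]
  change Tendsto (fun n => Q.ys n s (Q.ys n t f)) atTop _
  rw [tendsto_iff_norm_sub_tendsto_zero]
  have h1 : ∀ n, ‖Q.ys n s (Q.ys n t f) - Q.sg s (Q.sg t f)‖ ≤
      ‖Q.ys n t f - Q.sg t f‖ + ‖Q.ys n s (Q.sg t f) - Q.sg s (Q.sg t f)‖ := by
    intro n
    have h2 : Q.ys n s (Q.ys n t f) - Q.sg s (Q.sg t f) =
        Q.ys n s (Q.ys n t f - Q.sg t f) + (Q.ys n s (Q.sg t f) - Q.sg s (Q.sg t f)) := by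
      rw [map_sub]; abel
    rw [h2]
    exact (norm_add_le _ _).trans (add_le_add_left (Q.norm_ys_le n hs _) _)
  have h3 : Tendsto (fun n => ‖Q.ys n t f - Q.sg t f‖ +
      ‖Q.ys n s (Q.sg t f) - Q.sg s (Q.sg t f)‖) atTop (𝓝 0) := by
    have h4 := tendsto_iff_norm_sub_tendsto_zero.1 (Q.tendsto_sg ht f)
    have h5 := tendsto_iff_norm_sub_tendsto_zero.1 (Q.tendsto_sg hs (Q.sg t f))
    simpa using h4.add h5
  exact squeeze_zero (fun n => norm_nonneg _) h1 h3

/-- the semigroup preserves the generator relation -/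
lemma IsGen.sg' {u l : H} (hg : Q.IsGen u l) (t : ℝ) : Q.IsGen (Q.sg t u) (Q.sg t l) :=
  Q.isGen_of_commute one_pos (T := Q.sg t) (fun x y => map_sub _ x y)
    (fun c x => map_smul _ c x) (fun x => Q.sg_comm_res t 1 x) hg

/-- Lipschitz in time on the domain of the generator -/
lemma norm_sg_sub_le {u l : H} (hg : Q.IsGen u l) {s t : ℝ} (hs : 0 ≤ s) (ht : 0 ≤ t) :
    ‖Q.sg t u - Q.sg s u‖ ≤ |t - s| * ‖l‖ := by
  wlog hst : s ≤ t generalizing s t
  · rw [norm_sub_rev, abs_sub_comm]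
    exact this ht hs (not_le.1 hst).le
  have h1 : ∀ n, ‖Q.ys n t u - Q.ys n s u‖ ≤ ‖l‖ * (t - s) := by
    intro n
    exact norm_image_sub_le_of_norm_deriv_le_segment' (a := s) (b := t)
      (f := fun s => Q.ys n s u) (C := ‖l‖)
      (fun r _ => (Q.ys_hasDerivAt n r u).hasDerivWithinAt) (fun r hr => by
        refine (Q.norm_ys_le n (hs.trans hr.1) _).trans ?_
        rw [hg.yos_eq]
        exact Q.norm_res_le l) t ⟨hst, le_rfl⟩
  rw [abs_of_nonneg (sub_nonneg.2 hst), mul_comm]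
  exact le_of_tendsto ((Q.tendsto_sg ht u).sub (Q.tendsto_sg hs u)).norm (Eventually.of_forall h1)

lemma continuousOn_sg (f : H) : ContinuousOn (fun t => Q.sg t f) (Set.Ici 0) := by
  intro t ht
  rw [ContinuousWithinAt, Metric.tendsto_nhdsWithin_nhds]
  intro ε hε
  obtain ⟨u, l, hg, hu⟩ := Q.exists_isGen_near' f (show 0 < ε / 3 by positivity)
  refine ⟨ε / 3 / (‖l‖ + 1), by positivity, fun {s} hs hd => ?_⟩
  have h1 := Q.norm_sg_sub_le hg (show 0 ≤ t from ht) (show 0 ≤ s from hs)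
  rw [Real.dist_eq, lt_div_iff₀ (by positivity)] at hd
  have h4 : Q.sg s f - Q.sg t f = Q.sg s (f - u) + (Q.sg s u - Q.sg t u) -
      Q.sg t (f - u) := by
    rw [map_sub, map_sub]; abel
  rw [dist_eq_norm, h4]
  have h5 := Q.norm_sg_le s (f - u)
  have h6 := Q.norm_sg_le t (f - u)
  have h7 := norm_sub_le (Q.sg s (f - u) + (Q.sg s u - Q.sg t u)) (Q.sg t (f - u))
  have h8 := norm_add_le (Q.sg s (f - u)) (Q.sg s u - Q.sg t u)
  nlinarith [abs_nonneg (s - t)]

/-- continuity in the energy seminorm -/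
lemma tendsto_en_sg {f : H} (hf : f ∈ Q.dom) {t : ℝ} (ht : 0 ≤ t) :
    Tendsto (fun s => Q.en (Q.sg s f - Q.sg t f)) (𝓝[Set.Ici 0] t) (𝓝 0) := by
  rw [Metric.tendsto_nhdsWithin_nhds]
  intro ε hε
  obtain ⟨u, l, hg, hu, -⟩ := Q.exists_isGen_near hf (show 0 < ε / 4 by positivity)
  have hc := Q.continuousOn_sg l t ht
  rw [ContinuousWithinAt, Metric.tendsto_nhdsWithin_nhds] at hc
  have hc2 := Q.continuousOn_sg u t ht
  rw [ContinuousWithinAt, Metric.tendsto_nhdsWithin_nhds] at hc2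
  obtain ⟨δ1, hδ1, h1⟩ := hc (ε / 4) (by positivity)
  obtain ⟨δ2, hδ2, h2⟩ := hc2 (ε / 4) (by positivity)
  refine ⟨min δ1 δ2, by positivity, fun {s} hs hd => ?_⟩
  have hs0 : 0 ≤ s := hs
  have h3 := h1 hs (lt_of_lt_of_le hd (min_le_left _ _))
  have h4 := h2 hs (lt_of_lt_of_le hd (min_le_right _ _))
  have hG := (IsGen.sg' Q hg s).sub (IsGen.sg' Q hg t)
  rw [dist_eq_norm] at h3 h4
  have h5 : Q.en (Q.sg s u - Q.sg t u) ≤ ε / 4 := by
    unfold en
    rw [Real.sqrt_le_left (by positivity), hG.energy]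
    have h6 := abs_real_inner_le_norm (Q.sg s l - Q.sg t l) (Q.sg s u - Q.sg t u)
    have h7 := neg_abs_le ⟪Q.sg s l - Q.sg t l, Q.sg s u - Q.sg t u⟫
    nlinarith [norm_nonneg (Q.sg s l - Q.sg t l), norm_nonneg (Q.sg s u - Q.sg t u)]
  have hfu := Q.dom.sub_mem hf hg.mem
  have h8 : Q.sg s f - Q.sg t f = (Q.sg s (f - u) + (Q.sg s u - Q.sg t u)) -
      Q.sg t (f - u) := by
    rw [map_sub, map_sub]; abel
  have h9 : Q.en (Q.sg s (f - u)) ≤ Q.en (f - u) := Real.sqrt_le_sqrt (Q.sg_dom hs0 hfu).2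
  have h10 : Q.en (Q.sg t (f - u)) ≤ Q.en (f - u) := Real.sqrt_le_sqrt (Q.sg_dom ht hfu).2
  have h11 := Q.en_sub_le (Q.dom.add_mem (Q.sg_dom hs0 hfu).1 hG.mem) (Q.sg_dom ht hfu).1
  have h12 := Q.en_add_le (Q.sg_dom hs0 hfu).1 hG.mem
  rw [Real.dist_eq, sub_zero, abs_of_nonneg (Q.en_nonneg _), h8]
  linarith

/-- the integrated generator equation -/
lemma sg_sub_eq_integral {u l : H} (hg : Q.IsGen u l) {t : ℝ} (ht : 0 ≤ t) :
    Q.sg t u - u = ∫ s in (0 : ℝ)..t, Q.sg s l := by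
  have h1 : ∀ n, Q.ys n t u - u = ∫ s in (0 : ℝ)..t, Q.ys n s (Q.res (hn n) l) := by
    intro n
    have hc : Continuous (fun s => Q.ys n s (Q.res (hn n) l)) := by
      have := Q.ys_hasDerivAt n
      exact continuous_iff_continuousAt.2 fun s => (this s _).continuousAt
    have h2 := intervalIntegral.integral_eq_sub_of_hasDerivAt (a := 0) (b := t)
      (f := fun s => Q.ys n s u) (f' := fun s => Q.ys n s (Q.res (hn n) l))
      (fun s _ => by rw [← hg.yos_eq]; exact Q.ys_hasDerivAt n s u)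
      (hc.intervalIntegrable _ _)
    rw [h2, ys_zero, one_apply_eq_self]
  have h3 : Tendsto (fun n => ∫ s in (0 : ℝ)..t, Q.ys n s (Q.res (hn n) l)) atTop
      (𝓝 (∫ s in (0 : ℝ)..t, Q.sg s l)) := by
    apply intervalIntegral.tendsto_integral_filter_of_dominated_convergence (fun _ => ‖l‖)
    · refine Eventually.of_forall fun n => ?_
      have hc : Continuous (fun s => Q.ys n s (Q.res (hn n) l)) := by
        have := Q.ys_hasDerivAt n
        exact continuous_iff_continuousAt.2 fun s => (this s _).continuousAt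
      exact hc.aestronglyMeasurable
    · refine Eventually.of_forall fun n => Eventually.of_forall fun s hs => ?_
      rw [Set.uIoc_of_le ht] at hs
      exact (Q.norm_ys_le n hs.1.le _).trans (Q.norm_res_le l)
    · exact intervalIntegrable_const
    · refine Eventually.of_forall fun s hs => ?_
      rw [Set.uIoc_of_le ht] at hs
      have hs0 := hs.1.le
      rw [tendsto_iff_norm_sub_tendsto_zero]
      have h4 : ∀ n, ‖Q.ys n s (Q.res (hn n) l) - Q.sg s l‖ ≤
          ‖Q.res (hn n) l - l‖ + ‖Q.ys n s l - Q.sg s l‖ := by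
        intro n
        have h5 : Q.ys n s (Q.res (hn n) l) - Q.sg s l =
            Q.ys n s (Q.res (hn n) l - l) + (Q.ys n s l - Q.sg s l) := by
          rw [map_sub]; abel
        rw [h5]
        exact (norm_add_le _ _).trans (add_le_add_left (Q.norm_ys_le n hs0 _) _)
      have h6 : Tendsto (fun n => ‖Q.res (hn n) l - l‖ + ‖Q.ys n s l - Q.sg s l‖) atTop (𝓝 0) := by
        have h7 := tendsto_iff_norm_sub_tendsto_zero.1 ((Q.tendsto_res l).comp tendsto_hn)
        have h8 := tendsto_iff_norm_sub_tendsto_zero.1 (Q.tendsto_sg hs0 l)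
        simpa using h7.add h8
      exact squeeze_zero (fun n => norm_nonneg _) h4 h6
  have h4 : Tendsto (fun n => Q.ys n t u - u) atTop (𝓝 (Q.sg t u - u)) :=
    (Q.tendsto_sg ht u).sub_const u
  exact tendsto_nhds_unique h4 (h3.congr fun n => (h1 n).symm)

end CForm

end Crest.Agent.R242
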