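import Mathlib
import Crest.Agent.R242.Semi
import Crest.Agent.R242.ResCore

/-!
Row 242, part R4 (function level): from a closed form on `Lp ℝ 2 (wm m V)` whose domain is
`W^{1,2}` to `SemigroupSpec m V P`.
-/

set_option autoImplicit false

open MeasureTheory Filter Set
open scoped ENNReal NNReal Topology RealInnerProductSpace
open Crest.GeometryTopology.SyntheticRicci

noncomputable section

namespace Crest.Agent.R242

section LpSets

variable {α : Type*} [MeasurableSpace α] {μ : Measure α}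

/-- subsequence converging a.e. of an `L²` convergent sequence -/
lemma semi_exists_subseq_ae {u : ℕ → Lp ℝ 2 μ} {f : Lp ℝ 2 μ} (hu : Tendsto u atTop (𝓝 f)) :
    ∃ ns : ℕ → ℕ, StrictMono ns ∧ ∀ᵐ x ∂μ, Tendsto (fun i => u (ns i) x) atTop (𝓝 (f x)) := by
  have h1 : TendstoInMeasure μ (fun n => (u n : α → ℝ)) atTop f :=
    tendstoInMeasure_of_tendsto_Lp hu
  exact h1.exists_seq_tendsto_ae

lemma semi_isClosed_ae_mem {K : Set ℝ} (hK : IsClosed K) :
    IsClosed {u : Lp ℝ 2 μ | ∀ᵐ x ∂μ, u x ∈ K} := by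
  rw [← isSeqClosed_iff_isClosed]
  intro u f hu hf
  obtain ⟨ns, -, hns⟩ := semi_exists_subseq_ae hf
  have h1 : ∀ᵐ x ∂μ, ∀ i, u (ns i) x ∈ K := ae_all_iff.2 fun i => hu (ns i)
  filter_upwards [hns, h1] with x hx h1x
  exact hK.mem_of_tendsto hx (Eventually.of_forall h1x)

lemma semi_convex_ae_mem {K : Set ℝ} (hK : Convex ℝ K) :
    Convex ℝ {u : Lp ℝ 2 μ | ∀ᵐ x ∂μ, u x ∈ K} := by
  intro u hu v hv a b ha hb hab
  filter_upwards [hu, hv, Lp.coeFn_add (a • u) (b • v), Lp.coeFn_smul a u, Lp.coeFn_smul b v]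
    with x h1 h2 h3 h4 h5
  rw [h3, Pi.add_apply, h4, h5, Pi.smul_apply, Pi.smul_apply]
  exact hK h1 h2 ha hb hab

lemma semi_isClosed_l1 (C : ℝ≥0∞) :
    IsClosed {u : Lp ℝ 2 μ | ∫⁻ x, ‖u x‖ₑ ∂μ ≤ C} := by
  rw [← isSeqClosed_iff_isClosed]
  intro u f hu hf
  obtain ⟨ns, -, hns⟩ := semi_exists_subseq_ae hf
  have h1 : ∀ᵐ x ∂μ, liminf (fun i => ‖u (ns i) x‖ₑ) atTop = ‖f x‖ₑ := by
    filter_upwards [hns] with x hx
    exact hx.enorm.liminf_eq
  change ∫⁻ x, ‖f x‖ₑ ∂μ ≤ C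
  calc ∫⁻ x, ‖f x‖ₑ ∂μ = ∫⁻ x, liminf (fun i => ‖u (ns i) x‖ₑ) atTop ∂μ :=
        lintegral_congr_ae (h1.mono fun x hx => hx.symm)
    _ ≤ liminf (fun i => ∫⁻ x, ‖u (ns i) x‖ₑ ∂μ) atTop :=
        lintegral_liminf_le' fun i => (Lp.aestronglyMeasurable (u (ns i))).enorm
    _ ≤ C := by
        refine liminf_le_of_le (by isBoundedDefault) fun b hb => ?_
        obtain ⟨i, hi⟩ := hb.exists
        exact hi.trans (hu (ns i))

lemma semi_convex_l1 (C : ℝ≥0∞) :
    Convex ℝ {u : Lp ℝ 2 μ | ∫⁻ x, ‖u x‖ₑ ∂μ ≤ C} := by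
  intro u hu v hv a b ha hb hab
  change ∫⁻ x, ‖(a • u + b • v : Lp ℝ 2 μ) x‖ₑ ∂μ ≤ C
  calc ∫⁻ x, ‖(a • u + b • v : Lp ℝ 2 μ) x‖ₑ ∂μ
      ≤ ∫⁻ x, (ENNReal.ofReal a * ‖u x‖ₑ + ENNReal.ofReal b * ‖v x‖ₑ) ∂μ := by
        apply lintegral_mono_ae
        filter_upwards [Lp.coeFn_add (a • u) (b • v), Lp.coeFn_smul a u, Lp.coeFn_smul b v]
          with x h3 h4 h5
        rw [h3, Pi.add_apply, h4, h5, Pi.smul_apply, Pi.smul_apply]
        refine (enorm_add_le _ _).trans (le_of_eq ?_)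
        rw [enorm_smul, enorm_smul, Real.enorm_of_nonneg ha, Real.enorm_of_nonneg hb]
    _ = ENNReal.ofReal a * ∫⁻ x, ‖u x‖ₑ ∂μ + ENNReal.ofReal b * ∫⁻ x, ‖v x‖ₑ ∂μ := by
        rw [lintegral_add_left' ((Lp.aestronglyMeasurable u).enorm.const_mul _),
          lintegral_const_mul' _ _ ENNReal.ofReal_ne_top,
          lintegral_const_mul' _ _ ENNReal.ofReal_ne_top]
    _ ≤ ENNReal.ofReal a * C + ENNReal.ofReal b * C := by gcongr <;> assumption
    _ = C := by
        rw [← add_mul, ← ENNReal.ofReal_add ha hb, hab, ENNReal.ofReal_one, one_mul]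

lemma semi_inner_eq (f g : Lp ℝ 2 μ) : ⟪f, g⟫ = ∫ x, f x * g x ∂μ := by
  rw [MeasureTheory.L2.inner_def]
  refine integral_congr_ae (Eventually.of_forall fun x => ?_)
  simp [mul_comm]

lemma semi_norm_sq (f : Lp ℝ 2 μ) : ‖f‖ ^ 2 = ∫ x, f x ^ 2 ∂μ := by
  rw [← real_inner_self_eq_norm_sq, semi_inner_eq]
  refine integral_congr_ae (Eventually.of_forall fun x => ?_)
  simp [sq]

end LpSets

section Fun

variable {X : Type*} [MetricSpace X] [ProperSpace X] [MeasurableSpace X] [BorelSpace X]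
  {m : Measure X} [IsLocallyFiniteMeasure m] {V : X → ℝ}

open Classical in
/-- the semigroup on functions. -/
def semiP (Q : CForm (Lp ℝ 2 (wm m V))) (t : ℝ) (f : X → ℝ) : X → ℝ :=
  if hf : MemLp f 2 (wm m V) then (Q.sg t (hf.toLp f) : X → ℝ) else f

variable {Q : CForm (Lp ℝ 2 (wm m V))}

lemma semiP_of {t : ℝ} {f : X → ℝ} (hf : MemLp f 2 (wm m V)) :
    semiP Q t f = (Q.sg t (hf.toLp f) : X → ℝ) := by
  unfold semiP; rw [dif_pos hf]

lemma semiP_memLp {t : ℝ} {f : X → ℝ} (hf : MemLp f 2 (wm m V)) :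
    MemLp (semiP Q t f) 2 (wm m V) := by
  rw [semiP_of hf]; exact Lp.memLp _

lemma semiP_toLp {t : ℝ} {f : X → ℝ} (hf : MemLp f 2 (wm m V)) (h2 : MemLp (semiP Q t f) 2 (wm m V)) :
    h2.toLp (semiP Q t f) = Q.sg t (hf.toLp f) := by
  rw [Lp.ext_iff]
  refine (MemLp.coeFn_toLp h2).trans ?_
  rw [semiP_of hf]

/-- The resolvent of the form is `Jr`. -/
lemma semi_res_eq (C : Calc m) (hV : BddM V)
    (hdom : ∀ u : Lp ℝ 2 (wm m V), u ∈ Q.dom ↔ IsSobolev m u)
    (hE : ∀ u v : Lp ℝ 2 (wm m V), u ∈ Q.dom → v ∈ Q.dom → Q.E u v = En m V u v)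
    {h : ℝ} (hh : 0 < h) (f : Lp ℝ 2 (wm m V)) :
    (Q.res h f : X → ℝ) =ᵐ[m] Jr m V h f := by
  have hf : MemLp f 2 m := (memLp_wm_iff hV _ _).1 (Lp.memLp f)
  refine C.isRes_eq_Jr hV hh hf ⟨(hdom _).1 (Q.res_mem hh f), fun v hv => ?_⟩
  have hv2 : MemLp v 2 (wm m V) := (memLp_wm_iff hV _ _).2 hv.1
  have hvae : (hv2.toLp v : X → ℝ) =ᵐ[wm m V] v := MemLp.coeFn_toLp hv2
  have hvae' : (hv2.toLp v : X → ℝ) =ᵐ[m] v := by
    have h := hvae
    unfold Filter.EventuallyEq at h ⊢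
    rwa [ae_wm hV] at h
  have hvd : hv2.toLp v ∈ Q.dom := (hdom _).2 (C.sob_congr hv hvae'.symm)
  have h1 := Q.res_eq hh f hvd
  rw [hE _ _ (Q.res_mem hh f) hvd, C.En_congr hV (ae_eq_refl _) hvae', semi_inner_eq,
    semi_inner_eq] at h1
  have h2 : ∫ x, (Q.res h f : X → ℝ) x * (hv2.toLp v : X → ℝ) x ∂(wm m V) =
      ∫ x, (Q.res h f : X → ℝ) x * v x ∂(wm m V) :=
    integral_congr_ae (hvae.mono fun x hx => by simp only [hx])
  have h3 : ∫ x, (f : X → ℝ) x * (hv2.toLp v : X → ℝ) x ∂(wm m V) =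
      ∫ x, (f : X → ℝ) x * v x ∂(wm m V) :=
    integral_congr_ae (hvae.mono fun x hx => by simp only [hx])
  rw [h2, h3] at h1
  exact h1

/-- The generator relation of the form is `IsWLap`. -/
lemma semi_isGen_iff (C : Calc m) (hV : BddM V)
    (hdom : ∀ u : Lp ℝ 2 (wm m V), u ∈ Q.dom ↔ IsSobolev m u)
    (hE : ∀ u v : Lp ℝ 2 (wm m V), u ∈ Q.dom → v ∈ Q.dom → Q.E u v = En m V u v)
    (u l : Lp ℝ 2 (wm m V)) : Q.IsGen u l ↔ IsWLap m V u l := by
  have ha : ∀ {f g : X → ℝ}, f =ᵐ[wm m V] g ↔ f =ᵐ[m] g := by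
    intro f g
    unfold Filter.EventuallyEq
    rw [ae_wm hV]
  constructor
  · intro hg
    refine ⟨(hdom _).1 hg.1, (memLp_wm_iff hV _ _).1 (Lp.memLp l), fun v hv => ?_⟩
    have hv2 : MemLp v 2 (wm m V) := (memLp_wm_iff hV _ _).2 hv.1
    have hvae : (hv2.toLp v : X → ℝ) =ᵐ[wm m V] v := MemLp.coeFn_toLp hv2
    have hvae' : (hv2.toLp v : X → ℝ) =ᵐ[m] v := ha.1 hvae
    have hvd : hv2.toLp v ∈ Q.dom := (hdom _).2 (C.sob_congr hv hvae'.symm)
    have h1 := hg.2 _ hvd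
    rw [hE _ _ hg.1 hvd, C.En_congr hV (ae_eq_refl _) hvae', semi_inner_eq] at h1
    have h3 : ∫ x, (l : X → ℝ) x * (hv2.toLp v : X → ℝ) x ∂(wm m V) =
        ∫ x, (l : X → ℝ) x * v x ∂(wm m V) :=
      integral_congr_ae (hvae.mono fun x hx => by simp only [hx])
    rw [h3] at h1
    exact h1
  · intro hg
    refine ⟨(hdom _).2 hg.1, fun v hv => ?_⟩
    rw [hE _ _ ((hdom _).2 hg.1) hv, semi_inner_eq]
    exact hg.2.2 _ ((hdom _).1 hv)

/-- The semigroup on functions satisfies the specification. -/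
theorem semigroup_of_form (C : Calc m) (hV : BddM V)
    (hdom : ∀ u : Lp ℝ 2 (wm m V), u ∈ Q.dom ↔ IsSobolev m u)
    (hE : ∀ u v : Lp ℝ 2 (wm m V), u ∈ Q.dom → v ∈ Q.dom → Q.E u v = En m V u v) :
    SemigroupSpec m V (semiP Q) := by
  have ha : ∀ {f g : X → ℝ}, f =ᵐ[wm m V] g ↔ f =ᵐ[m] g := by
    intro f g
    unfold Filter.EventuallyEq
    rw [ae_wm hV]
  have hL : ∀ {f : X → ℝ}, MemLp f 2 m → MemLp f 2 (wm m V) := fun hf =>
    (memLp_wm_iff hV _ _).2 hf
  have hL' : ∀ {f : X → ℝ}, MemLp f 2 (wm m V) → MemLp f 2 m := fun hf =>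
    (memLp_wm_iff hV _ _).1 hf
  have hres : ∀ (h : ℝ), 0 < h → ∀ f : Lp ℝ 2 (wm m V), (Q.res h f : X → ℝ) =ᵐ[m] Jr m V h f :=
    fun h hh f => semi_res_eq C hV hdom hE hh f
  -- invariance of value constraints
  have hval : ∀ K : Set ℝ, IsClosed K → Convex ℝ K →
      (∀ h : ℝ, 0 < h → ∀ f : X → ℝ, MemLp f 2 m → (∀ᵐ x ∂m, f x ∈ K) →
        ∀ᵐ x ∂m, Jr m V h f x ∈ K) →
      ∀ t, 0 ≤ t → ∀ f, MemLp f 2 m → (∀ᵐ x ∂m, f x ∈ K) → ∀ᵐ x ∂m, semiP Q t f x ∈ K := by
    intro K hK hKc hJ t ht f hf hfK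
    have hf2 := hL hf
    rw [semiP_of hf2]
    have h1 : (hf2.toLp f : X → ℝ) =ᵐ[wm m V] f := MemLp.coeFn_toLp hf2
    have h2 : Q.sg t (hf2.toLp f) ∈ {u : Lp ℝ 2 (wm m V) | ∀ᵐ x ∂(wm m V), u x ∈ K} := by
      refine Q.sg_mem (semi_convex_ae_mem hKc) (semi_isClosed_ae_mem hK) ?_ ht ?_
      · intro h hh u hu
        have hu' : ∀ᵐ x ∂(wm m V), u x ∈ K := hu
        rw [ae_wm hV] at hu'
        change ∀ᵐ x ∂(wm m V), (Q.res h u : X → ℝ) x ∈ K
        rw [ae_wm hV]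
        filter_upwards [hres h hh u, hJ h hh u (hL' (Lp.memLp u)) hu'] with x h3 h4
        rw [h3]; exact h4
      · change ∀ᵐ x ∂(wm m V), (hf2.toLp f : X → ℝ) x ∈ K
        have hfK' : ∀ᵐ x ∂(wm m V), f x ∈ K := by rw [ae_wm hV]; exact hfK
        filter_upwards [h1, hfK'] with x h3 h4
        rw [h3]; exact h4
    have h2' : ∀ᵐ x ∂(wm m V), (Q.sg t (hf2.toLp f) : X → ℝ) x ∈ K := h2
    rwa [ae_wm hV] at h2'
  have hdiff : ∀ (s t : ℝ) (f : X → ℝ) (hf2 : MemLp f 2 (wm m V)),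
      (fun x => semiP Q s f x - semiP Q t f x) =ᵐ[wm m V]
        ((Q.sg s (hf2.toLp f) - Q.sg t (hf2.toLp f) : Lp ℝ 2 (wm m V)) : X → ℝ) := by
    intro s t f hf2
    filter_upwards [Lp.coeFn_sub (Q.sg s (hf2.toLp f)) (Q.sg t (hf2.toLp f))] with x hx
    rw [hx, semiP_of hf2, semiP_of hf2, Pi.sub_apply]
  refine
    { memLp := ?_, congr := ?_, add := ?_, smul := ?_, zero := ?_, semig := ?_, nonneg := ?_,
      le_const := ?_, symm := ?_, l2 := ?_, l1 := ?_, sob := ?_, cont_l2 := ?_, cont_sob := ?_,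
      gen := ?_, gen_int := ?_, comm := ?_ }
  · -- memLp
    intro t _ f hf
    exact hL' (semiP_memLp (hL hf))
  · -- congr
    intro t _ f g hf hfg
    have hf2 := hL hf
    have hg2 : MemLp g 2 (wm m V) := hL (hf.ae_eq hfg)
    rw [semiP_of hf2, semiP_of hg2]
    have : hf2.toLp f = hg2.toLp g := (MemLp.toLp_eq_toLp_iff hf2 hg2).2 (ha.2 hfg)
    rw [this]
  · -- add
    intro t _ f g hf hg
    have hf2 := hL hf
    have hg2 := hL hg
    have hfg2 : MemLp (fun x => f x + g x) 2 (wm m V) := hf2.add hg2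
    rw [semiP_of hf2, semiP_of hg2, semiP_of hfg2, ← ha]
    have h1 : hfg2.toLp (fun x => f x + g x) = hf2.toLp f + hg2.toLp g :=
      MemLp.toLp_add hf2 hg2
    rw [h1, map_add]
    exact Lp.coeFn_add _ _
  · -- smul
    intro t _ c f hf
    have hf2 := hL hf
    have hcf2 : MemLp (fun x => c * f x) 2 (wm m V) := hf2.const_mul c
    rw [semiP_of hf2, semiP_of hcf2, ← ha]
    have h1 : hcf2.toLp (fun x => c * f x) = c • hf2.toLp f := MemLp.toLp_const_smul c hf2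
    rw [h1, map_smul]
    exact Lp.coeFn_smul _ _
  · -- zero
    intro f hf
    have hf2 := hL hf
    rw [semiP_of hf2, ← ha, Q.sg_zero]
    exact MemLp.coeFn_toLp hf2
  · -- semigroup
    intro s t hs ht f hf
    have hf2 := hL hf
    rw [semiP_of hf2, semiP_of (semiP_memLp hf2), semiP_toLp hf2, Q.sg_add hs ht]
  · -- nonneg
    intro t ht f hf h0
    exact hval (Set.Ici 0) isClosed_Ici (convex_Ici 0)
      (fun h hh g hg h1 => C.Jr_nonneg hV hh hg h1) t ht f hf h0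
  · -- le_const
    intro t ht f hf c hc h0
    exact hval (Set.Iic c) isClosed_Iic (convex_Iic c)
      (fun h hh g hg h1 => C.Jr_le_const hV hh hg hc h1) t ht f hf h0
  · -- symm
    intro t _ f g hf hg
    have hf2 := hL hf
    have hg2 := hL hg
    have h1 := Q.sg_symm t (hf2.toLp f) (hg2.toLp g)
    rw [semi_inner_eq, semi_inner_eq] at h1
    rw [semiP_of hf2, semiP_of hg2]
    calc _ = _ := integral_congr_ae ((MemLp.coeFn_toLp hg2).mono fun x hx => by simp only [hx])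
      _ = _ := h1
      _ = _ := integral_congr_ae ((MemLp.coeFn_toLp hf2).mono fun x hx => by simp only [hx])
  · -- l2
    intro t _ f hf
    have hf2 := hL hf
    have h1 : ‖Q.sg t (hf2.toLp f)‖ ^ 2 ≤ ‖hf2.toLp f‖ ^ 2 :=
      pow_le_pow_left₀ (norm_nonneg _) (Q.norm_sg_le t _) 2
    rw [semi_norm_sq, semi_norm_sq] at h1
    rw [semiP_of hf2]
    refine h1.trans (le_of_eq ?_)
    exact integral_congr_ae ((MemLp.coeFn_toLp hf2).mono fun x hx => by simp only [hx])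
  · -- l1
    intro t ht f hf hf1
    have hf2 := hL hf
    have hf1' : Integrable f (wm m V) := (integrable_wm_iff hV f).2 hf1
    have hmem : Q.sg t (hf2.toLp f) ∈ {u : Lp ℝ 2 (wm m V) |
        ∫⁻ x, ‖u x‖ₑ ∂(wm m V) ≤ ∫⁻ x, ‖f x‖ₑ ∂(wm m V)} := by
      refine Q.sg_mem (semi_convex_l1 _) (semi_isClosed_l1 _) ?_ ht ?_
      · intro h hh u hu
        have hu' : ∫⁻ x, ‖u x‖ₑ ∂(wm m V) ≤ ∫⁻ x, ‖f x‖ₑ ∂(wm m V) := hu
        have hui : Integrable u (wm m V) :=
          ⟨(Lp.aestronglyMeasurable u), lt_of_le_of_lt hu' hf1'.2⟩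
        have h3 := C.Jr_l1 hV hh (hL' (Lp.memLp u)) ((integrable_wm_iff hV _).1 hui)
        have h4 : Integrable (Jr m V h u) (wm m V) := (integrable_wm_iff hV _).2 h3.1
        change ∫⁻ x, ‖(Q.res h u : X → ℝ) x‖ₑ ∂(wm m V) ≤ _
        refine le_trans ?_ hu'
        rw [lintegral_congr_ae (g := fun x => ‖Jr m V h u x‖ₑ)
          ((ha.2 (hres h hh u)).mono fun x hx => by simp only [hx])]
        rw [← ofReal_integral_norm_eq_lintegral_enorm h4,
          ← ofReal_integral_norm_eq_lintegral_enorm hui]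
        exact ENNReal.ofReal_le_ofReal (by simpa [Real.norm_eq_abs] using h3.2)
      · change ∫⁻ x, ‖(hf2.toLp f : X → ℝ) x‖ₑ ∂(wm m V) ≤ ∫⁻ x, ‖f x‖ₑ ∂(wm m V)
        exact le_of_eq (lintegral_congr_ae
          ((MemLp.coeFn_toLp hf2).mono fun x hx => by simp only [hx]))
    have hmem' : ∫⁻ x, ‖(Q.sg t (hf2.toLp f) : X → ℝ) x‖ₑ ∂(wm m V) ≤
        ∫⁻ x, ‖f x‖ₑ ∂(wm m V) := hmem
    have hint : Integrable (semiP Q t f) (wm m V) := by
      rw [semiP_of hf2]
      exact ⟨(Lp.aestronglyMeasurable _), lt_of_le_of_lt hmem' hf1'.2⟩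
    refine ⟨(integrable_wm_iff hV _).1 hint, ?_⟩
    have h5 : ∫⁻ x, ‖semiP Q t f x‖ₑ ∂(wm m V) ≤ ∫⁻ x, ‖f x‖ₑ ∂(wm m V) := by
      rw [semiP_of hf2]; exact hmem'
    rw [← ofReal_integral_norm_eq_lintegral_enorm hint,
      ← ofReal_integral_norm_eq_lintegral_enorm hf1'] at h5
    have h6 := (ENNReal.ofReal_le_ofReal_iff (integral_nonneg fun x => norm_nonneg _)).1 h5
    simpa [Real.norm_eq_abs] using h6
  · -- sob
    intro t ht f hf
    have hf2 := hL hf.1
    have hfae : (hf2.toLp f : X → ℝ) =ᵐ[m] f := ha.1 (MemLp.coeFn_toLp hf2)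
    have hfd : hf2.toLp f ∈ Q.dom := (hdom _).2 (C.sob_congr hf hfae.symm)
    have h1 := Q.sg_dom ht hfd
    rw [semiP_of hf2]
    refine ⟨(hdom _).1 h1.1, ?_⟩
    have h2 := h1.2
    rw [hE _ _ h1.1 h1.1, hE _ _ hfd hfd, C.En_congr hV hfae hfae] at h2
    exact h2
  · -- cont_l2
    intro f hf t ht
    have hf2 := hL hf
    have hc := Q.continuousOn_sg (hf2.toLp f) t ht
    have h1 : Tendsto (fun s => ‖Q.sg s (hf2.toLp f) - Q.sg t (hf2.toLp f)‖ ^ 2)
        (𝓝[Set.Ici (0 : ℝ)] t) (𝓝 0) := by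
      have := (tendsto_iff_norm_sub_tendsto_zero.1 hc).pow 2
      simpa using this
    obtain ⟨B, hB⟩ := hV.2
    have h2 : Tendsto (fun s => Real.exp B * ‖Q.sg s (hf2.toLp f) - Q.sg t (hf2.toLp f)‖ ^ 2)
        (𝓝[Set.Ici (0 : ℝ)] t) (𝓝 0) := by
      simpa using h1.const_mul (Real.exp B)
    refine squeeze_zero (fun s => integral_nonneg fun x => sq_nonneg _) (fun s => ?_) h2
    rw [semi_norm_sq]
    have h3 : ∫ x, ((Q.sg s (hf2.toLp f) - Q.sg t (hf2.toLp f) : Lp ℝ 2 (wm m V)) : X → ℝ) x ^ 2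
        ∂(wm m V) = ∫ x, (semiP Q s f x - semiP Q t f x) ^ 2 ∂(wm m V) :=
      integral_congr_ae ((hdiff s t f hf2).mono fun x hx => by simp only [← hx])
    rw [h3, integral_wm hV, ← integral_const_mul]
    have h4 : MemLp (fun x => semiP Q s f x - semiP Q t f x) 2 m :=
      (hL' (semiP_memLp hf2)).sub (hL' (semiP_memLp hf2))
    have h5 : Integrable (fun x => (semiP Q s f x - semiP Q t f x) ^ 2) m := h4.integrable_sq
    have h6 : Integrable (fun x => (semiP Q s f x - semiP Q t f x) ^ 2) (wm m V) :=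
      (integrable_wm_iff hV _).2 h5
    apply integral_mono_of_nonneg (Eventually.of_forall fun x => sq_nonneg _)
    · have h7 : Integrable (fun x => Real.exp (V x) * (semiP Q s f x - semiP Q t f x) ^ 2) m := by
        refine h5.bdd_mul (c := Real.exp B) ?_ ?_
        · exact (Real.measurable_exp.comp hV.1).aestronglyMeasurable
        · refine Eventually.of_forall fun x => ?_
          rw [Real.norm_eq_abs, abs_of_pos (Real.exp_pos _)]
          exact Real.exp_le_exp.2 ((le_abs_self _).trans (hB x))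
      exact h7.const_mul _
    · refine Eventually.of_forall fun x => ?_
      change (semiP Q s f x - semiP Q t f x) ^ 2 ≤
        Real.exp B * (Real.exp (V x) * (semiP Q s f x - semiP Q t f x) ^ 2)
      rw [← mul_assoc, ← Real.exp_add]
      have h8 : 1 ≤ Real.exp (B + V x) := by
        rw [← Real.exp_zero]
        exact Real.exp_le_exp.2 (by have := neg_abs_le (V x); have := hB x; linarith)
      nlinarith [sq_nonneg (semiP Q s f x - semiP Q t f x)]
  · -- cont_sob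
    intro f hf t ht
    have hf2 := hL hf.1
    have hfae : (hf2.toLp f : X → ℝ) =ᵐ[m] f := ha.1 (MemLp.coeFn_toLp hf2)
    have hfd : hf2.toLp f ∈ Q.dom := (hdom _).2 (C.sob_congr hf hfae.symm)
    have h1 : Tendsto (fun s => Q.en (Q.sg s (hf2.toLp f) - Q.sg t (hf2.toLp f)) ^ 2)
        (𝓝[Set.Ici (0 : ℝ)] t) (𝓝 0) := by
      have := (Q.tendsto_en_sg hfd ht).pow 2
      simpa using this
    obtain ⟨B, hB⟩ := hV.2
    have h2 : Tendsto (fun s => Real.exp B *
        Q.en (Q.sg s (hf2.toLp f) - Q.sg t (hf2.toLp f)) ^ 2)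
        (𝓝[Set.Ici (0 : ℝ)] t) (𝓝 0) := by
      simpa using h1.const_mul (Real.exp B)
    refine squeeze_zero' (Eventually.of_forall fun s => integral_nonneg fun x => sq_nonneg _) ?_ h2
    filter_upwards [self_mem_nhdsWithin] with s hs
    have hsd := Q.dom.sub_mem (Q.sg_dom (show 0 ≤ s from hs) hfd).1 (Q.sg_dom ht hfd).1
    rw [Q.en_sq hsd, hE _ _ hsd hsd]
    have hae := ha.1 (hdiff s t f hf2)
    rw [C.En_congr hV hae.symm hae.symm]
    have hsob : IsSobolev m (fun x => semiP Q s f x - semiP Q t f x) :=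
      C.sob_congr ((hdom _).1 hsd) hae.symm
    rw [C.En_self hV hsob, integral_wm hV, ← integral_const_mul]
    have h5 : Integrable (fun x => minWeakGrad m (fun x => semiP Q s f x - semiP Q t f x) x ^ 2) m :=
      hsob.2.2.integrable_sq
    apply integral_mono_of_nonneg (Eventually.of_forall fun x => sq_nonneg _)
    · have h7 : Integrable (fun x => Real.exp (V x) *
          minWeakGrad m (fun x => semiP Q s f x - semiP Q t f x) x ^ 2) m := by
        refine h5.bdd_mul (c := Real.exp B) ?_ ?_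
        · exact (Real.measurable_exp.comp hV.1).aestronglyMeasurable
        · refine Eventually.of_forall fun x => ?_
          rw [Real.norm_eq_abs, abs_of_pos (Real.exp_pos _)]
          exact Real.exp_le_exp.2 ((le_abs_self _).trans (hB x))
      exact h7.const_mul _
    · refine Eventually.of_forall fun x => ?_
      change minWeakGrad m (fun x => semiP Q s f x - semiP Q t f x) x ^ 2 ≤
        Real.exp B * (Real.exp (V x) *
          minWeakGrad m (fun x => semiP Q s f x - semiP Q t f x) x ^ 2)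
      rw [← mul_assoc, ← Real.exp_add]
      have h8 : 1 ≤ Real.exp (B + V x) := by
        rw [← Real.exp_zero]
        exact Real.exp_le_exp.2 (by have := neg_abs_le (V x); have := hB x; linarith)
      nlinarith [sq_nonneg (minWeakGrad m (fun x => semiP Q s f x - semiP Q t f x) x)]
  · -- gen
    intro u g hug t ht
    have hu2 := hL hug.1.1
    have hg2 := hL hug.2.1
    have hG : Q.IsGen (hu2.toLp u) (hg2.toLp g) := by
      rw [semi_isGen_iff C hV hdom hE]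
      exact C.isWLap_congr hV hug (ha.1 (MemLp.coeFn_toLp hu2)).symm
        (ha.1 (MemLp.coeFn_toLp hg2)).symm
    have h1 := CForm.IsGen.sg' Q hG t
    rw [semi_isGen_iff C hV hdom hE] at h1
    rw [semiP_of hu2, semiP_of hg2]
    exact h1
  · -- gen_int
    intro u g hug t ht q hq
    have hu2 := hL hug.1.1
    have hg2 := hL hug.2.1
    have hq2 := hL hq
    have hG : Q.IsGen (hu2.toLp u) (hg2.toLp g) := by
      rw [semi_isGen_iff C hV hdom hE]
      exact C.isWLap_congr hV hug (ha.1 (MemLp.coeFn_toLp hu2)).symm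
        (ha.1 (MemLp.coeFn_toLp hg2)).symm
    have h1 := Q.sg_sub_eq_integral hG ht
    have hcont : ContinuousOn (fun s => Q.sg s (hg2.toLp g)) (Set.uIcc 0 t) := by
      refine (Q.continuousOn_sg (hg2.toLp g)).mono ?_
      rw [Set.uIcc_of_le ht]
      exact fun s hs => hs.1
    have hii : IntervalIntegrable (fun s => Q.sg s (hg2.toLp g)) volume 0 t :=
      hcont.intervalIntegrable
    have heq : ∀ s, ∫ x, semiP Q s g x * q x ∂(wm m V) = ⟪hq2.toLp q, Q.sg s (hg2.toLp g)⟫ := by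
      intro s
      rw [semi_inner_eq, semiP_of hg2]
      refine integral_congr_ae ((MemLp.coeFn_toLp hq2).mono fun x hx => ?_)
      simp only [hx]; ring
    constructor
    · simp_rw [heq]
      have hc2 : ContinuousOn (fun s => ⟪hq2.toLp q, Q.sg s (hg2.toLp g)⟫) (Set.uIcc 0 t) :=
        continuousOn_const.inner hcont
      exact hc2.intervalIntegrable
    · simp_rw [heq]
      have h3 := (innerSL ℝ (hq2.toLp q)).intervalIntegral_comp_comm hii
      simp only [innerSL_apply_apply] at h3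
      rw [h3, ← h1, semi_inner_eq]
      refine integral_congr_ae ?_
      filter_upwards [MemLp.coeFn_toLp hq2, MemLp.coeFn_toLp hu2,
        Lp.coeFn_sub (Q.sg t (hu2.toLp u)) (hu2.toLp u)] with x h4 h5 h6
      rw [h4, h6, Pi.sub_apply, h5, semiP_of hu2]
      ring
  · -- comm
    intro t ht h hh f hf
    have hf2 := hL hf
    have h1 : (hf2.toLp f : X → ℝ) =ᵐ[m] f := ha.1 (MemLp.coeFn_toLp hf2)
    have hJ := C.Jr_memLp hV hh hf
    have hJ2 := hL hJ
    have h2 : hJ2.toLp (Jr m V h f) = Q.res h (hf2.toLp f) := by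
      rw [Lp.ext_iff]
      refine (MemLp.coeFn_toLp hJ2).trans (ha.2 ?_)
      have h3 := hres h hh (hf2.toLp f)
      rw [Jr_congr' hV h1] at h3
      exact h3.symm
    rw [semiP_of hJ2, h2, Q.sg_comm_res]
    have h4 := hres h hh (Q.sg t (hf2.toLp f))
    rw [semiP_of hf2]
    exact h4

end Fun

end Crest.Agent.R242
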