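import Mathlib
import Crest.Agent.R242.SemiFun
import Crest.Agent.R242.Res

/-!
Row 242, part R4: existence of the semigroup `e^{tL}`, `L u = Δ u + ⟨∇V, ∇u⟩` (as in Iface2).
-/

set_option autoImplicit false

open MeasureTheory Filter Set
open scoped ENNReal NNReal Topology
open Crest.GeometryTopology.SyntheticRicci

noncomputable section

namespace Crest.Agent.R242

variable {X : Type*} [MetricSpace X] [ProperSpace X] [MeasurableSpace X] [BorelSpace X]
  {m : Measure X} [IsLocallyFiniteMeasure m] [m.IsOpenPosMeasure] {k N : ℝ}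

theorem exists_semigroup (H : Hyp m k N) {V : X → ℝ} (hV : BddLip V) :
    ∃ P : ℝ → (X → ℝ) → (X → ℝ), SemigroupSpec m V P :=
  ⟨semiP (form (calc_of_hyp H) hV.bddM),
    semigroup_of_form (calc_of_hyp H) hV.bddM (fun _ => Iff.rfl) (fun _ _ _ _ => rfl)⟩

end Crest.Agent.R242
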