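import Crest.Agent.R242.FinMain
import Crest.Agent.R242.LamInst
import Crest.Agent.R242.DIter
import Crest.Agent.R242.DInst
import Crest.Agent.R242.GamInst
import Crest.Agent.R242.SemiEx
import Crest.Agent.R242.G3
import Crest.Agent.R242.CutA

/-!
Row 242, part F: `LamFam m F Gf k` and `JApprox m k h C` from the parts G, D, LamInst.
-/

set_option autoImplicit false
set_option linter.unusedSectionVars false

open MeasureTheory Filter Set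
open scoped ENNReal NNReal Topology
open Crest.GeometryTopology.SyntheticRicci

noncomputable section

namespace Crest.Agent.R242
namespace Fin

variable {X : Type*} [MetricSpace X] [ProperSpace X] [MeasurableSpace X] [BorelSpace X]
  {m : Measure X} [IsLocallyFiniteMeasure m] [m.IsOpenPosMeasure] [IsUnifLocDoublingMeasure m]
  {k N h₀ δ ε B C3 : ℝ} {F Gf : X → ℝ} {LF LG : ℝ≥0} {P : ℝ → (X → ℝ) → (X → ℝ)}

theorem oneStep_of (H : Hyp m k N) (GF : GFacts m k) (hF : BddLip F) (hGc : Continuous Gf)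
    (hGB : ∀ x, |Gf x| ≤ B) (hH : HasWeakHessLe m F Gf) (hε : 0 < ε) {h : ℝ} (hh : 0 < h) :
    OneStep m (fun x => F x / ε) Gf ε k h := by
  intro z φ hz hzb hφ hφb hφ0
  have h1 := (D_oneStep H (calc_of_hyp H) GF hF hGc hGB hH hε hh hz hzb hφ hφb hφ0).2.2.2
  refine h1.trans (le_of_eq ?_)
  congr 2
  refine integral_congr_ae (Eventually.of_forall fun x => ?_)
  ring

/-- `Jc f` is close to `f` -/
theorem Jc_app (H : Hyp m k N) (GJ : GoodJ m k h₀) (hgeo : HasBddGeoPlans m) {h1 C : ℝ}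
    (hG3 : ∀ h : ℝ, 0 < h → h ≤ h1 → ∀ (f : X → ℝ) (L : ℝ≥0),
      IsSobolev m f → LipschitzWith L f → ∃ v : X → ℝ, v =ᵐ[m] J m h f ∧
        LipschitzWith (2 * L) v ∧ ∀ x, |v x - f x| ≤ C * Real.sqrt h * L)
    (hδ : 0 < δ) (hδ' : δ ≤ h₀) (hδ1 : δ ≤ h1) {f : X → ℝ} {L : ℝ≥0} (hf : IsSobolev m f)
    (hfL : LipschitzWith L f) (hfb : ∃ M : ℝ, ∀ᵐ x ∂m, |f x| ≤ M) (x : X) :
    |Jc m δ f x - f x| ≤ 3 * C * √δ * L := by
  obtain ⟨v, hv, hvL, hvf⟩ := hG3 δ hδ hδ1 f L hf hfL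
  have hvs : IsSobolev m v := sob_congr H (Jr_sob H di_bl0 hδ hf.1) hv.symm
  obtain ⟨w, hw, -, hwv⟩ := hG3 δ hδ hδ1 v (2 * L) hvs hvL
  have hJJ : Jc m δ f =ᵐ[m] w := by
    have h1 := Jc_ae H (calc_of_hyp H) GJ hgeo hδ hδ' hf.1 hfb
    have h2 : J m δ (J m δ f) = J m δ v := gamA_congr hv.symm
    rw [h2] at h1
    exact h1.trans hw.symm
  have hb : ∀ᵐ y ∂m, |Jc m δ f y - f y| ≤ 3 * C * √δ * L := by
    filter_upwards [hJJ] with y hy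
    rw [hy]
    have a1 := hvf y
    have a2 := hwv y
    push_cast at a2
    calc |w y - f y| ≤ |w y - v y| + |v y - f y| := abs_sub_le _ _ _
      _ ≤ C * √δ * (2 * L) + C * √δ * L := add_le_add a2 a1
      _ = _ := by ring
  exact gamA_le_of_ae (m := m) (u := fun y => |Jc m δ f y - f y|)
    (((Jc_continuous H (calc_of_hyp H) GJ hgeo hδ hδ' hf.1 hfb).sub hfL.continuous).abs)
    continuous_const hb x

theorem exists_jApprox (H : Hyp m k N) (GJ : GoodJ m k h₀) (hG3 : G3Concl m) :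
    ∃ h C : ℝ, 0 < h ∧ 0 ≤ C ∧ JApprox m k h C := by
  obtain ⟨h1, C, h1pos, hC, hG⟩ := hG3
  refine ⟨min h₀ h1, C, lt_min GJ.pos h1pos, hC, ⟨fun δ hδ hδ' f hf hf2 =>
    be_ae H GJ hδ (hδ'.trans (min_le_left _ _)) hf hf2, fun δ hδ hδ' f L hf hfc => ?_⟩⟩
  obtain ⟨v, hv, -, hvf⟩ := hG δ hδ (hδ'.trans (min_le_right _ _)) f L
    (sob_of_lip_hcs H hf hfc) hf
  filter_upwards [hv] with x hx
  rw [← hx]
  exact hvf x

/-- everything known for a fixed `δ`, `ε = δ²` -/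
structure LamCtx (m : Measure X) (k N h₀ δ : ℝ) (F Gf : X → ℝ) (LF LG : ℝ≥0) (B C3 : ℝ)
    (P : ℝ → (X → ℝ) → (X → ℝ)) : Prop where
  H : Hyp m k N
  GJ : GoodJ m k h₀
  hgeo : HasBddGeoPlans m
  hδ : 0 < δ
  hδ' : δ ≤ h₀
  hδ1 : δ ≤ 1
  hF : BddLip F
  hFl : LipschitzWith LF F
  S : SemigroupSpec m (fun x => F x / δ ^ 2) P
  hOS : ∀ h : ℝ, 0 < h → OneStep m (fun x => F x / δ ^ 2) Gf (δ ^ 2) k h
  hGl : LipschitzWith LG Gf
  hB0 : 0 ≤ B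
  hGB : ∀ x, |Gf x| ≤ B
  hC3 : 0 ≤ C3
  hJc : ∀ (f : X → ℝ) (L : ℝ≥0), IsSobolev m f → LipschitzWith L f →
    (∃ M : ℝ, ∀ᵐ x ∂m, |f x| ≤ M) → ∀ x, |Jc m δ f x - f x| ≤ C3 * √δ * L

namespace LamCtx

variable (c : LamCtx m k N h₀ δ F Gf LF LG B C3 P)
include c

theorem hε : 0 < δ ^ 2 := pow_pos c.hδ 2

theorem hV : BddLip (fun x => F x / δ ^ 2) := by
  have := c.hF.const_mul (δ ^ 2)⁻¹
  refine (congrArg BddLip ?_).mp this
  funext x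
  rw [div_eq_inv_mul]

theorem hVL : ∀ᵐ x ∂m, minWeakGrad m (fun x => F x / δ ^ 2) x ≤ LF / δ ^ 2 := by
  have hε := c.hε
  have hl : LipschitzWith (Real.toNNReal (LF / δ ^ 2)) (fun x => F x / δ ^ 2) := by
    refine LipschitzWith.of_dist_le_mul fun x y => ?_
    rw [Real.coe_toNNReal _ (by positivity), Real.dist_eq, ← sub_div, abs_div, abs_of_pos hε,
      div_mul_eq_mul_div]
    have := c.hFl.dist_le_mul x y
    rw [Real.dist_eq] at this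
    gcongr
  have h1 := wg_le_of_lip c.H hl
  rw [Real.coe_toNNReal _ (by positivity)] at h1
  exact h1

theorem exp_le {θ : ℝ} (hθ : 0 ≤ θ) (hθ1 : θ ≤ 1) : (B + δ ^ 2 * k) * θ ≤ B + k := by
  have h1 : δ ^ 2 ≤ 1 := pow_le_one₀ c.hδ.le c.hδ1
  have hk := c.H.kpos
  have hB := c.hB0
  have h2 : δ ^ 2 * k ≤ k := by nlinarith
  have h3 : 0 ≤ B + δ ^ 2 * k := by have := c.hε; positivity
  calc (B + δ ^ 2 * k) * θ ≤ (B + δ ^ 2 * k) * 1 := by gcongr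
    _ ≤ B + k := by linarith

theorem Psob {θ : ℝ} (hθ : 0 ≤ θ) {z : X → ℝ} (hz : IsSobolev m z) :
    IsSobolev m (P (δ ^ 2 * θ) z) :=
  (c.S.sob _ (mul_nonneg c.hε.le hθ) z hz).1

theorem Pmem {θ : ℝ} (hθ : 0 ≤ θ) {z : X → ℝ} (hz : MemLp z 2 m) :
    MemLp (P (δ ^ 2 * θ) z) 2 m :=
  c.S.memLp _ (mul_nonneg c.hε.le hθ) z hz

theorem Pbd {θ : ℝ} (hθ : 0 ≤ θ) {z : X → ℝ} (hz : MemLp z 2 m)
    (hzb : ∃ C : ℝ, ∀ᵐ x ∂m, |z x| ≤ C) : ∃ C : ℝ, ∀ᵐ x ∂m, |P (δ ^ 2 * θ) z x| ≤ C := by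
  obtain ⟨C, hC⟩ := hzb
  exact ⟨C, sg_abs_le c.S (mul_nonneg c.hε.le hθ) hz hC⟩

theorem Pmono {θ : ℝ} (hθ : 0 ≤ θ) {f g : X → ℝ} (hf : MemLp f 2 m) (hg : MemLp g 2 m)
    (h : f ≤ᵐ[m] g) : ∀ᵐ x ∂m, P (δ ^ 2 * θ) f x ≤ P (δ ^ 2 * θ) g x := by
  have ht : 0 ≤ δ ^ 2 * θ := mul_nonneg c.hε.le hθ
  have hnf : MemLp (fun x => (-1) * f x) 2 m := hf.const_mul _
  have h1 := c.S.nonneg _ ht (fun x => g x + (-1) * f x) (hg.add hnf) (by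
    filter_upwards [h] with x hx
    show (0 : ℝ) ≤ g x + (-1) * f x
    linarith)
  have h2 := c.S.add _ ht g (fun x => (-1) * f x) hg hnf
  have h3 := c.S.smul _ ht (-1) f hf
  filter_upwards [h1, h2, h3] with x a1 a2 a3
  have a1' : (0 : ℝ) ≤ P (δ ^ 2 * θ) (fun x => g x + (-1) * f x) x := a1
  rw [a2, a3] at a1'
  linarith

theorem Lz_nonneg {z : X → ℝ} (hz : IsSobolev m z) {Lz : ℝ}
    (hLz : ∀ᵐ x ∂m, minWeakGrad m z x ≤ Lz) (x : X) : 0 ≤ Lz := by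
  have := ae_neBot_of_point (m := m) x
  obtain ⟨y, h1, h2⟩ := ((Crest.Agent.R242.wg_nonneg c.H hz.2.1).and hLz).exists
  exact h1.trans h2

theorem sq_le {z : X → ℝ} (hz : IsSobolev m z) {Lz : ℝ}
    (hLz : ∀ᵐ x ∂m, minWeakGrad m z x ≤ Lz) : ∀ᵐ x ∂m, minWeakGrad m z x ^ 2 ≤ Lz ^ 2 := by
  filter_upwards [hLz, Crest.Agent.R242.wg_nonneg c.H hz.2.1] with x a1 a2
  exact pow_le_pow_left₀ a2 a1 2

/-- gradient bound for `P z` -/
theorem wgP {z : X → ℝ} (hz : IsSobolev m z) (hzb : ∃ C : ℝ, ∀ᵐ x ∂m, |z x| ≤ C) {Lz : ℝ}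
    (hLz : ∀ᵐ x ∂m, minWeakGrad m z x ≤ Lz) (x : X) {θ : ℝ} (hθ : 0 ≤ θ) (hθ1 : θ ≤ 1) :
    ∀ᵐ x ∂m, minWeakGrad m (P (δ ^ 2 * θ) z) x ≤ Real.exp (B + k) * Lz := by
  have hL0 := c.Lz_nonneg hz hLz x
  have h1 := di_wg_P_sq_le c.H c.hV c.hε c.S c.hOS c.hGl.continuous.measurable c.hGB hz hzb
    (c.sq_le hz hLz) hθ
  have h2 := c.exp_le hθ hθ1
  filter_upwards [h1] with y hy
  refine (abs_le_of_sq_le_sq' (hy.trans ?_) (by positivity)).2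
  have h3 : Real.exp (2 * (B + δ ^ 2 * k) * θ) ≤ Real.exp (B + k) ^ 2 := by
    rw [← Real.exp_nat_mul]
    apply Real.exp_le_exp.2
    push_cast
    nlinarith
  calc Lz ^ 2 * Real.exp (2 * (B + δ ^ 2 * k) * θ) ≤ Lz ^ 2 * Real.exp (B + k) ^ 2 := by gcongr
    _ = _ := by ring

theorem lip {z : X → ℝ} (hz : IsSobolev m z) {Cz Lz : ℝ} (hCz : ∀ᵐ x ∂m, |z x| ≤ Cz)
    (hLz : ∀ᵐ x ∂m, minWeakGrad m z x ≤ Lz) {θ : ℝ} (x y : X) (hθ : 0 ≤ θ) (hθ1 : θ ≤ 1) :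
    |lam m δ (δ ^ 2) P θ y z - lam m δ (δ ^ 2) P θ x z| ≤
      (1 - 2 * δ * k)⁻¹ * Real.exp (B + k) * Lz * dist y x := by
  have h := Jc_lip c.H c.GJ c.hgeo c.hδ c.hδ' (c.Psob hθ hz) (c.Pbd hθ hz.1 ⟨Cz, hCz⟩)
    (c.wgP hz ⟨Cz, hCz⟩ hLz x hθ hθ1) x y
  refine h.trans (le_of_eq ?_)
  ring

theorem time_aux {z : X → ℝ} (hz : IsSobolev m z) {Cz Lz : ℝ} (hCz : ∀ᵐ x ∂m, |z x| ≤ Cz)
    (hLz : ∀ᵐ x ∂m, minWeakGrad m z x ≤ Lz) {θ₁ θ₂ : ℝ} (x : X) (h1 : 0 ≤ θ₁) (h12 : θ₁ ≤ θ₂)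
    (h2 : θ₂ ≤ 1) :
    |lam m δ (δ ^ 2) P θ₂ x z - lam m δ (δ ^ 2) P θ₁ x z| ≤
      (θ₂ - θ₁) * (LF * Real.exp (B + k) * Lz + 2 * δ * Cz) := by
  have hL0 := c.Lz_nonneg hz hLz x
  have hC0 := nonneg_of_ae_abs_le x hCz
  have hδ := c.hδ
  have h02 : 0 ≤ θ₂ := h1.trans h12
  have hD := D6_time c.H c.hV (LV := LF / δ ^ 2) (by positivity) c.hVL c.hε c.S c.hOS
    c.hGl.continuous.measurable c.hGB hz hC0 hCz hL0 hLz h1 h12 c.hδ
  have m1 := c.Pmem h1 hz.1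
  have m2 := c.Pmem h02 hz.1
  have b1 := c.Pbd h1 hz.1 ⟨Cz, hCz⟩
  have b2 := c.Pbd h02 hz.1 ⟨Cz, hCz⟩
  have hm : MemLp (fun y => P (δ ^ 2 * θ₂) z y - P (δ ^ 2 * θ₁) z y) 2 m := m2.sub m1
  have hb : ∃ M : ℝ, ∀ᵐ y ∂m, |P (δ ^ 2 * θ₂) z y - P (δ ^ 2 * θ₁) z y| ≤ M := by
    obtain ⟨M1, hM1⟩ := b1
    obtain ⟨M2, hM2⟩ := b2
    refine ⟨M2 + M1, ?_⟩
    filter_upwards [hM1, hM2] with y a1 a2
    exact (abs_sub _ _).trans (add_le_add a2 a1)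
  have C := calc_of_hyp c.H
  have hs := Jc_sub c.H C c.GJ c.hgeo c.hδ c.hδ' m2 b2 m1 b1 x
  have hbd : |Jc m δ (fun y => P (δ ^ 2 * θ₂) z y - P (δ ^ 2 * θ₁) z y) x| ≤
      (θ₂ - θ₁) * (δ ^ 2 * (LF / δ ^ 2 * (Lz * Real.exp ((B + δ ^ 2 * k) * θ₂)) +
        2 * Cz / δ)) := by
    refine gamA_le_of_ae (m := m)
      (u := fun x => |Jc m δ (fun y => P (δ ^ 2 * θ₂) z y - P (δ ^ 2 * θ₁) z y) x|)
      (Jc_continuous c.H C c.GJ c.hgeo c.hδ c.hδ' hm hb).abs continuous_const ?_ x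
    filter_upwards [hD, Jc_ae c.H C c.GJ c.hgeo c.hδ c.hδ' hm hb] with y a1 a2
    rw [a2]
    exact a1
  rw [hs] at hbd
  refine hbd.trans (mul_le_mul_of_nonneg_left ?_ (sub_nonneg.2 h12))
  have h3 : Real.exp ((B + δ ^ 2 * k) * θ₂) ≤ Real.exp (B + k) :=
    Real.exp_le_exp.2 (c.exp_le h02 h2)
  calc δ ^ 2 * (LF / δ ^ 2 * (Lz * Real.exp ((B + δ ^ 2 * k) * θ₂)) + 2 * Cz / δ)
      = LF * Real.exp ((B + δ ^ 2 * k) * θ₂) * Lz + 2 * δ * Cz := by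
        field_simp
    _ ≤ _ := by gcongr

theorem time {z : X → ℝ} (hz : IsSobolev m z) {Cz Lz : ℝ} (hCz : ∀ᵐ x ∂m, |z x| ≤ Cz)
    (hLz : ∀ᵐ x ∂m, minWeakGrad m z x ≤ Lz) {θ θ' : ℝ} (x : X) (h0 : 0 ≤ θ) (h1 : θ ≤ 1)
    (h0' : 0 ≤ θ') (h1' : θ' ≤ 1) :
    |lam m δ (δ ^ 2) P θ' x z - lam m δ (δ ^ 2) P θ x z| ≤
      |θ' - θ| * (LF * Real.exp (B + k) * Lz + 2 * δ * Cz) := by
  rcases le_total θ θ' with h | h
  · rw [abs_of_nonneg (sub_nonneg.2 h)]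
    exact c.time_aux hz hCz hLz x h0 h h1'
  · rw [abs_sub_comm, abs_sub_comm θ' θ, abs_of_nonneg (sub_nonneg.2 h)]
    exact c.time_aux hz hCz hLz x h0' h h1

/-- localisation of the gradient estimate -/
theorem space {z : X → ℝ} (hz : IsSobolev m z) {Cz Lz : ℝ} (hCz : ∀ᵐ x ∂m, |z x| ≤ Cz)
    (hLz : ∀ᵐ x ∂m, minWeakGrad m z x ≤ Lz) {θ : ℝ} (x : X) (hθ : 0 ≤ θ) (hθ1 : θ ≤ 1)
    {ρ : ℝ} (hρ : 0 ≤ ρ)
    (hlt : (1 - 2 * δ * k)⁻¹ ^ 2 * (Real.exp (2 * (Gf x + δ ^ 2 * k) * θ) *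
      lam m δ (δ ^ 2) P θ x (fun y => minWeakGrad m z y ^ 2) +
        2 * Real.exp (4 * (B + k)) * (LG + 1) * Lz ^ 2 * θ *
          (C3 * √δ + (LF * Real.exp (B + k) + 4 * B) * θ)) < ρ ^ 2) :
    ∀ᶠ y in 𝓝 x, |lam m δ (δ ^ 2) P θ y z - lam m δ (δ ^ 2) P θ x z| ≤ ρ * dist y x := by
  have hL0 := c.Lz_nonneg hz hLz x
  have hδ := c.hδ
  have hB0 := c.hB0
  have hk := c.H.kpos
  have C := calc_of_hyp c.H
  refine Jc_lip_local c.H c.GJ c.hgeo c.hδ c.hδ' (c.Psob hθ hz) (c.Pbd hθ hz.1 ⟨Cz, hCz⟩)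
    (c.wgP hz ⟨Cz, hCz⟩ hLz x hθ hθ1) x hρ (lt_of_le_of_lt ?_ hlt)
  refine mul_le_mul_of_nonneg_left ?_ (by positivity)
  -- the cut-off function
  set v : X → ℝ := fun y => max (2 * B - (LG + 1) * dist y x) 0 with hv
  have hvL : LipschitzWith (LG + 1) v := by
    refine LipschitzWith.of_dist_le_mul fun y y' => ?_
    rw [Real.dist_eq, hv]
    dsimp only
    refine (abs_max_sub_max_le_abs _ _ _).trans ?_
    have e : 2 * B - (LG + 1) * dist y x - (2 * B - (LG + 1) * dist y' x) =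
        ((LG : ℝ) + 1) * (dist y' x - dist y x) := by ring
    rw [e, abs_mul, abs_of_nonneg (by positivity : (0 : ℝ) ≤ (LG : ℝ) + 1)]
    push_cast
    gcongr
    rw [abs_sub_comm, ← Real.dist_eq]
    exact dist_dist_dist_le_left y y' x
  have hvc : HasCompactSupport v := by
    refine HasCompactSupport.intro (isCompact_closedBall x (2 * B)) fun y hy => ?_
    rw [Metric.mem_closedBall, not_le] at hy
    rw [hv]
    dsimp only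
    apply max_eq_right
    have : (0 : ℝ) ≤ LG * dist y x := by positivity
    nlinarith
  have hvs : IsSobolev m v := sob_of_lip_hcs c.H hvL hvc
  have hvi : Integrable v m := hvL.continuous.integrable_of_hasCompactSupport hvc
  have hv0 : ∀ y, 0 ≤ v y := fun y => le_max_right _ _
  have hvle : ∀ y, v y ≤ 2 * B := fun y => by
    have : (0 : ℝ) ≤ (LG + 1) * dist y x := by positivity
    exact max_le (by linarith) (by positivity)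
  have hvwg : ∀ᵐ y ∂m, minWeakGrad m v y ≤ (LG : ℝ) + 1 := by
    have := wg_le_of_lip c.H hvL
    push_cast at this
    exact this
  have hvx : v x = 2 * B := by
    rw [hv]
    dsimp only
    rw [dist_self, mul_zero, sub_zero, max_eq_left (by positivity)]
  have hGv : ∀ y, Gf y ≤ Gf x + 2 * B - v y := fun y => by
    have h1 := c.hGl.dist_le_mul y x
    rw [Real.dist_eq] at h1
    have h2 := (abs_le.1 h1).2
    have h3 := (abs_le.1 (c.hGB x)).1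
    have h4 := (abs_le.1 (c.hGB y)).2
    have h5 : v y ≤ Gf x + 2 * B - Gf y := by
      rw [hv]
      dsimp only
      refine max_le ?_ (by linarith)
      have : (0 : ℝ) ≤ dist y x := dist_nonneg
      nlinarith
    linarith
  have hvabs : ∃ M : ℝ, ∀ᵐ y ∂m, |v y| ≤ M := ⟨2 * B, Eventually.of_forall fun y => by
    rw [abs_of_nonneg (hv0 y)]; exact hvle y⟩
  have hD := D4_space c.H c.hV (LV := LF / δ ^ 2) (by positivity) c.hVL c.hε c.S c.hOS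
    c.hGl.continuous.measurable c.hGB hz ⟨Cz, hCz⟩ (sq_nonneg Lz) (c.sq_le hz hLz) hvs hvi
    (Eventually.of_forall hv0) (Eventually.of_forall hvle) (by positivity)
    (by positivity : (0 : ℝ) ≤ (LG : ℝ) + 1) hvwg (Eventually.of_forall hGv) hθ c.hδ
  -- memberships
  have hw2 := wg_sq_memLp c.H hz hLz
  have hwb : ∃ M : ℝ, ∀ᵐ y ∂m, |minWeakGrad m z y ^ 2| ≤ M := ⟨Lz ^ 2, by
    filter_upwards [c.sq_le hz hLz] with y hy
    rw [abs_of_nonneg (sq_nonneg _)]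
    exact hy⟩
  have hPs := c.Psob hθ hz
  have hPw := c.wgP hz ⟨Cz, hCz⟩ hLz x hθ hθ1
  have hPw2 := wg_sq_memLp c.H hPs hPw
  have hPwb : ∃ M : ℝ, ∀ᵐ y ∂m, |minWeakGrad m (P (δ ^ 2 * θ) z) y ^ 2| ≤ M :=
    ⟨(Real.exp (B + k) * Lz) ^ 2, by
    filter_upwards [c.sq_le hPs hPw] with y hy
    rw [abs_of_nonneg (sq_nonneg _)]
    exact hy⟩
  have hQ2 := c.Pmem hθ hw2
  have hQb := c.Pbd hθ hw2 hwb
  have cu := Jc_continuous c.H C c.GJ c.hgeo c.hδ c.hδ' hPw2 hPwb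
  have cq := Jc_continuous c.H C c.GJ c.hgeo c.hδ c.hδ' hQ2 hQb
  have cv := Jc_continuous c.H C c.GJ c.hgeo c.hδ c.hδ' hvs.1 hvabs
  have hpt : Jc m δ (fun y => minWeakGrad m (P (δ ^ 2 * θ) z) y ^ 2) x ≤
      Real.exp (2 * (Gf x + δ ^ 2 * k) * θ) *
          Jc m δ (P (δ ^ 2 * θ) (fun y => minWeakGrad m z y ^ 2)) x +
        2 * (Lz ^ 2 * Real.exp (2 * (B + δ ^ 2 * k) * θ)) *
          Real.exp (2 * |Gf x + δ ^ 2 * k| * θ) * θ *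
          (2 * B - Jc m δ v x + θ * (δ ^ 2 * (LF / δ ^ 2 * ((LG + 1) *
            Real.exp ((B + δ ^ 2 * k) * θ)) + 2 * (2 * B) / δ))) := by
    refine gamA_le_of_ae (m := m)
      (u := fun y => Jc m δ (fun y => minWeakGrad m (P (δ ^ 2 * θ) z) y ^ 2) y)
      (v := fun y => Real.exp (2 * (Gf x + δ ^ 2 * k) * θ) *
          Jc m δ (P (δ ^ 2 * θ) (fun y => minWeakGrad m z y ^ 2)) y +
        2 * (Lz ^ 2 * Real.exp (2 * (B + δ ^ 2 * k) * θ)) *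
          Real.exp (2 * |Gf x + δ ^ 2 * k| * θ) * θ *
          (2 * B - Jc m δ v y + θ * (δ ^ 2 * (LF / δ ^ 2 * ((LG + 1) *
            Real.exp ((B + δ ^ 2 * k) * θ)) + 2 * (2 * B) / δ)))) cu ?_ ?_ x
    · exact (continuous_const.mul cq).add (continuous_const.mul
        ((continuous_const.sub cv).add continuous_const))
    · filter_upwards [hD, Jc_ae c.H C c.GJ c.hgeo c.hδ c.hδ' hPw2 hPwb,
        Jc_ae c.H C c.GJ c.hgeo c.hδ c.hδ' hQ2 hQb,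
        Jc_ae c.H C c.GJ c.hgeo c.hδ c.hδ' hvs.1 hvabs] with y a1 a2 a3 a4
      rw [a2, a3, a4]
      exact a1
  refine hpt.trans ?_
  have hlam : lam m δ (δ ^ 2) P θ x (fun y => minWeakGrad m z y ^ 2) =
      Jc m δ (P (δ ^ 2 * θ) (fun y => minWeakGrad m z y ^ 2)) x := rfl
  rw [hlam]
  refine add_le_add le_rfl ?_
  have hJv := (abs_le.1 (c.hJc v (LG + 1) hvs hvL hvabs x)).1
  rw [hvx] at hJv
  push_cast at hJv
  have e1 : Real.exp (2 * (B + δ ^ 2 * k) * θ) ≤ Real.exp (2 * (B + k)) := by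
    apply Real.exp_le_exp.2
    have := c.exp_le hθ hθ1
    nlinarith
  have e2 : Real.exp (2 * |Gf x + δ ^ 2 * k| * θ) ≤ Real.exp (2 * (B + k)) := by
    apply Real.exp_le_exp.2
    have h1 := c.exp_le zero_le_one le_rfl
    have h2 : |Gf x + δ ^ 2 * k| ≤ B + δ ^ 2 * k := by
      refine (abs_add_le _ _).trans (add_le_add (c.hGB x) ?_)
      rw [abs_of_nonneg (by positivity)]
    have h3 : 2 * |Gf x + δ ^ 2 * k| * θ ≤ 2 * |Gf x + δ ^ 2 * k| * 1 := by gcongr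
    linarith
  have e3 : Real.exp ((B + δ ^ 2 * k) * θ) ≤ Real.exp (B + k) :=
    Real.exp_le_exp.2 (c.exp_le hθ hθ1)
  have e4 : δ ^ 2 * (LF / δ ^ 2 * ((LG + 1) * Real.exp ((B + δ ^ 2 * k) * θ)) +
      2 * (2 * B) / δ) = LF * ((LG + 1) * Real.exp ((B + δ ^ 2 * k) * θ)) + 4 * B * δ := by
    field_simp
    ring
  have e5 : 2 * B - Jc m δ v x + θ * (δ ^ 2 * (LF / δ ^ 2 * ((LG + 1) *
      Real.exp ((B + δ ^ 2 * k) * θ)) + 2 * (2 * B) / δ)) ≤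
      (LG + 1) * (C3 * √δ + (LF * Real.exp (B + k) + 4 * B) * θ) := by
    rw [e4]
    have a1 : 2 * B - Jc m δ v x ≤ (LG + 1) * (C3 * √δ) := by linarith
    have a2 : θ * (LF * ((LG + 1) * Real.exp ((B + δ ^ 2 * k) * θ)) + 4 * B * δ) ≤
        θ * (LF * ((LG + 1) * Real.exp (B + k)) + 4 * B * (LG + 1)) := by
      have : δ ≤ (LG : ℝ) + 1 := c.hδ1.trans (by have := LG.2; simp)
      gcongr
    calc _ ≤ (LG + 1) * (C3 * √δ) +
          θ * (LF * ((LG + 1) * Real.exp (B + k)) + 4 * B * (LG + 1)) := add_le_add a1 a2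
      _ = _ := by ring
  have hC3 := c.hC3
  have e6 : 0 ≤ (LG + 1) * (C3 * √δ + (LF * Real.exp (B + k) + 4 * B) * θ) := by positivity
  have e7 : 2 * (Lz ^ 2 * Real.exp (2 * (B + δ ^ 2 * k) * θ)) *
      Real.exp (2 * |Gf x + δ ^ 2 * k| * θ) * θ ≤
      2 * (Lz ^ 2 * Real.exp (2 * (B + k))) * Real.exp (2 * (B + k)) * θ := by gcongr
  have e8 : 0 ≤ 2 * (Lz ^ 2 * Real.exp (2 * (B + δ ^ 2 * k) * θ)) *
      Real.exp (2 * |Gf x + δ ^ 2 * k| * θ) * θ := by positivity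
  have e9 : Real.exp (4 * (B + k)) = Real.exp (2 * (B + k)) * Real.exp (2 * (B + k)) := by
    rw [← Real.exp_add]
    ring_nf
  calc _ ≤ 2 * (Lz ^ 2 * Real.exp (2 * (B + δ ^ 2 * k) * θ)) *
        Real.exp (2 * |Gf x + δ ^ 2 * k| * θ) * θ *
        ((LG + 1) * (C3 * √δ + (LF * Real.exp (B + k) + 4 * B) * θ)) :=
        mul_le_mul_of_nonneg_left e5 e8
    _ ≤ 2 * (Lz ^ 2 * Real.exp (2 * (B + k))) * Real.exp (2 * (B + k)) * θ *
        ((LG + 1) * (C3 * √δ + (LF * Real.exp (B + k) + 4 * B) * θ)) :=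
        mul_le_mul_of_nonneg_right e7 e6
    _ = _ := by rw [e9]; ring

theorem toLam : Lam m F Gf (δ ^ 2) k (LF * Real.exp (B + k)) (2 * δ) (C3 * √δ)
    (LF * Real.exp (B + k) + 4 * B) ((1 - 2 * δ * k)⁻¹ ^ 2)
    (2 * Real.exp (4 * (B + k)) * (LG + 1)) ((1 - 2 * δ * k)⁻¹ * Real.exp (B + k)) (C3 * √δ)
    (lam m δ (δ ^ 2) P) where
  add := fun θ hθ x f g hf hg => by
    have ht : 0 ≤ δ ^ 2 * θ := mul_nonneg c.hε.le hθ
    unfold lam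
    rw [Jc_congr (c.S.add _ ht f g hf.1 hg.1)]
    exact Jc_add c.H (calc_of_hyp c.H) c.GJ c.hgeo c.hδ c.hδ' (c.Pmem hθ hf.1)
      (c.Pbd hθ hf.1 hf.2) (c.Pmem hθ hg.1) (c.Pbd hθ hg.1 hg.2) x
  smul := fun θ hθ x a f hf => by
    have ht : 0 ≤ δ ^ 2 * θ := mul_nonneg c.hε.le hθ
    unfold lam
    rw [Jc_congr (c.S.smul _ ht a f hf.1)]
    exact Jc_smul c.H (calc_of_hyp c.H) c.GJ c.hgeo c.hδ c.hδ' a (c.Pmem hθ hf.1)
      (c.Pbd hθ hf.1 hf.2) x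
  mono := fun θ hθ x f g hf hg hfg =>
    Jc_mono c.H (calc_of_hyp c.H) c.GJ c.hgeo c.hδ c.hδ' (c.Pmem hθ hf.1)
      (c.Pbd hθ hf.1 hf.2) (c.Pmem hθ hg.1) (c.Pbd hθ hg.1 hg.2) (c.Pmono hθ hf.1 hg.1 hfg) x
  le_const := fun θ hθ x f hf a ha hfa =>
    Jc_le_const c.H (calc_of_hyp c.H) c.GJ c.hgeo c.hδ c.hδ' (c.Pmem hθ hf.1)
      (c.Pbd hθ hf.1 hf.2) ha
      (c.S.le_const _ (mul_nonneg c.hε.le hθ) f hf.1 a ha hfa) x
  cont := fun g hg => lam_cont c.H c.GJ c.hgeo c.hδ c.hδ' c.hε c.hV c.S hg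
  small := fun θ x g T C x₀ hθ hx hg hgC hlim =>
    lam_small c.H c.GJ c.hgeo c.hδ c.hδ' c.hε c.hV c.S θ x g T C x₀ hθ hx hg hgC hlim
  gen := fun u L hu huB hLB hw =>
    lam_gen c.H c.GJ c.hgeo c.hδ c.hδ' c.hε c.hF c.S u L hu huB hLB hw
  time := fun z hz Cz Lz hCz hLz θ θ' x h0 h1 h0' h1' => c.time hz hCz hLz x h0 h1 h0' h1'
  lip := fun z hz Cz Lz hCz hLz θ x y h0 h1 => c.lip hz hCz hLz x y h0 h1
  space := fun z hz Cz Lz hCz hLz θ x h0 h1 ρ hρ hlt => c.space hz hCz hLz x h0 h1 hρ hlt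
  zero := fun f L hf hfc x => by
    have hfs := sob_of_lip_hcs c.H hf hfc
    have h1 : P (δ ^ 2 * 0) f =ᵐ[m] f := by
      rw [mul_zero]
      exact c.S.zero f hfs.1
    have h2 : lam m δ (δ ^ 2) P 0 x f = Jc m δ f x := by
      unfold lam
      rw [Jc_congr h1]
    rw [h2]
    refine c.hJc f L hfs hf ?_ x
    obtain ⟨M, hM⟩ := hfc.exists_bound_of_continuous hf.continuous
    exact ⟨M, Eventually.of_forall fun y => hM y⟩

end LamCtx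

theorem lamFam_of (H : Hyp m k N) (GJ : GoodJ m k h₀) (hgeo : HasBddGeoPlans m)
    (hG3 : G3Concl m) (GF : GFacts m k) {MF : ℝ} (hFb : ∀ x, |F x| ≤ MF)
    (hFl : LipschitzWith LF F) (hGb : ∀ x, |Gf x| ≤ B) (hGl : LipschitzWith LG Gf)
    (hH : HasWeakHessLe m F Gf) : LamFam m F Gf k := by
  obtain ⟨h1, C, h1pos, hC, hG⟩ := hG3
  have hF : BddLip F := ⟨⟨MF, hFb⟩, LF, hFl⟩
  have hGb' : ∀ x, |Gf x| ≤ |B| := fun x => (hGb x).trans (le_abs_self B)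
  have hB0 : 0 ≤ |B| := abs_nonneg B
  have hk := H.kpos
  refine ⟨LF * Real.exp (|B| + k), LF * Real.exp (|B| + k) + 4 * |B|,
    2 * Real.exp (4 * (|B| + k)) * (LG + 1), 3 * C, min (min h₀ h1) 1, by positivity,
    by positivity, by positivity, by positivity, lt_min (lt_min GJ.pos h1pos) one_pos,
    fun δ hδ hδ1 => ?_⟩
  have d1 : δ ≤ h₀ := hδ1.trans ((min_le_left _ _).trans (min_le_left _ _))
  have d2 : δ ≤ h1 := hδ1.trans ((min_le_left _ _).trans (min_le_right _ _))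
  have d3 : δ ≤ 1 := hδ1.trans (min_le_right _ _)
  have hε : 0 < δ ^ 2 := pow_pos hδ 2
  have hV : BddLip (fun x => F x / δ ^ 2) := by
    have := hF.const_mul (δ ^ 2)⁻¹
    refine (congrArg BddLip ?_).mp this
    funext x
    rw [div_eq_inv_mul]
  obtain ⟨P, hP⟩ := exists_semigroup H hV
  have c : LamCtx m k N h₀ δ F Gf LF LG |B| (3 * C) P :=
    { H := H, GJ := GJ, hgeo := hgeo, hδ := hδ, hδ' := d1, hδ1 := d3, hF := hF, hFl := hFl,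
      S := hP, hOS := fun h hh => oneStep_of H GF hF hGl.continuous hGb' hH hε hh,
      hGl := hGl, hB0 := hB0, hGB := hGb', hC3 := by positivity,
      hJc := fun f L hf hfL hfb x => Jc_app H GJ hgeo hG hδ d1 d2 hf hfL hfb x }
  exact ⟨_, _, c.toLam⟩

end Fin
end Crest.Agent.R242
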