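import Crest.Agent.R242.MidEnt
import Crest.Agent.R242.Opt
import Crest.Agent.R242.Kant
import Crest.Agent.R242.Ent

/-!
Row 242: [MID], the good midpoint (Rajala's argument).
-/

set_option autoImplicit false
set_option linter.unusedSectionVars false

open MeasureTheory Filter Set
open scoped ENNReal NNReal Topology
open Crest.GeometryTopology.SyntheticRicci
open InformationTheory

noncomputable section

namespace Crest.Agent.R242

variable {X : Type*} [MetricSpace X] [ProperSpace X] [MeasurableSpace X] [BorelSpace X]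
  {m : Measure X} [IsLocallyFiniteMeasure m] [m.IsOpenPosMeasure] {k N : ℝ}

lemma mid_timeMarginal_add (P Q : Measure (UCurve X)) (t : unitInterval) :
    timeMarginal (P + Q) t = timeMarginal P t + timeMarginal Q t :=
  Measure.map_add _ _ (measurable_ev t)

lemma mid_timeMarginal_smul (c : ℝ≥0∞) (P : Measure (UCurve X)) (t : unitInterval) :
    timeMarginal (c • P) t = c • timeMarginal P t :=
  Measure.map_smul _ _ _

lemma mid_timeMarginal_apply (P : Measure (UCurve X)) (t : unitInterval) {T : Set X}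
    (hT : MeasurableSet T) : timeMarginal P t T = P {γ | γ.toMap t ∈ T} :=
  Measure.map_apply (measurable_ev t) hT

lemma mid_timeMarginal_restrict (P : Measure (UCurve X)) (t : unitInterval) {T : Set X}
    (hT : MeasurableSet T) :
    timeMarginal (P.restrict {γ | γ.toMap t ∈ T}) t = (timeMarginal P t).restrict T :=
  (Measure.restrict_map (measurable_ev t) hT).symm

lemma mid_timeMarginal_mono {P Q : Measure (UCurve X)} (h : P ≤ Q) (t : unitInterval) :
    timeMarginal P t ≤ timeMarginal Q t :=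
  Measure.map_mono h (measurable_ev t)

lemma mid_cost_le {P : Measure (UCurve X)} {μ₀ μ₁ : Measure X} (hP : IsOptGeo P μ₀ μ₁) {D : ℝ}
    (hD : ∀ᵐ γ ∂P, dist (γ.toMap 0) (γ.toMap 1) ≤ D) : w2sq μ₀ μ₁ ≤ ENNReal.ofReal (D ^ 2) := by
  have := hP.prob
  rw [← hP.cost]
  calc ∫⁻ γ, edist (γ.toMap 0) (γ.toMap 1) ^ 2 ∂P ≤ ∫⁻ _, ENNReal.ofReal (D ^ 2) ∂P := by
        refine lintegral_mono_ae ?_
        filter_upwards [hD] with γ hγ
        rw [edist_dist, ← ENNReal.ofReal_pow dist_nonneg]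
        exact ENNReal.ofReal_le_ofReal (pow_le_pow_left₀ dist_nonneg hγ 2)
    _ = ENNReal.ofReal (D ^ 2) := by simp

/-- replacement of a part of the plan by the plan of [ENT]. -/
lemma mid_rep (H : Hyp m k N) {o : X} {R M D : ℝ} (hM : 0 < M) {μ₀ μ₁ : Measure X}
    [IsProbabilityMeasure μ₀] [IsProbabilityMeasure μ₁]
    (h₀ : μ₀ (Metric.closedBall o R)ᶜ = 0)
    (h₁ : μ₁ (Metric.closedBall o R)ᶜ = 0) (hM₀ : μ₀ ≤ ENNReal.ofReal M • m)
    (hM₁ : μ₁ ≤ ENNReal.ofReal M • m)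
    {B : Set X} (hB : MeasurableSet B) (hmB : m B ≠ ⊤) (hB₀ : μ₀ Bᶜ = 0) (hB₁ : μ₁ Bᶜ = 0)
    (hBh : ∀ P, IsOptGeo P μ₀ μ₁ → timeMarginal P half Bᶜ = 0) (hfin : w2sq μ₀ μ₁ ≠ ⊤)
    {Q : Measure (UCurve X)} (hQ : IsOptGeo Q μ₀ μ₁)
    (hQD : ∀ᵐ γ ∂Q, dist (γ.toMap 0) (γ.toMap 1) ≤ D) {T : Set X} (hT : MeasurableSet T)
    (hpos : 0 < (timeMarginal Q half).real T) :
    ∃ g : X → ℝ≥0∞, Measurable g ∧ ∫⁻ x, g x ∂(m.restrict B) = 1 ∧
      (timeMarginal Q half).real T * (Real.exp (-(k * D ^ 2 / 8)) / M) ≤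
        (m.restrict B).real {x | g x ≠ 0} ∧
      ∀ δ : ℝ≥0, δ < 1 → ∃ Q', IsOptGeo Q' μ₀ μ₁ ∧
        timeMarginal Q' half = modif (timeMarginal Q half) (m.restrict B) T g δ := by
  classical
  have hQp : IsProbabilityMeasure Q := hQ.prob
  set Γ : Set (UCurve X) := {γ | γ.toMap half ∈ T} with hΓ
  have hΓm : MeasurableSet Γ := measurable_ev half hT
  have hQT : timeMarginal Q half T = Q Γ := mid_timeMarginal_apply Q half hT
  have hp : 0 < (Q Γ).toReal := by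
    have : (timeMarginal Q half).real T = (Q Γ).toReal := by rw [Measure.real, hQT]
    rwa [this] at hpos
  set p := (Q Γ).toReal with hpdef
  have hQΓt : Q Γ ≠ ⊤ := measure_ne_top _ _
  have hQΓ0 : Q Γ ≠ 0 := by
    intro h
    rw [hpdef, h] at hp
    simp at hp
  have hQΓ : Q Γ = ENNReal.ofReal p := (ENNReal.ofReal_toReal hQΓt).symm
  set Qc : Measure (UCurve X) := (Q Γ)⁻¹ • Q.restrict Γ with hQc
  have hcond := hQ.cond hfin hΓm hQΓ0
  rw [← hQc] at hcond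
  have hQcp : IsProbabilityMeasure Qc := hcond.prob
  set ν₀ := timeMarginal Qc 0 with hν₀
  set ν₁ := timeMarginal Qc 1 with hν₁
  have hν₀p : IsProbabilityMeasure ν₀ := hcond.prob_left
  have hν₁p : IsProbabilityMeasure ν₁ := hcond.prob_right
  have hle : Qc ≤ (Q Γ)⁻¹ • Q := by
    rw [hQc]
    intro s
    simp only [Measure.smul_apply, smul_eq_mul]
    exact mul_le_mul_right (Measure.restrict_le_self s) _
  have hν₀le : ν₀ ≤ (Q Γ)⁻¹ • μ₀ := by
    rw [hν₀]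
    refine (mid_timeMarginal_mono hle 0).trans ?_
    rw [mid_timeMarginal_smul, hQ.marg_zero]
  have hν₁le : ν₁ ≤ (Q Γ)⁻¹ • μ₁ := by
    rw [hν₁]
    refine (mid_timeMarginal_mono hle 1).trans ?_
    rw [mid_timeMarginal_smul, hQ.marg_one]
  have hnull : ∀ {ν μ : Measure X} {c : ℝ≥0∞} {s : Set X}, ν ≤ c • μ → μ s = 0 → ν s = 0 := by
    intro ν μ c s h hs
    have h1 := h s
    rw [Measure.smul_apply, hs, smul_zero] at h1
    exact le_antisymm h1 zero_le
  have hbd : ∀ {ν μ : Measure X}, ν ≤ (Q Γ)⁻¹ • μ → μ ≤ ENNReal.ofReal M • m →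
      ν ≤ ENNReal.ofReal (M / p) • m := by
    intro ν μ h1 h2
    refine h1.trans ?_
    have h3 : (Q Γ)⁻¹ • μ ≤ (Q Γ)⁻¹ • (ENNReal.ofReal M • m) := by
      intro s
      simp only [Measure.smul_apply, smul_eq_mul]
      exact mul_le_mul_right (h2 s) _
    refine h3.trans (le_of_eq ?_)
    rw [smul_smul, hQΓ, ← ENNReal.ofReal_inv_of_pos hp, ← ENNReal.ofReal_mul (by positivity)]
    congr 2
    field_simp
  have hν₀M := hbd hν₀le hM₀
  have hν₁M := hbd hν₁le hM₁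
  have hMp : 0 < M / p := div_pos hM hp
  obtain ⟨P', hP', hP'm, hP'e⟩ := ENT_gen H ENNReal.ofReal_ne_top (hnull hν₀le h₀)
    (hnull hν₁le h₁) hν₀M hν₁M
  have hP'p : IsProbabilityMeasure P' := hP'.prob
  have hrepl : ∀ δ : ℝ≥0∞, δ ≤ 1 →
      IsOptGeo (Q.restrict Γᶜ + (1 - δ) • Q.restrict Γ + (δ * Q Γ) • P') μ₀ μ₁ := by
    intro δ hδ
    exact hQ.replace hfin hΓm hQΓ0 hP' hδ
  set ν' := timeMarginal P' half with hν'
  have hν'p : IsProbabilityMeasure ν' := by rw [hν']; infer_instance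
  have hν'B : ν' Bᶜ = 0 := by
    have h1 := hBh _ (hrepl 1 le_rfl)
    have h2 : (1 * Q Γ) • ν' ≤ timeMarginal
        (Q.restrict Γᶜ + (1 - 1 : ℝ≥0∞) • Q.restrict Γ + (1 * Q Γ) • P') half := by
      rw [mid_timeMarginal_add, mid_timeMarginal_smul]
      exact Measure.le_add_left le_rfl
    have h3 := le_antisymm ((h2 Bᶜ).trans h1.le) zero_le
    rw [Measure.smul_apply, smul_eq_mul, one_mul, mul_eq_zero] at h3
    exact h3.resolve_left hQΓ0
  have hrn := mid_rnDeriv_restrict hB hP'm hν'B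
  set g := ν'.rnDeriv m with hg
  have hgm : Measurable g := Measure.measurable_rnDeriv _ _
  have hg1 : ∫⁻ x in B, g x ∂m = 1 := by
    rw [← setLIntegral_univ, ← withDensity_apply _ MeasurableSet.univ, hrn.2]
    exact measure_univ
  refine ⟨g, hgm, hg1, ?_, ?_⟩
  · -- Jensen
    obtain ⟨ha, hae⟩ := mid_le_entB (μ := ν') hmB hgm hg1 (ae_of_all _ fun x => rfl)
    set a := (m.restrict B).real {x | g x ≠ 0} with hadef
    have hub₀ := mid_entB_le hB hmB (hnull hν₀le hB₀) hMp hν₀M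
    have hub₁ := mid_entB_le hB hmB (hnull hν₁le hB₁) hMp hν₁M
    have hw : w2sq ν₀ ν₁ ≤ ENNReal.ofReal (D ^ 2) := by
      refine mid_cost_le hcond ?_
      rw [hQc]
      exact Measure.ae_smul_measure (ae_restrict_of_ae hQD) _
    have hmain := hP'e B hB hmB (hnull hν₀le hB₀) (hnull hν₁le hB₁) hν'B
    set U := Real.log (M / p) + (m B).toReal - 1 with hU
    have h1 : ENNReal.ofReal (-Real.log a + (m B).toReal - 1) ≤
        ENNReal.ofReal (U + k / 8 * D ^ 2) := by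
      calc ENNReal.ofReal (-Real.log a + (m B).toReal - 1) ≤ entB m B ν' := hae
        _ ≤ (entB m B ν₀ + entB m B ν₁) / 2 + ENNReal.ofReal (k / 8) * w2sq ν₀ ν₁ := hmain
        _ ≤ (ENNReal.ofReal U + ENNReal.ofReal U) / 2 +
            ENNReal.ofReal (k / 8) * ENNReal.ofReal (D ^ 2) := by
          gcongr
          · exact hub₀.1
          · exact hub₁.1
        _ = ENNReal.ofReal (U + k / 8 * D ^ 2) := by
          have hk := H.kpos
          rw [ENNReal.ofReal_add hub₀.2 (by positivity), ENNReal.ofReal_mul (by positivity)]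
          congr 1
          rw [← two_mul, mul_comm]
          exact ENNReal.mul_div_cancel_right (by simp) (by simp)
    have h2 : -Real.log a + (m B).toReal - 1 ≤ U + k / 8 * D ^ 2 := by
      have hk := H.kpos
      rwa [ENNReal.ofReal_le_ofReal_iff (add_nonneg hub₀.2 (by positivity))] at h1
    have h3 : -(Real.log (M / p)) - k * D ^ 2 / 8 ≤ Real.log a := by
      rw [hU] at h2
      linarith
    have h4 : Real.exp (-(Real.log (M / p)) - k * D ^ 2 / 8) ≤ a := by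
      calc _ ≤ Real.exp (Real.log a) := Real.exp_le_exp.mpr h3
        _ = a := Real.exp_log ha
    have h5 : (timeMarginal Q half).real T = p := by rw [Measure.real, hQT]
    rw [h5]
    refine le_trans (le_of_eq ?_) h4
    rw [Real.exp_sub, Real.exp_neg (Real.log (M / p)), Real.exp_log hMp, Real.exp_neg]
    field_simp
  · intro δ hδ
    refine ⟨_, hrepl δ (by exact_mod_cast hδ.le), ?_⟩
    rw [mid_timeMarginal_add, mid_timeMarginal_add, mid_timeMarginal_smul, mid_timeMarginal_smul]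
    unfold modif
    rw [hrn.2, hQT, mid_timeMarginal_restrict Q half hT]
    have : timeMarginal (Q.restrict Γᶜ) half = (timeMarginal Q half).restrict Tᶜ :=
      mid_timeMarginal_restrict Q half hT.compl
    rw [this, add_comm ((timeMarginal Q half).restrict Tᶜ)]
    congr 2

/-- general form of [MID]. -/
theorem MID_gen (H : Hyp m k N) {o : X} {R M D C : ℝ} {μ₀ μ₁ : Measure X}
    [IsProbabilityMeasure μ₀] [IsProbabilityMeasure μ₁]
    (h₀ : μ₀ (Metric.closedBall o R)ᶜ = 0)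
    (h₁ : μ₁ (Metric.closedBall o R)ᶜ = 0) (hM₀ : μ₀ ≤ ENNReal.ofReal M • m)
    (hM₁ : μ₁ ≤ ENNReal.ofReal M • m)
    (hD : ∀ P, IsOptGeo P μ₀ μ₁ → ∀ᵐ γ ∂P, dist (γ.toMap 0) (γ.toMap 1) ≤ D)
    {B : Set X} (hB : MeasurableSet B) (hmB : m B ≠ ⊤) (hB₀ : μ₀ Bᶜ = 0) (hB₁ : μ₁ Bᶜ = 0)
    (hBh : ∀ P, IsOptGeo P μ₀ μ₁ → timeMarginal P half Bᶜ = 0)
    (hC : M * Real.exp (k * D ^ 2 / 8) < C) (hC1 : 1 ≤ C) :
    ∃ P, IsOptGeo P μ₀ μ₁ ∧ timeMarginal P half ≤ ENNReal.ofReal C • m ∧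
      entB m B (timeMarginal P half) ≤ (entB m B μ₀ + entB m B μ₁) / 2 +
          ENNReal.ofReal (k / 8) * w2sq μ₀ μ₁ := by
  classical
  have hMpos : 0 < M := by
    by_contra h
    have : ENNReal.ofReal M = 0 := ENNReal.ofReal_of_nonpos (not_lt.mp h)
    rw [this, zero_smul] at hM₀
    have h1 : μ₀ univ ≤ (0 : Measure X) univ := hM₀ univ
    simp at h1
  have hκfin : IsFiniteMeasure (m.restrict B) := ⟨by
    rw [Measure.restrict_apply_univ]; exact lt_top_iff_ne_top.mpr hmB⟩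
  set κ := m.restrict B with hκ
  obtain ⟨P₀, hP₀, hP₀m, hP₀e⟩ := ENT_gen H ENNReal.ofReal_ne_top h₀ h₁ hM₀ hM₁
  have hfin : w2sq μ₀ μ₁ ≠ ⊤ :=
    ((mid_cost_le hP₀ (hD _ hP₀)).trans_lt ENNReal.ofReal_lt_top).ne
  set S := {P : ProbabilityMeasure (UCurve X) | IsOptGeo (P : Measure (UCurve X)) μ₀ μ₁} with hS
  have hScomp : IsCompact S := isCompact_optGeo h₀ h₁
  have hSne : S.Nonempty := ⟨⟨P₀, hP₀.prob⟩, hP₀⟩
  have hlsc : LowerSemicontinuous (fun P : ProbabilityMeasure (UCurve X) =>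
      Phi κ C (tmP half P : Measure X)) :=
    (lowerSemicontinuous_Phi κ hC1).comp (continuous_tmP half)
  obtain ⟨P, hPS, hPmin⟩ := LowerSemicontinuousOn.exists_isMinOn hSne hScomp
    (hlsc.lowerSemicontinuousOn S)
  have hP : IsOptGeo (P : Measure (UCurve X)) μ₀ μ₁ := hPS
  have hmin : ∀ Q, IsOptGeo Q μ₀ μ₁ →
      Phi κ C (timeMarginal (P : Measure (UCurve X)) half) ≤ Phi κ C (timeMarginal Q half) := by
    intro Q hQ
    have h1 : (⟨Q, hQ.prob⟩ : ProbabilityMeasure (UCurve X)) ∈ S := hQ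
    exact hPmin h1
  set 𝒞 : Set (Measure X) := {ν | ∃ Q, IsOptGeo Q μ₀ μ₁ ∧ ν = timeMarginal Q half} with h𝒞
  set ν := timeMarginal (P : Measure (UCurve X)) half with hν
  have hνB : ν Bᶜ = 0 := hBh _ hP
  have hc0 : 0 < Real.exp (-(k * D ^ 2 / 8)) / M := by positivity
  have hCc : 1 < C * (Real.exp (-(k * D ^ 2 / 8)) / M) := by
    rw [Real.exp_neg]
    have h1 : 0 < Real.exp (k * D ^ 2 / 8) := Real.exp_pos _
    rw [← mul_div_assoc, one_lt_div hMpos, ← div_eq_mul_inv, lt_div_iff₀ h1]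
    exact hC
  have hbound := density_bound_of_min (κ := κ) hC1 hc0 hCc 𝒞
    (by
      rintro ν ⟨Q, hQ, rfl⟩
      have := hQ.prob
      infer_instance)
    (by
      rintro ν ⟨Q, hQ, rfl⟩ T hT hpos
      obtain ⟨g, hg, hg1, hg2, hg3⟩ := mid_rep H hMpos h₀ h₁ hM₀ hM₁ hB hmB hB₀ hB₁ hBh hfin hQ
        (hD _ hQ) hT hpos
      refine ⟨g, hg, hg1, hg2, ?_⟩
      intro δ hδ
      obtain ⟨Q', hQ', hQ'e⟩ := hg3 δ hδ
      exact ⟨Q', hQ', hQ'e.symm⟩)
    (μ := ν) ⟨_, hP, rfl⟩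
    (by
      rintro _ ⟨Q, hQ, rfl⟩
      exact hmin Q hQ)
  obtain ⟨hb1, hb2⟩ := hbound
  have hPp := P.2
  have hνp : IsProbabilityMeasure ν := by rw [hν]; infer_instance
  have hνC : ν ≤ ENNReal.ofReal C • m := by
    have h1 : ν = κ.withDensity (ν.rnDeriv κ) := by
      conv_lhs => rw [← Measure.singularPart_add_rnDeriv ν κ, hb2, zero_add]
    have h2 : κ.withDensity (ν.rnDeriv κ) ≤ κ.withDensity (fun _ => ENNReal.ofReal C) := by
      refine withDensity_mono ?_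
      have hft : ∀ᵐ x ∂κ, ν.rnDeriv κ x < ⊤ :=
        ae_lt_top (Measure.measurable_rnDeriv _ _) (Measure.lintegral_rnDeriv_lt_top _ _).ne
      filter_upwards [hb1, hft] with x hx hx'
      rw [← ENNReal.ofReal_toReal hx'.ne]
      exact ENNReal.ofReal_le_ofReal hx
    rw [h1]
    refine h2.trans ?_
    rw [withDensity_const]
    intro s
    simp only [Measure.smul_apply, smul_eq_mul]
    exact mul_le_mul_right (Measure.restrict_le_self s) _
  refine ⟨P, hP, hνC, ?_⟩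
  rw [← mid_ofReal_Phi_eq hB hmB hνB hC1 hνC]
  have hP₀p := hP₀.prob
  calc ENNReal.ofReal (Phi κ C ν) ≤ ENNReal.ofReal (Phi κ C (timeMarginal P₀ half)) :=
        ENNReal.ofReal_le_ofReal (hmin P₀ hP₀)
    _ ≤ entB m B (timeMarginal P₀ half) :=
        mid_ofReal_Phi_le hB hmB hP₀m (hBh _ hP₀) hC1
    _ ≤ _ := hP₀e B hB hmB hB₀ hB₁ (hBh _ hP₀)

lemma mid_geod_mem {γ : UCurve X} (hγ : IsCSGeodesic γ) {o : X} {R : ℝ}
    (h0 : γ.toMap 0 ∈ Metric.closedBall o R) (h1 : γ.toMap 1 ∈ Metric.closedBall o R) :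
    (∀ t, γ.toMap t ∈ Metric.closedBall o (2 * R)) ∧ dist (γ.toMap 0) (γ.toMap 1) ≤ 2 * R := by
  rw [Metric.mem_closedBall] at h0 h1
  have hd : dist (γ.toMap 0) (γ.toMap 1) ≤ 2 * R := by
    have := dist_triangle_right (γ.toMap 0) (γ.toMap 1) o
    linarith
  have hR : 0 ≤ R := dist_nonneg.trans h0
  refine ⟨fun t => ?_, hd⟩
  rw [Metric.mem_closedBall]
  have ht0 := t.2.1
  have ht1 := t.2.2
  have e0 := hγ t 0
  have e1 := hγ t 1
  rw [Set.Icc.coe_zero, sub_zero, abs_of_nonneg ht0] at e0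
  rw [Set.Icc.coe_one, abs_sub_comm, abs_of_nonneg (by linarith)] at e1
  have t0 := dist_triangle (γ.toMap t) (γ.toMap 0) o
  have t1 := dist_triangle (γ.toMap t) (γ.toMap 1) o
  have hdn : (0 : ℝ) ≤ dist (γ.toMap 0) (γ.toMap 1) := dist_nonneg
  rcases le_total (t : ℝ) (1 / 2) with h | h
  · nlinarith
  · nlinarith

lemma mid_ae_endpoints {P : Measure (UCurve X)} {μ₀ μ₁ : Measure X} (hP : IsOptGeo P μ₀ μ₁)
    {S : Set X} (h₀ : μ₀ Sᶜ = 0) (h₁ : μ₁ Sᶜ = 0) :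
    ∀ᵐ γ ∂P, γ.toMap 0 ∈ S ∧ γ.toMap 1 ∈ S := by
  have h4 : ∀ᵐ γ ∂P, γ.toMap 0 ∈ S := by
    have : ∀ᵐ x ∂(timeMarginal P 0), x ∈ S := by
      rw [hP.marg_zero]; exact h₀
    exact ae_of_ae_map (measurable_ev 0).aemeasurable this
  have h5 : ∀ᵐ γ ∂P, γ.toMap 1 ∈ S := by
    have : ∀ᵐ x ∂(timeMarginal P 1), x ∈ S := by
      rw [hP.marg_one]; exact h₁
    exact ae_of_ae_map (measurable_ev 1).aemeasurable this
  exact h4.and h5

lemma mid_supp {P : Measure (UCurve X)} {μ₀ μ₁ : Measure X} (hP : IsOptGeo P μ₀ μ₁) {o : X}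
    {R : ℝ} (h₀ : μ₀ (Metric.closedBall o R)ᶜ = 0) (h₁ : μ₁ (Metric.closedBall o R)ᶜ = 0) :
    ∀ᵐ γ ∂P, (∀ t, γ.toMap t ∈ Metric.closedBall o (2 * R)) ∧
      dist (γ.toMap 0) (γ.toMap 1) ≤ 2 * R := by
  filter_upwards [hP.geod, mid_ae_endpoints hP h₀ h₁] with γ hγ hγ'
  exact mid_geod_mem hγ hγ'.1 hγ'.2

lemma mid_marg_null {P : Measure (UCurve X)} {S : Set X} (hS : MeasurableSet S) {t : unitInterval}
    (h : ∀ᵐ γ ∂P, γ.toMap t ∈ S) : timeMarginal P t Sᶜ = 0 := by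
  rw [mid_timeMarginal_apply P t hS.compl]
  exact h

/-- [MID] -/
theorem MID (H : Hyp m k N) {o : X} {R M D C : ℝ} (hR : 0 ≤ R) {μ₀ μ₁ : Measure X}
    [IsProbabilityMeasure μ₀]
    [IsProbabilityMeasure μ₁] (h₀ : μ₀ (Metric.closedBall o R)ᶜ = 0)
    (h₁ : μ₁ (Metric.closedBall o R)ᶜ = 0) (hM₀ : μ₀ ≤ ENNReal.ofReal M • m)
    (hM₁ : μ₁ ≤ ENNReal.ofReal M • m)
    (hD : ∀ P, IsOptGeo P μ₀ μ₁ → ∀ᵐ γ ∂P, dist (γ.toMap 0) (γ.toMap 1) ≤ D)
    (hC : M * Real.exp (k * D ^ 2 / 8) < C) (hC1 : 1 ≤ C) :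
    ∃ P, IsOptGeo P μ₀ μ₁ ∧ timeMarginal P half ≤ ENNReal.ofReal C • m ∧
      entB m (Metric.closedBall o (3 * R)) (timeMarginal P half) ≤
        (entB m (Metric.closedBall o (3 * R)) μ₀ + entB m (Metric.closedBall o (3 * R)) μ₁) / 2 +
          ENNReal.ofReal (k / 8) * w2sq μ₀ μ₁ := by
  have hmono : ∀ {μ : Measure X}, μ (Metric.closedBall o R)ᶜ = 0 →
      μ (Metric.closedBall o (3 * R))ᶜ = 0 := by
    intro μ h
    exact measure_mono_null (compl_subset_compl.mpr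
      (Metric.closedBall_subset_closedBall (by linarith))) h
  refine MID_gen H h₀ h₁ hM₀ hM₁ hD Metric.isClosed_closedBall.measurableSet
    (isCompact_closedBall o (3 * R)).measure_lt_top.ne (hmono h₀) (hmono h₁) ?_ hC hC1
  intro P hP
  refine mid_marg_null Metric.isClosed_closedBall.measurableSet ?_
  filter_upwards [mid_supp hP h₀ h₁] with γ hγ
  exact Metric.closedBall_subset_closedBall (by linarith) (hγ.1 half)

end Crest.Agent.R242
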