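import Crest.Agent.R242.MinArg

/-!
Row 242: relations between `entB`, `Phi` and density bounds (used in [MID] and [DYAD]).
-/

set_option autoImplicit false
set_option linter.unusedSectionVars false

open MeasureTheory Filter Set
open scoped ENNReal NNReal Topology BoundedContinuousFunction
open InformationTheory

noncomputable section

namespace Crest.Agent.R242

section

variable {X : Type*} [MetricSpace X] [MeasurableSpace X] {m : Measure X}

lemma mid_ofReal_integral_le {α : Type*} [MeasurableSpace α] {κ : Measure α} {F : α → ℝ}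
    (hF : Integrable F κ) :
    ENNReal.ofReal (∫ x, F x ∂κ) ≤ ∫⁻ x, ENNReal.ofReal (F x) ∂κ := by
  have h1 : ∫ x, F x ∂κ ≤ ∫ x, max (F x) 0 ∂κ :=
    integral_mono hF hF.pos_part (fun x => le_max_left _ _)
  refine (ENNReal.ofReal_le_ofReal h1).trans ?_
  rw [ofReal_integral_eq_lintegral_ofReal hF.pos_part (ae_of_all _ fun x => le_max_right _ _)]
  refine lintegral_mono fun x => ?_
  rcases le_total (F x) 0 with h | h
  · rw [max_eq_right h]; simp
  · rw [max_eq_left h]

/-- a measure carried by `B` and absolutely continuous has the same density with respect to `m`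
and to its restriction. -/
lemma mid_rnDeriv_restrict [SigmaFinite m] {μ : Measure X} [IsFiniteMeasure μ] {B : Set X}
    (hB : MeasurableSet B) (hμ : μ ≪ m) (hμB : μ Bᶜ = 0) :
    μ.rnDeriv (m.restrict B) =ᵐ[m.restrict B] μ.rnDeriv m ∧
      (m.restrict B).withDensity (μ.rnDeriv m) = μ := by
  have h1 : m.withDensity (μ.rnDeriv m) = μ := Measure.withDensity_rnDeriv_eq _ _ hμ
  have h2 : (m.restrict B).withDensity (μ.rnDeriv m) = μ := by
    rw [← restrict_withDensity hB, h1]
    exact Measure.restrict_eq_self_of_ae_mem (by rw [ae_iff]; exact hμB)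
  refine ⟨?_, h2⟩
  have h3 := Measure.rnDeriv_withDensity (m.restrict B) (Measure.measurable_rnDeriv μ m)
  rwa [h2] at h3

lemma mid_entB_eq [SigmaFinite m] {μ : Measure X} [IsFiniteMeasure μ] {B : Set X}
    (hB : MeasurableSet B) (hμ : μ ≪ m) (hμB : μ Bᶜ = 0) :
    entB m B μ = ∫⁻ x, ENNReal.ofReal (klFun (μ.rnDeriv (m.restrict B) x).toReal)
      ∂(m.restrict B) := by
  unfold entB
  refine lintegral_congr_ae ?_
  filter_upwards [(mid_rnDeriv_restrict hB hμ hμB).1] with x hx
  rw [hx]

lemma mid_singularPart [SigmaFinite m] {μ : Measure X} [IsFiniteMeasure μ] {B : Set X}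
    (hB : MeasurableSet B) (hμ : μ ≪ m) (hμB : μ Bᶜ = 0) :
    μ.singularPart (m.restrict B) = 0 := by
  have h := (mid_rnDeriv_restrict hB hμ hμB).2
  rw [Measure.singularPart_eq_zero]
  rw [← h]
  exact withDensity_absolutelyContinuous _ _

/-- `Phi ≤ entB`. -/
lemma mid_ofReal_Phi_le [SigmaFinite m] {μ : Measure X} [IsFiniteMeasure μ] {B : Set X}
    (hB : MeasurableSet B) (hmB : m B ≠ ⊤) (hμ : μ ≪ m) (hμB : μ Bᶜ = 0) {C : ℝ} (hC : 1 ≤ C) :
    ENNReal.ofReal (Phi (m.restrict B) C μ) ≤ entB m B μ := by
  have : IsFiniteMeasure (m.restrict B) := ⟨by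
    rw [Measure.restrict_apply_univ]; exact lt_top_iff_ne_top.mpr hmB⟩
  rw [mid_entB_eq hB hμ hμB]
  unfold Phi
  rw [mid_singularPart hB hμ hμB]
  simp only [Measure.real, Measure.coe_zero, Pi.zero_apply, ENNReal.toReal_zero, mul_zero,
    add_zero]
  have hi : Integrable (fun x => uC C (μ.rnDeriv (m.restrict B) x).toReal) (m.restrict B) :=
    integrable_uC hC (Measure.measurable_rnDeriv _ _) (Measure.lintegral_rnDeriv_lt_top _ _).ne
  refine (mid_ofReal_integral_le hi).trans ?_
  refine lintegral_mono fun x => ENNReal.ofReal_le_ofReal ?_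
  exact uC_le_klFun (by linarith) ENNReal.toReal_nonneg

lemma mid_density_le [SigmaFinite m] {μ : Measure X} [IsFiniteMeasure μ] {B : Set X}
    (hμB : μ Bᶜ = 0) {L : ℝ≥0∞} (hμL : μ ≤ L • m) :
    μ.rnDeriv (m.restrict B) ≤ᵐ[m.restrict B] fun _ => L := by
  have hμC' : μ ≤ L • m.restrict B := by
    have : μ = μ.restrict B :=
      (Measure.restrict_eq_self_of_ae_mem (by rw [ae_iff]; exact hμB)).symm
    rw [this, ← Measure.restrict_smul]
    exact Measure.restrict_mono_measure hμL B
  refine ae_le_of_forall_setLIntegral_le_of_sigmaFinite (Measure.measurable_rnDeriv _ _) ?_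
  intro s hs _
  rw [setLIntegral_const]
  calc ∫⁻ x in s, μ.rnDeriv (m.restrict B) x ∂(m.restrict B) ≤ μ s :=
        Measure.setLIntegral_rnDeriv_le s
    _ ≤ (L • m.restrict B) s := hμC' s
    _ = L * (m.restrict B) s := rfl

/-- `Phi = entB` when the density is at most `C`. -/
lemma mid_ofReal_Phi_eq [SigmaFinite m] {μ : Measure X} [IsFiniteMeasure μ] {B : Set X}
    (hB : MeasurableSet B) (hmB : m B ≠ ⊤) (hμB : μ Bᶜ = 0) {C : ℝ} (hC : 1 ≤ C)
    (hμC : μ ≤ ENNReal.ofReal C • m) :
    ENNReal.ofReal (Phi (m.restrict B) C μ) = entB m B μ := by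
  have : IsFiniteMeasure (m.restrict B) := ⟨by
    rw [Measure.restrict_apply_univ]; exact lt_top_iff_ne_top.mpr hmB⟩
  have hμ : μ ≪ m := Measure.absolutelyContinuous_of_le_smul hμC
  rw [mid_entB_eq hB hμ hμB]
  unfold Phi
  rw [mid_singularPart hB hμ hμB]
  simp only [Measure.real, Measure.coe_zero, Pi.zero_apply, ENNReal.toReal_zero, mul_zero,
    add_zero]
  have hi : Integrable (fun x => uC C (μ.rnDeriv (m.restrict B) x).toReal) (m.restrict B) :=
    integrable_uC hC (Measure.measurable_rnDeriv _ _) (Measure.lintegral_rnDeriv_lt_top _ _).ne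
  rw [ofReal_integral_eq_lintegral_ofReal hi
    (ae_of_all _ fun x => uC_nonneg hC ENNReal.toReal_nonneg)]
  refine lintegral_congr_ae ?_
  filter_upwards [mid_density_le hμB hμC] with x hx
  rw [uC_of_le]
  calc (μ.rnDeriv (m.restrict B) x).toReal ≤ (ENNReal.ofReal C).toReal :=
        ENNReal.toReal_mono ENNReal.ofReal_ne_top hx
    _ = C := ENNReal.toReal_ofReal (by linarith)

/-- upper bound of the entropy of a measure with density at most `L`. -/
lemma mid_entB_le [SigmaFinite m] {μ : Measure X} [IsProbabilityMeasure μ] {B : Set X}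
    (hB : MeasurableSet B) (hmB : m B ≠ ⊤) (hμB : μ Bᶜ = 0) {L : ℝ} (hL : 0 < L)
    (hμL : μ ≤ ENNReal.ofReal L • m) :
    entB m B μ ≤ ENNReal.ofReal (Real.log L + (m B).toReal - 1) ∧
      0 ≤ Real.log L + (m B).toReal - 1 := by
  have hfin : IsFiniteMeasure (m.restrict B) := ⟨by
    rw [Measure.restrict_apply_univ]; exact lt_top_iff_ne_top.mpr hmB⟩
  have hμ : μ ≪ m := Measure.absolutelyContinuous_of_le_smul hμL
  rw [mid_entB_eq hB hμ hμB]
  set κ := m.restrict B with hκ
  set f := μ.rnDeriv κ with hf
  have hfm : Measurable f := Measure.measurable_rnDeriv _ _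
  have hfL : ∀ᵐ x ∂κ, f x ≤ ENNReal.ofReal L := mid_density_le hμB hμL
  have hf1 : ∫⁻ x, f x ∂κ = 1 := by
    have h1 := (mid_rnDeriv_restrict hB hμ hμB)
    rw [lintegral_congr_ae h1.1, ← setLIntegral_univ, ← withDensity_apply _ MeasurableSet.univ,
      h1.2]
    exact measure_univ
  have hfi : Integrable (fun x => (f x).toReal) κ :=
    integrable_toReal_of_lintegral_ne_top hfm.aemeasurable (by rw [hf1]; simp)
  have hf1' : ∫ x, (f x).toReal ∂κ = 1 := by
    rw [integral_toReal hfm.aemeasurable (ae_lt_top hfm (by rw [hf1]; simp)), hf1]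
    simp
  have hle : ∀ᵐ x ∂κ, klFun (f x).toReal ≤ Real.log L * (f x).toReal + 1 - (f x).toReal := by
    filter_upwards [hfL] with x hx
    have h0 : 0 ≤ (f x).toReal := ENNReal.toReal_nonneg
    have h1 : (f x).toReal ≤ L := by
      calc (f x).toReal ≤ (ENNReal.ofReal L).toReal :=
            ENNReal.toReal_mono ENNReal.ofReal_ne_top hx
        _ = L := ENNReal.toReal_ofReal hL.le
    unfold klFun
    rcases h0.eq_or_lt with h | h
    · rw [← h]; simp
    · have : Real.log (f x).toReal ≤ Real.log L := Real.log_le_log h h1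
      nlinarith
  have hG : Integrable (fun x => Real.log L * (f x).toReal + 1 - (f x).toReal) κ :=
    ((hfi.const_mul _).add (integrable_const _)).sub hfi
  have hGi : ∫ x, (Real.log L * (f x).toReal + 1 - (f x).toReal) ∂κ =
      Real.log L + (m B).toReal - 1 := by
    have i1 : Integrable (fun x => Real.log L * (f x).toReal) κ := hfi.const_mul _
    have i2 : Integrable (fun x => Real.log L * (f x).toReal + 1) κ :=
      i1.add (integrable_const _)
    rw [integral_sub i2 hfi, integral_add i1 (integrable_const _), integral_const_mul, hf1',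
      integral_const]
    simp [hκ, Measure.real]
  have h0 : 0 ≤ᵐ[κ] fun x => Real.log L * (f x).toReal + 1 - (f x).toReal := by
    filter_upwards [hle] with x hx
    exact (klFun_nonneg ENNReal.toReal_nonneg).trans hx
  constructor
  · rw [← hGi, ofReal_integral_eq_lintegral_ofReal hG h0]
    refine lintegral_mono_ae ?_
    filter_upwards [hle] with x hx
    exact ENNReal.ofReal_le_ofReal hx
  · rw [← hGi]
    exact integral_nonneg_of_ae h0

/-- lower bound of the entropy of a measure in terms of the mass of the set where the density is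
positive. -/
lemma mid_le_entB {μ : Measure X} {B : Set X}
    (hmB : m B ≠ ⊤) {g : X → ℝ≥0∞} (hg : Measurable g) (hg1 : ∫⁻ x in B, g x ∂m = 1)
    (hμg : (μ.rnDeriv m) =ᵐ[m.restrict B] g) :
    0 < (m.restrict B).real {x | g x ≠ 0} ∧
    ENNReal.ofReal (-Real.log ((m.restrict B).real {x | g x ≠ 0}) + (m B).toReal - 1) ≤
      entB m B μ := by
  have hfin : IsFiniteMeasure (m.restrict B) := ⟨by
    rw [Measure.restrict_apply_univ]; exact lt_top_iff_ne_top.mpr hmB⟩
  have hent : entB m B μ = ∫⁻ x in B, ENNReal.ofReal (klFun (g x).toReal) ∂m := by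
    unfold entB
    refine lintegral_congr_ae ?_
    filter_upwards [hμg] with x hx
    rw [hx]
  rw [hent]
  set κ := m.restrict B with hκ
  set A : Set X := {x | g x ≠ 0} with hA
  have hAm : MeasurableSet A := hg (measurableSet_singleton 0).compl
  set a := κ.real A with ha
  have hpos : 0 < a := by
    rcases (measureReal_nonneg : 0 ≤ a).eq_or_lt with h | h
    · exfalso
      have h1 : κ A = 0 := by
        have := (measureReal_eq_zero_iff (μ := κ) (s := A)).mp h.symm
        exact this
      have h2 : g =ᵐ[κ] 0 := by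
        rw [Filter.EventuallyEq, ae_iff]
        exact h1
      rw [lintegral_congr_ae h2] at hg1
      simp at hg1
    · exact h
  refine ⟨hpos, ?_⟩
  set v := -Real.log a with hv
  have hev : Real.exp v * a = 1 := by
    rw [hv, Real.exp_neg, Real.exp_log hpos]
    field_simp
  have hgi : Integrable (fun x => (g x).toReal) κ :=
    integrable_toReal_of_lintegral_ne_top hg.aemeasurable (by rw [hg1]; simp)
  have hg1' : ∫ x, (g x).toReal ∂κ = 1 := by
    rw [integral_toReal hg.aemeasurable (ae_lt_top hg (by rw [hg1]; simp)), hg1]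
    simp
  set F : X → ℝ := fun x => v * (g x).toReal - Real.exp v * A.indicator (fun _ => (1 : ℝ)) x + 1
    with hF
  have hi1 : Integrable (A.indicator (fun _ => (1 : ℝ))) κ :=
    (integrable_const _).indicator hAm
  have hFi : Integrable F κ :=
    ((hgi.const_mul _).sub (hi1.const_mul _)).add (integrable_const _)
  have hFint : ∫ x, F x ∂κ = -Real.log a + (m B).toReal - 1 := by
    have i1 : Integrable (fun x => v * (g x).toReal) κ := hgi.const_mul _
    have i2 : Integrable (fun x => Real.exp v * A.indicator (fun _ => (1 : ℝ)) x) κ :=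
      hi1.const_mul _
    have i3 : Integrable (fun x => v * (g x).toReal -
      Real.exp v * A.indicator (fun _ => (1 : ℝ)) x) κ := i1.sub i2
    simp only [hF]
    rw [integral_add i3 (integrable_const _), integral_sub i1 i2, integral_const_mul,
      integral_const_mul, hg1', integral_indicator_const _ hAm, integral_const]
    simp only [smul_eq_mul, mul_one]
    rw [← ha, hev]
    simp only [hκ, Measure.real, Measure.restrict_apply_univ]
    ring
  rw [← hFint]
  refine (mid_ofReal_integral_le hFi).trans (lintegral_mono fun x => ENNReal.ofReal_le_ofReal ?_)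
  simp only [hF]
  by_cases hx : x ∈ A
  · rw [indicator_of_mem hx]
    have := klFun_young (r := (g x).toReal) ENNReal.toReal_nonneg v
    linarith
  · rw [indicator_of_notMem hx]
    have h0 : g x = 0 := by
      by_contra h
      exact hx h
    rw [h0]
    simp [klFun]

end

end Crest.Agent.R242
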