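import Crest.Agent.R242.Phi

/-!
Row 242: abstract form of Rajala's argument: minimisers of `Φ_C` in a class of measures closed
under replacement have density at most `C`.
-/

set_option autoImplicit false

open MeasureTheory Filter Set
open scoped ENNReal NNReal Topology
open InformationTheory

noncomputable section

namespace Crest.Agent.R242

variable {X : Type*} [MeasurableSpace X]

/-- mass of the super level set of the density. -/
def lev (κ : Measure X) (C : ℝ) (ν : Measure X) : ℝ :=
  κ.real {x | C < (ν.rnDeriv κ x).toReal}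

/-- the modified measure. -/
def modif (ν κ : Measure X) (T : Set X) (g : X → ℝ≥0∞) (δ : ℝ≥0) : Measure X :=
  (1 - δ) • ν.restrict T + ν.restrict Tᶜ + ((δ : ℝ≥0∞) * ν T) • κ.withDensity g

lemma modif_step {κ : Measure X} [IsFiniteMeasure κ] {C e : ℝ} (hC : 1 ≤ C) (he : 0 < e)
    {ν : Measure X} [IsProbabilityMeasure ν] {S0 : Set X} (hS0 : MeasurableSet S0)
    (hκS : κ S0 = 0) (hsS : ν.singularPart κ S0ᶜ = 0)
    {A : Set X} (hA : A = {x | C + e < (ν.rnDeriv κ x).toReal})
    {g : X → ℝ≥0∞} (hg : Measurable g) (hg1 : ∫⁻ x, g x ∂κ = 1)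
    (hp : 0 < ν.real (A ∪ S0))
    {δ : ℝ≥0} (hδ0 : 0 < δ) (hδ1 : δ < 1) (hδ : C < (1 - (δ : ℝ)) * (C + e))
    (hmin : Phi κ C ν ≤ Phi κ C (modif ν κ (A ∪ S0) g δ)) :
    Phi κ C (modif ν κ (A ∪ S0) g δ) ≤ Phi κ C ν ∧
      κ.real {x | g x ≠ 0} ≤ lev κ C (modif ν κ (A ∪ S0) g δ) := by
  classical
  set s := ν.singularPart κ with hs
  set f := ν.rnDeriv κ with hf
  set T := A ∪ S0 with hT
  have hfm : Measurable f := Measure.measurable_rnDeriv _ _
  have hν : ν = s + κ.withDensity f := (Measure.singularPart_add_rnDeriv ν κ).symm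
  obtain ⟨hsf, hfi⟩ := finite_of_decomp hν
  have hms : s ⟂ₘ κ := Measure.mutuallySingular_singularPart ν κ
  have hAm : MeasurableSet A := by
    rw [hA]; exact measurableSet_lt measurable_const hfm.ennreal_toReal
  have hTm : MeasurableSet T := hAm.union hS0
  have hft : ∀ᵐ x ∂κ, f x < ⊤ := ae_lt_top hfm hfi
  have hgt : ∀ᵐ x ∂κ, g x < ⊤ := ae_lt_top hg (by rw [hg1]; exact ENNReal.one_ne_top)
  set p : ℝ≥0∞ := ν T with hpdef
  have hpt : p ≠ ⊤ := measure_ne_top _ _
  have hp0 : 0 < p.toReal := hp
  -- decomposition of the modified measure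
  have hTA : (T : Set X) =ᵐ[κ] A := by
    have : κ (T \ A) = 0 := measure_mono_null (by
      rw [hT, union_sdiff_left]; exact sdiff_subset) hκS
    exact (ae_le_set.mpr this).antisymm (ae_le_set.mpr (by
      rw [hT, sdiff_eq_bot_iff.mpr subset_union_left]; exact measure_empty))
  have hTAc : (Tᶜ : Set X) =ᵐ[κ] Aᶜ := hTA.compl
  have hsT : s.restrict T = s := by
    rw [Measure.restrict_eq_self_of_ae_mem]
    rw [ae_iff]
    refine measure_mono_null ?_ hsS
    intro x hx hx'
    exact hx (Or.inr hx')
  have hsTc : s.restrict Tᶜ = 0 := by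
    rw [Measure.restrict_eq_zero]
    refine measure_mono_null ?_ hsS
    intro x hx hx'
    exact hx (Or.inr hx')
  have h1 : ν.restrict T = s + κ.withDensity (A.indicator f) := by
    conv_lhs => rw [hν]
    rw [Measure.restrict_add, hsT, restrict_withDensity hTm, Measure.restrict_congr_set hTA,
      withDensity_indicator hAm]
  have h2 : ν.restrict Tᶜ = κ.withDensity (Aᶜ.indicator f) := by
    conv_lhs => rw [hν]
    rw [Measure.restrict_add, hsTc, zero_add, restrict_withDensity hTm.compl,
      Measure.restrict_congr_set hTAc]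
    exact (withDensity_indicator hAm.compl f).symm
  set d : ℝ≥0∞ := ((1 - δ : ℝ≥0) : ℝ≥0∞) with hd
  set h : X → ℝ≥0∞ := fun x => d * A.indicator f x + Aᶜ.indicator f x + ((δ : ℝ≥0∞) * p) * g x
    with hh
  have hhm : Measurable h := by
    have := hfm.indicator hAm
    have := hfm.indicator hAm.compl
    fun_prop
  have hdec : modif ν κ T g δ = d • s + κ.withDensity h := by
    unfold modif
    rw [h1, h2]
    have e1 : κ.withDensity h = d • κ.withDensity (A.indicator f) + κ.withDensity (Aᶜ.indicator f)
        + ((δ : ℝ≥0∞) * p) • κ.withDensity g := by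
      have : h = (d • A.indicator f + Aᶜ.indicator f) + ((δ : ℝ≥0∞) * p) • g := by
        funext x; simp [hh]
      rw [this, withDensity_add_left (by
          have := hfm.indicator hAm
          have := hfm.indicator hAm.compl
          fun_prop),
        withDensity_add_left (by
          have := hfm.indicator hAm
          fun_prop), withDensity_smul _ (hfm.indicator hAm), withDensity_smul _ hg]
    rw [e1]
    have e2 : ((1 - δ : ℝ≥0) • (s + κ.withDensity (A.indicator f)) : Measure X)
        = d • s + d • κ.withDensity (A.indicator f) := by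
      rw [hd, smul_add]; rfl
    rw [e2]
    abel
  have hms' : (d • s) ⟂ₘ κ := hms.smul d
  have hPhi' := Phi_of_decomp hhm hms' hdec C
  have hPhi := Phi_of_decomp hfm hms hν C
  have hdr : d.toReal = 1 - (δ : ℝ) := by
    rw [hd, ENNReal.coe_toReal, NNReal.coe_sub hδ1.le, NNReal.coe_one]
  have hds : (d • s).real univ = (1 - (δ : ℝ)) * s.real univ := by
    simp only [Measure.real, Measure.smul_apply, smul_eq_mul, ENNReal.toReal_mul, hdr]
  rw [hds] at hPhi'
  -- total mass of `f` on `A`
  have hfint : Integrable (fun x => (f x).toReal) κ :=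
    integrable_toReal_of_lintegral_ne_top hfm.aemeasurable hfi
  have hgint : Integrable (fun x => (g x).toReal) κ :=
    integrable_toReal_of_lintegral_ne_top hg.aemeasurable (by rw [hg1]; exact ENNReal.one_ne_top)
  have hg1' : ∫ x, (g x).toReal ∂κ = 1 := by
    rw [integral_toReal hg.aemeasurable hgt, hg1]; simp
  have hpval : p.toReal = s.real univ + ∫ x in A, (f x).toReal ∂κ := by
    have : p = s univ + ∫⁻ x in A, f x ∂κ := by
      rw [hpdef]
      have := congrArg (fun η : Measure X => η univ) h1
      simp only [Measure.restrict_apply_univ, Measure.add_apply] at this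
      rw [this, withDensity_apply _ MeasurableSet.univ, Measure.restrict_univ,
        lintegral_indicator hAm]
    rw [this, ENNReal.toReal_add (measure_ne_top _ _), integral_toReal hfm.aemeasurable]
    · rfl
    · exact ae_restrict_of_ae hft
    · exact (lt_of_le_of_lt (setLIntegral_le_lintegral _ _) (lt_top_iff_ne_top.mpr hfi)).ne
  -- real valued version of `h`
  have hhr : ∀ᵐ x ∂κ, (h x).toReal =
      (if x ∈ A then (1 - (δ : ℝ)) * (f x).toReal else (f x).toReal)
        + (δ : ℝ) * p.toReal * (g x).toReal := by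
    filter_upwards [hft, hgt] with x hx hx'
    simp only [hh]
    rw [ENNReal.toReal_add, ENNReal.toReal_add, ENNReal.toReal_mul, ENNReal.toReal_mul,
      ENNReal.toReal_mul, hdr]
    · by_cases hxA : x ∈ A
      · simp [hxA]
      · simp [hxA]
    · refine ENNReal.mul_ne_top (by rw [hd]; exact ENNReal.coe_ne_top) ?_
      by_cases hxA : x ∈ A
      · simp [hxA, hx.ne]
      · simp [hxA]
    · by_cases hxA : x ∈ A
      · simp [hxA]
      · simp [hxA, hx.ne]
    · refine ENNReal.add_ne_top.mpr ⟨?_, ?_⟩
      · refine ENNReal.mul_ne_top (by rw [hd]; exact ENNReal.coe_ne_top) ?_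
        by_cases hxA : x ∈ A
        · simp [hxA, hx.ne]
        · simp [hxA]
      · by_cases hxA : x ∈ A
        · simp [hxA]
        · simp [hxA, hx.ne]
    · exact ENNReal.mul_ne_top (ENNReal.mul_ne_top ENNReal.coe_ne_top hpt) hx'.ne
  have hδp : 0 < (δ : ℝ) * p.toReal := mul_pos (by exact_mod_cast hδ0) hp0
  have hδ1' : (δ : ℝ) < 1 := by exact_mod_cast hδ1
  have hδ0' : 0 < (δ : ℝ) := by exact_mod_cast hδ0
  have hhi : ∫⁻ x, h x ∂κ ≠ ⊤ := by
    have hfin : IsFiniteMeasure (modif ν κ T g δ) := by
      unfold modif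
      have : IsFiniteMeasure (κ.withDensity g) :=
        isFiniteMeasure_withDensity (by rw [hg1]; exact ENNReal.one_ne_top)
      have h3 : IsFiniteMeasure (((δ : ℝ≥0∞) * ν T) • κ.withDensity g) :=
        Measure.smul_finite _ (ENNReal.mul_ne_top ENNReal.coe_ne_top hpt)
      infer_instance
    exact (finite_of_decomp hdec).2
  have hhint : Integrable (fun x => (h x).toReal) κ :=
    integrable_toReal_of_lintegral_ne_top hhm.aemeasurable hhi
  have hlogC : 0 ≤ Real.log C := Real.log_nonneg hC
  have hC0 : 0 < C := by linarith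
  -- value of the integral of `h - f`
  have hdiff : ∫ x, ((h x).toReal - (f x).toReal) ∂κ = (δ : ℝ) * s.real univ := by
    have e1 : ∀ᵐ x ∂κ, (h x).toReal - (f x).toReal =
        (-(δ : ℝ)) * A.indicator (fun x => (f x).toReal) x + (δ : ℝ) * p.toReal * (g x).toReal := by
      filter_upwards [hhr] with x hx
      rw [hx]
      by_cases hxA : x ∈ A
      · simp only [hxA, if_true, indicator_of_mem]; ring
      · simp only [hxA, if_false, indicator_of_notMem, not_false_eq_true]; ring
    rw [integral_congr_ae e1, integral_add ((hfint.indicator hAm).const_mul _)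
      (hgint.const_mul _), integral_const_mul, integral_const_mul, integral_indicator hAm, hg1',
      hpval]
    ring
  -- pointwise inequality
  set D : X → ℝ := fun x => Real.log C * ((h x).toReal - (f x).toReal) -
    (uC C (h x).toReal - uC C (f x).toReal) with hD
  have hUh := integrable_uC hC hhm hhi
  have hUf := integrable_uC hC hfm hfi
  have hI1 : Integrable (fun x => Real.log C * ((h x).toReal - (f x).toReal)) κ :=
    (hhint.sub hfint).const_mul _
  have hI2 : Integrable (fun x => uC C (h x).toReal - uC C (f x).toReal) κ := hUh.sub hUf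
  have hDint : Integrable D κ := hI1.sub hI2
  have hDnn : ∀ᵐ x ∂κ, 0 ≤ D x := by
    filter_upwards [hhr] with x hx
    simp only [hD]
    rw [sub_nonneg]
    by_cases hxA : x ∈ A
    · have hfx : C + e < (f x).toReal := by rw [hA] at hxA; exact hxA
      have hhx : C ≤ (h x).toReal := by
        rw [hx, if_pos hxA]
        have h3 : (1 - (δ : ℝ)) * (C + e) ≤ (1 - (δ : ℝ)) * (f x).toReal :=
          mul_le_mul_of_nonneg_left hfx.le (by linarith)
        have h4 : 0 ≤ (δ : ℝ) * p.toReal * (g x).toReal :=
          mul_nonneg hδp.le ENNReal.toReal_nonneg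
        linarith
      exact (uC_sub_eq (by linarith) hhx).le
    · have hhx : (f x).toReal ≤ (h x).toReal := by
        rw [hx, if_neg hxA]
        have h4 : 0 ≤ (δ : ℝ) * p.toReal * (g x).toReal :=
          mul_nonneg hδp.le ENNReal.toReal_nonneg
        linarith
      exact uC_sub_le hC0 ENNReal.toReal_nonneg hhx
  have hDval : ∫ x, D x ∂κ = Phi κ C ν - Phi κ C (modif ν κ T g δ) := by
    simp only [hD]
    rw [integral_sub hI1 hI2, integral_const_mul, hdiff, integral_sub hUh hUf, hPhi, hPhi']
    ring
  have hD0 : 0 ≤ ∫ x, D x ∂κ := integral_nonneg_of_ae hDnn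
  have hle : Phi κ C (modif ν κ T g δ) ≤ Phi κ C ν := by
    rw [hDval] at hD0; linarith
  refine ⟨hle, ?_⟩
  have hDz : D =ᵐ[κ] 0 := by
    rw [← integral_eq_zero_iff_of_nonneg_ae hDnn hDint, hDval]
    linarith
  unfold lev
  refine ENNReal.toReal_mono (measure_ne_top _ _) (measure_mono_ae ?_)
  filter_upwards [hDz, hhr, Measure.eq_rnDeriv hhm hms' hdec, hgt] with x hx0 hx hxr hxg hgx
  change C < ((modif ν κ T g δ).rnDeriv κ x).toReal
  rw [← hxr]
  have hgx' : 0 < (g x).toReal := ENNReal.toReal_pos hgx hxg.ne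
  have hpos : 0 < (δ : ℝ) * p.toReal * (g x).toReal := mul_pos hδp hgx'
  by_cases hxA : x ∈ A
  · have hfx : C + e < (f x).toReal := by rw [hA] at hxA; exact hxA
    rw [hx, if_pos hxA]
    have h3 : (1 - (δ : ℝ)) * (C + e) ≤ (1 - (δ : ℝ)) * (f x).toReal :=
      mul_le_mul_of_nonneg_left hfx.le (by linarith)
    linarith
  · rw [hx, if_neg hxA]
    by_contra hcon
    rw [not_lt] at hcon
    have hfC : (f x).toReal < C := by linarith
    have hlt := uC_sub_lt (C := C) hC0 (r := (f x).toReal) (r' := (h x).toReal)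
      ENNReal.toReal_nonneg (by rw [hx, if_neg hxA]; linarith) hfC
    have : D x = 0 := hx0
    simp only [hD] at this
    linarith

/-- Abstract form of Rajala's argument. -/
theorem density_bound_of_min {κ : Measure X} [IsFiniteMeasure κ] {C c0 : ℝ} (hC : 1 ≤ C)
    (hc0 : 0 < c0) (hCc : 1 < C * c0) (𝒞 : Set (Measure X))
    (hprob : ∀ ν ∈ 𝒞, IsProbabilityMeasure ν)
    (hrep : ∀ ν ∈ 𝒞, ∀ T, MeasurableSet T → 0 < ν.real T →
      ∃ g : X → ℝ≥0∞, Measurable g ∧ ∫⁻ x, g x ∂κ = 1 ∧ ν.real T * c0 ≤ κ.real {x | g x ≠ 0} ∧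
        ∀ δ : ℝ≥0, δ < 1 → modif ν κ T g δ ∈ 𝒞)
    {μ : Measure X} (hμ : μ ∈ 𝒞) (hmin : ∀ ν ∈ 𝒞, Phi κ C μ ≤ Phi κ C ν) :
    (∀ᵐ x ∂κ, (μ.rnDeriv κ x).toReal ≤ C) ∧ μ.singularPart κ = 0 := by
  classical
  set Mn : Set (Measure X) := {ν | ν ∈ 𝒞 ∧ Phi κ C ν ≤ Phi κ C μ} with hMn
  set S : Set ℝ := (fun ν => lev κ C ν) '' Mn with hS
  have hbdd : BddAbove S := by
    refine ⟨κ.real univ, ?_⟩
    rintro _ ⟨ν, -, rfl⟩
    exact measureReal_mono (subset_univ _)
  set σ := sSup S with hσ
  have hμM : μ ∈ Mn := ⟨hμ, le_rfl⟩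
  -- key inequality
  have key : ∀ ν ∈ Mn, c0 * (C * lev κ C ν + (ν.singularPart κ).real univ) ≤ σ := by
    intro ν hν
    have hνp : IsProbabilityMeasure ν := hprob ν hν.1
    set s := ν.singularPart κ with hs
    set f := ν.rnDeriv κ with hf
    have hfm : Measurable f := Measure.measurable_rnDeriv _ _
    have hdecν : ν = s + κ.withDensity f := (Measure.singularPart_add_rnDeriv ν κ).symm
    obtain ⟨hsf, hfi⟩ := finite_of_decomp hdecν
    have hms : s ⟂ₘ κ := Measure.mutuallySingular_singularPart ν κ
    set S0 : Set X := hms.nullSetᶜ with hS0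
    have hS0m : MeasurableSet S0 := hms.measurableSet_nullSet.compl
    have hκS : κ S0 = 0 := hms.measure_compl_nullSet
    have hsS : s S0ᶜ = 0 := by rw [hS0, compl_compl]; exact hms.measure_nullSet
    -- level sets `A n`
    set A : ℕ → Set X := fun n => {x | C + 1 / ((n : ℝ) + 1) < (f x).toReal} with hA
    have hAm : ∀ n, MeasurableSet (A n) := fun n =>
      measurableSet_lt measurable_const hfm.ennreal_toReal
    have step : ∀ n, c0 * (C * κ.real (A n) + s.real univ) ≤ σ := by
      intro n
      set e : ℝ := 1 / ((n : ℝ) + 1) with he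
      have he0 : 0 < e := by positivity
      -- lower bound of the mass
      have hmass : C * κ.real (A n) + s.real univ ≤ ν.real (A n ∪ S0) := by
        have h1 : s.real univ ≤ s.real (A n ∪ S0) := by
          refine ENNReal.toReal_mono (measure_ne_top _ _) ?_
          have : s univ ≤ s S0 + s S0ᶜ := by
            rw [← union_compl_self S0]; exact measure_union_le _ _
          rw [hsS, add_zero] at this
          exact this.trans (measure_mono subset_union_right)
        have hfin : IsFiniteMeasure (κ.withDensity f) := isFiniteMeasure_withDensity hfi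
        have h2 : C * κ.real (A n) ≤ (κ.withDensity f).real (A n ∪ S0) := by
          have h3 : ENNReal.ofReal C * κ (A n) ≤ (κ.withDensity f) (A n) := by
            rw [withDensity_apply _ (hAm n), ← setLIntegral_const]
            refine setLIntegral_mono' (hAm n) (fun x hx => ?_)
            have hx' : C + e < (f x).toReal := hx
            exact ENNReal.ofReal_le_of_le_toReal (by linarith)
          have h4 : C * κ.real (A n) = (ENNReal.ofReal C * κ (A n)).toReal := by
            rw [ENNReal.toReal_mul, ENNReal.toReal_ofReal (by linarith)]; rfl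
          rw [h4]
          exact ENNReal.toReal_mono (measure_ne_top _ _)
            (h3.trans (measure_mono subset_union_left))
        have h5 : ν.real (A n ∪ S0) = s.real (A n ∪ S0) + (κ.withDensity f).real (A n ∪ S0) := by
          conv_lhs => rw [hdecν]
          exact measureReal_add_apply
        linarith
      by_cases hp : 0 < ν.real (A n ∪ S0)
      · obtain ⟨g, hgm, hg1, hgc, hgrep⟩ := hrep ν hν.1 _ ((hAm n).union hS0m) hp
        set δ : ℝ≥0 := ⟨e / (2 * (C + e)), by positivity⟩ with hδ
        have hδr : (δ : ℝ) = e / (2 * (C + e)) := rfl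
        have hδ0 : 0 < δ := by
          rw [← NNReal.coe_pos, hδr]; positivity
        have hδ1 : δ < 1 := by
          rw [← NNReal.coe_lt_coe, hδr, NNReal.coe_one, div_lt_one (by positivity)]
          linarith
        have hδ2 : C < (1 - (δ : ℝ)) * (C + e) := by
          rw [hδr]
          have : (1 - e / (2 * (C + e))) * (C + e) = C + e / 2 := by
            field_simp; ring
          rw [this]; linarith
        have hmem := hgrep δ hδ1
        have hminν : Phi κ C ν ≤ Phi κ C (modif ν κ (A n ∪ S0) g δ) :=
          hν.2.trans (hmin _ hmem)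
        obtain ⟨hle, hlev⟩ := modif_step hC he0 hS0m hκS hsS (A := A n) rfl hgm hg1 hp hδ0 hδ1 hδ2
          hminν
        have hin : lev κ C (modif ν κ (A n ∪ S0) g δ) ∈ S :=
          ⟨_, ⟨hmem, hle.trans hν.2⟩, rfl⟩
        calc c0 * (C * κ.real (A n) + s.real univ) ≤ c0 * ν.real (A n ∪ S0) :=
              mul_le_mul_of_nonneg_left hmass hc0.le
          _ = ν.real (A n ∪ S0) * c0 := mul_comm _ _
          _ ≤ _ := hgc
          _ ≤ _ := hlev
          _ ≤ σ := le_csSup hbdd hin
      · have h0 : ν.real (A n ∪ S0) = 0 :=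
          le_antisymm (not_lt.mp hp) measureReal_nonneg
        have h1 : C * κ.real (A n) + s.real univ ≤ 0 := h0 ▸ hmass
        have h2 : 0 ≤ σ := le_trans (measureReal_nonneg) (le_csSup hbdd ⟨ν, hν, rfl⟩)
        exact (mul_nonpos_of_nonneg_of_nonpos hc0.le h1).trans h2
    -- pass to the limit
    have hmono : Monotone A := by
      intro i j hij x hx
      have hx' : C + 1 / ((i : ℝ) + 1) < (f x).toReal := hx
      change C + 1 / ((j : ℝ) + 1) < (f x).toReal
      have : 1 / ((j : ℝ) + 1) ≤ 1 / ((i : ℝ) + 1) := by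
        apply one_div_le_one_div_of_le (by positivity)
        have : (i : ℝ) ≤ j := by exact_mod_cast hij
        linarith
      linarith
    have hunion : (⋃ n, A n) = {x | C < (f x).toReal} := by
      ext x
      simp only [mem_iUnion]
      constructor
      · rintro ⟨n, hx⟩
        have hx' : C + 1 / ((n : ℝ) + 1) < (f x).toReal := hx
        change C < _
        have : 0 < 1 / ((n : ℝ) + 1) := by positivity
        linarith
      · intro hx
        have hx' : C < (f x).toReal := hx
        obtain ⟨n, hn⟩ := exists_nat_one_div_lt (sub_pos.mpr hx')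
        refine ⟨n, ?_⟩
        change C + 1 / ((n : ℝ) + 1) < (f x).toReal
        linarith
    have htend : Tendsto (fun n => κ.real (A n)) atTop (𝓝 (lev κ C ν)) := by
      unfold lev
      rw [← hunion]
      exact (ENNReal.tendsto_toReal (measure_ne_top _ _)).comp
        (tendsto_measure_iUnion_atTop hmono)
    have hlim : Tendsto (fun n => c0 * (C * κ.real (A n) + s.real univ)) atTop
        (𝓝 (c0 * (C * lev κ C ν + s.real univ))) :=
      ((htend.const_mul C).add_const _).const_mul c0
    exact le_of_tendsto hlim (Eventually.of_forall step)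
  have hσ0 : σ ≤ 0 := by
    by_contra hpos
    rw [not_le] at hpos
    have hne : S.Nonempty := ⟨_, μ, hμM, rfl⟩
    have h1 : σ ≤ σ / (c0 * C) := by
      refine csSup_le hne ?_
      rintro _ ⟨ν, hν, rfl⟩
      have := key ν hν
      have h2 : 0 ≤ (ν.singularPart κ).real univ := measureReal_nonneg
      have h3 : c0 * C * lev κ C ν ≤ σ := by nlinarith
      rw [le_div_iff₀ (by positivity)]
      linarith
    have h2 : σ / (c0 * C) < σ := by
      rw [div_lt_iff₀ (by positivity)]
      nlinarith
    linarith
  have hkμ := key μ hμM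
  have hl : 0 ≤ lev κ C μ := measureReal_nonneg
  have hμp : IsProbabilityMeasure μ := hprob μ hμ
  have hs0 : 0 ≤ (μ.singularPart κ).real univ := measureReal_nonneg
  have hC0 : 0 < C := by linarith
  have hsum : C * lev κ C μ + (μ.singularPart κ).real univ ≤ 0 := by
    by_contra hcon
    rw [not_le] at hcon
    have := mul_pos hc0 hcon
    linarith
  have hl0 : lev κ C μ = 0 := by nlinarith
  have hs00 : (μ.singularPart κ).real univ = 0 := by nlinarith
  constructor
  · have : κ {x | C < (μ.rnDeriv κ x).toReal} = 0 := by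
      rwa [lev, measureReal_eq_zero_iff] at hl0
    rw [ae_iff]
    convert this using 2
    ext x; simp
  · rw [measureReal_eq_zero_iff] at hs00
    exact Measure.measure_univ_eq_zero.mp hs00

end Crest.Agent.R242
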