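import Crest.Agent.R242.CurveTop

/-!
Row 242: optimal geodesic plans (O1-O4), gluing, triangle inequality for `w2sq`.
Owner: helper386.
-/

set_option autoImplicit false
set_option linter.unusedSectionVars false

open MeasureTheory Filter Set ProbabilityTheory
open scoped ENNReal NNReal Topology
open Crest.GeometryTopology.SyntheticRicci

noncomputable section

namespace Crest.Agent.R242

/-- General gluing lemma (disintegration): measures on `A` and `C` with the same image in `B`. -/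
theorem exists_glue {A B C : Type*} [MeasurableSpace A] [MeasurableSpace B] [MeasurableSpace C]
    [StandardBorelSpace C] [TopologicalSpace B] [T2Space B] [SecondCountableTopology B]
    [BorelSpace B] (P : Measure A) [IsFiniteMeasure P] (Q : Measure C) [IsFiniteMeasure Q]
    (f : A → B) (hf : Measurable f) (g : C → B) (hg : Measurable g) (h : P.map f = Q.map g) :
    ∃ S : Measure (A × C), IsFiniteMeasure S ∧ S.map Prod.fst = P ∧ S.map Prod.snd = Q ∧
      ∀ᵐ p ∂S, f p.1 = g p.2 := by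
  rcases isEmpty_or_nonempty C with hC | hC
  · have hQ : Q = 0 := by
      ext s _
      have : s = ∅ := Subsingleton.elim _ _
      simp [this]
    have hP : P = 0 := by
      rw [← Measure.measure_univ_eq_zero]
      have h1 := congrArg (fun μ => μ Set.univ) h
      simp only [hQ, Measure.map_zero] at h1
      rw [Measure.map_apply hf MeasurableSet.univ] at h1
      simpa using h1
    exact ⟨0, inferInstance, by simp [hP], by simp [hQ], by simp⟩
  · have hgc : Measurable (fun c => (g c, c)) := hg.prodMk measurable_id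
    set Q' : Measure (B × C) := Q.map (fun c => (g c, c)) with hQ'
    have : IsFiniteMeasure Q' := Measure.isFiniteMeasure_map _ _
    have hfst : Q'.fst = P.map f := by
      rw [Measure.fst, hQ', Measure.map_map measurable_fst hgc, h]
      rfl
    have hsnd : Q'.snd = Q := by
      rw [Measure.snd, hQ', Measure.map_map measurable_snd hgc]
      exact Measure.map_id
    set κ : Kernel B C := Q'.condKernel with hκ
    have hdis : Q'.fst ⊗ₘ κ = Q' := Q'.disintegrate κ
    refine ⟨P ⊗ₘ (κ.comap f hf), inferInstance, ?_, ?_, ?_⟩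
    · exact Measure.fst_compProd P _
    · ext s hs
      rw [Measure.map_apply measurable_snd hs, Measure.compProd_apply (measurable_snd hs)]
      have h2 : Q s = Q' (Prod.snd ⁻¹' s) := by
        rw [← hsnd, Measure.snd_apply hs]
      rw [h2]
      conv_rhs => rw [← hdis]
      rw [Measure.compProd_apply (measurable_snd hs), hfst,
        lintegral_map (by
          exact κ.measurable_kernel_prodMk_left (measurable_snd hs)) hf]
      rfl
    · have hm : MeasurableSet {p : A × C | f p.1 = g p.2} :=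
        measurableSet_eq_fun (hf.comp measurable_fst) (hg.comp measurable_snd)
      rw [Measure.ae_compProd_iff hm]
      have hm' : MeasurableSet {p : B × C | p.1 = g p.2} :=
        measurableSet_eq_fun measurable_fst (hg.comp measurable_snd)
      have h3 : ∀ᵐ p ∂Q', p.1 = g p.2 := by
        rw [hQ', ae_map_iff hgc.aemeasurable hm']
        exact Filter.Eventually.of_forall fun c => rfl
      rw [← hdis, Measure.ae_compProd_iff hm', hfst, ae_map_iff hf.aemeasurable] at h3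
      · exact h3
      · have := Kernel.measurable_kernel_prodMk_left (κ := κ) hm'.compl
        have h4 : {x : B | ∀ᵐ b ∂κ x, x = g b} = {x | κ x (Prod.mk x ⁻¹' {p : B × C | p.1 = g p.2}ᶜ) = 0} := by
          ext x; rfl
        rw [h4]
        exact measurableSet_eq_fun this measurable_const

section Curves

variable {X : Type*} [MetricSpace X]

theorem opt_subCurve_toMap (a b : ℝ) (γ : UCurve X) (t : unitInterval) :
    (subCurve a b γ).toMap t = γ.ext (a + (t : ℝ) * (b - a)) := rfl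

theorem subCurve_toMap_zero (a b : unitInterval) (γ : UCurve X) :
    (subCurve (a : ℝ) (b : ℝ) γ).toMap 0 = γ.toMap a := by
  rw [opt_subCurve_toMap, show (a : ℝ) + ((0 : unitInterval) : ℝ) * ((b : ℝ) - a) = a by simp,
    ext_coe]

theorem subCurve_toMap_one (a b : unitInterval) (γ : UCurve X) :
    (subCurve (a : ℝ) (b : ℝ) γ).toMap 1 = γ.toMap b := by
  rw [opt_subCurve_toMap, show (a : ℝ) + ((1 : unitInterval) : ℝ) * ((b : ℝ) - a) = b by simp,
    ext_coe]

theorem subCurve_zero_half_zero (γ : UCurve X) : (subCurve 0 (1 / 2) γ).toMap 0 = γ.toMap 0 :=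
  subCurve_toMap_zero 0 half γ

theorem subCurve_zero_half_one (γ : UCurve X) : (subCurve 0 (1 / 2) γ).toMap 1 = γ.toMap half :=
  subCurve_toMap_one 0 half γ

theorem subCurve_half_one_zero (γ : UCurve X) : (subCurve (1 / 2) 1 γ).toMap 0 = γ.toMap half :=
  subCurve_toMap_zero half 1 γ

theorem subCurve_half_one_one (γ : UCurve X) : (subCurve (1 / 2) 1 γ).toMap 1 = γ.toMap 1 :=
  subCurve_toMap_one half 1 γ

theorem subCurve_halves_injective {γ γ' : UCurve X}
    (h₁ : subCurve 0 (1 / 2) γ = subCurve 0 (1 / 2) γ')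
    (h₂ : subCurve (1 / 2) 1 γ = subCurve (1 / 2) 1 γ') : γ = γ' := by
  apply ucurve_ext
  intro t
  have ht0 := t.2.1
  have ht1 := t.2.2
  rcases le_total (t : ℝ) (1 / 2) with ht | ht
  · have := congrArg (fun γ : UCurve X => γ.toMap ⟨2 * t, by linarith, by linarith⟩) h₁
    simp only [opt_subCurve_toMap] at this
    rw [show (0 : ℝ) + 2 * (t : ℝ) * (1 / 2 - 0) = t by ring, ext_coe, ext_coe] at this
    exact this
  · have := congrArg (fun γ : UCurve X => γ.toMap ⟨2 * t - 1, by linarith, by linarith⟩) h₂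
    simp only [opt_subCurve_toMap] at this
    rw [show (1 / 2 : ℝ) + (2 * (t : ℝ) - 1) * (1 - 1 / 2) = t by ring, ext_coe, ext_coe] at this
    exact this

/-- two curves that fit together are the two halves of a curve. -/
theorem exists_concat (γ₁ γ₂ : UCurve X) (h : γ₁.toMap 1 = γ₂.toMap 0) :
    ∃ γ : UCurve X, subCurve 0 (1 / 2) γ = γ₁ ∧ subCurve (1 / 2) 1 γ = γ₂ := by
  have hcont : Continuous (fun t : unitInterval =>
      if (t : ℝ) ≤ 1 / 2 then γ₁.ext (2 * (t : ℝ)) else γ₂.ext (2 * (t : ℝ) - 1)) := by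
    refine Continuous.if_le ((continuous_ext_right γ₁).comp (by fun_prop))
      ((continuous_ext_right γ₂).comp (by fun_prop)) (by fun_prop) (by fun_prop) ?_
    intro t ht
    have e1 : (2 : ℝ) * (t : ℝ) = ((1 : unitInterval) : ℝ) := by rw [ht]; norm_num
    have e2 : (2 : ℝ) * (t : ℝ) - 1 = ((0 : unitInterval) : ℝ) := by rw [ht]; norm_num
    rw [e2, e1, ext_coe, ext_coe, h]
  refine ⟨⟨⟨_, hcont⟩⟩, ?_, ?_⟩
  · apply ucurve_ext
    intro t
    have ht0 := t.2.1
    have ht1 := t.2.2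
    have hm : (0 : ℝ) + (t : ℝ) * (1 / 2 - 0) ∈ Icc (0 : ℝ) 1 := ⟨by linarith, by linarith⟩
    rw [opt_subCurve_toMap, ext_eq_of_mem _ hm]
    have h1 : ((⟨(0 : ℝ) + (t : ℝ) * (1 / 2 - 0), hm⟩ : unitInterval) : ℝ) ≤ 1 / 2 := by
      show (0 : ℝ) + (t : ℝ) * (1 / 2 - 0) ≤ 1 / 2
      linarith
    simp only [ContinuousMap.coe_mk, if_pos h1]
    rw [show (2 : ℝ) * (0 + (t : ℝ) * (1 / 2 - 0)) = (t : ℝ) by ring, ext_coe]
  · apply ucurve_ext
    intro t
    have ht0 := t.2.1
    have ht1 := t.2.2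
    have hm : (1 / 2 : ℝ) + (t : ℝ) * (1 - 1 / 2) ∈ Icc (0 : ℝ) 1 := ⟨by linarith, by linarith⟩
    rw [opt_subCurve_toMap, ext_eq_of_mem _ hm]
    by_cases h1 : ((⟨(1 / 2 : ℝ) + (t : ℝ) * (1 - 1 / 2), hm⟩ : unitInterval) : ℝ) ≤ 1 / 2
    · simp only [ContinuousMap.coe_mk, if_pos h1]
      have h2 : (1 / 2 : ℝ) + (t : ℝ) * (1 - 1 / 2) ≤ 1 / 2 := h1
      have h3 : (t : ℝ) = 0 := by linarith
      have h4 : t = 0 := Subtype.ext h3
      subst h4
      rw [show (2 : ℝ) * (1 / 2 + ((0 : unitInterval) : ℝ) * (1 - 1 / 2)) =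
        ((1 : unitInterval) : ℝ) by norm_num, ext_coe, h]
    · simp only [ContinuousMap.coe_mk, if_neg h1]
      rw [show (2 : ℝ) * (1 / 2 + (t : ℝ) * (1 - 1 / 2)) - 1 = (t : ℝ) by ring, ext_coe]

theorem csGeodesic_dist_ext {γ : UCurve X} (h : IsCSGeodesic γ) {s t : ℝ}
    (hs : s ∈ Icc (0 : ℝ) 1) (ht : t ∈ Icc (0 : ℝ) 1) :
    dist (γ.ext s) (γ.ext t) = |s - t| * dist (γ.toMap 0) (γ.toMap 1) := by
  rw [ext_eq_of_mem γ hs, ext_eq_of_mem γ ht]
  exact h ⟨s, hs⟩ ⟨t, ht⟩

theorem isCSGeodesic_subCurve {γ : UCurve X} (h : IsCSGeodesic γ) {a b : ℝ}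
    (ha : a ∈ Icc (0 : ℝ) 1) (hb : b ∈ Icc (0 : ℝ) 1) : IsCSGeodesic (subCurve a b γ) := by
  have hmem : ∀ t : unitInterval, a + (t : ℝ) * (b - a) ∈ Icc (0 : ℝ) 1 := by
    intro t
    have ht0 := t.2.1
    have ht1 := t.2.2
    have e : a + (t : ℝ) * (b - a) = (1 - t) * a + t * b := by ring
    rw [e]
    constructor
    · have := mul_nonneg (sub_nonneg.2 ht1) ha.1
      have := mul_nonneg ht0 hb.1
      linarith
    · have := mul_le_mul_of_nonneg_left ha.2 (sub_nonneg.2 ht1)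
      have := mul_le_mul_of_nonneg_left hb.2 ht0
      linarith
  intro s t
  simp only [opt_subCurve_toMap]
  rw [csGeodesic_dist_ext h (hmem s) (hmem t), csGeodesic_dist_ext h (hmem 0) (hmem 1)]
  have e1 : a + (s : ℝ) * (b - a) - (a + (t : ℝ) * (b - a)) = (s - t) * (b - a) := by ring
  have e2 : a + ((0 : unitInterval) : ℝ) * (b - a) - (a + ((1 : unitInterval) : ℝ) * (b - a))
      = - (b - a) := by
    simp
  rw [e1, e2, abs_mul, abs_neg]
  ring

theorem isCSGeodesic_of_halves {γ : UCurve X} (h₁ : IsCSGeodesic (subCurve 0 (1 / 2) γ))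
    (h₂ : IsCSGeodesic (subCurve (1 / 2) 1 γ))
    (hd₁ : 2 * dist (γ.toMap 0) (γ.toMap half) = dist (γ.toMap 0) (γ.toMap 1))
    (hd₂ : 2 * dist (γ.toMap half) (γ.toMap 1) = dist (γ.toMap 0) (γ.toMap 1)) :
    IsCSGeodesic γ := by
  have hhalf : (half : unitInterval) = ⟨(1 / 2 : ℝ), by norm_num, by norm_num⟩ := rfl
  set d := dist (γ.toMap 0) (γ.toMap 1) with hd
  have e00 : (subCurve 0 (1 / 2) γ).toMap 0 = γ.toMap 0 := by
    rw [opt_subCurve_toMap, show (0 : ℝ) + ((0 : unitInterval) : ℝ) * (1 / 2 - 0) =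
      ((0 : unitInterval) : ℝ) by simp, ext_coe]
  have e01 : (subCurve 0 (1 / 2) γ).toMap 1 = γ.toMap half := by
    rw [opt_subCurve_toMap, show (0 : ℝ) + ((1 : unitInterval) : ℝ) * (1 / 2 - 0) =
      ((half : unitInterval) : ℝ) by simp [hhalf], ext_coe]
  have e10 : (subCurve (1 / 2) 1 γ).toMap 0 = γ.toMap half := by
    rw [opt_subCurve_toMap, show (1 / 2 : ℝ) + ((0 : unitInterval) : ℝ) * (1 - 1 / 2) =
      ((half : unitInterval) : ℝ) by simp [hhalf], ext_coe]
  have e11 : (subCurve (1 / 2) 1 γ).toMap 1 = γ.toMap 1 := by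
    rw [opt_subCurve_toMap, show (1 / 2 : ℝ) + ((1 : unitInterval) : ℝ) * (1 - 1 / 2) =
      ((1 : unitInterval) : ℝ) by norm_num, ext_coe]
  -- distances inside the first half
  have hA : ∀ s t : unitInterval, (s : ℝ) ≤ 1 / 2 → (t : ℝ) ≤ 1 / 2 →
      dist (γ.toMap s) (γ.toMap t) = |(s : ℝ) - t| * d := by
    intro s t hs ht
    have hs0 := s.2.1
    have ht0 := t.2.1
    have := h₁ ⟨2 * s, by linarith, by linarith⟩ ⟨2 * t, by linarith, by linarith⟩
    rw [e00, e01, opt_subCurve_toMap, opt_subCurve_toMap] at this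
    simp only at this
    rw [show (0 : ℝ) + 2 * (s : ℝ) * (1 / 2 - 0) = s by ring,
      show (0 : ℝ) + 2 * (t : ℝ) * (1 / 2 - 0) = t by ring, ext_coe, ext_coe] at this
    rw [this, ← hd₁, show 2 * (s : ℝ) - 2 * t = 2 * (s - t) by ring, abs_mul]
    rw [abs_of_pos (by norm_num : (0 : ℝ) < 2)]
    ring
  have hB : ∀ s t : unitInterval, 1 / 2 ≤ (s : ℝ) → 1 / 2 ≤ (t : ℝ) →
      dist (γ.toMap s) (γ.toMap t) = |(s : ℝ) - t| * d := by
    intro s t hs ht
    have hs0 := s.2.2
    have ht0 := t.2.2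
    have := h₂ ⟨2 * s - 1, by linarith, by linarith⟩ ⟨2 * t - 1, by linarith, by linarith⟩
    rw [e10, e11, opt_subCurve_toMap, opt_subCurve_toMap] at this
    simp only at this
    rw [show (1 / 2 : ℝ) + (2 * (s : ℝ) - 1) * (1 - 1 / 2) = s by ring,
      show (1 / 2 : ℝ) + (2 * (t : ℝ) - 1) * (1 - 1 / 2) = t by ring, ext_coe, ext_coe] at this
    rw [this, ← hd₂, show 2 * (s : ℝ) - 1 - (2 * t - 1) = 2 * (s - t) by ring, abs_mul]
    rw [abs_of_pos (by norm_num : (0 : ℝ) < 2)]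
    ring
  have hC : ∀ s t : unitInterval, (s : ℝ) ≤ 1 / 2 → 1 / 2 ≤ (t : ℝ) →
      dist (γ.toMap s) (γ.toMap t) = |(s : ℝ) - t| * d := by
    intro s t hs ht
    have hs0 := s.2.1
    have ht1 := t.2.2
    have k1 := hA s half hs (by rw [hhalf])
    have k2 := hB half t (by rw [hhalf]) ht
    have k3 := hA 0 s (by simp) hs
    have k4 := hB t 1 ht (by norm_num)
    have v : ((half : unitInterval) : ℝ) = 1 / 2 := rfl
    rw [v, abs_of_nonpos (by linarith)] at k1 k2
    rw [show ((0 : unitInterval) : ℝ) = 0 from rfl, abs_of_nonpos (by linarith)] at k3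
    rw [show ((1 : unitInterval) : ℝ) = 1 from rfl, abs_of_nonpos (by linarith)] at k4
    rw [abs_of_nonpos (by linarith)]
    apply le_antisymm
    · calc dist (γ.toMap s) (γ.toMap t)
          ≤ dist (γ.toMap s) (γ.toMap half) + dist (γ.toMap half) (γ.toMap t) :=
            dist_triangle _ _ _
        _ = -(s - t) * d := by rw [k1, k2]; ring
    · have t1 : d ≤ dist (γ.toMap 0) (γ.toMap s) + dist (γ.toMap s) (γ.toMap t) +
          dist (γ.toMap t) (γ.toMap 1) := by
        rw [hd]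
        exact dist_triangle4 _ _ _ _
      rw [k3, k4] at t1
      nlinarith
  intro s t
  rcases le_total (s : ℝ) (1 / 2) with hs | hs <;> rcases le_total (t : ℝ) (1 / 2) with ht | ht
  · exact hA s t hs ht
  · exact hC s t hs ht
  · rw [dist_comm, abs_sub_comm]
    exact hC t s ht hs
  · exact hB s t hs ht

/-- squared distance along a geodesic. -/
theorem csGeodesic_edist_sq {γ : UCurve X} (h : IsCSGeodesic γ) (s t : unitInterval) :
    edist (γ.toMap s) (γ.toMap t) ^ 2 =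
      ENNReal.ofReal (((t : ℝ) - s) ^ 2) * edist (γ.toMap 0) (γ.toMap 1) ^ 2 := by
  rw [edist_dist, edist_dist, ← ENNReal.ofReal_pow dist_nonneg, ← ENNReal.ofReal_pow dist_nonneg,
    ← ENNReal.ofReal_mul (sq_nonneg _), h s t, mul_pow, sq_abs]
  congr 1
  ring

end Curves

section ENN

theorem opt_add_sq_le (a b : ℝ≥0∞) : (a + b) ^ 2 ≤ 2 * a ^ 2 + 2 * b ^ 2 := by
  rcases eq_or_ne a ⊤ with ha | ha
  · subst ha; simp
  rcases eq_or_ne b ⊤ with hb | hb
  · subst hb; simp
  lift a to ℝ≥0 using ha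
  lift b to ℝ≥0 using hb
  norm_cast
  rw [← NNReal.coe_le_coe]
  push_cast
  nlinarith [sq_nonneg ((a : ℝ) - b)]

theorem rpow_half_sq (a : ℝ≥0∞) : (a ^ (1 / 2 : ℝ)) ^ 2 = a := by
  rw [← ENNReal.rpow_two, ← ENNReal.rpow_mul]
  norm_num

theorem sq_rpow_half (a : ℝ≥0∞) : (a ^ 2) ^ (1 / 2 : ℝ) = a := by
  rw [← ENNReal.rpow_two, ← ENNReal.rpow_mul]
  norm_num

/-- Cauchy-Schwarz for the integral of one function. -/
theorem lintegral_sq_le_measure_mul {A : Type*} [MeasurableSpace A] (μ : Measure A)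
    {f : A → ℝ≥0∞} (hf : AEMeasurable f μ) :
    (∫⁻ a, f a ∂μ) ^ 2 ≤ μ Set.univ * ∫⁻ a, f a ^ 2 ∂μ := by
  have h := ENNReal.lintegral_mul_le_Lp_mul_Lq μ Real.HolderConjugate.two_two hf
    (aemeasurable_const (b := (1 : ℝ≥0∞)))
  simp only [Pi.mul_apply, mul_one, lintegral_const, ENNReal.rpow_two, one_pow, one_mul] at h
  calc (∫⁻ a, f a ∂μ) ^ 2
      ≤ ((∫⁻ a, f a ^ 2 ∂μ) ^ (1 / 2 : ℝ) * μ Set.univ ^ (1 / 2 : ℝ)) ^ 2 := by
        gcongr
    _ = μ Set.univ * ∫⁻ a, f a ^ 2 ∂μ := by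
        rw [mul_pow, rpow_half_sq, rpow_half_sq, mul_comm]

end ENN

section Plans

variable {X : Type*} [MetricSpace X] [ProperSpace X] [MeasurableSpace X] [BorelSpace X]

theorem measurable_edist_sq : Measurable fun p : X × X => edist p.1 p.2 ^ 2 :=
  (measurable_fst.edist measurable_snd).pow_const 2

theorem measurable_edist_ev_sq (s t : unitInterval) :
    Measurable fun γ : UCurve X => edist (γ.toMap s) (γ.toMap t) ^ 2 :=
  ((measurable_ev s).edist (measurable_ev t)).pow_const 2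

theorem measurableSet_csGeodesic : MeasurableSet {γ : UCurve X | IsCSGeodesic γ} :=
  isClosed_csGeodesic.measurableSet

/-- gluing of plans on curves. -/
theorem exists_glue_curves (P₁ P₂ : Measure (UCurve X)) [IsFiniteMeasure P₁] [IsFiniteMeasure P₂]
    (h : timeMarginal P₁ 1 = timeMarginal P₂ 0) :
    ∃ P : Measure (UCurve X), IsFiniteMeasure P ∧ P.map (subCurve 0 (1 / 2)) = P₁ ∧
      P.map (subCurve (1 / 2) 1) = P₂ := by
  obtain ⟨S, hS, h1, h2, h3⟩ := exists_glue P₁ P₂ (fun γ => γ.toMap 1) (measurable_ev 1)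
    (fun γ => γ.toMap 0) (measurable_ev 0) h
  set T : UCurve X → UCurve X × UCurve X := fun γ => (subCurve 0 (1 / 2) γ, subCurve (1 / 2) 1 γ)
    with hT
  have hTc : Continuous T := (continuous_subCurve _ _).prodMk (continuous_subCurve _ _)
  have hTi : Function.Injective T := by
    intro γ γ' hγ
    exact subCurve_halves_injective (congrArg Prod.fst hγ) (congrArg Prod.snd hγ)
  have hTe : MeasurableEmbedding T := hTc.measurableEmbedding hTi
  have hrange : ∀ᵐ p ∂S, p ∈ range T := by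
    filter_upwards [h3] with p hp
    obtain ⟨γ, g1, g2⟩ := exists_concat p.1 p.2 hp
    exact ⟨γ, Prod.ext g1 g2⟩
  have hmap : (S.comap T).map T = S := by
    rw [hTe.map_comap, Measure.restrict_eq_self_of_ae_mem hrange]
  refine ⟨S.comap T, ?_, ?_, ?_⟩
  · constructor
    rw [← preimage_univ (f := T), ← Measure.map_apply hTe.measurable MeasurableSet.univ, hmap]
    exact measure_lt_top _ _
  · rw [← h1, ← hmap, Measure.map_map measurable_fst hTe.measurable, hmap]
    rfl
  · rw [← h2, ← hmap, Measure.map_map measurable_snd hTe.measurable, hmap]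
    rfl

theorem IsCouplingOf.swap' {q : Measure (X × X)} {μ ν : Measure X} (h : IsCouplingOf q μ ν) :
    IsCouplingOf (q.map Prod.swap) ν μ := by
  refine ⟨?_, ?_⟩
  · rw [Measure.map_map measurable_fst measurable_swap, ← h.2]
    rfl
  · rw [Measure.map_map measurable_snd measurable_swap, ← h.1]
    rfl

theorem quadCost_swap (q : Measure (X × X)) : quadCost (q.map Prod.swap) = quadCost q := by
  unfold quadCost
  rw [lintegral_map measurable_edist_sq measurable_swap]
  simp only [Prod.fst_swap, Prod.snd_swap, edist_comm]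

theorem w2sq_le_of_coupling {q : Measure (X × X)} {μ ν : Measure X} (h : IsCouplingOf q μ ν) :
    w2sq μ ν ≤ quadCost q :=
  iInf₂_le q h

theorem w2sq_comm_le (μ ν : Measure X) : w2sq μ ν ≤ w2sq ν μ := by
  refine le_iInf₂ fun q hq => ?_
  rw [← quadCost_swap q]
  exact w2sq_le_of_coupling (IsCouplingOf.swap' hq)

theorem w2sq_comm (μ ν : Measure X) : w2sq μ ν = w2sq ν μ :=
  le_antisymm (w2sq_comm_le μ ν) (w2sq_comm_le ν μ)

theorem w2sq_self (μ : Measure X) : w2sq μ μ = 0 := by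
  have hm : Measurable fun x : X => (x, x) := measurable_id.prodMk measurable_id
  have hc : IsCouplingOf (μ.map fun x : X => (x, x)) μ μ := by
    constructor
    · rw [Measure.map_map measurable_fst hm]; exact Measure.map_id
    · rw [Measure.map_map measurable_snd hm]; exact Measure.map_id
  refine le_antisymm ((w2sq_le_of_coupling hc).trans ?_) bot_le
  unfold quadCost
  rw [lintegral_map measurable_edist_sq hm]
  simp

theorem isFiniteMeasure_of_map {A B : Type*} [MeasurableSpace A] [MeasurableSpace B]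
    {P : Measure A} {Q : Measure B} [IsFiniteMeasure Q] {f : A → B} (hf : Measurable f)
    (h : P.map f = Q) : IsFiniteMeasure P := by
  constructor
  rw [← preimage_univ (f := f), ← Measure.map_apply hf MeasurableSet.univ, h]
  exact measure_lt_top _ _

theorem isProbabilityMeasure_of_map {A B : Type*} [MeasurableSpace A] [MeasurableSpace B]
    {P : Measure A} {Q : Measure B} [IsProbabilityMeasure Q] {f : A → B} (hf : Measurable f)
    (h : P.map f = Q) : IsProbabilityMeasure P := by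
  constructor
  rw [← preimage_univ (f := f), ← Measure.map_apply hf MeasurableSet.univ, h]
  exact measure_univ

theorem w2sq_rpow_half (μ ν : Measure X) :
    w2sq μ ν ^ (1 / 2 : ℝ) =
      ⨅ (q : Measure (X × X)) (_ : IsCouplingOf q μ ν), quadCost q ^ (1 / 2 : ℝ) := by
  have h := (ENNReal.orderIsoRpow (1 / 2 : ℝ) (by norm_num)).map_iInf₂
    (fun (q : Measure (X × X)) (_ : IsCouplingOf q μ ν) => quadCost q)
  simp only [ENNReal.orderIsoRpow_apply] at h
  exact h

theorem w2sq_triangle_aux {μ ν ρ : Measure X} [IsFiniteMeasure μ] [IsFiniteMeasure ν]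
    [IsFiniteMeasure ρ] {q₁ q₂ : Measure (X × X)} (h₁ : IsCouplingOf q₁ μ ν)
    (h₂ : IsCouplingOf q₂ ν ρ) :
    w2sq μ ρ ^ (1 / 2 : ℝ) ≤ quadCost q₁ ^ (1 / 2 : ℝ) + quadCost q₂ ^ (1 / 2 : ℝ) := by
  have : IsFiniteMeasure q₁ := isFiniteMeasure_of_map measurable_fst h₁.1
  have : IsFiniteMeasure q₂ := isFiniteMeasure_of_map measurable_fst h₂.1
  obtain ⟨S, hS, e1, e2, e3⟩ := exists_glue q₁ q₂ Prod.snd measurable_snd Prod.fst measurable_fst
    (h₁.2.trans h₂.1.symm)
  have hm : Measurable fun p : (X × X) × (X × X) => (p.1.1, p.2.2) :=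
    (measurable_fst.comp measurable_fst).prodMk (measurable_snd.comp measurable_snd)
  have hc : IsCouplingOf (S.map fun p : (X × X) × (X × X) => (p.1.1, p.2.2)) μ ρ := by
    constructor
    · rw [Measure.map_map measurable_fst hm, ← h₁.1, ← e1,
        Measure.map_map measurable_fst measurable_fst]
      rfl
    · rw [Measure.map_map measurable_snd hm, ← h₂.2, ← e2,
        Measure.map_map measurable_snd measurable_snd]
      rfl
  have hf : Measurable fun p : (X × X) × (X × X) => edist p.1.1 p.1.2 :=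
    (measurable_fst.comp measurable_fst).edist (measurable_snd.comp measurable_fst)
  have hg : Measurable fun p : (X × X) × (X × X) => edist p.2.1 p.2.2 :=
    (measurable_fst.comp measurable_snd).edist (measurable_snd.comp measurable_snd)
  have c1 : quadCost q₁ = ∫⁻ p, edist p.1.1 p.1.2 ^ (2 : ℝ) ∂S := by
    unfold quadCost
    rw [← e1, lintegral_map measurable_edist_sq measurable_fst]
    simp only [ENNReal.rpow_two]
  have c2 : quadCost q₂ = ∫⁻ p, edist p.2.1 p.2.2 ^ (2 : ℝ) ∂S := by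
    unfold quadCost
    rw [← e2, lintegral_map measurable_edist_sq measurable_snd]
    simp only [ENNReal.rpow_two]
  have h3 : quadCost (S.map fun p : (X × X) × (X × X) => (p.1.1, p.2.2)) ≤
      ∫⁻ p, ((fun p : (X × X) × (X × X) => edist p.1.1 p.1.2) +
        fun p : (X × X) × (X × X) => edist p.2.1 p.2.2) p
        ^ (2 : ℝ) ∂S := by
    unfold quadCost
    rw [lintegral_map measurable_edist_sq hm]
    refine lintegral_mono_ae ?_
    filter_upwards [e3] with p hp
    simp only [Pi.add_apply, ENNReal.rpow_two]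
    gcongr
    calc edist p.1.1 p.2.2 ≤ edist p.1.1 p.1.2 + edist p.1.2 p.2.2 := edist_triangle _ _ _
      _ = edist p.1.1 p.1.2 + edist p.2.1 p.2.2 := by rw [hp]
  calc w2sq μ ρ ^ (1 / 2 : ℝ)
      ≤ (∫⁻ p, ((fun p : (X × X) × (X × X) => edist p.1.1 p.1.2) +
        fun p : (X × X) × (X × X) => edist p.2.1 p.2.2) p
        ^ (2 : ℝ) ∂S) ^ (1 / 2 : ℝ) :=
        ENNReal.rpow_le_rpow ((w2sq_le_of_coupling hc).trans h3) (by norm_num)
    _ ≤ _ := by
        rw [c1, c2]
        exact ENNReal.lintegral_Lp_add_le hf.aemeasurable hg.aemeasurable (by norm_num)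

theorem w2sq_triangle (μ ν ρ : Measure X) [IsFiniteMeasure μ] [IsFiniteMeasure ν]
    [IsFiniteMeasure ρ] :
    w2sq μ ρ ^ (1 / 2 : ℝ) ≤ w2sq μ ν ^ (1 / 2 : ℝ) + w2sq ν ρ ^ (1 / 2 : ℝ) := by
  rw [w2sq_rpow_half μ ν, w2sq_rpow_half ν ρ]
  simp only [ENNReal.iInf_add, ENNReal.add_iInf]
  exact le_iInf₂ fun q₂ h₂ => le_iInf₂ fun q₁ h₁ => w2sq_triangle_aux h₁ h₂

/-- finite second moments with respect to ANY base point. -/
theorem secondMoment_any {μ : Measure X} [IsFiniteMeasure μ] (h : HasFiniteSecondMoment μ) (o : X) :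
    (∫⁻ x, edist x o ^ 2 ∂μ) < ⊤ := by
  obtain ⟨o', ho'⟩ := h
  have hm : Measurable fun x : X => 2 * edist x o' ^ 2 :=
    ((measurable_id.edist measurable_const).pow_const 2).const_mul 2
  calc (∫⁻ x, edist x o ^ 2 ∂μ) ≤ ∫⁻ x, (2 * edist x o' ^ 2 + 2 * edist o' o ^ 2) ∂μ := by
        refine lintegral_mono fun x => ?_
        exact (pow_le_pow_left' (edist_triangle x o' o) 2).trans (opt_add_sq_le _ _)
    _ = 2 * (∫⁻ x, edist x o' ^ 2 ∂μ) + 2 * edist o' o ^ 2 * μ Set.univ := by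
        rw [lintegral_add_left hm, lintegral_const, lintegral_const_mul]
        exact (measurable_id.edist measurable_const).pow_const 2
    _ < ⊤ := by
        refine ENNReal.add_lt_top.2 ⟨ENNReal.mul_lt_top (by norm_num) ho', ?_⟩
        refine ENNReal.mul_lt_top (ENNReal.mul_lt_top (by norm_num) ?_) (measure_lt_top _ _)
        exact ENNReal.pow_lt_top (edist_lt_top _ _)

theorem w2sq_lt_top {μ ν : Measure X} [IsProbabilityMeasure μ] [IsProbabilityMeasure ν]
    (hμ : HasFiniteSecondMoment μ) (hν : HasFiniteSecondMoment ν) : w2sq μ ν < ⊤ := by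
  obtain ⟨o, ho⟩ := hμ
  have ho' := secondMoment_any hν o
  have hc : IsCouplingOf (μ.prod ν) μ ν := by
    constructor
    · rw [Measure.map_fst_prod]; simp
    · rw [Measure.map_snd_prod]; simp
  have m0 : Measurable fun x : X => edist x o ^ 2 :=
    (measurable_id.edist measurable_const).pow_const 2
  have m1 : Measurable fun p : X × X => edist p.1 o ^ 2 := m0.comp measurable_fst
  have m2 : Measurable fun p : X × X => edist p.2 o ^ 2 := m0.comp measurable_snd
  refine (w2sq_le_of_coupling hc).trans_lt ?_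
  calc quadCost (μ.prod ν) ≤ ∫⁻ p : X × X, (2 * edist p.1 o ^ 2 + 2 * edist p.2 o ^ 2) ∂(μ.prod ν) := by
        refine lintegral_mono fun p => ?_
        exact (pow_le_pow_left' (edist_triangle_right p.1 p.2 o) 2).trans (opt_add_sq_le _ _)
    _ = 2 * (∫⁻ x, edist x o ^ 2 ∂μ) + 2 * (∫⁻ x, edist x o ^ 2 ∂ν) := by
        rw [lintegral_add_left (m1.const_mul 2), lintegral_const_mul _ m1,
          lintegral_const_mul _ m2]
        congr 2
        · conv_rhs => rw [← hc.1]
          rw [lintegral_map m0 measurable_fst]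
        · conv_rhs => rw [← hc.2]
          rw [lintegral_map m0 measurable_snd]
    _ < ⊤ := ENNReal.add_lt_top.2 ⟨ENNReal.mul_lt_top (by norm_num) ho,
        ENNReal.mul_lt_top (by norm_num) ho'⟩

theorem w2sq_timeMarginal_le_dist (P : Measure (UCurve X)) (s t : unitInterval) :
    w2sq (timeMarginal P s) (timeMarginal P t) ≤
      ∫⁻ γ, edist (γ.toMap s) (γ.toMap t) ^ 2 ∂P := by
  have hm : Measurable fun γ : UCurve X => (γ.toMap s, γ.toMap t) :=
    (measurable_ev s).prodMk (measurable_ev t)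
  have hc : IsCouplingOf (P.map fun γ : UCurve X => (γ.toMap s, γ.toMap t)) (timeMarginal P s)
      (timeMarginal P t) := by
    constructor
    · rw [Measure.map_map measurable_fst hm]; rfl
    · rw [Measure.map_map measurable_snd hm]; rfl
  refine (w2sq_le_of_coupling hc).trans_eq ?_
  unfold quadCost
  rw [lintegral_map measurable_edist_sq hm]

/-- sub-measures of optimal couplings are optimal. -/
theorem IsOptCouplingOf.mono' {q q' : Measure (X × X)} {μ₀ μ₁ : Measure X} [IsFiniteMeasure q]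
    (h : IsOptCouplingOf q μ₀ μ₁) (hfin : quadCost q ≠ ⊤) (hle : q' ≤ q) :
    IsOptCouplingOf q' (q'.map Prod.fst) (q'.map Prod.snd) := by
  refine ⟨⟨rfl, rfl⟩, fun q'' hq'' => ?_⟩
  have : IsFiniteMeasure q' := isFiniteMeasure_of_le q hle
  have hadd : q - q' + q' = q := Measure.sub_add_cancel_of_le hle
  have hc : IsCouplingOf (q - q' + q'') μ₀ μ₁ := by
    constructor
    · rw [Measure.map_add _ _ measurable_fst, hq''.1, ← Measure.map_add _ _ measurable_fst, hadd,
        h.1.1]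
    · rw [Measure.map_add _ _ measurable_snd, hq''.2, ← Measure.map_add _ _ measurable_snd, hadd,
        h.1.2]
  have h1 := h.2 _ hc
  have h2 : quadCost q = quadCost (q - q') + quadCost q' := by
    conv_lhs => rw [← hadd]
    exact lintegral_add_measure _ _ _
  have h3 : quadCost (q - q' + q'') = quadCost (q - q') + quadCost q'' :=
    lintegral_add_measure _ _ _
  have h4 : quadCost (q - q') ≠ ⊤ := by
    refine ne_top_of_le_ne_top hfin ?_
    rw [h2]; exact le_self_add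
  rw [h2, h3] at h1
  exact (ENNReal.add_le_add_iff_left h4).1 h1

theorem quadCost_smul (c : ℝ≥0∞) (q : Measure (X × X)) : quadCost (c • q) = c * quadCost q := by
  unfold quadCost
  rw [lintegral_smul_measure, smul_eq_mul]

theorem quadCost_add (q q' : Measure (X × X)) :
    quadCost (q + q') = quadCost q + quadCost q' :=
  lintegral_add_measure _ _ _

theorem IsOptCouplingOf.smul' {q : Measure (X × X)} {μ₀ μ₁ : Measure X} {c : ℝ≥0∞} (hc : c ≠ 0)
    (hc' : c ≠ ⊤) (h : IsOptCouplingOf q μ₀ μ₁) :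
    IsOptCouplingOf (c • q) (c • μ₀) (c • μ₁) := by
  refine ⟨⟨?_, ?_⟩, fun q'' hq'' => ?_⟩
  · rw [Measure.map_smul, h.1.1]
  · rw [Measure.map_smul, h.1.2]
  · have hc1 : c⁻¹ * c = 1 := ENNReal.inv_mul_cancel hc hc'
    have hcp : IsCouplingOf (c⁻¹ • q'') μ₀ μ₁ := by
      constructor
      · rw [Measure.map_smul, hq''.1, smul_smul, hc1, one_smul]
      · rw [Measure.map_smul, hq''.2, smul_smul, hc1, one_smul]
    have h1 := h.2 _ hcp
    rw [quadCost_smul] at h1 ⊢
    calc c * quadCost q ≤ c * (c⁻¹ * quadCost q'') := by gcongr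
      _ = quadCost q'' := by
        rw [← mul_assoc, mul_comm c, hc1, one_mul]

theorem quadCost_endpointLaw (P : Measure (UCurve X)) :
    quadCost (endpointLaw P) = ∫⁻ γ, edist (γ.toMap 0) (γ.toMap 1) ^ 2 ∂P := by
  unfold quadCost endpointLaw
  rw [lintegral_map measurable_edist_sq measurable_endpoints]

theorem timeMarginal_add (P P' : Measure (UCurve X)) (t : unitInterval) :
    timeMarginal (P + P') t = timeMarginal P t + timeMarginal P' t :=
  Measure.map_add _ _ (measurable_ev t)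

theorem timeMarginal_smul (c : ℝ≥0∞) (P : Measure (UCurve X)) (t : unitInterval) :
    timeMarginal (c • P) t = c • timeMarginal P t :=
  Measure.map_smul _ _ _

theorem timeMarginal_mono {P P' : Measure (UCurve X)} (h : P ≤ P') (t : unitInterval) :
    timeMarginal P t ≤ timeMarginal P' t :=
  Measure.map_mono h (measurable_ev t)

/-- time marginals of a restricted plan. -/
theorem timeMarginal_map_subCurve_zero (P : Measure (UCurve X)) (a b : unitInterval) :
    timeMarginal (P.map (subCurve (a : ℝ) (b : ℝ))) 0 = timeMarginal P a := by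
  unfold timeMarginal
  rw [Measure.map_map (measurable_ev 0) (measurable_subCurve _ _)]
  congr 1
  ext γ
  exact subCurve_toMap_zero a b γ

theorem timeMarginal_map_subCurve_one (P : Measure (UCurve X)) (a b : unitInterval) :
    timeMarginal (P.map (subCurve (a : ℝ) (b : ℝ))) 1 = timeMarginal P b := by
  unfold timeMarginal
  rw [Measure.map_map (measurable_ev 1) (measurable_subCurve _ _)]
  congr 1
  ext γ
  exact subCurve_toMap_one a b γ

theorem w2sq_eq_of_opt {q : Measure (X × X)} {μ₀ μ₁ : Measure X} (h : IsOptCouplingOf q μ₀ μ₁) :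
    quadCost q = w2sq μ₀ μ₁ :=
  le_antisymm (le_iInf₂ fun q' hq' => h.2 q' hq') (w2sq_le_of_coupling h.1)

namespace IsOptGeo

variable {P P' : Measure (UCurve X)} {μ₀ μ₁ ν : Measure X}

theorem marg_zero (h : IsOptGeo P μ₀ μ₁) : timeMarginal P 0 = μ₀ := by
  rw [← map_fst_endpointLaw, h.opt.1.1]

theorem marg_one (h : IsOptGeo P μ₀ μ₁) : timeMarginal P 1 = μ₁ := by
  rw [← map_snd_endpointLaw, h.opt.1.2]

theorem prob_left (h : IsOptGeo P μ₀ μ₁) : IsProbabilityMeasure μ₀ := by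
  have := h.prob
  rw [← h.marg_zero]
  infer_instance

theorem prob_right (h : IsOptGeo P μ₀ μ₁) : IsProbabilityMeasure μ₁ := by
  have := h.prob
  rw [← h.marg_one]
  infer_instance

theorem quadCost_eq (h : IsOptGeo P μ₀ μ₁) : quadCost (endpointLaw P) = w2sq μ₀ μ₁ :=
  w2sq_eq_of_opt h.opt

theorem cost (h : IsOptGeo P μ₀ μ₁) :
    ∫⁻ γ, edist (γ.toMap 0) (γ.toMap 1) ^ 2 ∂P = w2sq μ₀ μ₁ := by
  rw [← quadCost_endpointLaw, h.quadCost_eq]

/-- criterion. -/
theorem of_cost_le [IsProbabilityMeasure P] (hg : ∀ᵐ γ ∂P, IsCSGeodesic γ)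
    (h₀ : timeMarginal P 0 = μ₀) (h₁ : timeMarginal P 1 = μ₁)
    (hc : ∫⁻ γ, edist (γ.toMap 0) (γ.toMap 1) ^ 2 ∂P ≤ w2sq μ₀ μ₁) : IsOptGeo P μ₀ μ₁ := by
  refine ⟨inferInstance, hg, ⟨?_, ?_⟩, fun q' hq' => ?_⟩
  · rw [map_fst_endpointLaw, h₀]
  · rw [map_snd_endpointLaw, h₁]
  · rw [quadCost_endpointLaw]
    exact hc.trans (w2sq_le_of_coupling hq')

theorem ae_edist_sq (h : IsOptGeo P μ₀ μ₁) (s t : unitInterval) :
    ∀ᵐ γ ∂P, edist (γ.toMap s) (γ.toMap t) ^ 2 =
      ENNReal.ofReal (((t : ℝ) - s) ^ 2) * edist (γ.toMap 0) (γ.toMap 1) ^ 2 := by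
  filter_upwards [h.geod] with γ hγ
  exact csGeodesic_edist_sq hγ s t

theorem lintegral_edist_sq (h : IsOptGeo P μ₀ μ₁) (s t : unitInterval) :
    ∫⁻ γ, edist (γ.toMap s) (γ.toMap t) ^ 2 ∂P =
      ENNReal.ofReal (((t : ℝ) - s) ^ 2) * w2sq μ₀ μ₁ := by
  rw [lintegral_congr_ae (h.ae_edist_sq s t), lintegral_const_mul _ (measurable_edist_ev_sq 0 1),
    h.cost]

theorem w2sq_time_le (h : IsOptGeo P μ₀ μ₁) (s t : unitInterval) :
    w2sq (timeMarginal P s) (timeMarginal P t) ≤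
      ENNReal.ofReal (((t : ℝ) - s) ^ 2) * w2sq μ₀ μ₁ :=
  (w2sq_timeMarginal_le_dist P s t).trans_eq (h.lintegral_edist_sq s t)

theorem w2sq_time_aux (h : IsOptGeo P μ₀ μ₁) (hfin : w2sq μ₀ μ₁ ≠ ⊤) {s t : unitInterval}
    (hst : s ≤ t) :
    w2sq (timeMarginal P s) (timeMarginal P t) =
      ENNReal.ofReal (((t : ℝ) - s) ^ 2) * w2sq μ₀ μ₁ := by
  have := h.prob
  have hst' : (s : ℝ) ≤ t := hst
  have hs0 := s.2.1
  have ht1 := t.2.2
  refine le_antisymm (h.w2sq_time_le s t) ?_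
  -- distances
  set w := (w2sq μ₀ μ₁).toReal with hw
  have hw0 : 0 ≤ w := ENNReal.toReal_nonneg
  have hW : w2sq μ₀ μ₁ = ENNReal.ofReal w := (ENNReal.ofReal_toReal hfin).symm
  have key : ∀ a b : unitInterval, w2sq (timeMarginal P a) (timeMarginal P b) ^ (1 / 2 : ℝ) ≤
      ENNReal.ofReal (|(b : ℝ) - a| * w ^ (1 / 2 : ℝ)) := by
    intro a b
    refine (ENNReal.rpow_le_rpow (h.w2sq_time_le a b) (by norm_num)).trans_eq ?_
    rw [hW, ← ENNReal.ofReal_mul (sq_nonneg _), ENNReal.ofReal_rpow_of_nonneg (by positivity)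
      (by norm_num), Real.mul_rpow (sq_nonneg _) hw0]
    congr 2
    rw [← Real.sqrt_eq_rpow, Real.sqrt_sq_eq_abs]
  have htri : w2sq μ₀ μ₁ ^ (1 / 2 : ℝ) ≤
      ENNReal.ofReal ((s : ℝ) * w ^ (1 / 2 : ℝ)) +
        (w2sq (timeMarginal P s) (timeMarginal P t) ^ (1 / 2 : ℝ) +
          ENNReal.ofReal ((1 - (t : ℝ)) * w ^ (1 / 2 : ℝ))) := by
    have t1 := w2sq_triangle (timeMarginal P 0) (timeMarginal P s) (timeMarginal P 1)
    have t2 := w2sq_triangle (timeMarginal P s) (timeMarginal P t) (timeMarginal P 1)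
    have k1 := key 0 s
    have k2 := key t 1
    rw [show |(s : ℝ) - ((0 : unitInterval) : ℝ)| = (s : ℝ) by
      rw [abs_of_nonneg] <;> simp [hs0]] at k1
    rw [show |((1 : unitInterval) : ℝ) - (t : ℝ)| = 1 - (t : ℝ) by
      rw [abs_of_nonneg] <;> simp [ht1]] at k2
    rw [h.marg_zero, h.marg_one] at t1
    rw [h.marg_zero] at k1
    rw [h.marg_one] at t2 k2
    calc w2sq μ₀ μ₁ ^ (1 / 2 : ℝ) ≤ _ := t1
      _ ≤ _ := add_le_add k1 (t2.trans (add_le_add le_rfl k2))
  have hfin' : w2sq (timeMarginal P s) (timeMarginal P t) ≠ ⊤ :=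
    ne_top_of_le_ne_top (ENNReal.mul_ne_top ENNReal.ofReal_ne_top hfin) (h.w2sq_time_le s t)
  set v := (w2sq (timeMarginal P s) (timeMarginal P t)).toReal with hv
  have hv0 : 0 ≤ v := ENNReal.toReal_nonneg
  have hV : w2sq (timeMarginal P s) (timeMarginal P t) = ENNReal.ofReal v :=
    (ENNReal.ofReal_toReal hfin').symm
  rw [hV, hW] at htri
  rw [hV, hW, ← ENNReal.ofReal_mul (sq_nonneg _)]
  apply ENNReal.ofReal_le_ofReal
  have hwp : 0 ≤ w ^ (1 / 2 : ℝ) := Real.rpow_nonneg hw0 _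
  have hvp : 0 ≤ v ^ (1 / 2 : ℝ) := Real.rpow_nonneg hv0 _
  have h1t : 0 ≤ 1 - (t : ℝ) := by linarith
  rw [ENNReal.ofReal_rpow_of_nonneg hw0 (by norm_num), ENNReal.ofReal_rpow_of_nonneg hv0
    (by norm_num), ← ENNReal.ofReal_add hvp (by positivity), ← ENNReal.ofReal_add (by positivity)
    (by positivity), ENNReal.ofReal_le_ofReal_iff (by positivity)] at htri
  have h5 : ((t : ℝ) - s) * w ^ (1 / 2 : ℝ) ≤ v ^ (1 / 2 : ℝ) := by nlinarith
  have h6 : (((t : ℝ) - s) * w ^ (1 / 2 : ℝ)) ^ 2 ≤ (v ^ (1 / 2 : ℝ)) ^ 2 :=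
    pow_le_pow_left₀ (mul_nonneg (by linarith) hwp) h5 2
  rw [← Real.sqrt_eq_rpow, ← Real.sqrt_eq_rpow, mul_pow, Real.sq_sqrt hw0, Real.sq_sqrt hv0] at h6
  exact h6

/-- distances between time marginals. -/
theorem w2sq_time (h : IsOptGeo P μ₀ μ₁) (hfin : w2sq μ₀ μ₁ ≠ ⊤) (s t : unitInterval) :
    w2sq (timeMarginal P s) (timeMarginal P t) =
      ENNReal.ofReal (((t : ℝ) - s) ^ 2) * w2sq μ₀ μ₁ := by
  rcases le_total s t with hst | hst
  · exact h.w2sq_time_aux hfin hst
  · rw [w2sq_comm, h.w2sq_time_aux hfin hst]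
    congr 2
    ring

/-- convex combinations (O2 with `Γ = univ`). -/
theorem convex (h : IsOptGeo P μ₀ μ₁) (h' : IsOptGeo P' μ₀ μ₁) {δ : ℝ≥0∞} (hδ : δ ≤ 1) :
    IsOptGeo ((1 - δ) • P + δ • P') μ₀ μ₁ := by
  have hδ1 : 1 - δ + δ = 1 := tsub_add_cancel_of_le hδ
  have m0 : timeMarginal ((1 - δ) • P + δ • P') 0 = μ₀ := by
    rw [timeMarginal_add, timeMarginal_smul, timeMarginal_smul, h.marg_zero, h'.marg_zero,
      ← add_smul, hδ1, one_smul]
  have m1 : timeMarginal ((1 - δ) • P + δ • P') 1 = μ₁ := by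
    rw [timeMarginal_add, timeMarginal_smul, timeMarginal_smul, h.marg_one, h'.marg_one,
      ← add_smul, hδ1, one_smul]
  have hp := h.prob_left
  have : IsProbabilityMeasure ((1 - δ) • P + δ • P') :=
    isProbabilityMeasure_of_map (measurable_ev 0) m0
  refine of_cost_le ?_ m0 m1 ?_
  · rw [ae_add_measure_iff]
    exact ⟨Measure.ae_smul_measure h.geod _, Measure.ae_smul_measure h'.geod _⟩
  · rw [lintegral_add_measure, lintegral_smul_measure, lintegral_smul_measure, h.cost, h'.cost,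
      ← add_smul, hδ1, one_smul]

theorem endpointLaw_mono {P P' : Measure (UCurve X)} (h : P ≤ P') :
    endpointLaw P ≤ endpointLaw P' :=
  Measure.map_mono h measurable_endpoints

/-- a plan below an optimal plan has optimal endpoint law. -/
theorem opt_of_le (h : IsOptGeo P μ₀ μ₁) (hfin : w2sq μ₀ μ₁ ≠ ⊤) {Q : Measure (UCurve X)}
    (hQ : Q ≤ P) :
    IsOptCouplingOf (endpointLaw Q) (timeMarginal Q 0) (timeMarginal Q 1) := by
  have := h.prob
  have h1 := IsOptCouplingOf.mono' h.opt (by rw [h.quadCost_eq]; exact hfin)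
    (endpointLaw_mono hQ)
  rwa [map_fst_endpointLaw, map_snd_endpointLaw] at h1

/-- O1: conditioning. -/
theorem cond (h : IsOptGeo P μ₀ μ₁) (hfin : w2sq μ₀ μ₁ ≠ ⊤) {Γ : Set (UCurve X)}
    (_hΓ : MeasurableSet Γ) (h0 : P Γ ≠ 0) :
    IsOptGeo ((P Γ)⁻¹ • P.restrict Γ) (timeMarginal ((P Γ)⁻¹ • P.restrict Γ) 0)
      (timeMarginal ((P Γ)⁻¹ • P.restrict Γ) 1) := by
  have := h.prob
  have hne : P Γ ≠ ⊤ := measure_ne_top _ _
  have hprob : IsProbabilityMeasure ((P Γ)⁻¹ • P.restrict Γ) := by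
    constructor
    rw [Measure.smul_apply, Measure.restrict_apply MeasurableSet.univ, univ_inter, smul_eq_mul,
      ENNReal.inv_mul_cancel h0 hne]
  refine ⟨hprob, ?_, ?_⟩
  · exact Measure.ae_smul_measure (ae_restrict_of_ae h.geod) _
  · have h1 := h.opt_of_le hfin (Q := P.restrict Γ) Measure.restrict_le_self
    have h2 := IsOptCouplingOf.smul' (c := (P Γ)⁻¹) (ENNReal.inv_ne_zero.2 hne)
      (ENNReal.inv_ne_top.2 h0) h1
    rw [timeMarginal_smul, timeMarginal_smul]
    convert h2 using 1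
    exact Measure.map_smul _ _ _

/-- O2: replacement of a part of the plan by another optimal plan with the same marginals. -/
theorem replace (h : IsOptGeo P μ₀ μ₁) (hfin : w2sq μ₀ μ₁ ≠ ⊤) {Γ : Set (UCurve X)}
    (hΓ : MeasurableSet Γ) (h0 : P Γ ≠ 0)
    (h' : IsOptGeo P' (timeMarginal ((P Γ)⁻¹ • P.restrict Γ) 0)
      (timeMarginal ((P Γ)⁻¹ • P.restrict Γ) 1)) {δ : ℝ≥0∞} (hδ : δ ≤ 1) :
    IsOptGeo (P.restrict Γᶜ + (1 - δ) • P.restrict Γ + (δ * P Γ) • P') μ₀ μ₁ := by
  have := h.prob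
  have hne : P Γ ≠ ⊤ := measure_ne_top _ _
  have hδ1 : 1 - δ + δ = 1 := tsub_add_cancel_of_le hδ
  have hcan : δ * P Γ * (P Γ)⁻¹ = δ := by
    rw [mul_assoc, ENNReal.mul_inv_cancel h0 hne, mul_one]
  have hm : ∀ t : unitInterval,
      timeMarginal P' t = timeMarginal ((P Γ)⁻¹ • P.restrict Γ) t →
      timeMarginal (P.restrict Γᶜ + (1 - δ) • P.restrict Γ + (δ * P Γ) • P') t =
        timeMarginal P t := by
    intro t ht
    rw [timeMarginal_add, timeMarginal_add, timeMarginal_smul, timeMarginal_smul, ht,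
      timeMarginal_smul, smul_smul, hcan, add_assoc, ← add_smul, hδ1, one_smul,
      ← timeMarginal_add, add_comm, Measure.restrict_add_restrict_compl hΓ]
  have m0 := hm 0 h'.marg_zero
  have m1 := hm 1 h'.marg_one
  rw [h.marg_zero] at m0
  rw [h.marg_one] at m1
  have hp := h.prob_left
  have hprob : IsProbabilityMeasure (P.restrict Γᶜ + (1 - δ) • P.restrict Γ + (δ * P Γ) • P') :=
    isProbabilityMeasure_of_map (measurable_ev 0) m0
  refine of_cost_le ?_ m0 m1 ?_
  · rw [ae_add_measure_iff, ae_add_measure_iff]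
    exact ⟨⟨ae_restrict_of_ae h.geod, Measure.ae_smul_measure (ae_restrict_of_ae h.geod) _⟩,
      Measure.ae_smul_measure h'.geod _⟩
  · have hc := (h.cond hfin hΓ h0).cost
    have hc' := h'.cost
    rw [lintegral_add_measure, lintegral_add_measure, lintegral_smul_measure,
      lintegral_smul_measure, hc', ← hc, lintegral_smul_measure, smul_smul, hcan, add_assoc,
      ← add_smul, hδ1, one_smul, add_comm, lintegral_add_compl _ hΓ, h.cost]

/-- O3: time restriction. -/
theorem subCurve (h : IsOptGeo P μ₀ μ₁) (hfin : w2sq μ₀ μ₁ ≠ ⊤) (a b : unitInterval) :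
    IsOptGeo (P.map (R242.subCurve (a : ℝ) (b : ℝ))) (timeMarginal P a) (timeMarginal P b) := by
  have := h.prob
  have hm := measurable_subCurve (X := X) (a : ℝ) (b : ℝ)
  have : IsProbabilityMeasure (P.map (R242.subCurve (a : ℝ) (b : ℝ))) :=
    Measure.isProbabilityMeasure_map hm.aemeasurable
  refine of_cost_le ?_ (timeMarginal_map_subCurve_zero P a b)
    (timeMarginal_map_subCurve_one P a b) ?_
  · rw [ae_map_iff hm.aemeasurable measurableSet_csGeodesic]
    filter_upwards [h.geod] with γ hγ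
    exact isCSGeodesic_subCurve hγ a.2 b.2
  · rw [lintegral_map (measurable_edist_ev_sq 0 1) hm, h.w2sq_time hfin,
      ← h.lintegral_edist_sq a b]
    simp only [subCurve_toMap_zero, subCurve_toMap_one]
    exact le_rfl

/-- reversal (no finiteness needed). -/
theorem reverse (h : IsOptGeo P μ₀ μ₁) : IsOptGeo (P.map (R242.subCurve 1 0)) μ₁ μ₀ := by
  have := h.prob
  have hm := measurable_subCurve (X := X) 1 0
  have : IsProbabilityMeasure (P.map (R242.subCurve 1 0)) :=
    Measure.isProbabilityMeasure_map hm.aemeasurable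
  refine of_cost_le ?_ ?_ ?_ ?_
  · rw [ae_map_iff hm.aemeasurable measurableSet_csGeodesic]
    filter_upwards [h.geod] with γ hγ
    exact isCSGeodesic_subCurve hγ (by norm_num) (by norm_num)
  · exact (timeMarginal_map_subCurve_zero P 1 0).trans h.marg_one
  · exact (timeMarginal_map_subCurve_one P 1 0).trans h.marg_zero
  · rw [lintegral_map (measurable_edist_ev_sq 0 1) hm, w2sq_comm, ← h.cost]
    refine lintegral_mono fun γ => ?_
    have e0 : (R242.subCurve 1 0 γ).toMap 0 = γ.toMap 1 := subCurve_toMap_zero 1 0 γ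
    have e1 : (R242.subCurve 1 0 γ).toMap 1 = γ.toMap 0 := subCurve_toMap_one 1 0 γ
    rw [e0, e1, edist_comm]

theorem timeMarginal_of_map_left {P₁ : Measure (UCurve X)}
    (h : P.map (R242.subCurve 0 (1 / 2)) = P₁) :
    timeMarginal P 0 = timeMarginal P₁ 0 ∧ timeMarginal P half = timeMarginal P₁ 1 := by
  rw [← h]
  exact ⟨(timeMarginal_map_subCurve_zero P 0 half).symm,
    (timeMarginal_map_subCurve_one P 0 half).symm⟩

theorem timeMarginal_of_map_right {P₂ : Measure (UCurve X)}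
    (h : P.map (R242.subCurve (1 / 2) 1) = P₂) :
    timeMarginal P half = timeMarginal P₂ 0 ∧ timeMarginal P 1 = timeMarginal P₂ 1 := by
  rw [← h]
  exact ⟨(timeMarginal_map_subCurve_zero P half 1).symm,
    (timeMarginal_map_subCurve_one P half 1).symm⟩

/-- equality case: `4 d² = (2 d₁² + 2 d₂²)·...`, real version. -/
theorem real_eq_case {d d₁ d₂ : ℝ} (hd : 0 ≤ d) (_h₁ : 0 ≤ d₁) (h₂ : 0 ≤ d₂) (htri : d ≤ d₁ + d₂)
    (h : 2 * d₁ ^ 2 + 2 * d₂ ^ 2 ≤ d ^ 2) : 2 * d₁ = d ∧ 2 * d₂ = d := by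
  have h3 : d ^ 2 ≤ (d₁ + d₂) ^ 2 := pow_le_pow_left₀ hd htri 2
  have h4 : (d₁ - d₂) ^ 2 ≤ 0 := by nlinarith
  have h5 : d₁ - d₂ = 0 := by
    have := sq_nonneg (d₁ - d₂)
    have h6 : (d₁ - d₂) ^ 2 = 0 := le_antisymm h4 this
    exact pow_eq_zero_iff (two_ne_zero) |>.1 h6
  have h7 : d₁ = d₂ := by linarith
  subst h7
  have h8 : (2 * d₁) ^ 2 ≤ d ^ 2 := by nlinarith
  have h9 : 2 * d₁ ≤ d := by
    by_contra hcon
    push Not at hcon
    have := pow_lt_pow_left₀ hcon hd (two_ne_zero)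
    linarith
  constructor <;> linarith

/-- O4: gluing of two optimal geodesic plans through a midpoint. -/
theorem glue {P₁ P₂ : Measure (UCurve X)} (h₁ : IsOptGeo P₁ μ₀ ν) (h₂ : IsOptGeo P₂ ν μ₁)
    (hfin : w2sq μ₀ μ₁ ≠ ⊤) (hw₁ : 4 * w2sq μ₀ ν = w2sq μ₀ μ₁)
    (hw₂ : 4 * w2sq ν μ₁ = w2sq μ₀ μ₁) :
    ∃ P : Measure (UCurve X), IsOptGeo P μ₀ μ₁ ∧ P.map (R242.subCurve 0 (1 / 2)) = P₁ ∧
      P.map (R242.subCurve (1 / 2) 1) = P₂ := by
  have i1 := h₁.prob
  have i2 := h₂.prob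
  obtain ⟨P, hPf, e1, e2⟩ := exists_glue_curves P₁ P₂ (h₁.marg_one.trans h₂.marg_zero.symm)
  refine ⟨P, ?_, e1, e2⟩
  obtain ⟨a0, a1⟩ := timeMarginal_of_map_left e1
  obtain ⟨b0, b1⟩ := timeMarginal_of_map_right e2
  have m0 : timeMarginal P 0 = μ₀ := a0.trans h₁.marg_zero
  have m1 : timeMarginal P 1 = μ₁ := b1.trans h₂.marg_one
  have i3 := h₁.prob_left
  have i4 : IsProbabilityMeasure P := isProbabilityMeasure_of_map (measurable_ev 0) m0
  -- costs of the halves
  have c1 : ∫⁻ γ, edist (γ.toMap 0) (γ.toMap half) ^ 2 ∂P = w2sq μ₀ ν := by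
    rw [← h₁.cost, ← e1, lintegral_map (measurable_edist_ev_sq 0 1) (measurable_subCurve _ _)]
    simp only [subCurve_zero_half_zero, subCurve_zero_half_one]
  have c2 : ∫⁻ γ, edist (γ.toMap half) (γ.toMap 1) ^ 2 ∂P = w2sq ν μ₁ := by
    rw [← h₂.cost, ← e2, lintegral_map (measurable_edist_ev_sq 0 1) (measurable_subCurve _ _)]
    simp only [subCurve_half_one_zero, subCurve_half_one_one]
  have c3 : ∫⁻ γ, (2 * edist (γ.toMap 0) (γ.toMap half) ^ 2 +
      2 * edist (γ.toMap half) (γ.toMap 1) ^ 2) ∂P = w2sq μ₀ μ₁ := by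
    rw [lintegral_add_left ((measurable_edist_ev_sq 0 half).const_mul 2),
      lintegral_const_mul _ (measurable_edist_ev_sq 0 half),
      lintegral_const_mul _ (measurable_edist_ev_sq half 1), c1, c2]
    have hne1 : w2sq μ₀ ν ≠ ⊤ := by
      intro hh
      rw [hh] at hw₁
      exact hfin (by rw [← hw₁]; simp)
    have hne2 : w2sq ν μ₁ ≠ ⊤ := by
      intro hh
      rw [hh] at hw₂
      exact hfin (by rw [← hw₂]; simp)
    rw [← ENNReal.toReal_eq_toReal_iff' (by finiteness) hfin]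
    have e3 := congrArg ENNReal.toReal hw₁
    have e4 := congrArg ENNReal.toReal hw₂
    rw [ENNReal.toReal_mul] at e3 e4
    rw [ENNReal.toReal_add (by finiteness) (by finiteness), ENNReal.toReal_mul,
      ENNReal.toReal_mul]
    norm_num at e3 e4 ⊢
    linarith
  have hpt : ∀ γ : UCurve X, edist (γ.toMap 0) (γ.toMap 1) ^ 2 ≤
      2 * edist (γ.toMap 0) (γ.toMap half) ^ 2 + 2 * edist (γ.toMap half) (γ.toMap 1) ^ 2 := by
    intro γ
    exact (pow_le_pow_left' (edist_triangle _ (γ.toMap half) _) 2).trans (opt_add_sq_le _ _)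
  have hcost : ∫⁻ γ, edist (γ.toMap 0) (γ.toMap 1) ^ 2 ∂P ≤ w2sq μ₀ μ₁ := by
    rw [← c3]; exact lintegral_mono hpt
  have hcost' : w2sq μ₀ μ₁ ≤ ∫⁻ γ, edist (γ.toMap 0) (γ.toMap 1) ^ 2 ∂P := by
    have := w2sq_timeMarginal_le_dist P 0 1
    rwa [m0, m1] at this
  have hae : ∀ᵐ γ ∂P, edist (γ.toMap 0) (γ.toMap 1) ^ 2 =
      2 * edist (γ.toMap 0) (γ.toMap half) ^ 2 + 2 * edist (γ.toMap half) (γ.toMap 1) ^ 2 := by
    refine ae_eq_of_ae_le_of_lintegral_le (Filter.Eventually.of_forall hpt)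
      (ne_top_of_le_ne_top hfin hcost) ?_ ?_
    · exact (((measurable_edist_ev_sq 0 half).const_mul 2).add
        ((measurable_edist_ev_sq half 1).const_mul 2)).aemeasurable
    · rw [c3]; exact hcost'
  have g1 : ∀ᵐ γ ∂P, IsCSGeodesic (R242.subCurve 0 (1 / 2) γ) :=
    ae_of_ae_map (measurable_subCurve _ _).aemeasurable (by rw [e1]; exact h₁.geod)
  have g2 : ∀ᵐ γ ∂P, IsCSGeodesic (R242.subCurve (1 / 2) 1 γ) :=
    ae_of_ae_map (measurable_subCurve _ _).aemeasurable (by rw [e2]; exact h₂.geod)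
  refine of_cost_le ?_ m0 m1 hcost
  filter_upwards [hae, g1, g2] with γ hγ k1 k2
  have hd : 2 * dist (γ.toMap 0) (γ.toMap half) ^ 2 + 2 * dist (γ.toMap half) (γ.toMap 1) ^ 2 ≤
      dist (γ.toMap 0) (γ.toMap 1) ^ 2 := by
    have := congrArg ENNReal.toReal hγ
    rw [ENNReal.toReal_add (by finiteness) (by finiteness), ENNReal.toReal_mul,
      ENNReal.toReal_mul, ENNReal.toReal_pow, ENNReal.toReal_pow, ENNReal.toReal_pow,
      ← dist_edist, ← dist_edist, ← dist_edist] at this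
    norm_num at this
    linarith
  obtain ⟨q1, q2⟩ := real_eq_case dist_nonneg dist_nonneg dist_nonneg
    (dist_triangle (γ.toMap 0) (γ.toMap half) (γ.toMap 1)) hd
  exact isCSGeodesic_of_halves k1 k2 q1 q2

/-- the midpoint halves both squared distances by four. -/
theorem w2sq_half_left (h : IsOptGeo P μ₀ μ₁) (hfin : w2sq μ₀ μ₁ ≠ ⊤) :
    4 * w2sq μ₀ (timeMarginal P half) = w2sq μ₀ μ₁ := by
  have h1 := h.w2sq_time hfin 0 half
  rw [h.marg_zero] at h1
  rw [h1, show ((half : unitInterval) : ℝ) = 1 / 2 from rfl, ← mul_assoc,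
    show (4 : ℝ≥0∞) = ENNReal.ofReal 4 by norm_num, ← ENNReal.ofReal_mul (by norm_num)]
  norm_num

theorem w2sq_half_right (h : IsOptGeo P μ₀ μ₁) (hfin : w2sq μ₀ μ₁ ≠ ⊤) :
    4 * w2sq (timeMarginal P half) μ₁ = w2sq μ₀ μ₁ := by
  have h1 := h.w2sq_time hfin half 1
  rw [h.marg_one] at h1
  rw [h1, show ((half : unitInterval) : ℝ) = 1 / 2 from rfl, ← mul_assoc,
    show (4 : ℝ≥0∞) = ENNReal.ofReal 4 by norm_num, ← ENNReal.ofReal_mul (by norm_num)]
  norm_num

/-- marginals of an optimal geodesic plan between measures with finite second moments have finite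
second moments. -/
theorem secondMoment (h : IsOptGeo P μ₀ μ₁) (h₀ : HasFiniteSecondMoment μ₀)
    (h₁ : HasFiniteSecondMoment μ₁) (t : unitInterval) :
    HasFiniteSecondMoment (timeMarginal P t) := by
  have i0 := h.prob_left
  have i1 := h.prob_right
  have ip := h.prob
  obtain ⟨o, ho⟩ := h₀
  have hW := w2sq_lt_top ⟨o, ho⟩ h₁
  refine ⟨o, ?_⟩
  have mo : Measurable fun x : X => edist x o ^ 2 :=
    (measurable_id.edist measurable_const).pow_const 2
  unfold timeMarginal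
  rw [lintegral_map mo (measurable_ev t)]
  have hb : ∀ᵐ γ ∂P, edist (γ.toMap t) o ^ 2 ≤
      2 * edist (γ.toMap 0) (γ.toMap 1) ^ 2 + 2 * edist (γ.toMap 0) o ^ 2 := by
    filter_upwards [h.geod] with γ hγ
    have h5 : edist (γ.toMap t) (γ.toMap 0) ≤ edist (γ.toMap 0) (γ.toMap 1) := by
      rw [edist_dist, edist_dist]
      apply ENNReal.ofReal_le_ofReal
      have h6 : dist (γ.toMap t) (γ.toMap 0) =
        |(t : ℝ) - ((0 : unitInterval) : ℝ)| * dist (γ.toMap 0) (γ.toMap 1) := hγ t 0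
      rw [h6]
      have h7 : |(t : ℝ) - ((0 : unitInterval) : ℝ)| ≤ 1 := by
        rw [show ((0 : unitInterval) : ℝ) = 0 from rfl, sub_zero, abs_of_nonneg t.2.1]
        exact t.2.2
      exact mul_le_of_le_one_left dist_nonneg h7
    calc edist (γ.toMap t) o ^ 2 ≤ (edist (γ.toMap 0) (γ.toMap 1) + edist (γ.toMap 0) o) ^ 2 := by
          gcongr
          exact (edist_triangle _ (γ.toMap 0) _).trans (by gcongr)
      _ ≤ _ := opt_add_sq_le _ _
  refine (lintegral_mono_ae hb).trans_lt ?_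
  rw [lintegral_add_left ((measurable_edist_ev_sq 0 1).const_mul 2),
    lintegral_const_mul _ (measurable_edist_ev_sq 0 1), h.cost]
  have m0' : Measurable fun γ : UCurve X => edist (γ.toMap 0) o ^ 2 := mo.comp (measurable_ev 0)
  rw [lintegral_const_mul _ m0']
  have h8 : ∫⁻ γ, edist (γ.toMap 0) o ^ 2 ∂P = ∫⁻ x, edist x o ^ 2 ∂μ₀ := by
    rw [← h.marg_zero]
    unfold timeMarginal
    rw [lintegral_map mo (measurable_ev 0)]
  rw [h8]
  exact ENNReal.add_lt_top.2 ⟨ENNReal.mul_lt_top (by norm_num) hW,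
    ENNReal.mul_lt_top (by norm_num) ho⟩

/-- the endpoints of almost every curve lie in sets of full measure. -/
theorem ae_left (h : IsOptGeo P μ₀ μ₁) {p : X → Prop} (hp : ∀ᵐ x ∂μ₀, p x) :
    ∀ᵐ γ ∂P, p (γ.toMap 0) := by
  rw [← h.marg_zero] at hp
  exact ae_of_ae_map (measurable_ev 0).aemeasurable hp

theorem ae_right (h : IsOptGeo P μ₀ μ₁) {p : X → Prop} (hp : ∀ᵐ x ∂μ₁, p x) :
    ∀ᵐ γ ∂P, p (γ.toMap 1) := by
  rw [← h.marg_one] at hp
  exact ae_of_ae_map (measurable_ev 1).aemeasurable hp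

/-- geodesics with endpoints in a ball stay in the ball of twice the radius. -/
theorem _root_.Crest.Agent.R242.csGeodesic_mem_closedBall {γ : UCurve X} (h : IsCSGeodesic γ)
    {o : X} {R : ℝ} (h0 : γ.toMap 0 ∈ Metric.closedBall o R)
    (h1 : γ.toMap 1 ∈ Metric.closedBall o R) (t : unitInterval) :
    γ.toMap t ∈ Metric.closedBall o (2 * R) := by
  rw [Metric.mem_closedBall] at *
  have ht0 := t.2.1
  have ht1 := t.2.2
  have hd : dist (γ.toMap 0) (γ.toMap 1) ≤ 2 * R := by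
    calc dist (γ.toMap 0) (γ.toMap 1) ≤ dist (γ.toMap 0) o + dist (γ.toMap 1) o :=
          dist_triangle_right _ _ _
      _ ≤ 2 * R := by linarith
  have e0 : dist (γ.toMap t) (γ.toMap 0) = t * dist (γ.toMap 0) (γ.toMap 1) := by
    have := h t 0
    rw [this]
    simp [abs_of_nonneg ht0]
  have e1 : dist (γ.toMap t) (γ.toMap 1) = (1 - t) * dist (γ.toMap 0) (γ.toMap 1) := by
    have := h t 1
    rw [this]
    rw [abs_of_nonpos (by simpa using ht1)]
    simp
  have hdn : 0 ≤ dist (γ.toMap 0) (γ.toMap 1) := dist_nonneg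
  rcases le_total (t : ℝ) (1 / 2) with ht | ht
  · calc dist (γ.toMap t) o ≤ dist (γ.toMap t) (γ.toMap 0) + dist (γ.toMap 0) o :=
          dist_triangle _ _ _
      _ ≤ 2 * R := by rw [e0]; nlinarith
  · calc dist (γ.toMap t) o ≤ dist (γ.toMap t) (γ.toMap 1) + dist (γ.toMap 1) o :=
          dist_triangle _ _ _
      _ ≤ 2 * R := by rw [e1]; nlinarith

theorem supp (h : IsOptGeo P μ₀ μ₁) {o : X} {R : ℝ} (h₀ : μ₀ (Metric.closedBall o R)ᶜ = 0)
    (h₁ : μ₁ (Metric.closedBall o R)ᶜ = 0) :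
    ∀ᵐ γ ∂P, ∀ t : unitInterval, γ.toMap t ∈ Metric.closedBall o (2 * R) := by
  have k0 : ∀ᵐ x ∂μ₀, x ∈ Metric.closedBall o R := h₀
  have k1 : ∀ᵐ x ∂μ₁, x ∈ Metric.closedBall o R := h₁
  filter_upwards [h.geod, h.ae_left k0, h.ae_right k1] with γ hγ g0 g1 t
  exact csGeodesic_mem_closedBall hγ g0 g1 t

/-- all time marginals are supported in the ball of twice the radius. -/
theorem supp_marginal (h : IsOptGeo P μ₀ μ₁) {o : X} {R : ℝ}
    (h₀ : μ₀ (Metric.closedBall o R)ᶜ = 0) (h₁ : μ₁ (Metric.closedBall o R)ᶜ = 0)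
    (t : unitInterval) : timeMarginal P t (Metric.closedBall o (2 * R))ᶜ = 0 := by
  unfold timeMarginal
  rw [Measure.map_apply (measurable_ev t) Metric.isClosed_closedBall.measurableSet.compl]
  have : ∀ᵐ γ ∂P, γ.toMap t ∈ Metric.closedBall o (2 * R) := by
    filter_upwards [h.supp h₀ h₁] with γ hγ
    exact hγ t
  exact this

end IsOptGeo

/-- finiteness for boundedly supported measures. -/
theorem w2sq_ne_top_of_supp {μ ν : Measure X} [IsProbabilityMeasure μ] [IsProbabilityMeasure ν]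
    {o : X} {R : ℝ} (hμ : μ (Metric.closedBall o R)ᶜ = 0) (hν : ν (Metric.closedBall o R)ᶜ = 0) :
    w2sq μ ν ≠ ⊤ := by
  have key : ∀ {μ : Measure X} [IsProbabilityMeasure μ], μ (Metric.closedBall o R)ᶜ = 0 →
      HasFiniteSecondMoment μ := by
    intro μ _ hμ
    refine ⟨o, ?_⟩
    have h1 : ∀ᵐ x ∂μ, edist x o ^ 2 ≤ ENNReal.ofReal R ^ 2 := by
      have : ∀ᵐ x ∂μ, x ∈ Metric.closedBall o R := hμ
      filter_upwards [this] with x hx
      gcongr
      rw [edist_dist]
      exact ENNReal.ofReal_le_ofReal hx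
    refine (lintegral_mono_ae h1).trans_lt ?_
    rw [lintegral_const, measure_univ, mul_one]
    exact ENNReal.pow_lt_top ENNReal.ofReal_lt_top
  exact (w2sq_lt_top (key hμ) (key hν)).ne

/-! forms of `Iface1.lean` -/

theorem IsOptGeo.cost_eq {P : Measure (UCurve X)} {μ₀ μ₁ : Measure X} (h : IsOptGeo P μ₀ μ₁) :
    ∫⁻ γ, edist (γ.toMap 0) (γ.toMap 1) ^ 2 ∂P = w2sq μ₀ μ₁ :=
  h.cost

/-- [O1], with Mathlib's conditional measure. -/
theorem IsOptGeo.cond' {P : Measure (UCurve X)} {μ₀ μ₁ : Measure X} (h : IsOptGeo P μ₀ μ₁)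
    (hfin : w2sq μ₀ μ₁ < ⊤) {Γ : Set (UCurve X)} (hΓ : MeasurableSet Γ) (hpos : P Γ ≠ 0) :
    IsOptGeo (ProbabilityTheory.cond P Γ) (timeMarginal (ProbabilityTheory.cond P Γ) 0)
      (timeMarginal (ProbabilityTheory.cond P Γ) 1) :=
  h.cond hfin.ne hΓ hpos

/-- [O2], with Mathlib's conditional measure. -/
theorem IsOptGeo.replace' {P P' : Measure (UCurve X)} {μ₀ μ₁ : Measure X} (h : IsOptGeo P μ₀ μ₁)
    (hfin : w2sq μ₀ μ₁ < ⊤) {Γ : Set (UCurve X)} (hΓ : MeasurableSet Γ) (hpos : P Γ ≠ 0)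
    (h' : IsOptGeo P' (timeMarginal (ProbabilityTheory.cond P Γ) 0)
      (timeMarginal (ProbabilityTheory.cond P Γ) 1)) {δ : ℝ≥0∞} (hδ : δ ≤ 1) :
    IsOptGeo (P.restrict Γᶜ + (1 - δ) • P.restrict Γ + (δ * P Γ) • P') μ₀ μ₁ :=
  h.replace hfin.ne hΓ hpos h' hδ

/-- [O3] -/
theorem IsOptGeo.sub {P : Measure (UCurve X)} {μ₀ μ₁ : Measure X} (h : IsOptGeo P μ₀ μ₁)
    (hfin : w2sq μ₀ μ₁ < ⊤) {a b : unitInterval} (_hab : (a : ℝ) ≤ b) :
    IsOptGeo (P.map (R242.subCurve a b)) (timeMarginal P a) (timeMarginal P b) ∧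
      w2sq (timeMarginal P a) (timeMarginal P b) =
        ENNReal.ofReal (((b : ℝ) - a) ^ 2) * w2sq μ₀ μ₁ :=
  ⟨h.subCurve hfin.ne a b, h.w2sq_time hfin.ne a b⟩

theorem glue {P₁ P₂ : Measure (UCurve X)} [IsProbabilityMeasure P₁] [IsProbabilityMeasure P₂]
    (h : timeMarginal P₁ 1 = timeMarginal P₂ 0) :
    ∃ P : Measure (UCurve X), IsProbabilityMeasure P ∧ P.map (subCurve 0 (1 / 2)) = P₁ ∧
      P.map (subCurve (1 / 2) 1) = P₂ := by
  obtain ⟨P, _, h1, h2⟩ := exists_glue_curves P₁ P₂ h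
  exact ⟨P, isProbabilityMeasure_of_map (measurable_subCurve _ _) h1, h1, h2⟩

/-- time marginals of the two halves. -/
theorem timeMarginal_map_left_half (P : Measure (UCurve X)) (t : unitInterval) :
    timeMarginal (P.map (subCurve 0 (1 / 2))) t =
      timeMarginal P ⟨(t : ℝ) / 2, by have := t.2.1; positivity, by have := t.2.2; linarith⟩ := by
  unfold timeMarginal
  rw [Measure.map_map (measurable_ev _) (measurable_subCurve _ _)]
  congr 1
  ext γ
  simp only [Function.comp_apply, opt_subCurve_toMap]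
  rw [← ext_coe]
  congr 1
  simp only
  ring

theorem timeMarginal_map_right_half (P : Measure (UCurve X)) (t : unitInterval) :
    timeMarginal (P.map (subCurve (1 / 2) 1)) t =
      timeMarginal P ⟨(1 + (t : ℝ)) / 2, by have := t.2.1; positivity,
        by have := t.2.2; linarith⟩ := by
  unfold timeMarginal
  rw [Measure.map_map (measurable_ev _) (measurable_subCurve _ _)]
  congr 1
  ext γ
  simp only [Function.comp_apply, opt_subCurve_toMap]
  rw [← ext_coe]
  congr 1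
  simp only
  ring

end Plans

end Crest.Agent.R242
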