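import Crest.Agent.R242.ParG

/-!
# Row 242, S12: calculus of `gradPairing` from `WgCalc` and `IsInfHilbertian`
-/

set_option autoImplicit false
set_option linter.unusedSectionVars false

open MeasureTheory Filter Set
open scoped ENNReal NNReal Topology
open Crest.GeometryTopology.SyntheticRicci

noncomputable section

namespace Crest.Agent.R242

variable {X : Type*} [MetricSpace X] [MeasurableSpace X] {m : Measure X}

namespace WgCalc

/-! ### facts not using the parallelogram law -/

theorem neg (C : WgCalc m) {f : X → ℝ} (hf : IsSobolevLoc m f) :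
    IsSobolevLoc m (fun x => - f x) := by
  have h := (C.smul (-1) f hf).1
  have e : (fun x => -1 * f x) = fun x => - f x := by funext x; ring
  rwa [e] at h

theorem wg_neg (C : WgCalc m) {f : X → ℝ} (hf : IsSobolevLoc m f) :
    ∀ᵐ x ∂m, minWeakGrad m (fun x => - f x) x = minWeakGrad m f x := by
  have h := (C.smul (-1) f hf).2
  have e : (fun x => -1 * f x) = fun x => - f x := by funext x; ring
  rw [e] at h
  simpa using h

theorem wg_sub_comm (C : WgCalc m) {f g : X → ℝ} (hf : IsSobolevLoc m f)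
    (hg : IsSobolevLoc m g) :
    ∀ᵐ x ∂m, minWeakGrad m (fun x => f x - g x) x = minWeakGrad m (fun x => g x - f x) x := by
  have h := C.wg_neg (C.sub hg hf)
  have e : (fun x => -(g x - f x)) = fun x => f x - g x := by funext x; ring
  rwa [e] at h

theorem gp_congr (C : WgCalc m) {f f' g g' : X → ℝ} (hf : IsSobolevLoc m f)
    (hg : IsSobolevLoc m g) (hff : f =ᵐ[m] f') (hgg : g =ᵐ[m] g') :
    gradPairing m f g =ᵐ[m] gradPairing m f' g' := by
  have h1 : (fun y => f y + g y) =ᵐ[m] fun y => f' y + g' y := by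
    filter_upwards [hff, hgg] with x hx hy
    rw [hx, hy]
  have h2 : (fun y => f y - g y) =ᵐ[m] fun y => f' y - g' y := by
    filter_upwards [hff, hgg] with x hx hy
    rw [hx, hy]
  filter_upwards [(C.congr _ _ (C.add f g hf hg).1 h1).2, (C.congr _ _ (C.sub hf hg) h2).2]
    with x e1 e2
  simp only [gradPairing, e1, e2]

theorem gp_comm (C : WgCalc m) {f g : X → ℝ} (hf : IsSobolevLoc m f) (hg : IsSobolevLoc m g) :
    gradPairing m f g =ᵐ[m] gradPairing m g f := by
  filter_upwards [C.wg_sub_comm hf hg] with x hx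
  unfold gradPairing
  have e : (fun y => g y + f y) = fun y => f y + g y := by funext y; ring
  rw [e, hx]

theorem gp_self (C : WgCalc m) {f : X → ℝ} (hf : IsSobolevLoc m f) :
    gradPairing m f f =ᵐ[m] fun x => minWeakGrad m f x ^ 2 := by
  have e1 : (fun y => f y + f y) = fun y => 2 * f y := by funext y; ring
  have e2 : (fun y => f y - f y) = fun _ => 0 := by funext y; ring
  filter_upwards [(C.smul 2 f hf).2, (C.const 0).2] with x h1 h2
  unfold gradPairing
  rw [e1, e2, h1, h2, mul_pow, sq_abs]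
  ring

theorem gp_local_left (C : WgCalc m) {f f' g : X → ℝ} (hf : IsSobolevLoc m f)
    (hf' : IsSobolevLoc m f') (hg : IsSobolevLoc m g) :
    ∀ᵐ x ∂m, f x = f' x → gradPairing m f g x = gradPairing m f' g x := by
  filter_upwards [C.loc _ _ (C.add f g hf hg).1 (C.add f' g hf' hg).1,
    C.loc _ _ (C.sub hf hg) (C.sub hf' hg)] with x h1 h2 h3
  unfold gradPairing
  rw [h1 (by rw [h3]), h2 (by rw [h3])]

theorem gp_local_right (C : WgCalc m) {f g g' : X → ℝ} (hf : IsSobolevLoc m f)
    (hg : IsSobolevLoc m g) (hg' : IsSobolevLoc m g') :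
    ∀ᵐ x ∂m, g x = g' x → gradPairing m f g x = gradPairing m f g' x := by
  filter_upwards [C.loc _ _ (C.add f g hf hg).1 (C.add f g' hf hg').1,
    C.loc _ _ (C.sub hf hg) (C.sub hf hg')] with x h1 h2 h3
  unfold gradPairing
  rw [h1 (by rw [h3]), h2 (by rw [h3])]

theorem gp_const_left (C : WgCalc m) (c : ℝ) {g : X → ℝ} (hg : IsSobolevLoc m g) :
    gradPairing m (fun _ => c) g =ᵐ[m] fun _ => 0 := by
  have e1 : (fun y => c + g y) = fun y => g y + c := by funext y; ring
  filter_upwards [(C.wg_add_const hg c).2, C.wg_sub_comm (C.const c).1 hg,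
    (C.wg_add_const hg (-c)).2] with x h1 h2 h3
  have e2 : (fun y => g y - c) = fun y => g y + -c := by funext y; ring
  unfold gradPairing
  rw [e1, h1, h2, e2, h3]
  ring

theorem gp_const_right (C : WgCalc m) (c : ℝ) {f : X → ℝ} (hf : IsSobolevLoc m f) :
    gradPairing m f (fun _ => c) =ᵐ[m] fun _ => 0 := by
  filter_upwards [C.gp_comm hf (C.const c).1, C.gp_const_left c hf] with x h1 h2
  rw [h1, h2]

theorem gp_zero_of_eq_left (C : WgCalc m) {f g : X → ℝ} (hf : IsSobolevLoc m f)
    (hg : IsSobolevLoc m g) (c : ℝ) : ∀ᵐ x ∂m, f x = c → gradPairing m f g x = 0 := by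
  filter_upwards [C.gp_local_left hf (C.const c).1 hg, C.gp_const_left c hg] with x h1 h2 h3
  rw [h1 h3, h2]

theorem gp_zero_of_eq_right (C : WgCalc m) {f g : X → ℝ} (hf : IsSobolevLoc m f)
    (hg : IsSobolevLoc m g) (c : ℝ) : ∀ᵐ x ∂m, g x = c → gradPairing m f g x = 0 := by
  filter_upwards [C.gp_local_right hf hg (C.const c).1, C.gp_const_right c hf] with x h1 h2 h3
  rw [h1 h3, h2]

/-- crude bound. -/
theorem gp_crude (C : WgCalc m) {f g : X → ℝ} (hf : IsSobolevLoc m f) (hg : IsSobolevLoc m g) :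
    ∀ᵐ x ∂m, |gradPairing m f g x| ≤
      minWeakGrad m f x * (minWeakGrad m f x + minWeakGrad m g x) := by
  have hp := C.add f g hf hg
  have hs := C.sub hf hg
  have h1 := C.abs_wg_sub_le hp.1 (C.sub hg hf)
  have e1 : (fun x => f x + g x - (g x - f x)) = fun x => 2 * f x := by funext x; ring
  rw [e1] at h1
  filter_upwards [h1, (C.smul 2 f hf).2, hp.2, C.wg_sub_le hf hg, C.wg_sub_comm hf hg,
    wg_nonneg_ae hp.1, wg_nonneg_ae hs, wg_nonneg_ae hf, wg_nonneg_ae hg]
    with x a1 a2 a3 a4 a5 a6 a7 a8 a9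
  rw [a2, ← a5] at a1
  unfold gradPairing
  set p := minWeakGrad m (fun x => f x + g x) x
  set q := minWeakGrad m (fun x => f x - g x) x
  set u := minWeakGrad m f x
  set v := minWeakGrad m g x
  have h2 : |(p ^ 2 - q ^ 2) / 4| = |p - q| * (p + q) / 4 := by
    rw [show p ^ 2 - q ^ 2 = (p - q) * (p + q) by ring, abs_div, abs_mul,
      abs_of_nonneg (add_nonneg a6 a7)]
    norm_num
  rw [h2]
  have h3 : |p - q| * (p + q) ≤ (|2| * u) * (2 * (u + v)) :=
    mul_le_mul a1 (by linarith) (by positivity) (by positivity)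
  rw [abs_of_pos (by norm_num : (0 : ℝ) < 2)] at h3
  nlinarith

theorem aesm_gp (C : WgCalc m) {f g : X → ℝ} (hf : IsSobolevLoc m f) (hg : IsSobolevLoc m g) :
    AEStronglyMeasurable (gradPairing m f g) m := by
  have h1 := (aesm_wg_ae (C.add f g hf hg).1).aemeasurable
  have h2 := (aesm_wg_ae (C.sub hf hg)).aemeasurable
  exact (((h1.pow_const 2).sub (h2.pow_const 2)).div_const _).aestronglyMeasurable

/-! ### bilinearity -/

section Hilb

variable [ProperSpace X] [BorelSpace X]

theorem wg_add_sq (C : WgCalc m) (hH : IsInfHilbertian m) {f g : X → ℝ}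
    (hf : IsSobolevLoc m f) (hg : IsSobolevLoc m g) :
    ∀ᵐ x ∂m, minWeakGrad m (fun y => f y + g y) x ^ 2 =
      minWeakGrad m f x ^ 2 + 2 * gradPairing m f g x + minWeakGrad m g x ^ 2 := by
  filter_upwards [C.parallelogram hH hf hg] with x hx
  unfold gradPairing
  linarith

theorem wg_sub_sq (C : WgCalc m) (hH : IsInfHilbertian m) {f g : X → ℝ}
    (hf : IsSobolevLoc m f) (hg : IsSobolevLoc m g) :
    ∀ᵐ x ∂m, minWeakGrad m (fun y => f y - g y) x ^ 2 =
      minWeakGrad m f x ^ 2 - 2 * gradPairing m f g x + minWeakGrad m g x ^ 2 := by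
  filter_upwards [C.parallelogram hH hf hg] with x hx
  unfold gradPairing
  linarith

theorem gp_add_left (C : WgCalc m) (hH : IsInfHilbertian m) {f f' g : X → ℝ}
    (hf : IsSobolevLoc m f) (hf' : IsSobolevLoc m f') (hg : IsSobolevLoc m g) :
    gradPairing m (fun x => f x + f' x) g =ᵐ[m]
      fun x => gradPairing m f g x + gradPairing m f' g x := by
  have hff := (C.add f f' hf hf').1
  have h1 := C.parallelogram hH (C.add f g hf hg).1 (C.add f' g hf' hg).1
  have h2 := C.parallelogram hH (C.sub hf hg) (C.sub hf' hg)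
  have h3 := C.parallelogram hH (C.add _ g hff hg).1 hg
  have h4 := C.parallelogram hH (C.sub hff hg) hg
  have e1 : (fun y => f y + g y + (f' y + g y)) = fun y => f y + f' y + 2 * g y := by
    funext y; ring
  have e2 : (fun y => f y + g y - (f' y + g y)) = fun y => f y - f' y := by funext y; ring
  have e3 : (fun y => f y - g y + (f' y - g y)) = fun y => f y + f' y - 2 * g y := by
    funext y; ring
  have e4 : (fun y => f y - g y - (f' y - g y)) = fun y => f y - f' y := by funext y; ring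
  have e5 : (fun y => f y + f' y + g y + g y) = fun y => f y + f' y + 2 * g y := by
    funext y; ring
  have e6 : (fun y => f y + f' y + g y - g y) = fun y => f y + f' y := by funext y; ring
  have e7 : (fun y => f y + f' y - g y + g y) = fun y => f y + f' y := by funext y; ring
  have e8 : (fun y => f y + f' y - g y - g y) = fun y => f y + f' y - 2 * g y := by
    funext y; ring
  rw [e1, e2] at h1
  rw [e3, e4] at h2
  rw [e5, e6] at h3
  rw [e7, e8] at h4
  filter_upwards [h1, h2, h3, h4] with x a1 a2 a3 a4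
  unfold gradPairing
  linarith

theorem gp_add_right (C : WgCalc m) (hH : IsInfHilbertian m) {f g g' : X → ℝ}
    (hf : IsSobolevLoc m f) (hg : IsSobolevLoc m g) (hg' : IsSobolevLoc m g') :
    gradPairing m f (fun x => g x + g' x) =ᵐ[m]
      fun x => gradPairing m f g x + gradPairing m f g' x := by
  filter_upwards [C.gp_comm hf (C.add g g' hg hg').1, C.gp_add_left hH hg hg' hf,
    C.gp_comm hf hg, C.gp_comm hf hg'] with x h1 h2 h3 h4
  rw [h1, h2, h3, h4]

/-- the set of scalars for which homogeneity holds. -/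
theorem gp_hom_nat (C : WgCalc m) (hH : IsInfHilbertian m) (n : ℕ) {f g : X → ℝ}
    (hf : IsSobolevLoc m f) (hg : IsSobolevLoc m g) :
    gradPairing m (fun x => (n : ℝ) * f x) g =ᵐ[m] fun x => (n : ℝ) * gradPairing m f g x := by
  induction n with
  | zero =>
    have e : (fun x => ((0 : ℕ) : ℝ) * f x) = fun _ => 0 := by funext x; simp
    rw [e]
    filter_upwards [C.gp_const_left 0 hg] with x hx
    rw [hx]; simp
  | succ n ih =>
    have e : (fun x => ((n + 1 : ℕ) : ℝ) * f x) = fun x => (n : ℝ) * f x + f x := by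
      funext x; push_cast; ring
    rw [e]
    filter_upwards [ih, C.gp_add_left hH (C.smul n f hf).1 hf hg] with x h1 h2
    rw [h2, h1]; push_cast; ring

theorem gp_neg_left (C : WgCalc m) (hH : IsInfHilbertian m) {f g : X → ℝ}
    (hf : IsSobolevLoc m f) (hg : IsSobolevLoc m g) :
    gradPairing m (fun x => - f x) g =ᵐ[m] fun x => - gradPairing m f g x := by
  have e : (fun x => f x + - f x) = fun _ => 0 := by funext x; ring
  have h := C.gp_add_left hH hf (C.neg hf) hg
  rw [e] at h
  filter_upwards [h, C.gp_const_left 0 hg] with x h1 h2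
  rw [h2] at h1
  linarith

theorem gp_hom_int (C : WgCalc m) (hH : IsInfHilbertian m) (n : ℤ) {f g : X → ℝ}
    (hf : IsSobolevLoc m f) (hg : IsSobolevLoc m g) :
    gradPairing m (fun x => (n : ℝ) * f x) g =ᵐ[m] fun x => (n : ℝ) * gradPairing m f g x := by
  obtain ⟨k, rfl | rfl⟩ := n.eq_nat_or_neg
  · simpa using C.gp_hom_nat hH k hf hg
  · have e : (fun x => ((-(k : ℤ) : ℤ) : ℝ) * f x) = fun x => - ((k : ℝ) * f x) := by
      funext x; push_cast; ring
    rw [e]
    filter_upwards [C.gp_neg_left hH (C.smul k f hf).1 hg, C.gp_hom_nat hH k hf hg] with x h1 h2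
    rw [h1, h2]; push_cast; ring

theorem gp_hom_rat (C : WgCalc m) (hH : IsInfHilbertian m) (r : ℚ) {f g : X → ℝ}
    (hf : IsSobolevLoc m f) (hg : IsSobolevLoc m g) :
    gradPairing m (fun x => (r : ℝ) * f x) g =ᵐ[m] fun x => (r : ℝ) * gradPairing m f g x := by
  have hd : ((r.den : ℕ) : ℝ) ≠ 0 := by exact_mod_cast r.den_nz
  have h1 := C.gp_hom_nat hH r.den (C.smul (r : ℝ) f hf).1 hg
  have h2 := C.gp_hom_int hH r.num hf hg
  have e : (fun x => ((r.den : ℕ) : ℝ) * ((r : ℝ) * f x)) = fun x => (r.num : ℝ) * f x := by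
    funext x
    have : (r : ℝ) = (r.num : ℝ) / (r.den : ℝ) := by exact_mod_cast (Rat.num_div_den r).symm
    rw [this]; field_simp
  rw [e] at h1
  filter_upwards [h1, h2] with x a1 a2
  rw [a2] at a1
  have h3 : (r : ℝ) = (r.num : ℝ) / (r.den : ℝ) := by exact_mod_cast (Rat.num_div_den r).symm
  refine mul_left_cancel₀ hd ?_
  rw [← a1]
  have h4 : (r.den : ℝ) * (r : ℝ) = r.num := by rw [h3]; field_simp
  rw [← mul_assoc, h4]

theorem gp_smul_left (C : WgCalc m) (hH : IsInfHilbertian m) (c : ℝ) {f g : X → ℝ}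
    (hf : IsSobolevLoc m f) (hg : IsSobolevLoc m g) :
    gradPairing m (fun x => c * f x) g =ᵐ[m] fun x => c * gradPairing m f g x := by
  have h1 : ∀ᵐ x ∂m, ∀ r : ℚ, |gradPairing m (fun x => c * f x) g x - r * gradPairing m f g x| ≤
      |c - r| * minWeakGrad m f x * (|c - r| * minWeakGrad m f x + minWeakGrad m g x) :=
    ae_all_iff.2 fun r => by
      have e : (fun x => (c - r) * f x + r * f x) = fun x => c * f x := by funext x; ring
      have h2 := C.gp_add_left hH (C.smul (c - r) f hf).1 (C.smul (r : ℝ) f hf).1 hg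
      rw [e] at h2
      filter_upwards [h2, C.gp_hom_rat hH r hf hg, C.gp_crude (C.smul (c - r) f hf).1 hg,
        (C.smul (c - r) f hf).2] with x a1 a2 a3 a4
      rw [a1, a2]
      rw [a4] at a3
      simpa using a3
  filter_upwards [h1] with x hx
  have h3 : ∀ r : ℝ, |gradPairing m (fun x => c * f x) g x - r * gradPairing m f g x| ≤
      |c - r| * minWeakGrad m f x * (|c - r| * minWeakGrad m f x + minWeakGrad m g x) := by
    intro r
    refine Rat.isDenseEmbedding_coe_real.dense.induction_on (p := fun r : ℝ =>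
      |gradPairing m (fun x => c * f x) g x - r * gradPairing m f g x| ≤
      |c - r| * minWeakGrad m f x * (|c - r| * minWeakGrad m f x + minWeakGrad m g x)) r ?_ hx
    exact isClosed_le (by fun_prop) (by fun_prop)
  have h4 := h3 c
  simp only [sub_self, abs_zero, zero_mul] at h4
  have := abs_eq_zero.1 (le_antisymm h4 (abs_nonneg _))
  linarith

theorem gp_smul_right (C : WgCalc m) (hH : IsInfHilbertian m) (c : ℝ) {f g : X → ℝ}
    (hf : IsSobolevLoc m f) (hg : IsSobolevLoc m g) :
    gradPairing m f (fun x => c * g x) =ᵐ[m] fun x => c * gradPairing m f g x := by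
  filter_upwards [C.gp_comm hf (C.smul c g hg).1, C.gp_smul_left hH c hg hf,
    C.gp_comm hf hg] with x h1 h2 h3
  rw [h1, h2, h3]

theorem gp_neg_right (C : WgCalc m) (hH : IsInfHilbertian m) {f g : X → ℝ}
    (hf : IsSobolevLoc m f) (hg : IsSobolevLoc m g) :
    gradPairing m f (fun x => - g x) =ᵐ[m] fun x => - gradPairing m f g x := by
  filter_upwards [C.gp_comm hf (C.neg hg), C.gp_neg_left hH hg hf, C.gp_comm hf hg]
    with x h1 h2 h3
  rw [h1, h2, h3]

theorem gp_sub_left (C : WgCalc m) (hH : IsInfHilbertian m) {f f' g : X → ℝ}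
    (hf : IsSobolevLoc m f) (hf' : IsSobolevLoc m f') (hg : IsSobolevLoc m g) :
    gradPairing m (fun x => f x - f' x) g =ᵐ[m]
      fun x => gradPairing m f g x - gradPairing m f' g x := by
  have e : (fun x => f x - f' x) = fun x => f x + - f' x := by funext x; ring
  rw [e]
  filter_upwards [C.gp_add_left hH hf (C.neg hf') hg, C.gp_neg_left hH hf' hg] with x h1 h2
  rw [h1, h2]; ring

theorem gp_sub_right (C : WgCalc m) (hH : IsInfHilbertian m) {f g g' : X → ℝ}
    (hf : IsSobolevLoc m f) (hg : IsSobolevLoc m g) (hg' : IsSobolevLoc m g') :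
    gradPairing m f (fun x => g x - g' x) =ᵐ[m]
      fun x => gradPairing m f g x - gradPairing m f g' x := by
  filter_upwards [C.gp_comm hf (C.sub hg hg'), C.gp_sub_left hH hg hg' hf,
    C.gp_comm hf hg, C.gp_comm hf hg'] with x h1 h2 h3 h4
  rw [h1, h2, h3, h4]

/-- Cauchy-Schwarz with real coefficients chosen at the point. -/
theorem gp_lin_sq_le (C : WgCalc m) (hH : IsInfHilbertian m) {f f' g : X → ℝ}
    (hf : IsSobolevLoc m f) (hf' : IsSobolevLoc m f') (hg : IsSobolevLoc m g) :
    ∀ᵐ x ∂m, ∀ a b : ℝ, (a * gradPairing m f g x + b * gradPairing m f' g x) ^ 2 ≤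
      (a ^ 2 * minWeakGrad m f x ^ 2 + 2 * a * b * gradPairing m f f' x +
        b ^ 2 * minWeakGrad m f' x ^ 2) * minWeakGrad m g x ^ 2 := by
  have key : ∀ᵐ x ∂m, ∀ a b t : ℚ, 0 ≤
      ((a : ℝ) ^ 2 * minWeakGrad m f x ^ 2 + 2 * a * b * gradPairing m f f' x +
        (b : ℝ) ^ 2 * minWeakGrad m f' x ^ 2) +
      2 * t * (a * gradPairing m f g x + b * gradPairing m f' g x) +
      (t : ℝ) ^ 2 * minWeakGrad m g x ^ 2 :=
    ae_all_iff.2 fun a => ae_all_iff.2 fun b => ae_all_iff.2 fun t => by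
      have ha := C.smul (a : ℝ) f hf
      have hb := C.smul (b : ℝ) f' hf'
      have ht := C.smul (t : ℝ) g hg
      have hab := C.add _ _ ha.1 hb.1
      filter_upwards [C.wg_add_sq hH hab.1 ht.1, C.wg_add_sq hH ha.1 hb.1, ha.2, hb.2, ht.2,
        C.gp_add_left hH ha.1 hb.1 ht.1, C.gp_smul_right hH (t : ℝ) ha.1 hg,
        C.gp_smul_right hH (t : ℝ) hb.1 hg, C.gp_smul_left hH (a : ℝ) hf hg,
        C.gp_smul_left hH (b : ℝ) hf' hg, C.gp_smul_left hH (a : ℝ) hf hb.1,
        C.gp_smul_right hH (b : ℝ) hf hf'] with x a1 a2 a3 a4 a5 a6 a7 a8 a9 a10 a11 a12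
      have h0 := sq_nonneg (minWeakGrad m (fun y => (a : ℝ) * f y + (b : ℝ) * f' y +
        (t : ℝ) * g y) x)
      rw [a1, a2, a3, a4, a5, a6, a7, a8, a9, a10, a11, a12] at h0
      simp only [mul_pow, sq_abs] at h0
      refine h0.trans (le_of_eq ?_)
      ring
  filter_upwards [key] with x hx
  have h1 : ∀ a b t : ℝ, 0 ≤
      (a ^ 2 * minWeakGrad m f x ^ 2 + 2 * a * b * gradPairing m f f' x +
        b ^ 2 * minWeakGrad m f' x ^ 2) +
      2 * t * (a * gradPairing m f g x + b * gradPairing m f' g x) +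
      t ^ 2 * minWeakGrad m g x ^ 2 := by
    intro a b t
    refine DenseRange.induction_on₂ (e := ((↑) : ℚ → ℝ))
      (p := fun a b => 0 ≤
      (a ^ 2 * minWeakGrad m f x ^ 2 + 2 * a * b * gradPairing m f f' x +
        b ^ 2 * minWeakGrad m f' x ^ 2) +
      2 * t * (a * gradPairing m f g x + b * gradPairing m f' g x) +
      t ^ 2 * minWeakGrad m g x ^ 2)
      Rat.isDenseEmbedding_coe_real.dense ?_ ?_ a b
    · exact isClosed_le (by fun_prop) (by fun_prop)
    · intro a b
      refine Rat.isDenseEmbedding_coe_real.dense.induction_on (p := fun t : ℝ => 0 ≤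
        ((a : ℝ) ^ 2 * minWeakGrad m f x ^ 2 + 2 * a * b * gradPairing m f f' x +
        (b : ℝ) ^ 2 * minWeakGrad m f' x ^ 2) +
        2 * t * (a * gradPairing m f g x + b * gradPairing m f' g x) +
        t ^ 2 * minWeakGrad m g x ^ 2) t ?_ (hx a b)
      exact isClosed_le (by fun_prop) (by fun_prop)
  intro a b
  set A := a ^ 2 * minWeakGrad m f x ^ 2 + 2 * a * b * gradPairing m f f' x +
        b ^ 2 * minWeakGrad m f' x ^ 2
  set B := a * gradPairing m f g x + b * gradPairing m f' g x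
  set D := minWeakGrad m g x ^ 2
  have h2 : ∀ t : ℝ, 0 ≤ D * (t * t) + (2 * B) * t + A := fun t => by
    have := h1 a b t
    refine this.trans (le_of_eq ?_)
    ring
  have h3 := discrim_le_zero h2
  unfold discrim at h3
  nlinarith

/-- Cauchy-Schwarz. -/
theorem gp_abs_le (C : WgCalc m) (hH : IsInfHilbertian m) {f g : X → ℝ}
    (hf : IsSobolevLoc m f) (hg : IsSobolevLoc m g) :
    ∀ᵐ x ∂m, |gradPairing m f g x| ≤ minWeakGrad m f x * minWeakGrad m g x := by
  filter_upwards [C.gp_lin_sq_le hH hf hf hg, wg_nonneg_ae hf, wg_nonneg_ae hg] with x h1 h2 h3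
  have h4 := h1 1 0
  refine abs_le_of_sq_le_sq ?_ (mul_nonneg h2 h3)
  rw [mul_pow]
  nlinarith

theorem gp_le (C : WgCalc m) (hH : IsInfHilbertian m) {f g : X → ℝ}
    (hf : IsSobolevLoc m f) (hg : IsSobolevLoc m g) :
    ∀ᵐ x ∂m, gradPairing m f g x ≤ (minWeakGrad m f x ^ 2 + minWeakGrad m g x ^ 2) / 2 := by
  filter_upwards [C.gp_abs_le hH hf hg] with x h1
  have h2 := (le_abs_self _).trans h1
  nlinarith [sq_nonneg (minWeakGrad m f x - minWeakGrad m g x)]

theorem integrable_gp (C : WgCalc m) (hH : IsInfHilbertian m) {f g : X → ℝ}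
    (hf : IsSobolev m f) (hg : IsSobolev m g) : Integrable (gradPairing m f g) m := by
  refine Integrable.mono' (g := fun x => minWeakGrad m f x * minWeakGrad m g x) ?_
    (C.aesm_gp hf.2.1 hg.2.1) (C.gp_abs_le hH hf.2.1 hg.2.1)
  exact hf.2.2.integrable_mul hg.2.2

theorem integrableOn_gp (C : WgCalc m) (hH : IsInfHilbertian m) {f g : X → ℝ}
    (hf : IsSobolevLoc m f) (hg : IsSobolevLoc m g) (o : X) (R : ℝ) :
    IntegrableOn (gradPairing m f g) (Metric.ball o R) m := by
  refine Integrable.mono' (g := fun x => minWeakGrad m f x * minWeakGrad m g x) ?_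
    (C.aesm_gp hf hg).restrict (ae_restrict_of_ae (C.gp_abs_le hH hf hg))
  exact (wg_l2OnBalls hf o R).integrable_mul (wg_l2OnBalls hg o R)

/-! ### Leibniz rule -/

theorem gp_mul_left_bdd (C : WgCalc m) (hH : IsInfHilbertian m) {f h g : X → ℝ}
    (hf : IsSobolevLoc m f) (hh : IsSobolevLoc m h) (hg : IsSobolevLoc m g)
    (hfb : ∃ B : ℝ, ∀ᵐ x ∂m, |f x| ≤ B) (hhb : ∃ B : ℝ, ∀ᵐ x ∂m, |h x| ≤ B) :
    ∀ᵐ x ∂m, gradPairing m (fun y => f y * h y) g x =
      f x * gradPairing m h g x + h x * gradPairing m f g x := by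
  have hfh := (C.mul f h hf hh hfb hhb).1
  have key : ∀ a b : ℝ, ∀ᵐ x ∂m,
      |gradPairing m (fun y => f y * h y) g x - a * gradPairing m h g x -
        b * gradPairing m f g x| ≤
        (|f x - a| * minWeakGrad m h x + |h x - b| * minWeakGrad m f x) * minWeakGrad m g x := by
    intro a b
    have hah := (C.smul a h hh).1
    have hbf := (C.smul b f hf).1
    have hu := C.sub (C.sub hfh hah) hbf
    have hf' := C.wg_add_const hf (-a)
    have hh' := C.wg_add_const hh (-b)
    have hfb' : ∃ B : ℝ, ∀ᵐ x ∂m, |f x + -a| ≤ B :=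
      bdd_add hfb ⟨|(-a)|, Eventually.of_forall fun _ => le_rfl⟩
    have hhb' : ∃ B : ℝ, ∀ᵐ x ∂m, |h x + -b| ≤ B :=
      bdd_add hhb ⟨|(-b)|, Eventually.of_forall fun _ => le_rfl⟩
    have hm := C.mul _ _ hf'.1 hh'.1 hfb' hhb'
    filter_upwards [C.gp_sub_left hH (C.sub hfh hah) hbf hg,
      C.gp_sub_left hH hfh hah hg, C.gp_smul_left hH a hh hg,
      C.gp_smul_left hH b hf hg, C.gp_abs_le hH hu hg, hf'.2, hh'.2, hm.2,
      C.wg_eq_of_eq_add_const hu hm.1 (-(a * b)), wg_nonneg_ae hg]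
      with x a1 a2 a3 a4 a5 a6 a7 a8 a9 a10
    rw [a1, a2, a3, a4] at a5
    refine a5.trans (mul_le_mul_of_nonneg_right ?_ a10)
    rw [a9 (by ring)]
    rw [a6, a7] at a8
    simpa [sub_eq_add_neg] using a8
  have key2 : ∀ᵐ x ∂m, ∀ a b : ℚ,
      |gradPairing m (fun y => f y * h y) g x - a * gradPairing m h g x -
        b * gradPairing m f g x| ≤
        (|f x - a| * minWeakGrad m h x + |h x - b| * minWeakGrad m f x) * minWeakGrad m g x :=
    ae_all_iff.2 fun a => ae_all_iff.2 fun b => key a b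
  filter_upwards [key2] with x hx
  have h3 : ∀ a b : ℝ, |gradPairing m (fun y => f y * h y) g x - a * gradPairing m h g x -
        b * gradPairing m f g x| ≤
        (|f x - a| * minWeakGrad m h x + |h x - b| * minWeakGrad m f x) * minWeakGrad m g x := by
    intro a b
    refine DenseRange.induction_on₂ (e := ((↑) : ℚ → ℝ))
      (p := fun a b => |gradPairing m (fun y => f y * h y) g x - a * gradPairing m h g x -
        b * gradPairing m f g x| ≤
        (|f x - a| * minWeakGrad m h x + |h x - b| * minWeakGrad m f x) * minWeakGrad m g x)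
      Rat.isDenseEmbedding_coe_real.dense ?_ hx a b
    exact isClosed_le (by fun_prop) (by fun_prop)
  have h4 := h3 (f x) (h x)
  simp only [sub_self, abs_zero, zero_mul, add_zero] at h4
  have h5 := abs_eq_zero.1 (le_antisymm h4 (abs_nonneg _))
  linarith

/-- Leibniz rule, no boundedness. -/
theorem gp_mul_left (C : WgCalc m) (hH : IsInfHilbertian m) {f h g : X → ℝ}
    (hf : IsSobolevLoc m f) (hh : IsSobolevLoc m h) (hg : IsSobolevLoc m g)
    (hfh : IsSobolevLoc m (fun x => f x * h x)) :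
    ∀ᵐ x ∂m, gradPairing m (fun y => f y * h y) g x =
      f x * gradPairing m h g x + h x * gradPairing m f g x := by
  have hF : ∀ n : ℕ, IsSobolevLoc m (fun x => ParF.cl n (f x)) := fun n =>
    (C.comp _ 1 f (cl_lip (n : ℝ)) hf).1
  have hG : ∀ n : ℕ, IsSobolevLoc m (fun x => ParF.cl n (h x)) := fun n =>
    (C.comp _ 1 h (cl_lip (n : ℝ)) hh).1
  have hFb : ∀ n : ℕ, ∃ B : ℝ, ∀ᵐ x ∂m, |ParF.cl n (f x)| ≤ B := fun n =>
    ⟨n, Eventually.of_forall fun x => ParF.cl_abs_le (Nat.cast_nonneg n) _⟩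
  have hGb : ∀ n : ℕ, ∃ B : ℝ, ∀ᵐ x ∂m, |ParF.cl n (h x)| ≤ B := fun n =>
    ⟨n, Eventually.of_forall fun x => ParF.cl_abs_le (Nat.cast_nonneg n) _⟩
  have h1 := fun n : ℕ => C.gp_mul_left_bdd hH (hF n) (hG n) hg (hFb n) (hGb n)
  have h2 := fun n : ℕ => C.gp_local_left hfh (C.mul _ _ (hF n) (hG n) (hFb n) (hGb n)).1 hg
  have h3 := fun n : ℕ => C.gp_local_left (hF n) hf hg
  have h4 := fun n : ℕ => C.gp_local_left (hG n) hh hg
  filter_upwards [ae_all_iff.2 h1, ae_all_iff.2 h2, ae_all_iff.2 h3, ae_all_iff.2 h4]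
    with x a1 a2 a3 a4
  obtain ⟨n, hn⟩ := exists_nat_gt (max |f x| |h x|)
  have b1 : ParF.cl n (f x) = f x := ParF.cl_eq ((le_max_left _ _).trans hn.le)
  have b2 : ParF.cl n (h x) = h x := ParF.cl_eq ((le_max_right _ _).trans hn.le)
  rw [a2 n (by rw [b1, b2]), a1 n, a3 n b1, a4 n b2, b1, b2]

theorem gp_mul_right (C : WgCalc m) (hH : IsInfHilbertian m) {f g h : X → ℝ}
    (hf : IsSobolevLoc m f) (hg : IsSobolevLoc m g) (hh : IsSobolevLoc m h)
    (hgh : IsSobolevLoc m (fun x => g x * h x)) :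
    ∀ᵐ x ∂m, gradPairing m f (fun y => g y * h y) x =
      g x * gradPairing m f h x + h x * gradPairing m f g x := by
  filter_upwards [C.gp_comm hf hgh, C.gp_mul_left hH hg hh hf hgh, C.gp_comm hf hh,
    C.gp_comm hf hg] with x h1 h2 h3 h4
  rw [h1, h2, h3, h4]

/-! ### chain rule -/

/-- chain rule for the pairing from the chain rule for the weak gradient. -/
theorem gp_comp_of_wg (C : WgCalc m) (hH : IsInfHilbertian m) {f F g : X → ℝ} {d : X → ℝ}
    (hf : IsSobolevLoc m f) (hF : IsSobolevLoc m F) (hg : IsSobolevLoc m g)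
    (h1 : ∀ᵐ x ∂m, minWeakGrad m F x = |d x| * minWeakGrad m f x)
    (h2 : ∀ᵐ x ∂m, minWeakGrad m (fun y => F y + f y) x = |d x + 1| * minWeakGrad m f x) :
    ∀ᵐ x ∂m, gradPairing m F g x = d x * gradPairing m f g x := by
  filter_upwards [h1, h2, C.wg_add_sq hH hF hf, C.gp_lin_sq_le hH hF hf hg]
    with x a1 a2 a3 a4
  rw [a2, a1, mul_pow, mul_pow, sq_abs, sq_abs] at a3
  have h5 := a4 1 (-(d x))
  rw [a1, mul_pow, sq_abs] at h5
  have h6 : (1 : ℝ) ^ 2 * (d x ^ 2 * minWeakGrad m f x ^ 2) +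
      2 * 1 * -(d x) * gradPairing m F f x + (-(d x)) ^ 2 * minWeakGrad m f x ^ 2 = 0 := by
    have h7 : gradPairing m F f x = d x * minWeakGrad m f x ^ 2 := by nlinarith
    rw [h7]; ring
  rw [h6, zero_mul] at h5
  have h8 := pow_eq_zero_iff (two_ne_zero) |>.1 (le_antisymm h5 (sq_nonneg _))
  linarith

/-- chain rule from local linearisation, for `φ` of class `C¹`. -/
theorem gp_comp_C1 (C : WgCalc m) (hH : IsInfHilbertian m) {φ : ℝ → ℝ} (hφ : ContDiff ℝ 1 φ)
    {f g : X → ℝ} (hf : IsSobolevLoc m f) (hF : IsSobolevLoc m (fun x => φ (f x)))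
    (hg : IsSobolevLoc m g) :
    ∀ᵐ x ∂m, gradPairing m (fun y => φ (f y)) g x = deriv φ (f x) * gradPairing m f g x := by
  have hd : Differentiable ℝ φ := hφ.differentiable (by norm_num)
  have hc : Continuous (deriv φ) := hφ.continuous_deriv (by norm_num)
  have key : ∀ᵐ x ∂m, ∀ p q a w : ℚ, (∀ r ∈ Icc (p : ℝ) q, |deriv φ r - a| ≤ w) →
      f x ∈ Icc (p : ℝ) q →
      |gradPairing m (fun y => φ (f y)) g x - a * gradPairing m f g x| ≤
        w * minWeakGrad m f x * minWeakGrad m g x :=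
    ae_all_iff.2 fun p => ae_all_iff.2 fun q => ae_all_iff.2 fun a => ae_all_iff.2 fun w => by
      by_cases hw : ∀ r ∈ Icc (p : ℝ) q, |deriv φ r - a| ≤ w
      swap
      · exact Eventually.of_forall fun x h => absurd h hw
      by_cases hpq : (p : ℝ) ≤ q
      swap
      · exact Eventually.of_forall fun x _ h => absurd (h.1.trans h.2) hpq
      have hw0 : (0 : ℝ) ≤ w := (abs_nonneg _).trans (hw p ⟨le_rfl, hpq⟩)
      -- the modified function
      set ψ : ℝ → ℝ := fun r => φ (projIcc (p : ℝ) q hpq r) - a * (projIcc (p : ℝ) q hpq r : ℝ)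
        with hψ
      have hL : LipschitzWith (w : ℝ).toNNReal ψ := by
        refine LipschitzWith.of_dist_le_mul fun r r' => ?_
        rw [Real.coe_toNNReal _ hw0, Real.dist_eq, Real.dist_eq]
        set u : ℝ := (projIcc (p : ℝ) q hpq r : ℝ) with hu
        set v : ℝ := (projIcc (p : ℝ) q hpq r' : ℝ) with hv
        have hu' : u ∈ Icc (p : ℝ) q := (projIcc (p : ℝ) q hpq r).2
        have hv' : v ∈ Icc (p : ℝ) q := (projIcc (p : ℝ) q hpq r').2
        have h1 := (convex_Icc (p : ℝ) q).norm_image_sub_le_of_norm_deriv_le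
          (f := fun t => φ t - a * t) (C := (w : ℝ)) (x := v) (y := u)
          (fun t _ => (hd t).sub ((differentiableAt_id).const_mul _))
          (fun t ht => by
            have e : HasDerivAt (fun t => φ t - a * t) (deriv φ t - a * 1) t :=
              (hd t).hasDerivAt.sub ((hasDerivAt_id t).const_mul (a : ℝ))
            rw [e.deriv, mul_one]; exact hw t ht) hv' hu'
        have h2 : |u - v| ≤ |r - r'| := by
          have := (LipschitzWith.projIcc hpq).dist_le_mul r r'
          simpa [Subtype.dist_eq, Real.dist_eq] using this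
        calc |ψ r - ψ r'| = ‖(φ u - a * u) - (φ v - a * v)‖ := by rw [Real.norm_eq_abs]
          _ ≤ w * ‖u - v‖ := h1
          _ ≤ w * |r - r'| := mul_le_mul_of_nonneg_left h2 hw0
      have hψf := C.comp ψ _ f hL hf
      have haf := (C.smul (a : ℝ) f hf).1
      have hdiff := C.sub hF haf
      filter_upwards [hψf.2, C.loc _ _ hdiff hψf.1, C.gp_abs_le hH hdiff hg,
        C.gp_sub_left hH hF haf hg, C.gp_smul_left hH (a : ℝ) hf hg, wg_nonneg_ae hg]
        with x a1 a2 a3 a4 a5 a6 _ hx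
      rw [a4, a5] at a3
      refine a3.trans (mul_le_mul_of_nonneg_right ?_ a6)
      rw [a2 (by simp only [hψ]; rw [projIcc_of_mem hpq hx])]
      rw [Real.coe_toNNReal _ hw0] at a1
      exact a1
  filter_upwards [key] with x hx
  -- choose the rationals
  have h3 : ∀ ε : ℚ, 0 < ε →
      |gradPairing m (fun y => φ (f y)) g x - deriv φ (f x) * gradPairing m f g x| ≤
        ε * (minWeakGrad m f x * minWeakGrad m g x + |gradPairing m f g x|) := by
    intro ε hε
    have hε' : (0 : ℝ) < ε := by exact_mod_cast hε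
    obtain ⟨a, ha1, ha2⟩ := exists_rat_btwn (show deriv φ (f x) < deriv φ (f x) + ε / 2 by linarith)
    have hcont := (Metric.continuous_iff.1 hc) (f x) ((ε : ℝ) / 2) (by positivity)
    obtain ⟨δ, hδ, hδ2⟩ := hcont
    obtain ⟨p, hp1, hp2⟩ := exists_rat_btwn (show f x - δ < f x by linarith)
    obtain ⟨q, hq1, hq2⟩ := exists_rat_btwn (show f x < f x + δ by linarith)
    have h4 := hx p q a ε (fun r hr => by
      have h5 := hδ2 r (by
        rw [Real.dist_eq, abs_lt]
        constructor <;> linarith [hr.1, hr.2])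
      rw [Real.dist_eq, abs_lt] at h5
      rw [abs_le]
      constructor <;> linarith [h5.1, h5.2]) ⟨hp2.le, hq1.le⟩
    have h6 : |((a : ℝ) - deriv φ (f x)) * gradPairing m f g x| ≤ ε * |gradPairing m f g x| := by
      rw [abs_mul]
      refine mul_le_mul_of_nonneg_right ?_ (abs_nonneg _)
      rw [abs_le]
      constructor <;> linarith
    calc |gradPairing m (fun y => φ (f y)) g x - deriv φ (f x) * gradPairing m f g x|
        = |(gradPairing m (fun y => φ (f y)) g x - a * gradPairing m f g x) +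
          ((a : ℝ) - deriv φ (f x)) * gradPairing m f g x| := by ring_nf
      _ ≤ _ := abs_add_le _ _
      _ ≤ ε * (minWeakGrad m f x * minWeakGrad m g x + |gradPairing m f g x|) := by
          rw [mul_add, ← mul_assoc]; exact add_le_add h4 h6
  have h7 : |gradPairing m (fun y => φ (f y)) g x - deriv φ (f x) * gradPairing m f g x| ≤
      0 * (minWeakGrad m f x * minWeakGrad m g x + |gradPairing m f g x|) := by
    have hz : Tendsto (fun n : ℕ => ((1 / ((n : ℚ) + 1) : ℚ) : ℝ) *
        (minWeakGrad m f x * minWeakGrad m g x + |gradPairing m f g x|)) atTop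
        (𝓝 (0 * (minWeakGrad m f x * minWeakGrad m g x + |gradPairing m f g x|))) := by
      refine Tendsto.mul_const _ ?_
      have := tendsto_one_div_add_atTop_nhds_zero_nat (𝕜 := ℝ)
      refine this.congr fun n => ?_
      push_cast
      rfl
    exact ge_of_tendsto' hz fun n => h3 _ (by positivity)
  rw [zero_mul] at h7
  have h8 := abs_eq_zero.1 (le_antisymm h7 (abs_nonneg _))
  linarith

theorem wg_comp_C1 (C : WgCalc m) (hH : IsInfHilbertian m) {φ : ℝ → ℝ} (hφ : ContDiff ℝ 1 φ)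
    {f : X → ℝ} (hf : IsSobolevLoc m f) (hF : IsSobolevLoc m (fun x => φ (f x))) :
    ∀ᵐ x ∂m, minWeakGrad m (fun x => φ (f x)) x = |deriv φ (f x)| * minWeakGrad m f x := by
  filter_upwards [C.gp_comp_C1 hH hφ hf hF hF, C.gp_comp_C1 hH hφ hf hF hf, C.gp_comm hF hf,
    C.gp_self hF, C.gp_self hf, wg_nonneg_ae hF, wg_nonneg_ae hf] with x a1 a2 a3 a4 a5 a6 a7
  have h1 : minWeakGrad m (fun x => φ (f x)) x ^ 2 = (|deriv φ (f x)| * minWeakGrad m f x) ^ 2 := by
    rw [mul_pow, sq_abs, ← a4, a1, ← a3, a2, a5]; ring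
  exact (pow_left_inj₀ a6 (mul_nonneg (abs_nonneg _) a7) two_ne_zero).1 h1

end Hilb

end WgCalc

end Crest.Agent.R242
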