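import Crest.Agent.R242.Pair

/-!
# Row 242, S11, S12 under the names of `SIface.lean`
-/

set_option autoImplicit false
set_option linter.unusedSectionVars false

open MeasureTheory Filter Set
open Crest.GeometryTopology.SyntheticRicci
open scoped ENNReal NNReal Topology

namespace Crest.Agent.R242

variable {X : Type*} [MetricSpace X] [ProperSpace X] [MeasurableSpace X] [BorelSpace X]
variable {m : Measure X}

theorem minWeakGrad_parallelogram (hfin : IsFiniteOnBalls m) (hH : IsInfHilbertian m)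
    {f g : X → ℝ} (hf : IsSobolevLoc m f) (hg : IsSobolevLoc m g) :
    ∀ᵐ x ∂m, minWeakGrad m (fun y => f y + g y) x ^ 2 + minWeakGrad m (fun y => f y - g y) x ^ 2 =
      2 * minWeakGrad m f x ^ 2 + 2 * minWeakGrad m g x ^ 2 :=
  (wgCalc hfin).parallelogram hH hf hg

theorem gradPairing_self (hfin : IsFiniteOnBalls m) {f : X → ℝ} (hf : IsSobolevLoc m f) :
    ∀ᵐ x ∂m, gradPairing m f f x = minWeakGrad m f x ^ 2 :=
  (wgCalc hfin).gp_self hf

theorem gradPairing_comm (f g : X → ℝ) :
    ∀ᵐ x ∂m, gradPairing m f g x = gradPairing m g f x := by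
  have h := minWeakGrad_neg (m := m) (fun y => g y - f y)
  have e : (fun y => - (g y - f y)) = fun y => f y - g y := by funext y; ring
  rw [e] at h
  filter_upwards [h] with x hx
  unfold gradPairing
  have e2 : (fun y => g y + f y) = fun y => f y + g y := by funext y; ring
  rw [e2, hx]

theorem gradPairing_congr {f f' g g' : X → ℝ} (hf : f =ᵐ[m] f') (hg : g =ᵐ[m] g') :
    gradPairing m f g =ᵐ[m] gradPairing m f' g' := by
  have h1 : (fun y => f y + g y) =ᵐ[m] fun y => f' y + g' y := by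
    filter_upwards [hf, hg] with x hx hy
    rw [hx, hy]
  have h2 : (fun y => f y - g y) =ᵐ[m] fun y => f' y - g' y := by
    filter_upwards [hf, hg] with x hx hy
    rw [hx, hy]
  filter_upwards [minWeakGrad_congr h1, minWeakGrad_congr h2] with x e1 e2
  simp only [gradPairing, e1, e2]

theorem gradPairing_add_left (hfin : IsFiniteOnBalls m) (hH : IsInfHilbertian m)
    {f f' g : X → ℝ} (hf : IsSobolevLoc m f) (hf' : IsSobolevLoc m f') (hg : IsSobolevLoc m g) :
    ∀ᵐ x ∂m, gradPairing m (fun y => f y + f' y) g x =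
      gradPairing m f g x + gradPairing m f' g x :=
  (wgCalc hfin).gp_add_left hH hf hf' hg

theorem gradPairing_sub_left (hfin : IsFiniteOnBalls m) (hH : IsInfHilbertian m)
    {f f' g : X → ℝ} (hf : IsSobolevLoc m f) (hf' : IsSobolevLoc m f') (hg : IsSobolevLoc m g) :
    ∀ᵐ x ∂m, gradPairing m (fun y => f y - f' y) g x =
      gradPairing m f g x - gradPairing m f' g x :=
  (wgCalc hfin).gp_sub_left hH hf hf' hg

theorem gradPairing_const_mul_left (hfin : IsFiniteOnBalls m) (hH : IsInfHilbertian m) (c : ℝ)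
    {f g : X → ℝ} (hf : IsSobolevLoc m f) (hg : IsSobolevLoc m g) :
    ∀ᵐ x ∂m, gradPairing m (fun y => c * f y) g x = c * gradPairing m f g x :=
  (wgCalc hfin).gp_smul_left hH c hf hg

theorem abs_gradPairing_le (hfin : IsFiniteOnBalls m) (hH : IsInfHilbertian m)
    {f g : X → ℝ} (hf : IsSobolevLoc m f) (hg : IsSobolevLoc m g) :
    ∀ᵐ x ∂m, |gradPairing m f g x| ≤ minWeakGrad m f x * minWeakGrad m g x :=
  (wgCalc hfin).gp_abs_le hH hf hg

theorem gradPairing_ae_eq_of_eq (hfin : IsFiniteOnBalls m) {f f' g : X → ℝ}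
    (hf : IsSobolevLoc m f) (hf' : IsSobolevLoc m f') (hg : IsSobolevLoc m g)
    (_hH : IsInfHilbertian m) :
    ∀ᵐ x ∂m, f x = f' x → gradPairing m f g x = gradPairing m f' g x :=
  (wgCalc hfin).gp_local_left hf hf' hg

theorem gradPairing_mul_left (hfin : IsFiniteOnBalls m) (hH : IsInfHilbertian m)
    {f h g : X → ℝ} (hf : IsSobolevLoc m f) (hh : IsSobolevLoc m h) (hg : IsSobolevLoc m g)
    (hfh : IsSobolevLoc m (fun x => f x * h x)) :
    ∀ᵐ x ∂m, gradPairing m (fun y => f y * h y) g x =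
      f x * gradPairing m h g x + h x * gradPairing m f g x :=
  (wgCalc hfin).gp_mul_left hH hf hh hg hfh

theorem gradPairing_comp_left (hfin : IsFiniteOnBalls m) (hH : IsInfHilbertian m)
    {f g : X → ℝ} (hf : IsSobolevLoc m f) (hg : IsSobolevLoc m g) {φ ψ : ℝ → ℝ} {L : ℝ≥0}
    (hφ : LipschitzWith L φ) {N : Set ℝ} (hN : N.Countable)
    (hd : ∀ t ∉ N, HasDerivAt φ (ψ t) t) :
    ∀ᵐ x ∂m, gradPairing m (fun y => φ (f y)) g x = ψ (f x) * gradPairing m f g x := by
  have h1 := minWeakGrad_comp hfin hf hφ hN hd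
  have hφ2 : LipschitzWith (L + 1) (fun t => φ t + t) := hφ.add LipschitzWith.id
  have h2 := minWeakGrad_comp hfin hf hφ2 hN (ψ := fun t => ψ t + 1)
    fun t ht => (hd t ht).add (hasDerivAt_id t)
  exact (wgCalc hfin).gp_comp_of_wg hH hf ((wgCalc hfin).comp φ L f hφ hf).1 hg h1 h2

end Crest.Agent.R242
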