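import Mathlib
import Crest.Agent.R242.WgCalc

/-!
Row 242, block S12: the derived pairing calculus, from `WgCalc` and the pointwise parallelogram law.
Lemma names `pr_*`.
-/

set_option autoImplicit false

open MeasureTheory Filter Set
open scoped ENNReal NNReal Topology
open Crest.GeometryTopology.SyntheticRicci

namespace Crest.Agent.R242

section S12

variable {X : Type*} [MetricSpace X] [MeasurableSpace X] {m : Measure X}

/-- pointwise parallelogram law. -/
def ParLaw (m : Measure X) : Prop := ∀ f g : X → ℝ, IsSobolevLoc m f → IsSobolevLoc m g →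
  ∀ᵐ x ∂m, minWeakGrad m (fun y => f y + g y) x ^ 2 + minWeakGrad m (fun y => f y - g y) x ^ 2 =
      2 * minWeakGrad m f x ^ 2 + 2 * minWeakGrad m g x ^ 2

variable (C : WgCalc m) (hpar : ParLaw m)

include C

theorem pr_neg {f : X → ℝ} (hf : IsSobolevLoc m f) :
    IsSobolevLoc m (fun x => - f x) ∧
      ∀ᵐ x ∂m, minWeakGrad m (fun x => - f x) x = minWeakGrad m f x := by
  have h := C.smul (-1) f hf
  simpa using h

theorem pr_sub {f g : X → ℝ} (hf : IsSobolevLoc m f) (hg : IsSobolevLoc m g) :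
    IsSobolevLoc m (fun x => f x - g x) ∧
      ∀ᵐ x ∂m, minWeakGrad m (fun x => f x - g x) x ≤ minWeakGrad m f x + minWeakGrad m g x := by
  have h := C.add f (fun x => - g x) hf (pr_neg C hg).1
  have e : (fun x => f x + - g x) = fun x => f x - g x := by
    funext x; ring
  rw [e] at h
  refine ⟨h.1, ?_⟩
  filter_upwards [h.2, (pr_neg C hg).2] with x h1 h2
  rw [h2] at h1
  exact h1

theorem pr_wnn {f : X → ℝ} (hf : IsSobolevLoc m f) : ∀ᵐ x ∂m, 0 ≤ minWeakGrad m f x := by
  unfold minWeakGrad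
  rw [dif_pos hf.2]
  exact (Classical.choose_spec hf.2).1.2.1

theorem pr_wsubcomm {f g : X → ℝ} (hf : IsSobolevLoc m f) (hg : IsSobolevLoc m g) :
    ∀ᵐ x ∂m, minWeakGrad m (fun x => f x - g x) x = minWeakGrad m (fun x => g x - f x) x := by
  have h := (pr_neg C (pr_sub C hg hf).1).2
  have e : (fun x => -(g x - f x)) = fun x => f x - g x := by funext x; ring
  rw [e] at h
  exact h

theorem pr_comm {f g : X → ℝ} (hf : IsSobolevLoc m f) (hg : IsSobolevLoc m g) :
    gradPairing m f g =ᵐ[m] gradPairing m g f := by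
  filter_upwards [pr_wsubcomm C hf hg] with x h
  unfold gradPairing
  have e : (fun y => f y + g y) = fun y => g y + f y := by funext y; ring
  rw [h, e]

theorem pr_self {f : X → ℝ} (hf : IsSobolevLoc m f) :
    gradPairing m f f =ᵐ[m] fun x => minWeakGrad m f x ^ 2 := by
  have h1 := (C.smul 2 f hf).2
  have h2 := (C.const 0).2
  filter_upwards [h1, h2] with x g1 g2
  unfold gradPairing
  have e1 : (fun y => f y + f y) = fun y => 2 * f y := by funext y; ring
  have e2 : (fun y => f y - f y) = fun _ => (0:ℝ) := by funext y; ring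
  rw [e1, e2, g1, g2]
  norm_num
  ring

theorem pr_congr {f f' g g' : X → ℝ} (hf : IsSobolevLoc m f)
    (hg : IsSobolevLoc m g) (hff : f =ᵐ[m] f') (hgg : g =ᵐ[m] g') :
    gradPairing m f g =ᵐ[m] gradPairing m f' g' := by
  have h1 : (fun y => f y + g y) =ᵐ[m] fun y => f' y + g' y := by
    filter_upwards [hff, hgg] with x a b; rw [a, b]
  have h2 : (fun y => f y - g y) =ᵐ[m] fun y => f' y - g' y := by
    filter_upwards [hff, hgg] with x a b; rw [a, b]
  filter_upwards [(C.congr _ _ (C.add f g hf hg).1 h1).2, (C.congr _ _ (pr_sub C hf hg).1 h2).2]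
    with x a b
  unfold gradPairing
  rw [a, b]

theorem pr_local_left {f f' g : X → ℝ} (hf : IsSobolevLoc m f)
    (hf' : IsSobolevLoc m f') (hg : IsSobolevLoc m g) :
    ∀ᵐ x ∂m, f x = f' x → gradPairing m f g x = gradPairing m f' g x := by
  filter_upwards [C.loc _ _ (C.add f g hf hg).1 (C.add f' g hf' hg).1,
    C.loc _ _ (pr_sub C hf hg).1 (pr_sub C hf' hg).1] with x a b hx
  unfold gradPairing
  rw [a (by rw [hx]), b (by rw [hx])]

theorem pr_local_right {f g g' : X → ℝ} (hf : IsSobolevLoc m f)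
    (hg : IsSobolevLoc m g) (hg' : IsSobolevLoc m g') :
    ∀ᵐ x ∂m, g x = g' x → gradPairing m f g x = gradPairing m f g' x := by
  filter_upwards [C.loc _ _ (C.add f g hf hg).1 (C.add f g' hf hg').1,
    C.loc _ _ (pr_sub C hf hg).1 (pr_sub C hf hg').1] with x a b hx
  unfold gradPairing
  rw [a (by rw [hx]), b (by rw [hx])]

/-- `|⟨f,g⟩| ≤ wg f wg g`, from the triangle inequality only. -/
theorem pr_abs_le {f g : X → ℝ} (hf : IsSobolevLoc m f) (hg : IsSobolevLoc m g) :
    ∀ᵐ x ∂m, |gradPairing m f g x| ≤ minWeakGrad m f x * minWeakGrad m g x := by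
  have hs := (C.add f g hf hg)
  have hd := (pr_sub C hf hg)
  -- `wg f ≤ wg (f-g) + wg g`, etc.
  have h1 := (C.add _ g hd.1 hg).2
  have h2 := (pr_sub C hs.1 hg).2
  have h3 := (pr_sub C hf hd.1).2
  have h4 := (pr_sub C hs.1 hf).2
  have e1 : (fun x => (f x - g x) + g x) = f := by funext x; ring
  have e2 : (fun x => (f x + g x) - g x) = f := by funext x; ring
  have e3 : (fun x => f x - (f x - g x)) = g := by funext x; ring
  have e4 : (fun x => (f x + g x) - f x) = g := by funext x; ring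
  rw [e1] at h1
  rw [e2] at h2
  rw [e3] at h3
  rw [e4] at h4
  filter_upwards [hs.2, hd.2, h1, h2, h3, h4, pr_wnn C hf, pr_wnn C hg, pr_wnn C hs.1,
    pr_wnn C hd.1] with x a1 a2 a3 a4 a5 a6 a7 a8 a9 a10
  unfold gradPairing
  set u := minWeakGrad m f x
  set v := minWeakGrad m g x
  set s := minWeakGrad m (fun y => f y + g y) x
  set d := minWeakGrad m (fun y => f y - g y) x
  rw [abs_le]
  have key1 : s ^ 2 ≤ (u + v) ^ 2 := pow_le_pow_left₀ a9 a1 2
  have key2 : d ^ 2 ≤ (u + v) ^ 2 := pow_le_pow_left₀ a10 a2 2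
  have key3 : (u - v) ^ 2 ≤ d ^ 2 := by
    rw [sq_le_sq, abs_of_nonneg a10, abs_le]; constructor <;> linarith
  have key4 : (u - v) ^ 2 ≤ s ^ 2 := by
    rw [sq_le_sq, abs_of_nonneg a9, abs_le]; constructor <;> linarith
  constructor <;> nlinarith

include hpar

theorem pr_add_left {f f' g : X → ℝ} (hf : IsSobolevLoc m f)
    (hf' : IsSobolevLoc m f') (hg : IsSobolevLoc m g) :
    gradPairing m (fun x => f x + f' x) g =ᵐ[m]
      fun x => gradPairing m f g x + gradPairing m f' g x := by
  have hfg := (C.add f g hf hg).1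
  have hfg' := (pr_sub C hf hg).1
  have hf'g := (C.add f' g hf' hg).1
  have hf'g' := (pr_sub C hf' hg).1
  have p1 := hpar _ _ hfg hf'
  have p2 := hpar _ _ hfg' hf'
  have p3 := hpar _ _ hf'g hf
  have p4 := hpar _ _ hf'g' hf
  -- rewrite the functions
  have e1 : (fun y => (f y + g y) + f' y) = fun y => (f y + f' y) + g y := by funext y; ring
  have e2 : (fun y => (f y + g y) - f' y) = fun y => (f y - f' y) + g y := by funext y; ring
  have e3 : (fun y => (f y - g y) + f' y) = fun y => (f y + f' y) - g y := by funext y; ring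
  have e4 : (fun y => (f y - g y) - f' y) = fun y => (f y - f' y) - g y := by funext y; ring
  have e5 : (fun y => (f' y + g y) + f y) = fun y => (f y + f' y) + g y := by funext y; ring
  have e6 : (fun y => (f' y + g y) - f y) = fun y => -((f y - f' y) - g y) := by funext y; ring
  have e7 : (fun y => (f' y - g y) + f y) = fun y => (f y + f' y) - g y := by funext y; ring
  have e8 : (fun y => (f' y - g y) - f y) = fun y => -((f y - f' y) + g y) := by funext y; ring
  rw [e1, e2] at p1
  rw [e3, e4] at p2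
  rw [e5, e6] at p3
  rw [e7, e8] at p4
  have hd := (pr_sub C hf hf').1
  have n1 := (pr_neg C (pr_sub C hd hg).1).2
  have n2 := (pr_neg C (C.add _ g hd hg).1).2
  filter_upwards [p1, p2, p3, p4, n1, n2] with x a1 a2 a3 a4 a5 a6
  rw [a5] at a3
  rw [a6] at a4
  unfold gradPairing
  linarith

theorem pr_zero_left {g : X → ℝ} (hg : IsSobolevLoc m g) :
    gradPairing m (fun _ => (0:ℝ)) g =ᵐ[m] fun _ => 0 := by
  have h := (pr_neg C hg).2
  filter_upwards [h] with x a
  unfold gradPairing
  simp only [zero_add, zero_sub]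
  rw [a]
  ring

theorem pr_smul_left (c : ℝ) {f g : X → ℝ} (hf : IsSobolevLoc m f)
    (hg : IsSobolevLoc m g) :
    gradPairing m (fun x => c * f x) g =ᵐ[m] fun x => c * gradPairing m f g x := by
  -- rational homogeneity
  have hq : ∀ᵐ x ∂m, ∀ r s : ℚ, gradPairing m (fun y => ((r + s : ℚ) : ℝ) * f y) g x =
      gradPairing m (fun y => (r : ℝ) * f y) g x + gradPairing m (fun y => (s : ℝ) * f y) g x := by
    rw [ae_all_iff]; intro r
    rw [ae_all_iff]; intro s
    have h := pr_add_left C hpar (C.smul r f hf).1 (C.smul s f hf).1 hg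
    have e : (fun y => (r : ℝ) * f y + (s : ℝ) * f y) = fun y => ((r + s : ℚ) : ℝ) * f y := by
      funext y; push_cast; ring
    rw [e] at h
    exact h
  have hb : ∀ᵐ x ∂m, ∀ r : ℚ, |gradPairing m (fun y => (c - r) * f y) g x| ≤
      minWeakGrad m (fun y => (c - r) * f y) x * minWeakGrad m g x := by
    rw [ae_all_iff]; intro r
    exact pr_abs_le C (C.smul _ f hf).1 hg
  have hw : ∀ᵐ x ∂m, ∀ r : ℚ, minWeakGrad m (fun y => (c - r) * f y) x =
      |c - r| * minWeakGrad m f x := by
    rw [ae_all_iff]; intro r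
    exact (C.smul _ f hf).2
  have hadd : ∀ᵐ x ∂m, ∀ r : ℚ, gradPairing m (fun y => c * f y) g x =
      gradPairing m (fun y => (c - r) * f y) g x + gradPairing m (fun y => (r : ℝ) * f y) g x := by
    rw [ae_all_iff]; intro r
    have h := pr_add_left C hpar (C.smul (c - r) f hf).1 (C.smul r f hf).1 hg
    have e : (fun y => (c - r) * f y + (r : ℝ) * f y) = fun y => c * f y := by
      funext y; ring
    rw [e] at h
    exact h
  filter_upwards [hq, hb, hw, hadd, pr_wnn C hf, pr_wnn C hg] with x a1 a2 a3 a4 a5 a6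
  -- the additive map on the rationals
  let φ : ℚ →+ ℝ := AddMonoidHom.mk' (fun r => gradPairing m (fun y => (r : ℝ) * f y) g x) a1
  have hφ : ∀ r : ℚ, φ r = r * φ 1 := by
    intro r
    have h1 := map_rat_smul φ r 1
    simpa [smul_eq_mul, Algebra.smul_def] using h1
  have hφ1 : φ 1 = gradPairing m f g x := by
    change gradPairing m (fun y => ((1:ℚ) : ℝ) * f y) g x = _
    simp
  have hr : ∀ r : ℚ, |gradPairing m (fun y => c * f y) g x - r * gradPairing m f g x| ≤
      |c - r| * (minWeakGrad m f x * minWeakGrad m g x) := by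
    intro r
    have h1 : gradPairing m (fun y => (r : ℝ) * f y) g x = r * gradPairing m f g x := by
      have := hφ r
      rw [hφ1] at this
      exact this
    rw [a4 r, h1, add_sub_cancel_right]
    refine (a2 r).trans (le_of_eq ?_)
    rw [a3 r]
    ring
  -- density
  have hlim : Tendsto (fun r : ℝ => |gradPairing m (fun y => c * f y) g x -
      r * gradPairing m f g x| - |c - r| * (minWeakGrad m f x * minWeakGrad m g x)) (𝓝 c)
      (𝓝 (|gradPairing m (fun y => c * f y) g x - c * gradPairing m f g x| -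
        |c - c| * (minWeakGrad m f x * minWeakGrad m g x))) := by
    have : Continuous (fun r : ℝ => |gradPairing m (fun y => c * f y) g x -
      r * gradPairing m f g x| - |c - r| * (minWeakGrad m f x * minWeakGrad m g x)) := by
      fun_prop
    exact this.tendsto c
  have hle : |gradPairing m (fun y => c * f y) g x - c * gradPairing m f g x| -
        |c - c| * (minWeakGrad m f x * minWeakGrad m g x) ≤ 0 := by
    refine le_of_forall_pos_lt_add fun ε hε => ?_
    have hev := hlim.eventually (lt_mem_nhds (sub_lt_self _ hε))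
    obtain ⟨U, hU, hUo, hcU⟩ := mem_nhds_iff.1 hev
    obtain ⟨y, hyU, q, hq⟩ := (Rat.denseRange_cast (𝕜 := ℝ)).inter_open_nonempty U hUo ⟨c, hcU⟩
    have h1 := hU hyU
    rw [← hq] at h1
    have h2 := hr q
    have h3 : |gradPairing m (fun y => c * f y) g x - c * gradPairing m f g x| -
        |c - c| * (minWeakGrad m f x * minWeakGrad m g x) - ε <
        |gradPairing m (fun y => c * f y) g x - (q:ℝ) * gradPairing m f g x| -
          |c - q| * (minWeakGrad m f x * minWeakGrad m g x) := h1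
    linarith
  rw [sub_self, abs_zero, zero_mul, sub_zero] at hle
  have := abs_eq_zero.1 (le_antisymm hle (abs_nonneg _))
  linarith

theorem pr_add_right {f g g' : X → ℝ} (hf : IsSobolevLoc m f)
    (hg : IsSobolevLoc m g) (hg' : IsSobolevLoc m g') :
    gradPairing m f (fun x => g x + g' x) =ᵐ[m]
      fun x => gradPairing m f g x + gradPairing m f g' x := by
  filter_upwards [pr_comm C hf (C.add g g' hg hg').1, pr_add_left C hpar hg hg' hf,
    pr_comm C hf hg, pr_comm C hf hg'] with x a b c d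
  rw [a, b, c, d]

theorem pr_smul_right (c : ℝ) {f g : X → ℝ} (hf : IsSobolevLoc m f)
    (hg : IsSobolevLoc m g) :
    gradPairing m f (fun x => c * g x) =ᵐ[m] fun x => c * gradPairing m f g x := by
  filter_upwards [pr_comm C hf (C.smul c g hg).1, pr_smul_left C hpar c hg hf,
    pr_comm C hf hg] with x a b d
  rw [a, b, d]

theorem pr_neg_left {f g : X → ℝ} (hf : IsSobolevLoc m f) (hg : IsSobolevLoc m g) :
    gradPairing m (fun x => - f x) g =ᵐ[m] fun x => - gradPairing m f g x := by
  have h := pr_smul_left C hpar (-1) hf hg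
  simpa using h

theorem pr_neg_right {f g : X → ℝ} (hf : IsSobolevLoc m f) (hg : IsSobolevLoc m g) :
    gradPairing m f (fun x => - g x) =ᵐ[m] fun x => - gradPairing m f g x := by
  have h := pr_smul_right C hpar (-1) hf hg
  simpa using h

theorem pr_sub_left {f f' g : X → ℝ} (hf : IsSobolevLoc m f)
    (hf' : IsSobolevLoc m f') (hg : IsSobolevLoc m g) :
    gradPairing m (fun x => f x - f' x) g =ᵐ[m]
      fun x => gradPairing m f g x - gradPairing m f' g x := by
  have h1 := pr_add_left C hpar hf (pr_neg C hf').1 hg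
  have e : (fun x => f x + - f' x) = fun x => f x - f' x := by funext x; ring
  rw [e] at h1
  filter_upwards [h1, pr_neg_left C hpar hf' hg] with x a b
  rw [a, b]
  ring

theorem pr_sub_right {f g g' : X → ℝ} (hf : IsSobolevLoc m f)
    (hg : IsSobolevLoc m g) (hg' : IsSobolevLoc m g') :
    gradPairing m f (fun x => g x - g' x) =ᵐ[m]
      fun x => gradPairing m f g x - gradPairing m f g' x := by
  filter_upwards [pr_comm C hf (pr_sub C hg hg').1, pr_sub_left C hpar hg hg' hf,
    pr_comm C hf hg, pr_comm C hf hg'] with x a b c d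
  rw [a, b, c, d]

theorem pr_wg_add_sq {f g : X → ℝ} (hf : IsSobolevLoc m f) (hg : IsSobolevLoc m g) :
    ∀ᵐ x ∂m, minWeakGrad m (fun y => f y + g y) x ^ 2 =
      minWeakGrad m f x ^ 2 + 2 * gradPairing m f g x + minWeakGrad m g x ^ 2 := by
  filter_upwards [hpar f g hf hg] with x h
  unfold gradPairing
  linarith

theorem pr_wg_sub_sq {f g : X → ℝ} (hf : IsSobolevLoc m f) (hg : IsSobolevLoc m g) :
    ∀ᵐ x ∂m, minWeakGrad m (fun y => f y - g y) x ^ 2 =
      minWeakGrad m f x ^ 2 - 2 * gradPairing m f g x + minWeakGrad m g x ^ 2 := by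
  filter_upwards [hpar f g hf hg] with x h
  unfold gradPairing
  linarith

theorem pr_le {f g : X → ℝ} (hf : IsSobolevLoc m f) (hg : IsSobolevLoc m g) :
    ∀ᵐ x ∂m, gradPairing m f g x ≤ (minWeakGrad m f x ^ 2 + minWeakGrad m g x ^ 2) / 2 := by
  filter_upwards [pr_abs_le C hf hg] with x h
  have h1 := (le_abs_self _).trans h
  nlinarith [sq_nonneg (minWeakGrad m f x - minWeakGrad m g x)]

theorem pr_const_left (c : ℝ) {g : X → ℝ} (hg : IsSobolevLoc m g) :
    gradPairing m (fun _ => c) g =ᵐ[m] fun _ => 0 := by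
  filter_upwards [pr_abs_le C (C.const c).1 hg, (C.const c).2] with x a b
  rw [b, zero_mul] at a
  exact abs_eq_zero.1 (le_antisymm a (abs_nonneg _))

theorem pr_const_right (c : ℝ) {f : X → ℝ} (hf : IsSobolevLoc m f) :
    gradPairing m f (fun _ => c) =ᵐ[m] fun _ => 0 := by
  filter_upwards [pr_abs_le C hf (C.const c).1, (C.const c).2] with x a b
  rw [b, mul_zero] at a
  exact abs_eq_zero.1 (le_antisymm a (abs_nonneg _))

theorem pr_wg_eq_zero_of_eq {f : X → ℝ} (hf : IsSobolevLoc m f) (c : ℝ) :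
    ∀ᵐ x ∂m, f x = c → minWeakGrad m f x = 0 := by
  filter_upwards [C.loc f (fun _ => c) hf (C.const c).1, (C.const c).2] with x a b hx
  rw [a hx, b]

theorem pr_eq_zero_of_eq_left {f g : X → ℝ} (hf : IsSobolevLoc m f)
    (hg : IsSobolevLoc m g) (c : ℝ) : ∀ᵐ x ∂m, f x = c → gradPairing m f g x = 0 := by
  filter_upwards [pr_abs_le C hf hg, pr_wg_eq_zero_of_eq C hpar hf c] with x a b hx
  rw [b hx, zero_mul] at a
  exact abs_eq_zero.1 (le_antisymm a (abs_nonneg _))

theorem pr_eq_zero_of_eq_right {f g : X → ℝ} (hf : IsSobolevLoc m f)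
    (hg : IsSobolevLoc m g) (c : ℝ) : ∀ᵐ x ∂m, g x = c → gradPairing m f g x = 0 := by
  filter_upwards [pr_abs_le C hf hg, pr_wg_eq_zero_of_eq C hpar hg c] with x a b hx
  rw [b hx, mul_zero] at a
  exact abs_eq_zero.1 (le_antisymm a (abs_nonneg _))

/-- Cauchy-Schwarz with real coefficients chosen at the point. -/
theorem pr_lin_sq_le {f f' g : X → ℝ} (hf : IsSobolevLoc m f)
    (hf' : IsSobolevLoc m f') (hg : IsSobolevLoc m g) :
    ∀ᵐ x ∂m, ∀ a b : ℝ, (a * gradPairing m f g x + b * gradPairing m f' g x) ^ 2 ≤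
      (a ^ 2 * minWeakGrad m f x ^ 2 + 2 * a * b * gradPairing m f f' x +
        b ^ 2 * minWeakGrad m f' x ^ 2) * minWeakGrad m g x ^ 2 := by
  have hq : ∀ᵐ x ∂m, ∀ a b : ℚ, ((a:ℝ) * gradPairing m f g x + (b:ℝ) * gradPairing m f' g x) ^ 2 ≤
      ((a:ℝ) ^ 2 * minWeakGrad m f x ^ 2 + 2 * (a:ℝ) * (b:ℝ) * gradPairing m f f' x +
        (b:ℝ) ^ 2 * minWeakGrad m f' x ^ 2) * minWeakGrad m g x ^ 2 := by
    rw [ae_all_iff]; intro a
    rw [ae_all_iff]; intro b
    have s1 := (C.smul a f hf)
    have s2 := (C.smul b f' hf')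
    have s3 := C.add _ _ s1.1 s2.1
    filter_upwards [pr_abs_le C s3.1 hg, pr_add_left C hpar s1.1 s2.1 hg,
      pr_smul_left C hpar a hf hg, pr_smul_left C hpar b hf' hg,
      pr_wg_add_sq C hpar s1.1 s2.1, s1.2, s2.2, pr_smul_left C hpar a hf s2.1,
      pr_smul_right C hpar b hf hf'] with x h1 h2 h3 h4 h5 h6 h7 h8 h9
    rw [h2, h3, h4] at h1
    have h10 := sq_le_sq' (neg_le_of_abs_le h1) (le_of_abs_le h1)
    rw [mul_pow, h5, h6, h7, h8, h9, mul_pow, mul_pow, sq_abs, sq_abs] at h10
    refine h10.trans (le_of_eq ?_)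
    ring
  filter_upwards [hq] with x hx a b
  have hcl : IsClosed {p : ℝ × ℝ | (p.1 * gradPairing m f g x + p.2 * gradPairing m f' g x) ^ 2 ≤
      (p.1 ^ 2 * minWeakGrad m f x ^ 2 + 2 * p.1 * p.2 * gradPairing m f f' x +
        p.2 ^ 2 * minWeakGrad m f' x ^ 2) * minWeakGrad m g x ^ 2} :=
    isClosed_le (by fun_prop) (by fun_prop)
  have hdense : DenseRange (Prod.map ((↑) : ℚ → ℝ) ((↑) : ℚ → ℝ)) :=
    (Rat.denseRange_cast (𝕜 := ℝ)).prodMap (Rat.denseRange_cast (𝕜 := ℝ))
  exact hdense.induction_on (p := fun p : ℝ × ℝ =>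
    (p.1 * gradPairing m f g x + p.2 * gradPairing m f' g x) ^ 2 ≤
      (p.1 ^ 2 * minWeakGrad m f x ^ 2 + 2 * p.1 * p.2 * gradPairing m f f' x +
        p.2 ^ 2 * minWeakGrad m f' x ^ 2) * minWeakGrad m g x ^ 2) (a, b) hcl
    (fun q => hx q.1 q.2)

end S12

end Crest.Agent.R242
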