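import Mathlib
import Crest.Agent.R242.PairS12
import Crest.Agent.R242.SobLin

/-!
Row 242, block S12, second part: Leibniz and chain rules for the pairing.
-/

set_option autoImplicit false

open MeasureTheory Filter Set
open scoped ENNReal NNReal Topology
open Crest.GeometryTopology.SyntheticRicci

namespace Crest.Agent.R242

section Dense

/-- a continuous inequality on the rationals holds on the reals. -/
theorem pr_dense₁ {F G : ℝ → ℝ} (hF : Continuous F) (hG : Continuous G)
    (h : ∀ a : ℚ, F a ≤ G a) (a : ℝ) : F a ≤ G a :=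
  (Rat.denseRange_cast (𝕜 := ℝ)).induction_on (p := fun a : ℝ => F a ≤ G a) a
    (isClosed_le hF hG) h

theorem pr_dense₂ {F G : ℝ × ℝ → ℝ} (hF : Continuous F) (hG : Continuous G)
    (h : ∀ a b : ℚ, F (a, b) ≤ G (a, b)) (p : ℝ × ℝ) : F p ≤ G p := by
  have hdense : DenseRange (Prod.map ((↑) : ℚ → ℝ) ((↑) : ℚ → ℝ)) :=
    (Rat.denseRange_cast (𝕜 := ℝ)).prodMap (Rat.denseRange_cast (𝕜 := ℝ))
  exact hdense.induction_on (p := fun p : ℝ × ℝ => F p ≤ G p) p (isClosed_le hF hG)
    (fun q => h q.1 q.2)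

end Dense

section Mul

variable {X : Type*} [MetricSpace X] [MeasurableSpace X] {m : Measure X}
variable (C : WgCalc m) (hpar : ParLaw m)

include C hpar

theorem pr_addconst {f : X → ℝ} (hf : IsSobolevLoc m f) (c : ℝ) :
    IsSobolevLoc m (fun x => f x - c) ∧
      ∀ᵐ x ∂m, minWeakGrad m (fun x => f x - c) x = minWeakGrad m f x := by
  have h1 := pr_sub C hf (C.const c).1
  refine ⟨h1.1, ?_⟩
  have h2 := C.add _ _ h1.1 (C.const c).1
  have e : (fun x => (f x - c) + c) = f := by funext x; ring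
  rw [e] at h2
  filter_upwards [h1.2, h2.2, (C.const c).2] with x a b d
  rw [d] at a b
  linarith

theorem pr_mul_bdd {f f' g : X → ℝ} (hf : IsSobolevLoc m f)
    (hf' : IsSobolevLoc m f') (hg : IsSobolevLoc m g) (hfb : ∃ B : ℝ, ∀ᵐ x ∂m, |f x| ≤ B)
    (hfb' : ∃ B : ℝ, ∀ᵐ x ∂m, |f' x| ≤ B) :
    gradPairing m (fun x => f x * f' x) g =ᵐ[m]
      fun x => f x * gradPairing m f' g x + f' x * gradPairing m f g x := by
  have hff := (C.mul f f' hf hf' hfb hfb').1
  have key : ∀ᵐ x ∂m, ∀ a b : ℚ,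
      |gradPairing m (fun x => f x * f' x) g x - (a:ℝ) * gradPairing m f' g x -
        (b:ℝ) * gradPairing m f g x| ≤
      (|f x - a| * minWeakGrad m f' x + |f' x - b| * minWeakGrad m f x) * minWeakGrad m g x := by
    rw [ae_all_iff]; intro a
    rw [ae_all_iff]; intro b
    have hfa := pr_addconst C hpar hf a
    have hfb1 := pr_addconst C hpar hf' b
    have bd : ∀ (h : X → ℝ) (c : ℝ), (∃ B : ℝ, ∀ᵐ x ∂m, |h x| ≤ B) →
        ∃ B : ℝ, ∀ᵐ x ∂m, |h x - c| ≤ B := by
      rintro h c ⟨B, hB⟩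
      refine ⟨B + |c|, ?_⟩
      filter_upwards [hB] with x hx
      exact (abs_sub _ _).trans (by linarith)
    have hu := C.mul _ _ hfa.1 hfb1.1 (bd f a hfb) (bd f' b hfb')
    set u : X → ℝ := fun x => (f x - a) * (f' x - b) with hudef
    -- `f f' = u + a f' + b f - a b`
    have s1 := (C.smul a f' hf').1
    have s2 := (C.smul b f hf).1
    have s3 := (C.add _ _ s1 s2).1
    have s4 := (C.add _ _ hu.1 s3).1
    have e : (fun x => f x * f' x) =
        fun x => (u x + ((a:ℝ) * f' x + (b:ℝ) * f x)) + (-(a * b) : ℝ) := by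
      funext x
      simp only [hudef]
      ring
    have t1 := pr_add_left C hpar s4 (C.const (-(a * b) : ℝ)).1 hg
    rw [← e] at t1
    filter_upwards [t1, pr_const_left C hpar (-(a * b) : ℝ) hg,
      pr_add_left C hpar hu.1 s3 hg, pr_add_left C hpar s1 s2 hg, pr_smul_left C hpar a hf' hg,
      pr_smul_left C hpar b hf hg, pr_abs_le C hu.1 hg, hu.2, hfa.2, hfb1.2, pr_wnn C hg] with
      x g1 g2 g3 g4 g5 g6 g7 g8 g9 g10 g11
    rw [g1, g2, g3, g4, g5, g6]
    rw [g9, g10] at g8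
    have e2 : gradPairing m u g x + ((a:ℝ) * gradPairing m f' g x + (b:ℝ) * gradPairing m f g x) +
        0 - (a:ℝ) * gradPairing m f' g x - (b:ℝ) * gradPairing m f g x = gradPairing m u g x := by
      ring
    rw [e2]
    exact g7.trans (mul_le_mul_of_nonneg_right g8 g11)
  filter_upwards [key] with x hx
  have h := pr_dense₂
    (F := fun p : ℝ × ℝ => |gradPairing m (fun x => f x * f' x) g x -
      p.1 * gradPairing m f' g x - p.2 * gradPairing m f g x|)
    (G := fun p : ℝ × ℝ => (|f x - p.1| * minWeakGrad m f' x + |f' x - p.2| * minWeakGrad m f x) *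
      minWeakGrad m g x) (by fun_prop) (by fun_prop) hx (f x, f' x)
  simp only [sub_self, abs_zero, zero_mul, add_zero] at h
  have := abs_eq_zero.1 (le_antisymm h (abs_nonneg _))
  linarith

/-- clamp. -/
theorem pr_clamp {f : X → ℝ} (hf : IsSobolevLoc m f) {M : ℝ} (hM : 0 ≤ M) :
    IsSobolevLoc m (fun x => max (-M) (min M (f x))) ∧
      (∀ x, |max (-M) (min M (f x))| ≤ M) ∧
      ∀ x, |f x| ≤ M → max (-M) (min M (f x)) = f x := by
  refine ⟨?_, ?_, ?_⟩
  · have hl : LipschitzWith 1 (fun t : ℝ => max (-M) (min M t)) :=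
      (LipschitzWith.id.const_min M).const_max (-M)
    exact (C.comp _ 1 f hl hf).1
  · intro x
    rw [abs_le]
    exact ⟨le_max_left _ _, max_le (by linarith) (min_le_left _ _)⟩
  · intro x hx
    rw [abs_le] at hx
    rw [min_eq_right hx.2, max_eq_right hx.1]

theorem pr_mul_left [OpensMeasurableSpace X] {f f' g : X → ℝ} (hf : IsSobolevLoc m f)
    (hf' : IsSobolevLoc m f') (hg : IsSobolevLoc m g) (hfb : LocBdd m f) (hfb' : LocBdd m f') :
    IsSobolevLoc m (fun x => f x * f' x) ∧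
    gradPairing m (fun x => f x * f' x) g =ᵐ[m]
      fun x => f x * gradPairing m f' g x + f' x * gradPairing m f g x := by
  -- truncations
  have trunc : ∀ (o : X) (R : ℝ), ∃ M : ℝ, 0 ≤ M ∧
      (∀ᵐ x ∂(m.restrict (Metric.ball o R)), |f x| ≤ M ∧ |f' x| ≤ M) := by
    intro o R
    obtain ⟨B, hB⟩ := hfb o R
    obtain ⟨B', hB'⟩ := hfb' o R
    refine ⟨max 0 (max B B'), le_max_left _ _, ?_⟩
    filter_upwards [hB, hB'] with x h1 h2
    exact ⟨h1.trans ((le_max_left _ _).trans (le_max_right _ _)),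
      h2.trans ((le_max_right _ _).trans (le_max_right _ _))⟩
  have hloc : IsSobolevLoc m (fun x => f x * f' x) := by
    refine C.glue _ fun o R => ?_
    obtain ⟨M, hM, hae⟩ := trunc o R
    have c1 := pr_clamp C hpar hf hM
    have c2 := pr_clamp C hpar hf' hM
    refine ⟨_, (C.mul _ _ c1.1 c2.1 ⟨M, Eventually.of_forall c1.2.1⟩
      ⟨M, Eventually.of_forall c2.2.1⟩).1, ?_⟩
    filter_upwards [hae] with x hx
    rw [c1.2.2 x hx.1, c2.2.2 x hx.2]
  refine ⟨hloc, ?_⟩
  rcases isEmpty_or_nonempty X with hX | ⟨⟨o⟩⟩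
  · exact Eventually.of_forall fun x => (hX.false x).elim
  have hball : ∀ n : ℕ, ∀ᵐ x ∂m, x ∈ Metric.ball o n →
      gradPairing m (fun x => f x * f' x) g x =
        f x * gradPairing m f' g x + f' x * gradPairing m f g x := by
    intro n
    obtain ⟨M, hM, hae⟩ := trunc o n
    have c1 := pr_clamp C hpar hf hM
    have c2 := pr_clamp C hpar hf' hM
    have c12 := C.mul _ _ c1.1 c2.1 ⟨M, Eventually.of_forall c1.2.1⟩
      ⟨M, Eventually.of_forall c2.2.1⟩
    have hae' := (ae_restrict_iff' Metric.isOpen_ball.measurableSet).1 hae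
    filter_upwards [hae', pr_local_left C hloc c12.1 hg, pr_mul_bdd C hpar c1.1 c2.1 hg
      ⟨M, Eventually.of_forall c1.2.1⟩ ⟨M, Eventually.of_forall c2.2.1⟩,
      pr_local_left C hf c1.1 hg, pr_local_left C hf' c2.1 hg] with x h1 h2 h3 h4 h5 hx
    have h6 := h1 hx
    have e1 := c1.2.2 x h6.1
    have e2 := c2.2.2 x h6.2
    rw [h2 (by rw [e1, e2]), h3, ← h4 e1.symm, ← h5 e2.symm, e1, e2]
  have hall : ∀ᵐ x ∂m, ∀ n : ℕ, x ∈ Metric.ball o n →
      gradPairing m (fun x => f x * f' x) g x =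
        f x * gradPairing m f' g x + f' x * gradPairing m f g x := ae_all_iff.2 hball
  filter_upwards [hall] with x hx
  obtain ⟨n, hn⟩ := exists_nat_gt (dist x o)
  exact hx n hn

theorem pr_mul_right [OpensMeasurableSpace X] {f g g' : X → ℝ} (hf : IsSobolevLoc m f)
    (hg : IsSobolevLoc m g) (hg' : IsSobolevLoc m g') (hgb : LocBdd m g) (hgb' : LocBdd m g') :
    gradPairing m f (fun x => g x * g' x) =ᵐ[m]
      fun x => g x * gradPairing m f g' x + g' x * gradPairing m f g x := by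
  have h := pr_mul_left C hpar hg hg' hf hgb hgb'
  filter_upwards [pr_comm C hf h.1, h.2, pr_comm C hf hg, pr_comm C hf hg'] with x a b c d
  rw [a, b, c, d]

/-- chain rule from a chain rule for the weak gradient of `φ - c id`. -/
theorem pr_comp_of {f g : X → ℝ} (hf : IsSobolevLoc m f) (hg : IsSobolevLoc m g) {φ ψ : ℝ → ℝ}
    (hφ : IsSobolevLoc m (fun x => φ (f x)))
    (h : ∀ c : ℚ, ∀ᵐ x ∂m, minWeakGrad m (fun x => φ (f x) - (c:ℝ) * f x) x ≤
      |ψ (f x) - c| * minWeakGrad m f x) :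
    gradPairing m (fun x => φ (f x)) g =ᵐ[m] fun x => ψ (f x) * gradPairing m f g x := by
  have key : ∀ᵐ x ∂m, ∀ c : ℚ,
      |gradPairing m (fun x => φ (f x)) g x - (c:ℝ) * gradPairing m f g x| ≤
      (|ψ (f x) - c| * minWeakGrad m f x) * minWeakGrad m g x := by
    rw [ae_all_iff]; intro c
    have s1 := (C.smul c f hf).1
    have s2 := (pr_sub C hφ s1).1
    filter_upwards [pr_sub_left C hpar hφ s1 hg, pr_smul_left C hpar c hf hg,
      pr_abs_le C s2 hg, h c, pr_wnn C hg] with x g1 g2 g3 g4 g5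
    rw [g1, g2] at g3
    exact g3.trans (mul_le_mul_of_nonneg_right g4 g5)
  filter_upwards [key] with x hx
  have h := pr_dense₁
    (F := fun c : ℝ => |gradPairing m (fun x => φ (f x)) g x - c * gradPairing m f g x|)
    (G := fun c : ℝ => (|ψ (f x) - c| * minWeakGrad m f x) * minWeakGrad m g x)
    (by fun_prop) (by fun_prop) hx (ψ (f x))
  simp only [sub_self, abs_zero, zero_mul] at h
  have := abs_eq_zero.1 (le_antisymm h (abs_nonneg _))
  linarith

end Mul

section Chain

variable {X : Type*} [MetricSpace X] [ProperSpace X] [MeasurableSpace X] [BorelSpace X]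
  {m : Measure X}

/-- chain rule, `φ` Lipschitz and differentiable outside a countable set (no bound on `f`). -/
theorem pr_comp_left_lip (hfin : IsFiniteOnBalls m) (hpar : ParLaw m) {φ : ℝ → ℝ} {L : ℝ≥0}
    (hφ : LipschitzWith L φ)
    {S : Set ℝ} (hS : S.Countable) (hd : ∀ r ∉ S, DifferentiableAt ℝ φ r) {f g : X → ℝ}
    (hf : IsSobolevLoc m f) (hg : IsSobolevLoc m g) :
    gradPairing m (fun x => φ (f x)) g =ᵐ[m] fun x => deriv φ (f x) * gradPairing m f g x := by
  have C := wgCalc (m := m) hfin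
  refine pr_comp_of C hpar hf hg (C.comp φ L f hφ hf).1 fun c => ?_
  have hl : LipschitzWith (L + ‖(c:ℝ)‖₊) (fun t : ℝ => φ t - (c:ℝ) * t) := by
    have h2 : LipschitzWith ‖(c:ℝ)‖₊ (fun t : ℝ => (c:ℝ) * t) := by
      refine LipschitzWith.of_dist_le_mul fun x y => ?_
      rw [Real.dist_eq, Real.dist_eq, ← mul_sub, abs_mul, coe_nnnorm, Real.norm_eq_abs]
    exact hφ.sub h2
  have h := minWeakGrad_comp hfin hf (ψ := fun t => deriv φ t - c) hl hS (fun t ht => by
    have h1 := (hd t ht).hasDerivAt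
    have h2 : HasDerivAt (fun t : ℝ => (c:ℝ) * t) (c:ℝ) t := by
      simpa using (hasDerivAt_id t).const_mul (c:ℝ)
    exact h1.sub h2)
  filter_upwards [h] with x hx using hx.le

theorem pr_comp_left (hfin : IsFiniteOnBalls m) (hpar : ParLaw m) {φ : ℝ → ℝ}
    (hφ : ContDiff ℝ 1 φ) {f g : X → ℝ}
    (hf : IsSobolevLoc m f) (hfb : LocBdd m f) (hg : IsSobolevLoc m g) :
    gradPairing m (fun x => φ (f x)) g =ᵐ[m] fun x => deriv φ (f x) * gradPairing m f g x := by
  have C := wgCalc (m := m) hfin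
  refine pr_comp_of C hpar hf hg (IsSobolevLoc.comp_contDiff hfin hf hfb hφ) fun c => ?_
  have hc : ContDiff ℝ 1 (fun t : ℝ => φ t - (c:ℝ) * t) := by fun_prop
  have h := minWeakGrad_comp_contDiff hfin hf hfb hc
  filter_upwards [h] with x hx
  have h1 : HasDerivAt φ (deriv φ (f x)) (f x) :=
    (hφ.differentiable (by norm_num) (f x)).hasDerivAt
  have h2 : HasDerivAt (fun t : ℝ => (c:ℝ) * t) (c:ℝ) (f x) := by
    simpa using (hasDerivAt_id (f x)).const_mul (c:ℝ)
  have h3 : deriv (fun t : ℝ => φ t - (c:ℝ) * t) (f x) = deriv φ (f x) - c := (h1.sub h2).deriv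
  rw [h3] at hx
  exact hx.le

theorem pr_comp_right (hfin : IsFiniteOnBalls m) (hpar : ParLaw m) {φ : ℝ → ℝ}
    (hφ : ContDiff ℝ 1 φ) {f g : X → ℝ}
    (hf : IsSobolevLoc m f) (hg : IsSobolevLoc m g) (hgb : LocBdd m g) :
    gradPairing m f (fun x => φ (g x)) =ᵐ[m] fun x => deriv φ (g x) * gradPairing m f g x := by
  have C := wgCalc (m := m) hfin
  filter_upwards [pr_comp_left hfin hpar hφ hg hgb hf,
    pr_comm C hf (IsSobolevLoc.comp_contDiff hfin hg hgb hφ), pr_comm C hf hg] with x a b c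
  rw [b, a, c]

end Chain

end Crest.Agent.R242
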