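import Crest.Agent.R242.WgCalc

/-!
# Row 242, S11, part 1: elementary consequences of `WgCalc`; the classes `IsSobolevLoc`, `IsSobolev`
-/

set_option autoImplicit false

open MeasureTheory Filter Set
open scoped ENNReal NNReal Topology
open Crest.GeometryTopology.SyntheticRicci

namespace Crest.Agent.R242

variable {X : Type*} [MetricSpace X] [MeasurableSpace X] {m : Measure X}

theorem wg_isMin {f : X → ℝ} (hf : IsSobolevLoc m f) : IsMinWUGLoc m f (minWeakGrad m f) := by
  unfold minWeakGrad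
  rw [dif_pos hf.2]
  exact Classical.choose_spec hf.2

theorem wg_nonneg_ae {f : X → ℝ} (hf : IsSobolevLoc m f) : ∀ᵐ x ∂m, 0 ≤ minWeakGrad m f x :=
  (wg_isMin hf).1.2.1

theorem wg_l2OnBalls {f : X → ℝ} (hf : IsSobolevLoc m f) : IsL2OnBalls m (minWeakGrad m f) :=
  (wg_isMin hf).1.1

theorem aesm_of_l2OnBalls {f : X → ℝ} (hf : IsL2OnBalls m f) : AEStronglyMeasurable f m := by
  rcases isEmpty_or_nonempty X with hX | ⟨⟨o⟩⟩
  · have : m = 0 := Measure.eq_zero_of_isEmpty m
    rw [this]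
    exact aestronglyMeasurable_zero_measure f
  · have h1 : (⋃ n : ℕ, Metric.ball o n) = univ := Metric.iUnion_ball_nat o
    rw [← Measure.restrict_univ (μ := m), ← h1, aestronglyMeasurable_iUnion_iff]
    exact fun n => (hf o n).1

theorem aesm_wg_ae {f : X → ℝ} (hf : IsSobolevLoc m f) : AEStronglyMeasurable (minWeakGrad m f) m :=
  aesm_of_l2OnBalls (wg_l2OnBalls hf)

/-- everything that happens a.e. on every ball happens a.e. -/
theorem ae_of_ae_ball {p : X → Prop} (o : X)
    (h : ∀ n : ℕ, ∀ᵐ x ∂(m.restrict (Metric.ball o n)), p x) : ∀ᵐ x ∂m, p x := by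
  have h1 : (⋃ n : ℕ, Metric.ball o n) = univ := Metric.iUnion_ball_nat o
  rw [← Measure.restrict_univ (μ := m), ← h1, ae_restrict_iUnion_iff]
  exact h

theorem ae_of_ae_ball' [OpensMeasurableSpace X] {p : X → Prop} (o : X)
    (h : ∀ n : ℕ, ∀ᵐ x ∂m, x ∈ Metric.ball o n → p x) : ∀ᵐ x ∂m, p x := by
  refine ae_of_ae_ball o fun n => ?_
  rw [ae_restrict_iff' Metric.isOpen_ball.measurableSet]
  exact h n

namespace WgCalc

theorem sub (C : WgCalc m) {f g : X → ℝ} (hf : IsSobolevLoc m f) (hg : IsSobolevLoc m g) :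
    IsSobolevLoc m (fun x => f x - g x) := by
  have h := (C.add f _ hf (C.smul (-1) g hg).1).1
  have e : (fun x => f x + -1 * g x) = fun x => f x - g x := by
    funext x; ring
  rwa [e] at h

theorem wg_sub_le (C : WgCalc m) {f g : X → ℝ} (hf : IsSobolevLoc m f) (hg : IsSobolevLoc m g) :
    ∀ᵐ x ∂m, minWeakGrad m (fun x => f x - g x) x ≤ minWeakGrad m f x + minWeakGrad m g x := by
  have h := (C.add f _ hf (C.smul (-1) g hg).1).2
  have e : (fun x => f x + -1 * g x) = fun x => f x - g x := by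
    funext x; ring
  rw [e] at h
  filter_upwards [h, (C.smul (-1) g hg).2] with x h1 h2
  rw [h2] at h1
  simpa using h1

theorem wg_add_const (C : WgCalc m) {f : X → ℝ} (hf : IsSobolevLoc m f) (c : ℝ) :
    IsSobolevLoc m (fun x => f x + c) ∧
      ∀ᵐ x ∂m, minWeakGrad m (fun x => f x + c) x = minWeakGrad m f x := by
  have h1 := C.add f _ hf (C.const c).1
  refine ⟨h1.1, ?_⟩
  have h2 := C.add _ _ h1.1 (C.const (-c)).1
  have e : (fun x => f x + c + -c) = f := by
    funext x; ring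
  rw [e] at h2
  filter_upwards [h1.2, h2.2, (C.const c).2, (C.const (-c)).2] with x a1 a2 a3 a4
  rw [a3] at a1
  rw [a4] at a2
  linarith

/-- the weak gradient vanishes where the function is constant. -/
theorem wg_zero_of_eq (C : WgCalc m) {f : X → ℝ} (hf : IsSobolevLoc m f) (c : ℝ) :
    ∀ᵐ x ∂m, f x = c → minWeakGrad m f x = 0 := by
  filter_upwards [C.loc f _ hf (C.const c).1, (C.const c).2] with x h1 h2 h3
  rw [h1 h3, h2]

/-- difference of the weak gradients. -/
theorem abs_wg_sub_le (C : WgCalc m) {f g : X → ℝ} (hf : IsSobolevLoc m f)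
    (hg : IsSobolevLoc m g) :
    ∀ᵐ x ∂m, |minWeakGrad m f x - minWeakGrad m g x| ≤ minWeakGrad m (fun x => f x - g x) x := by
  have h1 := (C.add _ _ (C.sub hf hg) hg).2
  have e1 : (fun x => f x - g x + g x) = f := by funext x; ring
  have h2 := (C.add _ _ (C.sub hg hf) hf).2
  have e2 : (fun x => g x - f x + f x) = g := by funext x; ring
  have h3 := (C.smul (-1) _ (C.sub hf hg)).2
  have e3 : (fun x => -1 * (f x - g x)) = fun x => g x - f x := by funext x; ring
  rw [e1] at h1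
  rw [e2] at h2
  rw [e3] at h3
  filter_upwards [h1, h2, h3] with x a1 a2 a3
  rw [a3] at a2
  simp only [abs_neg, abs_one, one_mul] at a2
  rw [abs_le]
  constructor <;> linarith

/-- convexity of the square of the weak gradient. -/
theorem sq_convex (C : WgCalc m) {u v : X → ℝ} (hu : IsSobolevLoc m u) (hv : IsSobolevLoc m v)
    {a b : ℝ} (ha : 0 ≤ a) (hb : 0 ≤ b) (hab : a + b = 1) :
    ∀ᵐ x ∂m, minWeakGrad m (fun y => a * u y + b * v y) x ^ 2 ≤
      a * minWeakGrad m u x ^ 2 + b * minWeakGrad m v x ^ 2 := by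
  have h := C.add _ _ (C.smul a u hu).1 (C.smul b v hv).1
  filter_upwards [h.2, (C.smul a u hu).2, (C.smul b v hv).2, wg_nonneg_ae h.1, wg_nonneg_ae hu,
    wg_nonneg_ae hv] with x h1 h2 h3 h4 h5 h6
  rw [h2, h3, abs_of_nonneg ha, abs_of_nonneg hb] at h1
  have hb' : b = 1 - a := by linarith
  have h7 : (a * minWeakGrad m u x + b * minWeakGrad m v x) ^ 2 ≤
      a * minWeakGrad m u x ^ 2 + b * minWeakGrad m v x ^ 2 := by
    have := mul_nonneg (mul_nonneg ha hb) (sq_nonneg (minWeakGrad m u x - minWeakGrad m v x))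
    subst hb'
    nlinarith
  refine le_trans ?_ h7
  exact pow_le_pow_left₀ h4 h1 2

end WgCalc

/-! ## The class `W^{1,2}` -/

theorem sob_int_sq {f : X → ℝ} (hf : IsSobolev m f) :
    Integrable (fun x => minWeakGrad m f x ^ 2) m := hf.2.2.integrable_sq

/-- criterion: `IsSobolevLoc` and domination of the weak gradient. -/
theorem isSobolev_of_le {f : X → ℝ} {w : X → ℝ} (h1 : MemLp f 2 m) (h2 : IsSobolevLoc m f)
    (hw : MemLp w 2 m) (h : ∀ᵐ x ∂m, minWeakGrad m f x ≤ w x) : IsSobolev m f := by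
  refine ⟨h1, h2, hw.mono (aesm_wg_ae h2) ?_⟩
  filter_upwards [h, wg_nonneg_ae h2] with x a1 a2
  rw [Real.norm_eq_abs, Real.norm_eq_abs, abs_of_nonneg a2]
  exact a1.trans (le_abs_self _)

namespace WgCalc

theorem sob_congr (C : WgCalc m) {f g : X → ℝ} (hf : IsSobolev m f) (h : f =ᵐ[m] g) :
    IsSobolev m g := by
  obtain ⟨h1, h2⟩ := C.congr f g hf.2.1 h
  exact ⟨hf.1.ae_eq h, h1, hf.2.2.ae_eq h2⟩

theorem sob_add (C : WgCalc m) {f g : X → ℝ} (hf : IsSobolev m f) (hg : IsSobolev m g) :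
    IsSobolev m (fun x => f x + g x) :=
  isSobolev_of_le (hf.1.add hg.1) (C.add f g hf.2.1 hg.2.1).1 (hf.2.2.add hg.2.2)
    (C.add f g hf.2.1 hg.2.1).2

theorem sob_smul (C : WgCalc m) (c : ℝ) {f : X → ℝ} (hf : IsSobolev m f) :
    IsSobolev m (fun x => c * f x) :=
  isSobolev_of_le (hf.1.const_mul c) (C.smul c f hf.2.1).1 (hf.2.2.const_mul |c|)
    (by filter_upwards [(C.smul c f hf.2.1).2] with x h using h.le)

theorem sob_sub (C : WgCalc m) {f g : X → ℝ} (hf : IsSobolev m f) (hg : IsSobolev m g) :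
    IsSobolev m (fun x => f x - g x) := by
  have h := C.sob_add hf (C.sob_smul (-1) hg)
  have e : (fun x => f x + -1 * g x) = fun x => f x - g x := by
    funext x; ring
  rwa [e] at h

theorem sob_zero (C : WgCalc m) : IsSobolev m (fun _ : X => (0 : ℝ)) :=
  isSobolev_of_le (w := fun _ => 0) MemLp.zero (C.const 0).1 MemLp.zero
    (by filter_upwards [(C.const 0).2] with x h using h.le)

theorem sob_mul (C : WgCalc m) {f g : X → ℝ} (hf : IsSobolev m f) (hg : IsSobolev m g)
    (hfb : ∃ B : ℝ, ∀ᵐ x ∂m, |f x| ≤ B) (hgb : ∃ B : ℝ, ∀ᵐ x ∂m, |g x| ≤ B) :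
    IsSobolev m (fun x => f x * g x) := by
  obtain ⟨h1, h2⟩ := C.mul f g hf.2.1 hg.2.1 hfb hgb
  obtain ⟨B, hB⟩ := hfb
  obtain ⟨B', hB'⟩ := hgb
  have hfm : AEStronglyMeasurable f m := hf.1.1
  have hgm : AEStronglyMeasurable g m := hg.1.1
  refine isSobolev_of_le (w := fun x => B * minWeakGrad m g x + B' * minWeakGrad m f x) ?_ h1
    ((hg.2.2.const_mul B).add (hf.2.2.const_mul B')) ?_
  · refine (hg.1.const_mul B).mono (hfm.mul hgm) ?_
    filter_upwards [hB] with x hx
    rw [norm_mul, norm_mul]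
    refine mul_le_mul_of_nonneg_right ?_ (norm_nonneg _)
    exact hx.trans (le_abs_self _)
  · filter_upwards [h2, hB, hB', wg_nonneg_ae hf.2.1, wg_nonneg_ae hg.2.1] with x a1 a2 a3 a4 a5
    exact a1.trans (add_le_add (mul_le_mul_of_nonneg_right a2 a5)
      (mul_le_mul_of_nonneg_right a3 a4))

theorem sob_comp (C : WgCalc m) {φ : ℝ → ℝ} {L : ℝ≥0} (hφ : LipschitzWith L φ) (h0 : φ 0 = 0)
    {f : X → ℝ} (hf : IsSobolev m f) : IsSobolev m (fun x => φ (f x)) := by
  obtain ⟨h1, h2⟩ := C.comp φ L f hφ hf.2.1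
  refine isSobolev_of_le ?_ h1 (hf.2.2.const_mul (L : ℝ)) h2
  refine (hf.1.const_mul (L : ℝ)).mono (hφ.continuous.comp_aestronglyMeasurable hf.1.1) ?_
  refine Eventually.of_forall fun x => ?_
  have := hφ.dist_le_mul (f x) 0
  rw [h0, dist_zero_right, dist_zero_right] at this
  rw [norm_mul]
  refine this.trans ?_
  exact mul_le_mul_of_nonneg_right (le_abs_self _) (norm_nonneg _)

/-- a locally Sobolev function vanishing outside a ball is in `W^{1,2}`. -/
theorem sob_of_bddSupp [OpensMeasurableSpace X] (C : WgCalc m) {f : X → ℝ}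
    (hf : IsSobolevLoc m f) (hs : BddSupp m f) : IsSobolev m f := by
  obtain ⟨o, R, hR⟩ := hs
  have key : ∀ g : X → ℝ, IsL2OnBalls m g →
      (∀ᵐ x ∂m, x ∉ Metric.closedBall o R → g x = 0) → MemLp g 2 m := by
    intro g hg h0
    have hg1 : MemLp ((Metric.ball o (R + 1)).indicator g) 2 m := by
      rw [memLp_indicator_iff_restrict Metric.isOpen_ball.measurableSet]
      exact hg o (R + 1)
    refine hg1.ae_eq ?_
    filter_upwards [h0] with x hx
    by_cases hxb : x ∈ Metric.ball o (R + 1)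
    · rw [indicator_of_mem hxb]
    · rw [indicator_of_notMem hxb, hx]
      intro hx'
      apply hxb
      rw [Metric.mem_closedBall] at hx'
      rw [Metric.mem_ball]
      linarith
  refine ⟨key f hf.1 hR, hf, key _ (wg_l2OnBalls hf) ?_⟩
  filter_upwards [hR, C.wg_zero_of_eq hf 0] with x h1 h2 h3 using h2 (h1 h3)

end WgCalc

end Crest.Agent.R242
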