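import Crest.Agent.R242.ParBase

/-!
# Row 242, S11, part 2: the one-sided derivatives of the energy density
-/

set_option autoImplicit false

open MeasureTheory Filter Set
open scoped ENNReal NNReal Topology
open Crest.GeometryTopology.SyntheticRicci

noncomputable section

namespace Crest.Agent.R242

variable {X : Type*} [MetricSpace X] [MeasurableSpace X] {m : Measure X}

/-- difference quotient of `t ↦ wg(g + t f)²/2` at `0`. -/
def Aq (m : Measure X) (δ : ℝ) (f g : X → ℝ) (x : X) : ℝ :=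
  (minWeakGrad m (fun y => g y + δ * f y) x ^ 2 - minWeakGrad m g x ^ 2) / (2 * δ)

/-- the derivative. -/
def Dq (m : Measure X) (f g : X → ℝ) (x : X) : ℝ := ⨅ n : ℕ, Aq m ((1 / 2) ^ n) f g x

/-- the Dirichlet energy. -/
def Eg (m : Measure X) (f : X → ℝ) : ℝ := ∫ x, minWeakGrad m f x ^ 2 ∂m

theorem Aq_smul_left {c : ℝ} (hc : c ≠ 0) (δ : ℝ) (f g : X → ℝ) (x : X) :
    Aq m δ (fun y => c * f y) g x = c * Aq m (δ * c) f g x := by
  unfold Aq
  have e : (fun y => g y + δ * (c * f y)) = fun y => g y + δ * c * f y := by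
    funext y; ring
  rw [e]
  rcases eq_or_ne δ 0 with rfl | hδ
  · simp
  · field_simp

namespace WgCalc

theorem sobLoc_lin (C : WgCalc m) {f g : X → ℝ} (hf : IsSobolevLoc m f) (hg : IsSobolevLoc m g)
    (δ : ℝ) : IsSobolevLoc m (fun y => g y + δ * f y) :=
  (C.add _ _ hg (C.smul δ f hf).1).1

theorem sob_lin (C : WgCalc m) {f g : X → ℝ} (hf : IsSobolev m f) (hg : IsSobolev m g)
    (δ : ℝ) : IsSobolev m (fun y => g y + δ * f y) :=
  C.sob_add hg (C.sob_smul δ hf)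

theorem Aq_mono (C : WgCalc m) {f g : X → ℝ} (hf : IsSobolevLoc m f) (hg : IsSobolevLoc m g)
    {δ δ' : ℝ} (hδ : 0 < δ) (h : δ ≤ δ') : ∀ᵐ x ∂m, Aq m δ f g x ≤ Aq m δ' f g x := by
  have hδ' : 0 < δ' := hδ.trans_le h
  have hc := C.sq_convex (C.sobLoc_lin hf hg δ') hg (a := δ / δ') (b := 1 - δ / δ')
    (by positivity) (by rw [sub_nonneg, div_le_one hδ']; exact h) (by ring)
  have e : (fun y => δ / δ' * (g y + δ' * f y) + (1 - δ / δ') * g y) =
      fun y => g y + δ * f y := by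
    funext y; field_simp; ring
  rw [e] at hc
  filter_upwards [hc] with x hx
  unfold Aq
  rw [div_le_div_iff₀ (by positivity) (by positivity)]
  have h2 : δ' * minWeakGrad m (fun y => g y + δ * f y) x ^ 2 ≤
      δ * minWeakGrad m (fun y => g y + δ' * f y) x ^ 2 + (δ' - δ) * minWeakGrad m g x ^ 2 := by
    have := mul_le_mul_of_nonneg_left hx hδ'.le
    refine this.trans (le_of_eq ?_)
    field_simp
  nlinarith

theorem Aq_neg_le (C : WgCalc m) {f g : X → ℝ} (hf : IsSobolevLoc m f) (hg : IsSobolevLoc m g)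
    {δ δ' : ℝ} (hδ : 0 < δ) (hδ' : 0 < δ') : ∀ᵐ x ∂m, Aq m (-δ) f g x ≤ Aq m δ' f g x := by
  have hc := C.sq_convex (C.sobLoc_lin hf hg (-δ)) (C.sobLoc_lin hf hg δ')
    (a := δ' / (δ + δ')) (b := δ / (δ + δ'))
    (by positivity) (by positivity) (by field_simp; ring)
  have e : (fun y => δ' / (δ + δ') * (g y + -δ * f y) + δ / (δ + δ') * (g y + δ' * f y)) = g := by
    funext y; field_simp; ring
  rw [e] at hc
  filter_upwards [hc] with x hx
  unfold Aq
  have h2 : (δ + δ') * minWeakGrad m g x ^ 2 ≤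
      δ' * minWeakGrad m (fun y => g y + -δ * f y) x ^ 2 +
        δ * minWeakGrad m (fun y => g y + δ' * f y) x ^ 2 := by
    have := mul_le_mul_of_nonneg_left hx (add_pos hδ hδ').le
    refine this.trans (le_of_eq ?_)
    field_simp
  have e2 : (minWeakGrad m (fun y => g y + -δ * f y) x ^ 2 - minWeakGrad m g x ^ 2) / (2 * -δ) =
      (minWeakGrad m g x ^ 2 - minWeakGrad m (fun y => g y + -δ * f y) x ^ 2) / (2 * δ) := by
    rw [div_eq_div_iff (by linarith) (by linarith)]; ring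
  rw [e2, div_le_div_iff₀ (by positivity) (by positivity)]
  nlinarith

theorem Dq_le (C : WgCalc m) {f g : X → ℝ} (hf : IsSobolevLoc m f) (hg : IsSobolevLoc m g)
    {δ : ℝ} (hδ : 0 < δ) : ∀ᵐ x ∂m, Dq m f g x ≤ Aq m δ f g x := by
  obtain ⟨n, hn⟩ := exists_pow_lt_of_lt_one hδ (show (1 / 2 : ℝ) < 1 by norm_num)
  have h1 : ∀ᵐ x ∂m, ∀ n : ℕ, Aq m (-1) f g x ≤ Aq m ((1 / 2) ^ n) f g x :=
    ae_all_iff.2 fun n => C.Aq_neg_le hf hg one_pos (by positivity)
  filter_upwards [h1, C.Aq_mono hf hg (by positivity) hn.le] with x a1 a2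
  refine (ciInf_le ?_ n).trans a2
  exact ⟨_, by rintro _ ⟨k, rfl⟩; exact a1 k⟩

theorem le_Dq (C : WgCalc m) {f g : X → ℝ} (hf : IsSobolevLoc m f) (hg : IsSobolevLoc m g)
    {δ : ℝ} (hδ : 0 < δ) : ∀ᵐ x ∂m, Aq m (-δ) f g x ≤ Dq m f g x := by
  have h1 : ∀ᵐ x ∂m, ∀ n : ℕ, Aq m (-δ) f g x ≤ Aq m ((1 / 2) ^ n) f g x :=
    ae_all_iff.2 fun n => C.Aq_neg_le hf hg hδ (by positivity)
  filter_upwards [h1] with x a1
  exact le_ciInf a1

/-! ### energy -/

theorem Eg_smul (C : WgCalc m) (c : ℝ) {f : X → ℝ} (hf : IsSobolevLoc m f) :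
    Eg m (fun x => c * f x) = c ^ 2 * Eg m f := by
  unfold Eg
  rw [← integral_const_mul]
  refine integral_congr_ae ?_
  filter_upwards [(C.smul c f hf).2] with x hx
  rw [hx, mul_pow, sq_abs]

theorem Eg_parallelogram (C : WgCalc m) (hH : IsInfHilbertian m) {f g : X → ℝ}
    (hf : IsSobolev m f) (hg : IsSobolev m g) :
    Eg m (fun x => f x + g x) + Eg m (fun x => f x - g x) = 2 * Eg m f + 2 * Eg m g := by
  have key : ∀ u : X → ℝ, IsSobolev m u →
      (∫⁻ x, ENNReal.ofReal (minWeakGrad m u x ^ 2) ∂m) = ENNReal.ofReal (Eg m u) := by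
    intro u hu
    rw [Eg, ofReal_integral_eq_lintegral_ofReal (sob_int_sq hu)
      (Eventually.of_forall fun x => sq_nonneg _)]
  have hn : ∀ u : X → ℝ, 0 ≤ Eg m u := fun u => integral_nonneg fun x => sq_nonneg _
  have h := hH f g hf hg
  rw [key _ (C.sob_add hf hg), key _ (C.sob_sub hf hg), key _ hf, key _ hg,
    ← ENNReal.ofReal_add (hn _) (hn _)] at h
  rw [show (2 : ℝ≥0∞) = ENNReal.ofReal 2 by simp, ← ENNReal.ofReal_mul (by norm_num),
    ← ENNReal.ofReal_mul (by norm_num),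
    ← ENNReal.ofReal_add (mul_nonneg (by norm_num) (hn _)) (mul_nonneg (by norm_num) (hn _))] at h
  rwa [ENNReal.ofReal_eq_ofReal_iff (add_nonneg (hn _) (hn _))
    (add_nonneg (mul_nonneg (by norm_num) (hn _)) (mul_nonneg (by norm_num) (hn _)))] at h

theorem Aq_gap_eq (δ : ℝ) (f g : X → ℝ) (x : X) :
    Aq m δ f g x - Aq m (-δ) f g x =
      (minWeakGrad m (fun y => g y + δ * f y) x ^ 2 +
        minWeakGrad m (fun y => g y - δ * f y) x ^ 2 - 2 * minWeakGrad m g x ^ 2) / (2 * δ) := by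
  unfold Aq
  have e : (fun y => g y + -δ * f y) = fun y => g y - δ * f y := by funext y; ring
  rw [e]
  rcases eq_or_ne δ 0 with rfl | hδ
  · simp
  · field_simp
    ring

theorem integrable_Aq (C : WgCalc m) {f g : X → ℝ} (hf : IsSobolev m f) (hg : IsSobolev m g)
    (δ : ℝ) : Integrable (Aq m δ f g) m :=
  ((sob_int_sq (C.sob_lin hf hg δ)).sub (sob_int_sq hg)).div_const _

theorem integral_gap (C : WgCalc m) (hH : IsInfHilbertian m) {f g : X → ℝ}
    (hf : IsSobolev m f) (hg : IsSobolev m g) {δ : ℝ} (hδ : 0 < δ) :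
    ∫ x, (Aq m δ f g x - Aq m (-δ) f g x) ∂m = δ * Eg m f := by
  simp_rw [Aq_gap_eq]
  have h1 := C.sob_add hg (C.sob_smul δ hf)
  have h2 := C.sob_sub hg (C.sob_smul δ hf)
  have e1 : ∫ a, (minWeakGrad m (fun y => g y + δ * f y) a ^ 2 +
      minWeakGrad m (fun y => g y - δ * f y) a ^ 2 - 2 * minWeakGrad m g a ^ 2) ∂m =
      (Eg m (fun y => g y + δ * f y) + Eg m (fun y => g y - δ * f y)) - 2 * Eg m g := by
    have a1 := integral_add (sob_int_sq h1) (sob_int_sq h2)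
    have a2 := integral_sub ((sob_int_sq h1).add (sob_int_sq h2)) ((sob_int_sq hg).const_mul 2)
    simp only [Pi.add_apply] at a2
    rw [a2, a1, integral_const_mul]
    rfl
  rw [integral_div, e1]
  have h3 := C.Eg_parallelogram hH hg (C.sob_smul δ hf)
  rw [C.Eg_smul δ hf.2.1] at h3
  rw [h3]
  field_simp
  ring

theorem gap_tendsto (C : WgCalc m) (hH : IsInfHilbertian m) {f g : X → ℝ}
    (hf : IsSobolev m f) (hg : IsSobolev m g) {c : ℝ} (hc : 0 < c) :
    ∀ᵐ x ∂m, Tendsto (fun n : ℕ => Aq m (c * (1 / 2) ^ n) f g x -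
      Aq m (-(c * (1 / 2) ^ n)) f g x) atTop (𝓝 0) := by
  set V : ℕ → X → ℝ := fun n x => Aq m (c * (1 / 2) ^ n) f g x -
      Aq m (-(c * (1 / 2) ^ n)) f g x with hV
  have hVi : ∀ n, Integrable (V n) m := fun n =>
    (C.integrable_Aq hf hg _).sub (C.integrable_Aq hf hg _)
  have hV0 : ∀ᵐ x ∂m, ∀ n, 0 ≤ V n x := ae_all_iff.2 fun n => by
    filter_upwards [C.Aq_neg_le hf.2.1 hg.2.1 (δ := c * (1 / 2) ^ n) (δ' := c * (1 / 2) ^ n)
      (by positivity) (by positivity)] with x hx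
    exact sub_nonneg.2 hx
  have hE : 0 ≤ Eg m f := integral_nonneg fun x => sq_nonneg _
  have hint : ∀ n, ∫⁻ x, ENNReal.ofReal (V n x) ∂m = ENNReal.ofReal (c * (1 / 2) ^ n * Eg m f) := by
    intro n
    rw [← ofReal_integral_eq_lintegral_ofReal (hVi n) (by
      filter_upwards [hV0] with x hx using hx n)]
    rw [hV, C.integral_gap hH hf hg (by positivity)]
  have hsum : ∫⁻ x, ∑' n, ENNReal.ofReal (V n x) ∂m ≠ ⊤ := by
    rw [lintegral_tsum fun n => (hVi n).1.aemeasurable.ennreal_ofReal]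
    simp_rw [hint]
    have hs : Summable fun n : ℕ => c * (1 / 2) ^ n * Eg m f := by
      have : Summable fun n : ℕ => (1 / 2 : ℝ) ^ n :=
        summable_geometric_of_lt_one (by norm_num) (by norm_num)
      simpa [mul_comm, mul_left_comm, mul_assoc] using (this.mul_left (c * Eg m f))
    rw [← ENNReal.ofReal_tsum_of_nonneg (fun n => by positivity) hs]
    exact ENNReal.ofReal_ne_top
  have hfin := ae_lt_top' (AEMeasurable.tsum fun n =>
    (hVi n).1.aemeasurable.ennreal_ofReal) hsum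
  filter_upwards [hfin, hV0] with x hx hx0
  have h1 := ENNReal.tendsto_atTop_zero_of_tsum_ne_top hx.ne
  have h2 := (ENNReal.tendsto_toReal (a := 0) (by simp)).comp h1
  simp only [ENNReal.toReal_zero] at h2
  refine h2.congr fun n => ?_
  simp only [Function.comp]
  rw [ENNReal.toReal_ofReal (hx0 n)]

theorem tendsto_Aq (C : WgCalc m) (hH : IsInfHilbertian m) {f g : X → ℝ}
    (hf : IsSobolev m f) (hg : IsSobolev m g) {c : ℝ} (hc : 0 < c) :
    ∀ᵐ x ∂m, Tendsto (fun n : ℕ => Aq m (c * (1 / 2) ^ n) f g x) atTop (𝓝 (Dq m f g x)) ∧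
      Tendsto (fun n : ℕ => Aq m (-(c * (1 / 2) ^ n)) f g x) atTop (𝓝 (Dq m f g x)) := by
  have h1 : ∀ᵐ x ∂m, ∀ n : ℕ, Dq m f g x ≤ Aq m (c * (1 / 2) ^ n) f g x :=
    ae_all_iff.2 fun n => C.Dq_le hf.2.1 hg.2.1 (by positivity)
  have h2 : ∀ᵐ x ∂m, ∀ n : ℕ, Aq m (-(c * (1 / 2) ^ n)) f g x ≤ Dq m f g x :=
    ae_all_iff.2 fun n => C.le_Dq hf.2.1 hg.2.1 (by positivity)
  filter_upwards [h1, h2, C.gap_tendsto hH hf hg hc] with x a1 a2 a3
  constructor
  · refine tendsto_of_tendsto_of_tendsto_of_le_of_le tendsto_const_nhds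
      (h := fun n => Dq m f g x + (Aq m (c * (1 / 2) ^ n) f g x -
        Aq m (-(c * (1 / 2) ^ n)) f g x)) ?_ a1 ?_
    · simpa using a3.const_add (Dq m f g x)
    · intro n
      have := a2 n
      simp only
      linarith
  · refine tendsto_of_tendsto_of_tendsto_of_le_of_le
      (g := fun n => Dq m f g x - (Aq m (c * (1 / 2) ^ n) f g x -
        Aq m (-(c * (1 / 2) ^ n)) f g x)) ?_ tendsto_const_nhds ?_ a2
    · simpa using a3.const_sub (Dq m f g x)
    · intro n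
      have := a1 n
      simp only
      linarith

theorem tendsto_Aq_one (C : WgCalc m) (hH : IsInfHilbertian m) {f g : X → ℝ}
    (hf : IsSobolev m f) (hg : IsSobolev m g) :
    ∀ᵐ x ∂m, Tendsto (fun n : ℕ => Aq m ((1 / 2) ^ n) f g x) atTop (𝓝 (Dq m f g x)) := by
  filter_upwards [C.tendsto_Aq hH hf hg one_pos] with x hx
  simpa using hx.1

theorem tendsto_Aq_neg_one (C : WgCalc m) (hH : IsInfHilbertian m) {f g : X → ℝ}
    (hf : IsSobolev m f) (hg : IsSobolev m g) :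
    ∀ᵐ x ∂m, Tendsto (fun n : ℕ => Aq m (-(1 / 2) ^ n) f g x) atTop (𝓝 (Dq m f g x)) := by
  filter_upwards [C.tendsto_Aq hH hf hg one_pos] with x hx
  simpa using hx.2

/-! ### first slot -/

theorem Dq_smul_left (C : WgCalc m) (hH : IsInfHilbertian m) {f g : X → ℝ}
    (hf : IsSobolev m f) (hg : IsSobolev m g) (c : ℝ) :
    ∀ᵐ x ∂m, Dq m (fun y => c * f y) g x = c * Dq m f g x := by
  rcases lt_trichotomy c 0 with hc | hc | hc
  · filter_upwards [C.tendsto_Aq_one hH (C.sob_smul c hf) hg,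
      C.tendsto_Aq hH hf hg (neg_pos.2 hc)] with x a1 a2
    refine tendsto_nhds_unique a1 ((a2.2.const_mul c).congr fun n => ?_)
    rw [Aq_smul_left hc.ne]
    congr 2
    ring
  · subst hc
    filter_upwards [C.tendsto_Aq_one hH (C.sob_smul 0 hf) hg] with x a1
    rw [zero_mul]
    refine tendsto_nhds_unique a1 (tendsto_const_nhds.congr fun n => ?_)
    unfold Aq
    simp
  · filter_upwards [C.tendsto_Aq_one hH (C.sob_smul c hf) hg,
      C.tendsto_Aq hH hf hg hc] with x a1 a2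
    refine tendsto_nhds_unique a1 ((a2.1.const_mul c).congr fun n => ?_)
    rw [Aq_smul_left hc.ne', mul_comm ((1 / 2 : ℝ) ^ n) c]

theorem Aq_add_aux (C : WgCalc m) {f f' g : X → ℝ}
    (hf : IsSobolevLoc m f) (hf' : IsSobolevLoc m f') (hg : IsSobolevLoc m g) (δ : ℝ) :
    ∀ᵐ x ∂m, minWeakGrad m (fun y => g y + δ * (f y + f' y)) x ^ 2 ≤
      (minWeakGrad m (fun y => g y + 2 * δ * f y) x ^ 2 +
        minWeakGrad m (fun y => g y + 2 * δ * f' y) x ^ 2) / 2 := by
  have hc := C.sq_convex (C.sobLoc_lin hf hg (2 * δ)) (C.sobLoc_lin hf' hg (2 * δ))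
    (a := 1 / 2) (b := 1 / 2) (by norm_num) (by norm_num) (by norm_num)
  have e : (fun y => 1 / 2 * (g y + 2 * δ * f y) + 1 / 2 * (g y + 2 * δ * f' y)) =
      fun y => g y + δ * (f y + f' y) := by
    funext y; ring
  rw [e] at hc
  filter_upwards [hc] with x hx
  linarith

theorem Dq_add_left (C : WgCalc m) (hH : IsInfHilbertian m) {f f' g : X → ℝ}
    (hf : IsSobolev m f) (hf' : IsSobolev m f') (hg : IsSobolev m g) :
    ∀ᵐ x ∂m, Dq m (fun y => f y + f' y) g x = Dq m f g x + Dq m f' g x := by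
  have h1 : ∀ᵐ x ∂m, ∀ n : ℕ, Aq m ((1 / 2) ^ n) (fun y => f y + f' y) g x ≤
      Aq m (2 * (1 / 2) ^ n) f g x + Aq m (2 * (1 / 2) ^ n) f' g x := ae_all_iff.2 fun n => by
    filter_upwards [C.Aq_add_aux hf.2.1 hf'.2.1 hg.2.1 ((1 / 2) ^ n)] with x hx
    unfold Aq
    rw [← add_div, div_le_div_iff₀ (by positivity) (by positivity)]
    have hp : (0 : ℝ) < (1 / 2) ^ n := by positivity
    nlinarith
  have h2 : ∀ᵐ x ∂m, ∀ n : ℕ, Aq m (-(2 * (1 / 2) ^ n)) f g x + Aq m (-(2 * (1 / 2) ^ n)) f' g x ≤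
      Aq m (-(1 / 2) ^ n) (fun y => f y + f' y) g x := ae_all_iff.2 fun n => by
    filter_upwards [C.Aq_add_aux hf.2.1 hf'.2.1 hg.2.1 (-(1 / 2) ^ n)] with x hx
    unfold Aq
    have hp : (0 : ℝ) < (1 / 2) ^ n := by positivity
    rw [show 2 * -(1 / 2 : ℝ) ^ n = -(2 * (1 / 2) ^ n) by ring] at hx ⊢
    rw [show 2 * -(2 * (1 / 2 : ℝ) ^ n) = -(4 * (1 / 2) ^ n) by ring]
    rw [div_neg, div_neg, div_neg, ← neg_add, neg_le_neg_iff, ← add_div,
      div_le_div_iff₀ (by positivity) (by positivity)]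
    nlinarith
  filter_upwards [h1, h2, C.tendsto_Aq_one hH (C.sob_add hf hf') hg,
    C.tendsto_Aq_neg_one hH (C.sob_add hf hf') hg, C.tendsto_Aq hH hf hg two_pos,
    C.tendsto_Aq hH hf' hg two_pos] with x a1 a2 a3 a4 a5 a6
  refine le_antisymm ?_ ?_
  · exact le_of_tendsto_of_tendsto' a3 (a5.1.add a6.1) a1
  · exact le_of_tendsto_of_tendsto' (a5.2.add a6.2) a4 a2

theorem Dq_sub_left (C : WgCalc m) (hH : IsInfHilbertian m) {f f' g : X → ℝ}
    (hf : IsSobolev m f) (hf' : IsSobolev m f') (hg : IsSobolev m g) :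
    ∀ᵐ x ∂m, Dq m (fun y => f y - f' y) g x = Dq m f g x - Dq m f' g x := by
  have e : (fun y => f y - f' y) = fun y => f y + (-1) * f' y := by funext y; ring
  rw [e]
  filter_upwards [C.Dq_add_left hH hf (C.sob_smul (-1) hf') hg, C.Dq_smul_left hH hf' hg (-1)]
    with x h1 h2
  rw [h1, h2]; ring

theorem Dq_self (C : WgCalc m) (hH : IsInfHilbertian m) {f : X → ℝ} (hf : IsSobolev m f) :
    ∀ᵐ x ∂m, Dq m f f x = minWeakGrad m f x ^ 2 := by
  have h1 : ∀ᵐ x ∂m, ∀ n : ℕ, Aq m ((1 / 2) ^ n) f f x =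
      (1 + (1 / 2) ^ n / 2) * minWeakGrad m f x ^ 2 := ae_all_iff.2 fun n => by
    filter_upwards [(C.smul (1 + (1 / 2) ^ n) f hf.2.1).2] with x hx
    unfold Aq
    have e : (fun y => f y + (1 / 2) ^ n * f y) = fun y => (1 + (1 / 2) ^ n) * f y := by
      funext y; ring
    rw [e, hx, mul_pow, sq_abs]
    have hp : (0 : ℝ) < (1 / 2) ^ n := by positivity
    field_simp
    ring
  filter_upwards [h1, C.tendsto_Aq_one hH hf hf] with x a1 a2
  refine tendsto_nhds_unique a2 ?_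
  have h3 : Tendsto (fun n : ℕ => (1 + (1 / 2 : ℝ) ^ n / 2) * minWeakGrad m f x ^ 2) atTop
      (𝓝 ((1 + 0 / 2) * minWeakGrad m f x ^ 2)) := by
    refine Tendsto.mul_const _ (Tendsto.const_add _ (Tendsto.div_const ?_ _))
    exact tendsto_pow_atTop_nhds_zero_of_lt_one (by norm_num) (by norm_num)
  simp only [zero_div, add_zero, one_mul] at h3
  exact h3.congr fun n => (a1 n).symm

theorem Dq_abs_le (C : WgCalc m) (hH : IsInfHilbertian m) {f g : X → ℝ}
    (hf : IsSobolev m f) (hg : IsSobolev m g) :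
    ∀ᵐ x ∂m, |Dq m f g x| ≤ minWeakGrad m f x * minWeakGrad m g x := by
  have key : ∀ᵐ x ∂m, ∀ n : ℕ,
      minWeakGrad m (fun y => g y + (1 / 2) ^ n * f y) x ^ 2 - minWeakGrad m g x ^ 2 ≤
        2 * (1 / 2) ^ n * (minWeakGrad m f x * minWeakGrad m g x) +
          ((1 / 2) ^ n) ^ 2 * minWeakGrad m f x ^ 2 ∧
      minWeakGrad m (fun y => g y + -(1 / 2) ^ n * f y) x ^ 2 - minWeakGrad m g x ^ 2 ≤
        2 * (1 / 2) ^ n * (minWeakGrad m f x * minWeakGrad m g x) +
          ((1 / 2) ^ n) ^ 2 * minWeakGrad m f x ^ 2 := ae_all_iff.2 fun n => by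
    have hp : (0 : ℝ) < (1 / 2) ^ n := by positivity
    have s1 := C.smul ((1 / 2) ^ n) f hf.2.1
    have s2 := C.smul (-(1 / 2) ^ n) f hf.2.1
    have t1 := C.add g _ hg.2.1 s1.1
    have t2 := C.add g _ hg.2.1 s2.1
    filter_upwards [s1.2, s2.2, t1.2, t2.2, wg_nonneg_ae t1.1, wg_nonneg_ae t2.1,
      wg_nonneg_ae hf.2.1, wg_nonneg_ae hg.2.1] with x b1 b2 b3 b4 b5 b6 b7 b8
    rw [b1, abs_of_pos hp] at b3
    rw [b2, abs_neg, abs_of_pos hp] at b4
    constructor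
    · have := pow_le_pow_left₀ b5 b3 2
      nlinarith
    · have := pow_le_pow_left₀ b6 b4 2
      nlinarith
  filter_upwards [key, C.tendsto_Aq_one hH hf hg, C.tendsto_Aq_neg_one hH hf hg] with x a1 a2 a3
  have hz : Tendsto (fun n : ℕ => (1 / 2 : ℝ) ^ n) atTop (𝓝 0) :=
    tendsto_pow_atTop_nhds_zero_of_lt_one (by norm_num) (by norm_num)
  rw [abs_le]
  constructor
  · have h3 : Tendsto (fun n : ℕ => -(minWeakGrad m f x * minWeakGrad m g x) -
        (1 / 2 : ℝ) ^ n / 2 * minWeakGrad m f x ^ 2) atTop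
        (𝓝 (-(minWeakGrad m f x * minWeakGrad m g x) - 0 / 2 * minWeakGrad m f x ^ 2)) :=
      (Tendsto.mul_const _ (hz.div_const _)).const_sub _
    rw [zero_div, zero_mul, sub_zero] at h3
    refine le_of_tendsto_of_tendsto' h3 a3 fun n => ?_
    have hp : (0 : ℝ) < (1 / 2) ^ n := by positivity
    have := (a1 n).2
    unfold Aq
    rw [show 2 * -(1 / 2 : ℝ) ^ n = -(2 * (1 / 2) ^ n) by ring, div_neg, le_neg,
      div_le_iff₀ (by positivity)]
    nlinarith
  · have h3 : Tendsto (fun n : ℕ => (minWeakGrad m f x * minWeakGrad m g x) +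
        (1 / 2 : ℝ) ^ n / 2 * minWeakGrad m f x ^ 2) atTop
        (𝓝 ((minWeakGrad m f x * minWeakGrad m g x) + 0 / 2 * minWeakGrad m f x ^ 2)) :=
      (Tendsto.mul_const _ (hz.div_const _)).const_add _
    rw [zero_div, zero_mul, add_zero] at h3
    refine le_of_tendsto_of_tendsto' a2 h3 fun n => ?_
    have hp : (0 : ℝ) < (1 / 2) ^ n := by positivity
    have := (a1 n).1
    unfold Aq
    rw [div_le_iff₀ (by positivity)]
    nlinarith

theorem aesm_Dq (C : WgCalc m) {f g : X → ℝ} (hf : IsSobolevLoc m f) (hg : IsSobolevLoc m g) :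
    AEStronglyMeasurable (Dq m f g) m := by
  have h : ∀ n : ℕ, AEMeasurable (Aq m ((1 / 2) ^ n) f g) m := fun n => by
    have h1 := (aesm_wg_ae (C.sobLoc_lin hf hg ((1 / 2) ^ n))).aemeasurable
    have h2 := (aesm_wg_ae hg).aemeasurable
    exact ((h1.pow_const 2).sub (h2.pow_const 2)).div_const _
  exact (AEMeasurable.iInf h).aestronglyMeasurable

theorem integrable_Dq (C : WgCalc m) (hH : IsInfHilbertian m) {f g : X → ℝ}
    (hf : IsSobolev m f) (hg : IsSobolev m g) : Integrable (Dq m f g) m := by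
  refine Integrable.mono' (g := fun x => minWeakGrad m f x * minWeakGrad m g x) ?_
    (C.aesm_Dq hf.2.1 hg.2.1) (C.Dq_abs_le hH hf hg)
  exact hf.2.2.integrable_mul hg.2.2

end WgCalc

end Crest.Agent.R242
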