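import Crest.Agent.R242.ParD

/-!
# Row 242, S11, part 3: second slot, Leibniz rule, polarisation
-/

set_option autoImplicit false

open MeasureTheory Filter Set
open scoped ENNReal NNReal Topology
open Crest.GeometryTopology.SyntheticRicci

noncomputable section

namespace Crest.Agent.R242

variable {X : Type*} [MetricSpace X] [MeasurableSpace X] {m : Measure X}

namespace WgCalc

/-! ### second slot -/

theorem Aq_smul_right (C : WgCalc m) {f g : X → ℝ}
    (hf : IsSobolevLoc m f) (hg : IsSobolevLoc m g) {c : ℝ} (hc : c ≠ 0) (δ : ℝ) :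
    ∀ᵐ x ∂m, Aq m δ f (fun y => c * g y) x = c * Aq m (c⁻¹ * δ) f g x := by
  have e : (fun y => c * g y + δ * f y) = fun y => c * (g y + c⁻¹ * δ * f y) := by
    funext y; field_simp
  filter_upwards [(C.smul c g hg).2, (C.smul c _ (C.sobLoc_lin hf hg (c⁻¹ * δ))).2] with x h1 h2
  unfold Aq
  rw [e, h2, h1, mul_pow, mul_pow, sq_abs]
  rcases eq_or_ne δ 0 with rfl | hδ
  · simp
  · field_simp

theorem Dq_smul_right (C : WgCalc m) (hH : IsInfHilbertian m) {f g : X → ℝ}
    (hf : IsSobolev m f) (hg : IsSobolev m g) (c : ℝ) :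
    ∀ᵐ x ∂m, Dq m f (fun y => c * g y) x = c * Dq m f g x := by
  rcases lt_trichotomy c 0 with hc | hc | hc
  · have hc' : 0 < -c⁻¹ := by
      rw [neg_pos]; exact inv_lt_zero.2 hc
    have h1 : ∀ᵐ x ∂m, ∀ n : ℕ, Aq m ((1 / 2) ^ n) f (fun y => c * g y) x =
        c * Aq m (c⁻¹ * (1 / 2) ^ n) f g x :=
      ae_all_iff.2 fun n => C.Aq_smul_right hf.2.1 hg.2.1 hc.ne _
    filter_upwards [h1, C.tendsto_Aq_one hH hf (C.sob_smul c hg),
      C.tendsto_Aq hH hf hg hc'] with x a0 a1 a2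
    refine tendsto_nhds_unique a1 ((a2.2.const_mul c).congr fun n => ?_)
    rw [a0]
    congr 2
    ring
  · subst hc
    have h1 : ∀ᵐ x ∂m, ∀ n : ℕ, Aq m ((1 / 2) ^ n) f (fun y => 0 * g y) x =
        (1 / 2) ^ n / 2 * minWeakGrad m f x ^ 2 := ae_all_iff.2 fun n => by
      filter_upwards [(C.smul ((1 / 2) ^ n) f hf.2.1).2, (C.smul 0 g hg.2.1).2] with x h1 h2
      unfold Aq
      have e : (fun y => 0 * g y + (1 / 2 : ℝ) ^ n * f y) = fun y => (1 / 2) ^ n * f y := by
        funext y; ring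
      rw [e, h1, h2]
      have hp : (0 : ℝ) < (1 / 2) ^ n := by positivity
      rw [abs_of_pos hp]
      simp only [abs_zero, zero_mul]
      field_simp
      ring
    filter_upwards [h1, C.tendsto_Aq_one hH hf (C.sob_smul 0 hg)] with x a0 a1
    rw [zero_mul]
    refine tendsto_nhds_unique a1 ?_
    have h3 : Tendsto (fun n : ℕ => (1 / 2 : ℝ) ^ n / 2 * minWeakGrad m f x ^ 2) atTop
        (𝓝 (0 / 2 * minWeakGrad m f x ^ 2)) := by
      refine Tendsto.mul_const _ (Tendsto.div_const ?_ _)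
      exact tendsto_pow_atTop_nhds_zero_of_lt_one (by norm_num) (by norm_num)
    rw [zero_div, zero_mul] at h3
    exact h3.congr fun n => (a0 n).symm
  · have hc' : 0 < c⁻¹ := by positivity
    have h1 : ∀ᵐ x ∂m, ∀ n : ℕ, Aq m ((1 / 2) ^ n) f (fun y => c * g y) x =
        c * Aq m (c⁻¹ * (1 / 2) ^ n) f g x :=
      ae_all_iff.2 fun n => C.Aq_smul_right hf.2.1 hg.2.1 hc.ne' _
    filter_upwards [h1, C.tendsto_Aq_one hH hf (C.sob_smul c hg),
      C.tendsto_Aq hH hf hg hc'] with x a0 a1 a2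
    exact tendsto_nhds_unique a1 ((a2.1.const_mul c).congr fun n => (a0 n).symm)

/-- locality of the weak gradient up to constants. -/
theorem wg_eq_of_eq_add_const (C : WgCalc m) {u v : X → ℝ} (hu : IsSobolevLoc m u)
    (hv : IsSobolevLoc m v) (b : ℝ) :
    ∀ᵐ x ∂m, u x = v x + b → minWeakGrad m u x = minWeakGrad m v x := by
  filter_upwards [C.loc u _ hu (C.wg_add_const hv b).1, (C.wg_add_const hv b).2] with x h1 h2 h3
  rw [h1 h3, h2]

/-- the derivative in the second slot only depends on the function locally, up to affine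
changes. -/
theorem Dq_affine_right (C : WgCalc m) (hH : IsInfHilbertian m) {h f u : X → ℝ}
    (hh : IsSobolev m h) (hf : IsSobolev m f) (hu : IsSobolev m u) (s b : ℝ) :
    ∀ᵐ x ∂m, u x = s * f x + b → Dq m h u x = s * Dq m h f x := by
  have hsf := C.sob_smul s hf
  have h1 : ∀ᵐ x ∂m, ∀ n : ℕ, u x = s * f x + b →
      Aq m ((1 / 2) ^ n) h u x = Aq m ((1 / 2) ^ n) h (fun y => s * f y) x :=
    ae_all_iff.2 fun n => by
      filter_upwards [C.wg_eq_of_eq_add_const hu.2.1 hsf.2.1 b,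
        C.wg_eq_of_eq_add_const (C.sobLoc_lin hh.2.1 hu.2.1 ((1 / 2) ^ n))
          (C.sobLoc_lin hh.2.1 hsf.2.1 ((1 / 2) ^ n)) b] with x a1 a2 a3
      unfold Aq
      rw [a1 a3, a2 (by rw [a3]; ring)]
  filter_upwards [h1, C.tendsto_Aq_one hH hh hu, C.tendsto_Aq_one hH hh hsf,
    C.Dq_smul_right hH hh hf s] with x a1 a2 a3 a4 a5
  rw [← a4]
  exact tendsto_nhds_unique a2 (a3.congr fun n => (a1 n a5).symm)

/-- continuity in the second slot along sequences that converge pointwise in gradient. -/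
theorem Dq_tendsto_right (C : WgCalc m) (hH : IsInfHilbertian m) {h g : X → ℝ} {gs : ℕ → X → ℝ}
    (hh : IsSobolev m h) (hg : IsSobolev m g) (hgs : ∀ n, IsSobolev m (gs n))
    {w : X → ℝ} {c : ℕ → ℝ} (hc : Tendsto c atTop (𝓝 0))
    (hle : ∀ n, ∀ᵐ x ∂m, minWeakGrad m (fun y => gs n y - g y) x ≤ c n * w x) :
    ∀ᵐ x ∂m, Tendsto (fun n => Dq m h (gs n) x) atTop (𝓝 (Dq m h g x)) := by
  -- convergence of the difference quotients
  have key : ∀ δ : ℝ, ∀ᵐ x ∂m, Tendsto (fun n => Aq m δ h (gs n) x) atTop (𝓝 (Aq m δ h g x)) := by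
    intro δ
    have k1 : ∀ᵐ x ∂m, ∀ n, |minWeakGrad m (gs n) x - minWeakGrad m g x| ≤ c n * w x :=
      ae_all_iff.2 fun n => by
        filter_upwards [hle n, C.abs_wg_sub_le (hgs n).2.1 hg.2.1] with x a1 a2 using a2.trans a1
    have k2 : ∀ᵐ x ∂m, ∀ n, |minWeakGrad m (fun y => gs n y + δ * h y) x -
        minWeakGrad m (fun y => g y + δ * h y) x| ≤ c n * w x :=
      ae_all_iff.2 fun n => by
        have e : (fun y => gs n y + δ * h y - (g y + δ * h y)) = fun y => gs n y - g y := by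
          funext y; ring
        have := C.abs_wg_sub_le (C.sobLoc_lin hh.2.1 (hgs n).2.1 δ) (C.sobLoc_lin hh.2.1 hg.2.1 δ)
        rw [e] at this
        filter_upwards [hle n, this] with x a1 a2 using a2.trans a1
    filter_upwards [k1, k2] with x a1 a2
    have hz : Tendsto (fun n => c n * w x) atTop (𝓝 0) := by
      simpa using hc.mul_const (w x)
    have b1 : Tendsto (fun n => minWeakGrad m (gs n) x) atTop (𝓝 (minWeakGrad m g x)) := by
      rw [tendsto_iff_dist_tendsto_zero]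
      exact squeeze_zero (fun n => dist_nonneg) (fun n => by rw [Real.dist_eq]; exact a1 n) hz
    have b2 : Tendsto (fun n => minWeakGrad m (fun y => gs n y + δ * h y) x) atTop
        (𝓝 (minWeakGrad m (fun y => g y + δ * h y) x)) := by
      rw [tendsto_iff_dist_tendsto_zero]
      exact squeeze_zero (fun n => dist_nonneg) (fun n => by rw [Real.dist_eq]; exact a2 n) hz
    exact ((b2.pow 2).sub (b1.pow 2)).div_const _
  have K1 : ∀ᵐ x ∂m, ∀ k : ℕ, Tendsto (fun n => Aq m ((1 / 2) ^ k) h (gs n) x) atTop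
      (𝓝 (Aq m ((1 / 2) ^ k) h g x)) := ae_all_iff.2 fun k => key _
  have K2 : ∀ᵐ x ∂m, ∀ k : ℕ, Tendsto (fun n => Aq m (-(1 / 2) ^ k) h (gs n) x) atTop
      (𝓝 (Aq m (-(1 / 2) ^ k) h g x)) := ae_all_iff.2 fun k => key _
  have K3 : ∀ᵐ x ∂m, ∀ k n : ℕ, Dq m h (gs n) x ≤ Aq m ((1 / 2) ^ k) h (gs n) x :=
    ae_all_iff.2 fun k => ae_all_iff.2 fun n => C.Dq_le hh.2.1 (hgs n).2.1 (by positivity)
  have K4 : ∀ᵐ x ∂m, ∀ k n : ℕ, Aq m (-(1 / 2) ^ k) h (gs n) x ≤ Dq m h (gs n) x :=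
    ae_all_iff.2 fun k => ae_all_iff.2 fun n => C.le_Dq hh.2.1 (hgs n).2.1 (by positivity)
  filter_upwards [K1, K2, K3, K4, C.tendsto_Aq_one hH hh hg, C.tendsto_Aq_neg_one hH hh hg]
    with x a1 a2 a3 a4 a5 a6
  rw [tendsto_order]
  constructor
  · intro a ha
    obtain ⟨k, hk⟩ := ((tendsto_order.1 a6).1 a ha).exists
    filter_upwards [(tendsto_order.1 (a2 k)).1 a hk] with n hn
    exact hn.trans_le (a4 k n)
  · intro a ha
    obtain ⟨k, hk⟩ := ((tendsto_order.1 a5).2 a ha).exists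
    filter_upwards [(tendsto_order.1 (a1 k)).2 a hk] with n hn
    exact (a3 k n).trans_lt hn

/-! ### Leibniz rule in the first slot -/

theorem Dq_mul_left (C : WgCalc m) (hH : IsInfHilbertian m) {f h g : X → ℝ}
    (hf : IsSobolev m f) (hh : IsSobolev m h) (hg : IsSobolev m g)
    (hfb : ∃ B : ℝ, ∀ᵐ x ∂m, |f x| ≤ B) (hhb : ∃ B : ℝ, ∀ᵐ x ∂m, |h x| ≤ B) :
    ∀ᵐ x ∂m, Dq m (fun y => f y * h y) g x = f x * Dq m h g x + h x * Dq m f g x := by
  have hfh := C.sob_mul hf hh hfb hhb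
  have key : ∀ a b : ℝ, ∀ᵐ x ∂m,
      |Dq m (fun y => f y * h y) g x - a * Dq m h g x - b * Dq m f g x| ≤
        (|f x - a| * minWeakGrad m h x + |h x - b| * minWeakGrad m f x) * minWeakGrad m g x := by
    intro a b
    have hu := C.sob_sub (C.sob_sub hfh (C.sob_smul a hh)) (C.sob_smul b hf)
    have hf' := C.wg_add_const hf.2.1 (-a)
    have hh' := C.wg_add_const hh.2.1 (-b)
    have hfb' : ∃ B : ℝ, ∀ᵐ x ∂m, |f x + -a| ≤ B := by
      obtain ⟨B, hB⟩ := hfb
      refine ⟨B + |a|, ?_⟩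
      filter_upwards [hB] with x hx
      calc |f x + -a| ≤ |f x| + |-a| := abs_add_le _ _
        _ ≤ B + |a| := by rw [abs_neg]; linarith
    have hhb' : ∃ B : ℝ, ∀ᵐ x ∂m, |h x + -b| ≤ B := by
      obtain ⟨B, hB⟩ := hhb
      refine ⟨B + |b|, ?_⟩
      filter_upwards [hB] with x hx
      calc |h x + -b| ≤ |h x| + |-b| := abs_add_le _ _
        _ ≤ B + |b| := by rw [abs_neg]; linarith
    have hm := C.mul _ _ hf'.1 hh'.1 hfb' hhb'
    filter_upwards [C.Dq_sub_left hH (C.sob_sub hfh (C.sob_smul a hh)) (C.sob_smul b hf) hg,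
      C.Dq_sub_left hH hfh (C.sob_smul a hh) hg, C.Dq_smul_left hH hh hg a,
      C.Dq_smul_left hH hf hg b, C.Dq_abs_le hH hu hg, hf'.2, hh'.2, hm.2,
      C.wg_eq_of_eq_add_const hu.2.1 hm.1 (-(a * b)), wg_nonneg_ae hg.2.1]
      with x a1 a2 a3 a4 a5 a6 a7 a8 a9 a10
    rw [a1, a2, a3, a4] at a5
    refine a5.trans (mul_le_mul_of_nonneg_right ?_ a10)
    rw [a9 (by ring)]
    rw [a6, a7] at a8
    simpa [sub_eq_add_neg] using a8
  have key2 : ∀ᵐ x ∂m, ∀ a b : ℚ,
      |Dq m (fun y => f y * h y) g x - a * Dq m h g x - b * Dq m f g x| ≤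
        (|f x - a| * minWeakGrad m h x + |h x - b| * minWeakGrad m f x) * minWeakGrad m g x :=
    ae_all_iff.2 fun a => ae_all_iff.2 fun b => key a b
  filter_upwards [key2] with x hx
  have h3 : ∀ a b : ℝ, |Dq m (fun y => f y * h y) g x - a * Dq m h g x - b * Dq m f g x| ≤
        (|f x - a| * minWeakGrad m h x + |h x - b| * minWeakGrad m f x) * minWeakGrad m g x := by
    intro a b
    refine DenseRange.induction_on₂ (e := ((↑) : ℚ → ℝ))
      (p := fun a b => |Dq m (fun y => f y * h y) g x - a * Dq m h g x - b * Dq m f g x| ≤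
        (|f x - a| * minWeakGrad m h x + |h x - b| * minWeakGrad m f x) * minWeakGrad m g x)
      Rat.isDenseEmbedding_coe_real.dense ?_ hx a b
    exact isClosed_le (by fun_prop) (by fun_prop)
  have h4 := h3 (f x) (h x)
  simp only [sub_self, abs_zero, zero_mul, add_zero] at h4
  have h5 := abs_eq_zero.1 (le_antisymm h4 (abs_nonneg _))
  linarith

/-! ### the integral of the derivative -/

theorem integral_Dq (C : WgCalc m) (hH : IsInfHilbertian m) {u v : X → ℝ}
    (hu : IsSobolev m u) (hv : IsSobolev m v) :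
    ∫ x, Dq m u v x ∂m = (Eg m (fun x => v x + u x) - Eg m v - Eg m u) / 2 := by
  -- recursion
  have hrec : ∀ n : ℕ, Eg m (fun x => v x + (1 / 2) ^ n * u x) - Eg m v - ((1 / 2) ^ n) ^ 2 * Eg m u =
      (1 / 2) ^ n * (Eg m (fun x => v x + u x) - Eg m v - Eg m u) := by
    intro n
    induction n with
    | zero => simp
    | succ n ih =>
      have h1 := C.Eg_parallelogram hH (C.sob_lin hu hv ((1 / 2) ^ (n + 1)))
        (C.sob_smul ((1 / 2) ^ (n + 1)) hu)
      rw [C.Eg_smul _ hu.2.1] at h1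
      have e1 : (fun x => v x + (1 / 2 : ℝ) ^ (n + 1) * u x + (1 / 2) ^ (n + 1) * u x) =
          fun x => v x + (1 / 2) ^ n * u x := by
        funext x; rw [pow_succ]; ring
      have e2 : (fun x => v x + (1 / 2 : ℝ) ^ (n + 1) * u x - (1 / 2) ^ (n + 1) * u x) = v := by
        funext x; ring
      rw [e1, e2] at h1
      have hp : (1 / 2 : ℝ) ^ (n + 1) = (1 / 2) ^ n / 2 := by rw [pow_succ]; ring
      rw [hp] at h1 ⊢
      nlinarith
  set Bv := (Eg m (fun x => v x + u x) - Eg m v - Eg m u) / 2 with hB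
  have hA : ∀ n : ℕ, ∫ x, Aq m ((1 / 2) ^ n) u v x ∂m = Bv + (1 / 2) ^ n / 2 * Eg m u := by
    intro n
    unfold Aq
    rw [integral_div, integral_sub (sob_int_sq (C.sob_lin hu hv _)) (sob_int_sq hv)]
    have := hrec n
    unfold Eg at this hB ⊢
    have hp : (0 : ℝ) < (1 / 2) ^ n := by positivity
    rw [div_eq_iff (by positivity), hB]
    nlinarith
  have hgap : ∀ n : ℕ, |∫ x, Dq m u v x ∂m - ∫ x, Aq m ((1 / 2) ^ n) u v x ∂m| ≤
      (1 / 2) ^ n * Eg m u := by
    intro n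
    rw [← integral_sub (C.integrable_Dq hH hu hv) (C.integrable_Aq hu hv _)]
    refine (abs_integral_le_integral_abs).trans ?_
    rw [← C.integral_gap hH hu hv (by positivity : (0 : ℝ) < (1 / 2) ^ n)]
    refine integral_mono_ae ((C.integrable_Dq hH hu hv).sub (C.integrable_Aq hu hv _)).abs
      ((C.integrable_Aq hu hv _).sub (C.integrable_Aq hu hv _)) ?_
    filter_upwards [C.Dq_le hu.2.1 hv.2.1 (by positivity : (0 : ℝ) < (1 / 2) ^ n),
      C.le_Dq hu.2.1 hv.2.1 (by positivity : (0 : ℝ) < (1 / 2) ^ n)] with x a1 a2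
    rw [abs_le]
    constructor <;> linarith
  have hE : 0 ≤ Eg m u := integral_nonneg fun x => sq_nonneg _
  have hlim : ∀ n : ℕ, |∫ x, Dq m u v x ∂m - Bv| ≤ (1 / 2) ^ n * (2 * Eg m u) := by
    intro n
    have h1 := hgap n
    rw [hA] at h1
    have hp : (0 : ℝ) < (1 / 2) ^ n := by positivity
    have h2 : 0 ≤ (1 / 2 : ℝ) ^ n * Eg m u := by positivity
    rw [abs_le] at h1 ⊢
    constructor <;> nlinarith [h1.1, h1.2]
  have hz : Tendsto (fun n : ℕ => (1 / 2 : ℝ) ^ n * (2 * Eg m u)) atTop (𝓝 (0 * (2 * Eg m u))) :=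
    (tendsto_pow_atTop_nhds_zero_of_lt_one (by norm_num) (by norm_num)).mul_const _
  rw [zero_mul] at hz
  have h0 := ge_of_tendsto' hz hlim
  have := abs_eq_zero.1 (le_antisymm h0 (abs_nonneg _))
  linarith

/-- the polarised energy. -/
theorem integral_Dq_symm (C : WgCalc m) (hH : IsInfHilbertian m) {u v : X → ℝ}
    (hu : IsSobolev m u) (hv : IsSobolev m v) :
    ∫ x, Dq m u v x ∂m = ∫ x, Dq m v u x ∂m := by
  rw [C.integral_Dq hH hu hv, C.integral_Dq hH hv hu]
  have e : (fun x => v x + u x) = fun x => u x + v x := by funext x; ring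
  rw [e]; ring

theorem integral_Dq_add_left (C : WgCalc m) (hH : IsInfHilbertian m) {u u' v : X → ℝ}
    (hu : IsSobolev m u) (hu' : IsSobolev m u') (hv : IsSobolev m v) :
    ∫ x, Dq m (fun y => u y + u' y) v x ∂m = ∫ x, Dq m u v x ∂m + ∫ x, Dq m u' v x ∂m := by
  rw [← integral_add (C.integrable_Dq hH hu hv) (C.integrable_Dq hH hu' hv)]
  exact integral_congr_ae (C.Dq_add_left hH hu hu' hv)

theorem integral_Dq_sub_left (C : WgCalc m) (hH : IsInfHilbertian m) {u u' v : X → ℝ}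
    (hu : IsSobolev m u) (hu' : IsSobolev m u') (hv : IsSobolev m v) :
    ∫ x, Dq m (fun y => u y - u' y) v x ∂m = ∫ x, Dq m u v x ∂m - ∫ x, Dq m u' v x ∂m := by
  rw [← integral_sub (C.integrable_Dq hH hu hv) (C.integrable_Dq hH hu' hv)]
  exact integral_congr_ae (C.Dq_sub_left hH hu hu' hv)

theorem integral_Dq_add_right (C : WgCalc m) (hH : IsInfHilbertian m) {u v v' : X → ℝ}
    (hu : IsSobolev m u) (hv : IsSobolev m v) (hv' : IsSobolev m v') :
    ∫ x, Dq m u (fun y => v y + v' y) x ∂m = ∫ x, Dq m u v x ∂m + ∫ x, Dq m u v' x ∂m := by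
  rw [C.integral_Dq_symm hH hu (C.sob_add hv hv'), C.integral_Dq_add_left hH hv hv' hu,
    C.integral_Dq_symm hH hv hu, C.integral_Dq_symm hH hv' hu]

theorem integral_Dq_sub_right (C : WgCalc m) (hH : IsInfHilbertian m) {u v v' : X → ℝ}
    (hu : IsSobolev m u) (hv : IsSobolev m v) (hv' : IsSobolev m v') :
    ∫ x, Dq m u (fun y => v y - v' y) x ∂m = ∫ x, Dq m u v x ∂m - ∫ x, Dq m u v' x ∂m := by
  rw [C.integral_Dq_symm hH hu (C.sob_sub hv hv'), C.integral_Dq_sub_left hH hv hv' hu,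
    C.integral_Dq_symm hH hv hu, C.integral_Dq_symm hH hv' hu]

end WgCalc

end Crest.Agent.R242
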