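import Crest.Agent.R242.ParE

/-!
# Row 242, S11, part 4: chain rule for the square in the second slot
-/

set_option autoImplicit false
set_option linter.unusedSectionVars false

open MeasureTheory Filter Set
open scoped ENNReal NNReal Topology
open Crest.GeometryTopology.SyntheticRicci

noncomputable section

namespace Crest.Agent.R242

/-! ### Piecewise affine approximation of `r²/2` -/

namespace ParF

/-- clamp. -/
def cl (M t : ℝ) : ℝ := max (-M) (min M t)

theorem cl_mono (M : ℝ) : Monotone (cl M) := fun _ _ h =>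
  max_le_max le_rfl (min_le_min le_rfl h)

theorem cl_cont (M : ℝ) : Continuous (cl M) := by
  unfold cl; fun_prop

theorem cl_abs_le {M : ℝ} (hM : 0 ≤ M) (t : ℝ) : |cl M t| ≤ M := by
  unfold cl
  rw [abs_le]
  exact ⟨le_max_left _ _, max_le (by linarith) (min_le_left _ _)⟩

theorem cl_eq {M t : ℝ} (h : |t| ≤ M) : cl M t = t := by
  unfold cl
  rw [abs_le] at h
  rw [min_eq_right h.2, max_eq_right h.1]

/-- slopes. -/
def sl (M : ℝ) (n : ℕ) (t : ℝ) : ℝ := (⌊((n : ℝ) + 1) * cl M t⌋ : ℝ) / ((n : ℝ) + 1)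

theorem sl_mono (M : ℝ) (n : ℕ) : Monotone (sl M n) := fun a b h => by
  unfold sl
  have hp : (0 : ℝ) < (n : ℝ) + 1 := by positivity
  refine div_le_div_of_nonneg_right ?_ hp.le
  exact_mod_cast Int.floor_le_floor (mul_le_mul_of_nonneg_left (cl_mono M h) hp.le)

theorem sl_sub_abs_le (M : ℝ) (n : ℕ) (t : ℝ) : |sl M n t - cl M t| ≤ 1 / ((n : ℝ) + 1) := by
  unfold sl
  have hp : (0 : ℝ) < (n : ℝ) + 1 := by positivity
  have h1 := Int.floor_le (((n : ℝ) + 1) * cl M t)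
  have h2 := Int.lt_floor_add_one (((n : ℝ) + 1) * cl M t)
  have e : (⌊((n : ℝ) + 1) * cl M t⌋ : ℝ) / ((n : ℝ) + 1) - cl M t =
      ((⌊((n : ℝ) + 1) * cl M t⌋ : ℝ) - ((n : ℝ) + 1) * cl M t) / ((n : ℝ) + 1) := by
    field_simp
  rw [e, abs_div, abs_of_pos hp]
  refine div_le_div_of_nonneg_right ?_ hp.le
  rw [abs_le]
  constructor <;> linarith

theorem sl_abs_le {M : ℝ} (hM : 0 ≤ M) (n : ℕ) (t : ℝ) : |sl M n t| ≤ M + 1 := by
  have h1 := sl_sub_abs_le M n t
  have h2 := cl_abs_le hM t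
  have h3 : 1 / ((n : ℝ) + 1) ≤ 1 := by
    rw [div_le_one (by positivity)]
    have : (0 : ℝ) ≤ n := Nat.cast_nonneg n
    linarith
  calc |sl M n t| = |(sl M n t - cl M t) + cl M t| := by ring_nf
    _ ≤ |sl M n t - cl M t| + |cl M t| := abs_add_le _ _
    _ ≤ M + 1 := by linarith

theorem sl_ii (M : ℝ) (n : ℕ) (a b : ℝ) : IntervalIntegrable (sl M n) volume a b :=
  (sl_mono M n).intervalIntegrable

theorem cl_ii (M : ℝ) (a b : ℝ) : IntervalIntegrable (cl M) volume a b :=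
  (cl_cont M).intervalIntegrable a b

/-- piecewise affine approximation. -/
def ph (M : ℝ) (n : ℕ) (r : ℝ) : ℝ := ∫ t in (0 : ℝ)..r, sl M n t

/-- truncated `r²/2`. -/
def th (M : ℝ) (r : ℝ) : ℝ := ∫ t in (0 : ℝ)..r, cl M t

theorem ph_zero (M : ℝ) (n : ℕ) : ph M n 0 = 0 := by simp [ph]

theorem th_zero (M : ℝ) : th M 0 = 0 := by simp [th]

theorem ph_sub (M : ℝ) (n : ℕ) (r r' : ℝ) : ph M n r - ph M n r' = ∫ t in r'..r, sl M n t := by
  unfold ph
  rw [intervalIntegral.integral_interval_sub_left (sl_ii M n 0 r) (sl_ii M n 0 r')]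

theorem th_sub (M : ℝ) (r r' : ℝ) : th M r - th M r' = ∫ t in r'..r, cl M t := by
  unfold th
  rw [intervalIntegral.integral_interval_sub_left (cl_ii M 0 r) (cl_ii M 0 r')]

theorem ph_lip {M : ℝ} (hM : 0 ≤ M) (n : ℕ) : LipschitzWith (M + 1).toNNReal (ph M n) := by
  refine LipschitzWith.of_dist_le_mul fun r r' => ?_
  rw [Real.dist_eq, Real.dist_eq, ph_sub, Real.coe_toNNReal _ (by linarith)]
  have := intervalIntegral.norm_integral_le_of_norm_le_const (a := r') (b := r)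
    (f := sl M n) (C := M + 1) (fun t _ => sl_abs_le hM n t)
  simpa using this

theorem th_lip {M : ℝ} (hM : 0 ≤ M) : LipschitzWith M.toNNReal (th M) := by
  refine LipschitzWith.of_dist_le_mul fun r r' => ?_
  rw [Real.dist_eq, Real.dist_eq, th_sub, Real.coe_toNNReal _ hM]
  have := intervalIntegral.norm_integral_le_of_norm_le_const (a := r') (b := r)
    (f := cl M) (C := M) (fun t _ => cl_abs_le hM t)
  simpa using this

theorem diff_lip (M : ℝ) (n : ℕ) :
    LipschitzWith (1 / ((n : ℝ) + 1)).toNNReal (fun r => ph M n r - th M r) := by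
  refine LipschitzWith.of_dist_le_mul fun r r' => ?_
  rw [Real.dist_eq, Real.dist_eq, Real.coe_toNNReal _ (by positivity)]
  have e : ph M n r - th M r - (ph M n r' - th M r') = ∫ t in r'..r, (sl M n t - cl M t) := by
    rw [intervalIntegral.integral_sub (sl_ii M n _ _) (cl_ii M _ _), ← ph_sub, ← th_sub]
    ring
  rw [e]
  have := intervalIntegral.norm_integral_le_of_norm_le_const (a := r') (b := r)
    (f := fun t => sl M n t - cl M t) (C := 1 / ((n : ℝ) + 1)) (fun t _ => sl_sub_abs_le M n t)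
  simpa using this

theorem th_eq {M r : ℝ} (h : |r| ≤ M) : th M r = r ^ 2 / 2 := by
  unfold th
  have : ∫ t in (0 : ℝ)..r, cl M t = ∫ t in (0 : ℝ)..r, t := by
    refine intervalIntegral.integral_congr fun t ht => ?_
    refine cl_eq (le_trans ?_ h)
    rw [uIcc] at ht
    rcases le_total 0 r with hr | hr
    · rw [min_eq_left hr, max_eq_right hr] at ht
      rw [abs_of_nonneg hr, abs_of_nonneg ht.1]; exact ht.2
    · rw [min_eq_right hr, max_eq_left hr] at ht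
      rw [abs_of_nonpos hr, abs_of_nonpos ht.2]; linarith [ht.1]
  rw [this, integral_id]; ring

theorem ph_affine (M : ℝ) (n : ℕ) (i : ℤ) :
    ∃ b : ℝ, ∀ r : ℝ, ⌊((n : ℝ) + 1) * cl M r⌋ = i → ph M n r = (i : ℝ) / ((n : ℝ) + 1) * r + b := by
  by_cases h : ∃ r0 : ℝ, ⌊((n : ℝ) + 1) * cl M r0⌋ = i
  · obtain ⟨r0, h0⟩ := h
    refine ⟨ph M n r0 - (i : ℝ) / ((n : ℝ) + 1) * r0, fun r hr => ?_⟩
    have h1 : ph M n r - ph M n r0 = (i : ℝ) / ((n : ℝ) + 1) * (r - r0) := by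
      rw [ph_sub]
      have e : ∫ t in r0..r, sl M n t = ∫ _t in r0..r, (i : ℝ) / ((n : ℝ) + 1) := by
        refine intervalIntegral.integral_congr fun t ht => ?_
        have s0 : sl M n r0 = (i : ℝ) / ((n : ℝ) + 1) := by unfold sl; rw [h0]
        have s1 : sl M n r = (i : ℝ) / ((n : ℝ) + 1) := by unfold sl; rw [hr]
        rw [uIcc] at ht
        rcases le_total r0 r with hh | hh
        · rw [min_eq_left hh, max_eq_right hh] at ht
          exact le_antisymm (s1 ▸ sl_mono M n ht.2) (s0 ▸ sl_mono M n ht.1)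
        · rw [min_eq_right hh, max_eq_left hh] at ht
          exact le_antisymm (s0 ▸ sl_mono M n ht.2) (s1 ▸ sl_mono M n ht.1)
      rw [e, intervalIntegral.integral_const, smul_eq_mul]
      ring
    linarith
  · exact ⟨0, fun r hr => absurd ⟨r, hr⟩ h⟩

end ParF

open ParF

variable {X : Type*} [MetricSpace X] [MeasurableSpace X] {m : Measure X}

namespace WgCalc

theorem Dq_sq_right (C : WgCalc m) (hH : IsInfHilbertian m) {h f : X → ℝ}
    (hh : IsSobolev m h) (hf : IsSobolev m f) (hfb : ∃ B : ℝ, ∀ᵐ x ∂m, |f x| ≤ B) :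
    ∀ᵐ x ∂m, Dq m h (fun y => f y ^ 2 / 2) x = f x * Dq m h f x := by
  obtain ⟨B, hB⟩ := hfb
  set M : ℝ := max B 0 with hM
  have hM0 : 0 ≤ M := le_max_right _ _
  have hBM : ∀ᵐ x ∂m, |f x| ≤ M := by
    filter_upwards [hB] with x hx using hx.trans (le_max_left _ _)
  have hus : ∀ n, IsSobolev m (fun x => ph M n (f x)) := fun n =>
    C.sob_comp (ph_lip hM0 n) (ph_zero M n) hf
  have hth : IsSobolev m (fun x => th M (f x)) := C.sob_comp (th_lip hM0) (th_zero M) hf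
  have hae : (fun x => th M (f x)) =ᵐ[m] fun x => f x ^ 2 / 2 := by
    filter_upwards [hBM] with x hx using th_eq hx
  have hsq : IsSobolev m (fun x => f x ^ 2 / 2) := C.sob_congr hth hae
  choose b hb using ph_affine M
  have h1 : ∀ᵐ x ∂m, ∀ (n : ℕ) (i : ℤ), ph M n (f x) = (i : ℝ) / ((n : ℝ) + 1) * f x + b n i →
      Dq m h (fun y => ph M n (f y)) x = (i : ℝ) / ((n : ℝ) + 1) * Dq m h f x :=
    ae_all_iff.2 fun n => ae_all_iff.2 fun i => C.Dq_affine_right hH hh hf (hus n) _ _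
  have h2 : ∀ᵐ x ∂m, Tendsto (fun n => Dq m h (fun y => ph M n (f y)) x) atTop
      (𝓝 (Dq m h (fun y => th M (f y)) x)) := by
    refine C.Dq_tendsto_right hH hh hth hus (w := minWeakGrad m f)
      (c := fun n => 1 / ((n : ℝ) + 1)) tendsto_one_div_add_atTop_nhds_zero_nat fun n => ?_
    have := (C.comp _ _ f (diff_lip M n) hf.2.1).2
    rw [Real.coe_toNNReal _ (by positivity)] at this
    exact this
  filter_upwards [h1, h2, C.Dq_affine_right hH hh hth hsq 1 0, hae, hBM] with x a1 a2 a3 a4 a5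
  have h3 : Dq m h (fun y => f y ^ 2 / 2) x = Dq m h (fun y => th M (f y)) x := by
    rw [a3 (by simpa using a4.symm)]; ring
  rw [h3]
  refine tendsto_nhds_unique a2 ?_
  have h4 : ∀ n : ℕ, Dq m h (fun y => ph M n (f y)) x = sl M n (f x) * Dq m h f x := fun n =>
    a1 n _ (hb n _ _ rfl)
  have h5 : Tendsto (fun n : ℕ => sl M n (f x)) atTop (𝓝 (f x)) := by
    rw [tendsto_iff_dist_tendsto_zero]
    refine squeeze_zero (fun n => dist_nonneg) (fun n => ?_)
      (tendsto_one_div_add_atTop_nhds_zero_nat (𝕜 := ℝ))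
    rw [Real.dist_eq]
    have := sl_sub_abs_le M n (f x)
    rwa [cl_eq a5] at this
  exact (h5.mul_const _).congr fun n => (h4 n).symm

theorem bdd_add {f g : X → ℝ} (hf : ∃ B : ℝ, ∀ᵐ x ∂m, |f x| ≤ B)
    (hg : ∃ B : ℝ, ∀ᵐ x ∂m, |g x| ≤ B) : ∃ B : ℝ, ∀ᵐ x ∂m, |f x + g x| ≤ B := by
  obtain ⟨B, hB⟩ := hf
  obtain ⟨B', hB'⟩ := hg
  refine ⟨B + B', ?_⟩
  filter_upwards [hB, hB'] with x h1 h2
  exact (abs_add_le _ _).trans (add_le_add h1 h2)

theorem bdd_sub {f g : X → ℝ} (hf : ∃ B : ℝ, ∀ᵐ x ∂m, |f x| ≤ B)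
    (hg : ∃ B : ℝ, ∀ᵐ x ∂m, |g x| ≤ B) : ∃ B : ℝ, ∀ᵐ x ∂m, |f x - g x| ≤ B := by
  obtain ⟨B, hB⟩ := hf
  obtain ⟨B', hB'⟩ := hg
  refine ⟨B + B', ?_⟩
  filter_upwards [hB, hB'] with x h1 h2
  exact (abs_sub _ _).trans (add_le_add h1 h2)

theorem sob_sq_half (C : WgCalc m) {f : X → ℝ} (hf : IsSobolev m f)
    (hfb : ∃ B : ℝ, ∀ᵐ x ∂m, |f x| ≤ B) : IsSobolev m (fun y => f y ^ 2 / 2) := by
  have h := C.sob_smul (1 / 2) (C.sob_mul hf hf hfb hfb)
  have e : (fun x => 1 / 2 * (f x * f x)) = fun y => f y ^ 2 / 2 := by funext x; ring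
  rwa [e] at h

theorem integral_weight (C : WgCalc m) (hH : IsInfHilbertian m) {h f : X → ℝ}
    (hh : IsSobolev m h) (hf : IsSobolev m f) (hhb : ∃ B : ℝ, ∀ᵐ x ∂m, |h x| ≤ B)
    (hfb : ∃ B : ℝ, ∀ᵐ x ∂m, |f x| ≤ B) :
    ∫ x, h x * minWeakGrad m f x ^ 2 ∂m =
      ∫ x, Dq m (fun y => f y * h y) f x ∂m - ∫ x, Dq m h (fun y => f y ^ 2 / 2) x ∂m := by
  rw [← integral_sub (C.integrable_Dq hH (C.sob_mul hf hh hfb hhb) hf)
    (C.integrable_Dq hH hh (C.sob_sq_half hf hfb))]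
  refine integral_congr_ae ?_
  filter_upwards [C.Dq_mul_left hH hf hh hf hfb hhb, C.Dq_sq_right hH hh hf hfb,
    C.Dq_self hH hf] with x a1 a2 a3
  rw [a1, a2, a3]; ring

theorem integral_weight_parallelogram (C : WgCalc m) (hH : IsInfHilbertian m) {h f g : X → ℝ}
    (hh : IsSobolev m h) (hf : IsSobolev m f) (hg : IsSobolev m g)
    (hhb : ∃ B : ℝ, ∀ᵐ x ∂m, |h x| ≤ B)
    (hfb : ∃ B : ℝ, ∀ᵐ x ∂m, |f x| ≤ B) (hgb : ∃ B : ℝ, ∀ᵐ x ∂m, |g x| ≤ B) :
    ∫ x, h x * minWeakGrad m (fun y => f y + g y) x ^ 2 ∂m +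
      ∫ x, h x * minWeakGrad m (fun y => f y - g y) x ^ 2 ∂m =
      2 * ∫ x, h x * minWeakGrad m f x ^ 2 ∂m + 2 * ∫ x, h x * minWeakGrad m g x ^ 2 ∂m := by
  have hp := C.sob_add hf hg
  have hs := C.sob_sub hf hg
  have hpb := bdd_add hfb hgb
  have hsb := bdd_sub hfb hgb
  rw [C.integral_weight hH hh hp hhb hpb, C.integral_weight hH hh hs hhb hsb,
    C.integral_weight hH hh hf hhb hfb, C.integral_weight hH hh hg hhb hgb]
  have hfh := C.sob_mul hf hh hfb hhb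
  have hgh := C.sob_mul hg hh hgb hhb
  have e1 : (fun y => (f y + g y) * h y) = fun y => f y * h y + g y * h y := by funext y; ring
  have e2 : (fun y => (f y - g y) * h y) = fun y => f y * h y - g y * h y := by funext y; ring
  rw [e1, e2, C.integral_Dq_add_left hH hfh hgh hp, C.integral_Dq_sub_left hH hfh hgh hs,
    C.integral_Dq_add_right hH hfh hf hg, C.integral_Dq_add_right hH hgh hf hg,
    C.integral_Dq_sub_right hH hfh hf hg, C.integral_Dq_sub_right hH hgh hf hg]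
  have hps := C.sob_sq_half hp hpb
  have hss := C.sob_sq_half hs hsb
  have hfs := C.sob_sq_half hf hfb
  have hgs := C.sob_sq_half hg hgb
  have h3 := C.integral_Dq_add_right hH hh hps hss
  have e3 : (fun y => (f y + g y) ^ 2 / 2 + (f y - g y) ^ 2 / 2) =
      fun y => (f y ^ 2 / 2 + f y ^ 2 / 2) + (g y ^ 2 / 2 + g y ^ 2 / 2) := by funext y; ring
  rw [e3, C.integral_Dq_add_right hH hh (C.sob_add hfs hfs) (C.sob_add hgs hgs),
    C.integral_Dq_add_right hH hh hfs hfs, C.integral_Dq_add_right hH hh hgs hgs] at h3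
  linarith

end WgCalc

end Crest.Agent.R242
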