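import Crest.Agent.R242.ParF

/-!
# Row 242, S11, part 5: the pointwise parallelogram law on `IsSobolevLoc`
-/

set_option autoImplicit false
set_option linter.unusedSectionVars false

open MeasureTheory Filter Set
open scoped ENNReal NNReal Topology
open Crest.GeometryTopology.SyntheticRicci

noncomputable section

namespace Crest.Agent.R242

variable {X : Type*} [MetricSpace X] [MeasurableSpace X] {m : Measure X}

/-- cut-off function: `1` on `ball o n`, `0` outside `closedBall o (n+1)`, `1`-Lipschitz. -/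
def cutf (o : X) (n : ℕ) (x : X) : ℝ := max 0 (min 1 ((n : ℝ) + 1 - dist x o))

theorem cutf_nonneg (o : X) (n : ℕ) (x : X) : 0 ≤ cutf o n x := le_max_left _ _

theorem cutf_le_one (o : X) (n : ℕ) (x : X) : cutf o n x ≤ 1 :=
  max_le zero_le_one (min_le_left _ _)

theorem cutf_abs_le (o : X) (n : ℕ) (x : X) : |cutf o n x| ≤ 1 := by
  rw [abs_of_nonneg (cutf_nonneg o n x)]; exact cutf_le_one o n x

theorem cutf_eq_one {o : X} {n : ℕ} {x : X} (h : x ∈ Metric.ball o n) : cutf o n x = 1 := by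
  unfold cutf
  rw [Metric.mem_ball] at h
  rw [min_eq_left (by linarith)]
  simp

theorem cutf_eq_zero {o : X} {n : ℕ} {x : X} (h : x ∉ Metric.closedBall o ((n : ℝ) + 1)) :
    cutf o n x = 0 := by
  unfold cutf
  rw [Metric.mem_closedBall, not_le] at h
  rw [max_eq_left]
  exact (min_le_right _ _).trans (by linarith)

theorem cutf_lip (o : X) (n : ℕ) : LipschitzWith 1 (cutf o n) := by
  have h1 : LipschitzWith 1 (fun x : X => (n : ℝ) + 1 - dist x o) := by
    refine LipschitzWith.of_dist_le_mul fun x y => ?_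
    rw [Real.dist_eq]
    have e : (n : ℝ) + 1 - dist x o - ((n : ℝ) + 1 - dist y o) = -(dist x o - dist y o) := by ring
    rw [e, abs_neg, NNReal.coe_one, one_mul]
    exact abs_dist_sub_le x y o
  exact (h1.const_min 1).const_max 0

theorem cl_lip (M : ℝ) : LipschitzWith 1 (ParF.cl M) :=
  (LipschitzWith.id.const_min M).const_max (-M)

namespace WgCalc

/-- truncation and cut-off of a locally Sobolev function. -/
theorem sob_trunc [BorelSpace X] (C : WgCalc m) {f : X → ℝ} (hf : IsSobolevLoc m f) (o : X)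
    (n : ℕ) : IsSobolev m (fun x => cutf o n x * ParF.cl n (f x)) := by
  have hc := C.lip 1 _ (cutf_lip o n)
  have ht := C.comp _ 1 f (cl_lip (n : ℝ)) hf
  have h1 := C.mul _ _ hc.1 ht.1 ⟨1, Eventually.of_forall (cutf_abs_le o n)⟩
    ⟨n, Eventually.of_forall fun x => ParF.cl_abs_le (Nat.cast_nonneg n) _⟩
  refine C.sob_of_bddSupp h1.1 ⟨o, (n : ℝ) + 1, Eventually.of_forall fun x hx => ?_⟩
  simp only
  rw [cutf_eq_zero hx, zero_mul]

theorem trunc_bdd (f : X → ℝ) (o : X) (n : ℕ) :
    ∃ B : ℝ, ∀ᵐ x ∂m, |cutf o n x * ParF.cl n (f x)| ≤ B := by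
  refine ⟨1 * n, Eventually.of_forall fun x => ?_⟩
  rw [abs_mul]
  exact mul_le_mul (cutf_abs_le o n x) (ParF.cl_abs_le (Nat.cast_nonneg n) _) (abs_nonneg _)
    zero_le_one

theorem trunc_eq {f : X → ℝ} {o : X} {n : ℕ} {x : X} (hx : x ∈ Metric.ball o n)
    (h : |f x| ≤ n) : cutf o n x * ParF.cl n (f x) = f x := by
  rw [cutf_eq_one hx, ParF.cl_eq h, one_mul]

theorem parallelogram_bdd [ProperSpace X] [BorelSpace X] (C : WgCalc m)
    (hH : IsInfHilbertian m) {f g : X → ℝ} (hf : IsSobolev m f) (hg : IsSobolev m g)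
    (hfb : ∃ B : ℝ, ∀ᵐ x ∂m, |f x| ≤ B) (hgb : ∃ B : ℝ, ∀ᵐ x ∂m, |g x| ≤ B) :
    ∀ᵐ x ∂m, minWeakGrad m (fun y => f y + g y) x ^ 2 + minWeakGrad m (fun y => f y - g y) x ^ 2 =
      2 * minWeakGrad m f x ^ 2 + 2 * minWeakGrad m g x ^ 2 := by
  rcases isEmpty_or_nonempty X with hX | ⟨⟨o⟩⟩
  · have : m = 0 := Measure.eq_zero_of_isEmpty m
    subst this
    simp
  have hp := C.sob_add hf hg
  have hs := C.sob_sub hf hg
  set R : X → ℝ := fun x => minWeakGrad m (fun y => f y + g y) x ^ 2 +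
    minWeakGrad m (fun y => f y - g y) x ^ 2 -
    (2 * minWeakGrad m f x ^ 2 + 2 * minWeakGrad m g x ^ 2) with hR
  have hRi : Integrable R m :=
    ((sob_int_sq hp).add (sob_int_sq hs)).sub
      (((sob_int_sq hf).const_mul 2).add ((sob_int_sq hg).const_mul 2))
  -- weighted integrals vanish
  have hw : ∀ h : X → ℝ, IsSobolev m h → (∀ x, |h x| ≤ 1) → ∫ x, h x * R x ∂m = 0 := by
    intro h hh hb
    have hi : ∀ u : X → ℝ, IsSobolev m u → Integrable (fun x => h x * minWeakGrad m u x ^ 2) m := by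
      intro u hu
      refine (sob_int_sq hu).bdd_mul (c := 1) hh.1.1 (Eventually.of_forall fun x => ?_)
      rw [Real.norm_eq_abs]; exact hb x
    have h1 := C.integral_weight_parallelogram hH hh hf hg ⟨1, Eventually.of_forall hb⟩ hfb hgb
    have e : ∫ x, h x * R x ∂m =
        (∫ x, h x * minWeakGrad m (fun y => f y + g y) x ^ 2 ∂m +
          ∫ x, h x * minWeakGrad m (fun y => f y - g y) x ^ 2 ∂m) -
        (2 * ∫ x, h x * minWeakGrad m f x ^ 2 ∂m + 2 * ∫ x, h x * minWeakGrad m g x ^ 2 ∂m) := by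
      have a1 := integral_add (hi _ hp) (hi _ hs)
      have a2 := integral_add ((hi _ hf).const_mul 2) ((hi _ hg).const_mul 2)
      have a3 := integral_sub ((hi _ hp).add (hi _ hs))
        (((hi _ hf).const_mul 2).add ((hi _ hg).const_mul 2))
      simp only [Pi.add_apply] at a3
      rw [a1, a2, integral_const_mul, integral_const_mul] at a3
      rw [← a3]
      refine integral_congr_ae (Eventually.of_forall fun x => ?_)
      simp only [hR]
      ring
    rw [e, h1, sub_self]
  have hR0 : R =ᵐ[m] 0 := by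
    refine ae_eq_zero_of_forall_setIntegral_isCompact_eq_zero hRi fun s hs' => ?_
    have hδ : ∀ n : ℕ, (0 : ℝ) < 1 / ((n : ℝ) + 1) := fun n => by positivity
    have hbdd : ∀ n : ℕ, IsSobolev m (fun x => ((thickenedIndicator (hδ n) s x : ℝ≥0) : ℝ)) := by
      intro n
      obtain ⟨K, hK⟩ : ∃ K : ℝ≥0, LipschitzWith K
          (fun x => ((thickenedIndicator (hδ n) s x : ℝ≥0) : ℝ)) :=
        ⟨_, LipschitzWith.of_dist_le_mul fun x y =>
          (lipschitzWith_thickenedIndicator (hδ n) s).dist_le_mul x y⟩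
      refine C.sob_of_bddSupp (C.lip _ _ hK).1 ?_
      obtain ⟨r, hr⟩ := (Metric.isBounded_iff_subset_closedBall o).1
        (hs'.isBounded.thickening (δ := 1 / ((n : ℝ) + 1)))
      refine ⟨o, r, Eventually.of_forall fun x hx => ?_⟩
      simp only
      rw [thickenedIndicator_zero (hδ n) s fun hx' => hx (hr hx')]
      simp
    have hlim : Tendsto (fun n : ℕ => ∫ x, ((thickenedIndicator (hδ n) s x : ℝ≥0) : ℝ) * R x ∂m)
        atTop (𝓝 (∫ x, s.indicator (fun _ => (1 : ℝ)) x * R x ∂m)) := by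
      refine tendsto_integral_of_dominated_convergence (fun x => ‖R x‖) ?_ hRi.norm ?_ ?_
      · intro n
        exact (hbdd n).1.1.mul hRi.1
      · intro n
        refine Eventually.of_forall fun x => ?_
        rw [norm_mul]
        have h1 := thickenedIndicator_le_one (hδ n) s x
        have h2 : ‖((thickenedIndicator (hδ n) s x : ℝ≥0) : ℝ)‖ ≤ 1 := by
          rw [Real.norm_eq_abs, NNReal.abs_eq]; exact_mod_cast h1
        exact mul_le_of_le_one_left (norm_nonneg _) h2
      · refine Eventually.of_forall fun x => ?_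
        refine Tendsto.mul_const _ ?_
        have h1 := thickenedIndicator_tendsto_indicator_closure hδ
          tendsto_one_div_add_atTop_nhds_zero_nat s
        rw [hs'.isClosed.closure_eq, tendsto_pi_nhds] at h1
        have h2 := (NNReal.tendsto_coe.2 (h1 x))
        by_cases hx : x ∈ s
        · simpa [hx] using h2
        · simpa [hx] using h2
    have hz : ∀ n : ℕ, ∫ x, ((thickenedIndicator (hδ n) s x : ℝ≥0) : ℝ) * R x ∂m = 0 := fun n =>
      hw _ (hbdd n) fun x => by
        rw [NNReal.abs_eq]; exact_mod_cast thickenedIndicator_le_one (hδ n) s x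
    simp_rw [hz] at hlim
    have h0 := tendsto_nhds_unique hlim tendsto_const_nhds
    rw [← integral_indicator hs'.isClosed.measurableSet, ← h0]
    refine integral_congr_ae (Eventually.of_forall fun x => ?_)
    by_cases hx : x ∈ s
    · simp [hx]
    · simp [hx]
  filter_upwards [hR0] with x hx
  simp only [hR, Pi.zero_apply] at hx
  linarith

theorem parallelogram [ProperSpace X] [BorelSpace X] (C : WgCalc m)
    (hH : IsInfHilbertian m) {f g : X → ℝ} (hf : IsSobolevLoc m f) (hg : IsSobolevLoc m g) :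
    ∀ᵐ x ∂m, minWeakGrad m (fun y => f y + g y) x ^ 2 + minWeakGrad m (fun y => f y - g y) x ^ 2 =
      2 * minWeakGrad m f x ^ 2 + 2 * minWeakGrad m g x ^ 2 := by
  rcases isEmpty_or_nonempty X with hX | ⟨⟨o⟩⟩
  · have : m = 0 := Measure.eq_zero_of_isEmpty m
    subst this
    simp
  set F : ℕ → X → ℝ := fun n x => cutf o n x * ParF.cl n (f x) with hF
  set G : ℕ → X → ℝ := fun n x => cutf o n x * ParF.cl n (g x) with hG
  have hFn : ∀ n, IsSobolev m (F n) := fun n => C.sob_trunc hf o n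
  have hGn : ∀ n, IsSobolev m (G n) := fun n => C.sob_trunc hg o n
  have h1 : ∀ᵐ x ∂m, ∀ n, minWeakGrad m (fun y => F n y + G n y) x ^ 2 +
      minWeakGrad m (fun y => F n y - G n y) x ^ 2 =
      2 * minWeakGrad m (F n) x ^ 2 + 2 * minWeakGrad m (G n) x ^ 2 :=
    ae_all_iff.2 fun n => C.parallelogram_bdd hH (hFn n) (hGn n) (trunc_bdd f o n) (trunc_bdd g o n)
  have h2 : ∀ᵐ x ∂m, ∀ n, F n x = f x → minWeakGrad m (F n) x = minWeakGrad m f x :=
    ae_all_iff.2 fun n => C.loc _ _ (hFn n).2.1 hf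
  have h3 : ∀ᵐ x ∂m, ∀ n, G n x = g x → minWeakGrad m (G n) x = minWeakGrad m g x :=
    ae_all_iff.2 fun n => C.loc _ _ (hGn n).2.1 hg
  have h4 : ∀ᵐ x ∂m, ∀ n, F n x + G n x = f x + g x →
      minWeakGrad m (fun y => F n y + G n y) x = minWeakGrad m (fun y => f y + g y) x :=
    ae_all_iff.2 fun n => C.loc _ _ (C.sob_add (hFn n) (hGn n)).2.1 (C.add _ _ hf hg).1
  have h5 : ∀ᵐ x ∂m, ∀ n, F n x - G n x = f x - g x →
      minWeakGrad m (fun y => F n y - G n y) x = minWeakGrad m (fun y => f y - g y) x :=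
    ae_all_iff.2 fun n => C.loc _ _ (C.sob_sub (hFn n) (hGn n)).2.1 (C.sub hf hg)
  filter_upwards [h1, h2, h3, h4, h5] with x a1 a2 a3 a4 a5
  obtain ⟨n, hn⟩ := exists_nat_gt (max (dist x o) (max |f x| |g x|))
  have b0 : x ∈ Metric.ball o n := by
    rw [Metric.mem_ball]; exact (le_max_left _ _).trans_lt hn
  have b1 : |f x| ≤ n := ((le_max_left _ _).trans (le_max_right _ _)).trans hn.le
  have b2 : |g x| ≤ n := ((le_max_right _ _).trans (le_max_right _ _)).trans hn.le
  have c1 : F n x = f x := trunc_eq b0 b1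
  have c2 : G n x = g x := trunc_eq b0 b2
  have := a1 n
  rwa [a2 n c1, a3 n c2, a4 n (by rw [c1, c2]), a5 n (by rw [c1, c2])] at this

end WgCalc

end Crest.Agent.R242
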