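import Crest.Agent.R242.Defs

/-!
Row 242: the truncated entropy functional `Φ_C` and its lower semicontinuity (used in [MID]).
-/

set_option autoImplicit false

open MeasureTheory Filter Set
open scoped ENNReal NNReal Topology BoundedContinuousFunction
open InformationTheory

noncomputable section

namespace Crest.Agent.R242

/-- entropy integrand, continued linearly above level `C`. -/
def uC (C r : ℝ) : ℝ := if r ≤ C then klFun r else klFun C + Real.log C * (r - C)

lemma uC_of_le {C r : ℝ} (h : r ≤ C) : uC C r = klFun r := by simp [uC, h]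

lemma uC_of_ge {C r : ℝ} (h : C ≤ r) : uC C r = klFun C + Real.log C * (r - C) := by
  rcases h.eq_or_lt with rfl | h'
  · simp [uC]
  · simp [uC, not_le.mpr h']

/-- tangent line inequality for `klFun`: `klFun r ≥ v r - (e^v - 1)`. -/
lemma klFun_young {r : ℝ} (hr : 0 ≤ r) (v : ℝ) : v * r - (Real.exp v - 1) ≤ klFun r := by
  rcases hr.eq_or_lt with rfl | hr
  · simp [klFun]; positivity
  · have h1 : Real.log r - v + 1 ≥ 0 ∨ True := Or.inr trivial
    have h2 : 1 + (v - Real.log r) ≤ Real.exp (v - Real.log r) := by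
      have := Real.add_one_le_exp (v - Real.log r); linarith
    have h3 : Real.exp (v - Real.log r) * r = Real.exp v := by
      rw [Real.exp_sub, Real.exp_log hr]; field_simp
    have h4 : (1 + (v - Real.log r)) * r ≤ Real.exp v := by
      rw [← h3]; exact mul_le_mul_of_nonneg_right h2 hr.le
    unfold klFun
    nlinarith

lemma klFun_eq_young {r : ℝ} (hr : 0 < r) :
    klFun r = Real.log r * r - (Real.exp (Real.log r) - 1) := by
  rw [Real.exp_log hr]; unfold klFun; ring

lemma uC_young {C r v : ℝ} (hC : 0 < C) (hr : 0 ≤ r) (hv : v ≤ Real.log C) :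
    v * r - (Real.exp v - 1) ≤ uC C r := by
  rcases le_total r C with h | h
  · rw [uC_of_le h]; exact klFun_young hr v
  · rw [uC_of_ge h]
    have h1 := klFun_young hC.le v
    have h2 : v * (r - C) ≤ Real.log C * (r - C) :=
      mul_le_mul_of_nonneg_right hv (by linarith)
    nlinarith

lemma uC_eq_young {C r : ℝ} (hC : 0 < C) (hr : 0 < r) :
    uC C r = min (Real.log r) (Real.log C) * r -
      (Real.exp (min (Real.log r) (Real.log C)) - 1) := by
  rcases le_total r C with h | h
  · rw [uC_of_le h, min_eq_left (Real.log_le_log hr h)]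
    exact klFun_eq_young hr
  · rw [uC_of_ge h, min_eq_right (Real.log_le_log hC h), klFun_eq_young hC]
    ring

lemma uC_zero {C : ℝ} (hC : 0 ≤ C) : uC C 0 = 1 := by
  rw [uC_of_le hC]; simp [klFun]

lemma uC_nonneg {C r : ℝ} (hC : 1 ≤ C) (hr : 0 ≤ r) : 0 ≤ uC C r := by
  have := uC_young (C := C) (v := 0) (by linarith) hr (Real.log_nonneg hC)
  simpa using this

lemma continuous_uC {C : ℝ} : Continuous (uC C) := by
  unfold uC
  refine Continuous.if_le ?_ ?_ continuous_id continuous_const ?_
  · exact continuous_klFun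
  · fun_prop
  · intro x hx; subst hx; simp

/-- slope bound -/
lemma uC_sub_le {C r r' : ℝ} (hC : 0 < C) (hr : 0 ≤ r) (h : r ≤ r') :
    uC C r' - uC C r ≤ Real.log C * (r' - r) := by
  rcases h.eq_or_lt with rfl | hlt
  · simp
  have hr' : 0 < r' := lt_of_le_of_lt hr hlt
  rw [uC_eq_young hC hr']
  set v := min (Real.log r') (Real.log C) with hv
  have h1 := uC_young hC hr (v := v) (min_le_right _ _)
  have h2 : v * (r' - r) ≤ Real.log C * (r' - r) :=
    mul_le_mul_of_nonneg_right (min_le_right _ _) (by linarith)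
  nlinarith

/-- strict slope bound below level `C` -/
lemma uC_sub_lt {C r r' : ℝ} (hC : 0 < C) (hr : 0 ≤ r) (h : r < r') (hrC : r < C) :
    uC C r' - uC C r < Real.log C * (r' - r) := by
  -- go through the point `s = min r' ((r+C)/2)`
  set s := min r' ((r + C) / 2) with hs
  have hrs : r < s := lt_min h (by linarith)
  have hsC : s < C := lt_of_le_of_lt (min_le_right _ _) (by linarith)
  have hsr' : s ≤ r' := min_le_left _ _
  have hs0 : 0 < s := lt_of_le_of_lt hr hrs
  have h1 := uC_sub_le hC hs0.le hsr'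
  have h2 : uC C s - uC C r ≤ Real.log s * (s - r) := by
    rw [uC_eq_young hC hs0, min_eq_left (Real.log_le_log hs0 hsC.le)]
    have := uC_young hC hr (v := Real.log s) (Real.log_le_log hs0 hsC.le)
    nlinarith
  have h3 : Real.log s < Real.log C := Real.log_lt_log hs0 hsC
  have h4 : Real.log s * (s - r) < Real.log C * (s - r) :=
    mul_lt_mul_of_pos_right h3 (by linarith)
  nlinarith

lemma uC_sub_eq {C r r' : ℝ} (h : C ≤ r) (h' : C ≤ r') :
    uC C r' - uC C r = Real.log C * (r' - r) := by
  rw [uC_of_ge h, uC_of_ge h']; ring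

lemma uC_le_klFun {C r : ℝ} (hC : 0 < C) (hr : 0 ≤ r) : uC C r ≤ klFun r := by
  rcases hr.eq_or_lt with rfl | hr0
  · rw [uC_of_le hC.le]
  · rw [uC_eq_young hC hr0]; exact klFun_young hr _

lemma uC_le_linear {C r : ℝ} (hC : 1 ≤ C) (hr : 0 ≤ r) : uC C r ≤ 1 + Real.log C * r := by
  have := uC_sub_le (C := C) (by linarith) le_rfl hr
  rw [uC_zero (by linarith)] at this
  linarith


section Functional

variable {X : Type*} [MeasurableSpace X]

/-- `Φ_C(μ) = ∫ u_C(ρ) dκ + log C · μ^s(X)`. -/
def Phi (κ : Measure X) (C : ℝ) (μ : Measure X) : ℝ :=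
  ∫ x, uC C (μ.rnDeriv κ x).toReal ∂κ + Real.log C * (μ.singularPart κ).real univ

/-- the value of the dual functional at `v`. -/
def dualVal (κ μ : Measure X) (v : X → ℝ) : ℝ := ∫ x, v x ∂μ - ∫ x, (Real.exp (v x) - 1) ∂κ

lemma integrable_uC {κ : Measure X} [IsFiniteMeasure κ] {C : ℝ} (hC : 1 ≤ C) {f : X → ℝ≥0∞}
    (hf : Measurable f) (hfi : ∫⁻ x, f x ∂κ ≠ ⊤) :
    Integrable (fun x => uC C (f x).toReal) κ := by
  have h1 : Integrable (fun x => (f x).toReal) κ :=
    integrable_toReal_of_lintegral_ne_top hf.aemeasurable hfi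
  have h2 : Integrable (fun x => 1 + Real.log C * (f x).toReal) κ :=
    (integrable_const _).add (h1.const_mul _)
  refine h2.mono' ?_ ?_
  · exact (continuous_uC.measurable.comp hf.ennreal_toReal).aestronglyMeasurable
  · refine ae_of_all _ (fun x => ?_)
    rw [Real.norm_of_nonneg (uC_nonneg hC ENNReal.toReal_nonneg)]
    exact uC_le_linear hC ENNReal.toReal_nonneg

lemma Phi_of_decomp {κ μ s : Measure X} [IsFiniteMeasure κ] {f : X → ℝ≥0∞}
    (hf : Measurable f) (hs : s ⟂ₘ κ) (hμ : μ = s + κ.withDensity f) (C : ℝ) :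
    Phi κ C μ = ∫ x, uC C (f x).toReal ∂κ + Real.log C * s.real univ := by
  unfold Phi
  rw [← Measure.eq_singularPart hf hs hμ]
  congr 1
  refine integral_congr_ae ?_
  filter_upwards [Measure.eq_rnDeriv hf hs hμ] with x hx
  rw [hx]

lemma finite_of_decomp {κ μ s : Measure X} [IsFiniteMeasure μ] {f : X → ℝ≥0∞}
    (hμ : μ = s + κ.withDensity f) : IsFiniteMeasure s ∧ ∫⁻ x, f x ∂κ ≠ ⊤ := by
  have h : μ univ = s univ + (κ.withDensity f) univ := by rw [hμ]; rfl
  have h' : μ univ ≠ ⊤ := measure_ne_top _ _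
  rw [h] at h'
  rw [ENNReal.add_ne_top] at h'
  refine ⟨⟨lt_top_iff_ne_top.mpr h'.1⟩, ?_⟩
  have := h'.2
  rwa [withDensity_apply _ MeasurableSet.univ, Measure.restrict_univ] at this

/-- integral against a decomposed measure. -/
lemma integral_decomp {κ μ s : Measure X} [IsFiniteMeasure κ] [IsFiniteMeasure μ]
    {f : X → ℝ≥0∞} (hf : Measurable f) (hμ : μ = s + κ.withDensity f) {v : X → ℝ}
    (hv : Measurable v) {b : ℝ} (hb : ∀ x, |v x| ≤ b) :
    ∫ x, v x ∂μ = ∫ x, v x ∂s + ∫ x, v x * (f x).toReal ∂κ ∧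
      Integrable (fun x => v x * (f x).toReal) κ := by
  obtain ⟨hs, hfi⟩ := finite_of_decomp hμ
  have hft : ∀ᵐ x ∂κ, f x < ⊤ := ae_lt_top hf hfi
  have hfin : IsFiniteMeasure (κ.withDensity f) := isFiniteMeasure_withDensity hfi
  have hvs : ∀ (η : Measure X) [IsFiniteMeasure η], Integrable v η := fun η _ =>
    Integrable.of_bound hv.aestronglyMeasurable b (ae_of_all _ hb)
  have h1 : Integrable (fun x => (f x).toReal) κ :=
    integrable_toReal_of_lintegral_ne_top hf.aemeasurable hfi
  constructor
  · rw [hμ, integral_add_measure (hvs s) (hvs _),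
      integral_withDensity_eq_integral_toReal_smul hf hft]
    simp only [smul_eq_mul, mul_comm]
  · exact h1.bdd_mul hv.aestronglyMeasurable (ae_of_all _ hb)

lemma dualVal_le_Phi {κ μ : Measure X} [IsFiniteMeasure κ] [IsFiniteMeasure μ] {C : ℝ}
    (hC : 1 ≤ C) {v : X → ℝ} (hv : Measurable v) {b : ℝ} (hb : ∀ x, |v x| ≤ b)
    (hvC : ∀ x, v x ≤ Real.log C) : dualVal κ μ v ≤ Phi κ C μ := by
  set s := μ.singularPart κ with hs
  set f := μ.rnDeriv κ with hf
  have hfm : Measurable f := Measure.measurable_rnDeriv _ _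
  have hμ : μ = s + κ.withDensity f := (Measure.singularPart_add_rnDeriv μ κ).symm
  obtain ⟨hsf, hfi⟩ := finite_of_decomp hμ
  obtain ⟨h1, h2⟩ := integral_decomp hfm hμ hv hb
  have hexp : Integrable (fun x => Real.exp (v x) - 1) κ := by
    refine Integrable.of_bound (by fun_prop) (Real.exp b + 1) (ae_of_all _ fun x => ?_)
    rw [Real.norm_eq_abs, abs_le]
    have := Real.exp_pos (v x)
    have h3 : Real.exp (v x) ≤ Real.exp b := Real.exp_le_exp.mpr ((le_abs_self _).trans (hb x))
    have h4 := Real.exp_pos b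
    constructor <;> linarith
  unfold dualVal
  have h3 : ∫ x, v x ∂s ≤ Real.log C * s.real univ := by
    calc ∫ x, v x ∂s ≤ ∫ _, Real.log C ∂s := by
          refine integral_mono (Integrable.of_bound hv.aestronglyMeasurable b (ae_of_all _ hb))
            (integrable_const _) hvC
      _ = Real.log C * s.real univ := by simp [mul_comm]
  have h4 : ∫ x, v x * (f x).toReal ∂κ - ∫ x, (Real.exp (v x) - 1) ∂κ ≤
      ∫ x, uC C (f x).toReal ∂κ := by
    rw [← integral_sub h2 hexp]
    refine integral_mono (h2.sub hexp) (integrable_uC hC hfm hfi) (fun x => ?_)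
    exact uC_young (by linarith) ENNReal.toReal_nonneg (hvC x)
  rw [h1]
  unfold Phi
  linarith

lemma exp_sub_le {C a b : ℝ} (hC : 0 < C) (ha : a ≤ Real.log C) (hb : b ≤ Real.log C) :
    |Real.exp a - Real.exp b| ≤ C * |a - b| := by
  have key : ∀ a b : ℝ, a ≤ Real.log C → Real.exp a - Real.exp b ≤ C * |a - b| := by
    intro a b ha
    have h1 : Real.exp a ≤ C := (Real.le_log_iff_exp_le hC).mp ha
    have h2 : Real.exp b ≥ Real.exp a * (1 + (b - a)) := by
      have : Real.exp b = Real.exp a * Real.exp (b - a) := by rw [← Real.exp_add]; ring_nf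
      rw [this]
      exact mul_le_mul_of_nonneg_left (by linarith [Real.add_one_le_exp (b - a)])
        (Real.exp_pos a).le
    have h3 : Real.exp a * (a - b) ≤ C * |a - b| :=
      (mul_le_mul_of_nonneg_left (le_abs_self _) (Real.exp_pos a).le).trans
        (mul_le_mul_of_nonneg_right h1 (abs_nonneg _))
    nlinarith
  rw [abs_le]
  constructor
  · have := key b a hb
    rw [abs_sub_comm] at this; linarith
  · exact key a b ha

/-- pointwise near-optimal exponent: `log` of the clamp of `r` to `[e^{-n}, C]`. -/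
lemma clamp_val {C r : ℝ} (hC : 1 ≤ C) (hr : 0 ≤ r) (n : ℕ) :
    uC C r - Real.exp (-n) ≤
      Real.log (min (max r (Real.exp (-n))) C) * r -
        (Real.exp (Real.log (min (max r (Real.exp (-n))) C)) - 1) := by
  have hC0 : 0 < C := by linarith
  have hE : 0 < Real.exp (-(n : ℝ)) := Real.exp_pos _
  have hE1 : Real.exp (-(n : ℝ)) ≤ 1 := by
    rw [Real.exp_le_one_iff]; simp
  rcases le_total (Real.exp (-(n : ℝ))) r with h | h
  · rw [max_eq_left h]
    have hr0 : 0 < r := lt_of_lt_of_le hE h
    rw [uC_eq_young hC0 hr0]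
    rcases le_total r C with h' | h'
    · rw [min_eq_left h', min_eq_left (Real.log_le_log hr0 h')]; linarith
    · rw [min_eq_right h', min_eq_right (Real.log_le_log hC0 h')]; linarith
  · rw [max_eq_right h, min_eq_left (hE1.trans hC), Real.log_exp, uC_of_le (h.trans (hE1.trans hC))]
    unfold klFun
    have : r * Real.log r ≤ r * (-(n : ℝ)) := by
      rcases hr.eq_or_lt with rfl | hr0
      · simp
      · refine mul_le_mul_of_nonneg_left ?_ hr
        calc Real.log r ≤ Real.log (Real.exp (-(n : ℝ))) := Real.log_le_log hr0 h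
          _ = _ := Real.log_exp _
    nlinarith

end Functional

section Topological

variable {X : Type*} [PseudoMetricSpace X] [MeasurableSpace X] [BorelSpace X]

lemma exists_dualVal_gt {κ μ : Measure X} [IsFiniteMeasure κ] [IsFiniteMeasure μ] {C : ℝ}
    (hC : 1 ≤ C) {ε : ℝ} (hε : 0 < ε) :
    ∃ v : X →ᵇ ℝ, (∀ x, v x ≤ Real.log C) ∧ Phi κ C μ - ε < dualVal κ μ v := by
  classical
  have hC0 : 0 < C := by linarith
  set s := μ.singularPart κ with hs
  set f := μ.rnDeriv κ with hf
  have hfm : Measurable f := Measure.measurable_rnDeriv _ _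
  have hμ : μ = s + κ.withDensity f := (Measure.singularPart_add_rnDeriv μ κ).symm
  obtain ⟨hsf, hfi⟩ := finite_of_decomp hμ
  have hms : s ⟂ₘ κ := Measure.mutuallySingular_singularPart μ κ
  set S : Set X := hms.nullSetᶜ with hS
  have hSm : MeasurableSet S := hms.measurableSet_nullSet.compl
  have hκS : κ S = 0 := hms.measure_compl_nullSet
  have hsS : s Sᶜ = 0 := by rw [hS, compl_compl]; exact hms.measure_nullSet
  -- choose n
  obtain ⟨n, hn⟩ : ∃ n : ℕ, Real.exp (-(n : ℝ)) * κ.real univ < ε / 2 := by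
    have h1 : Tendsto (fun n : ℕ => Real.exp (-(n : ℝ)) * κ.real univ) atTop (𝓝 (0 * κ.real univ)) :=
      (Real.tendsto_exp_neg_atTop_nhds_zero.comp tendsto_natCast_atTop_atTop).mul_const _
    rw [zero_mul] at h1
    exact (h1.eventually (gt_mem_nhds (by positivity : (0 : ℝ) < ε / 2))).exists
  set w0 : X → ℝ := fun x => Real.log (min (max (f x).toReal (Real.exp (-n))) C) with hw0
  set w : X → ℝ := fun x => if x ∈ S then Real.log C else w0 x with hw
  have hE : 0 < Real.exp (-(n : ℝ)) := Real.exp_pos _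
  have hE1 : Real.exp (-(n : ℝ)) ≤ 1 := by
    rw [Real.exp_le_one_iff]; simp
  have hw0m : Measurable w0 := by
    apply Real.measurable_log.comp
    exact (hfm.ennreal_toReal.max measurable_const).min measurable_const
  have hwm : Measurable w := Measurable.ite hSm measurable_const hw0m
  have hw0C : ∀ x, w0 x ≤ Real.log C := fun x =>
    Real.log_le_log (lt_min (lt_of_lt_of_le hE (le_max_right _ _)) hC0) (min_le_right _ _)
  have hw0n : ∀ x, -(n : ℝ) ≤ w0 x := fun x => by
    rw [← Real.log_exp (-(n : ℝ))]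
    exact Real.log_le_log hE (le_min (le_max_right _ _) (hE1.trans hC))
  have hlogC : 0 ≤ Real.log C := Real.log_nonneg hC
  have hwC : ∀ x, w x ≤ Real.log C := fun x => by
    simp only [hw]; split_ifs
    · exact le_rfl
    · exact hw0C x
  have hwn : ∀ x, -(n : ℝ) ≤ w x := fun x => by
    simp only [hw]; split_ifs
    · have : (0:ℝ) ≤ n := Nat.cast_nonneg n
      linarith
    · exact hw0n x
  set b : ℝ := n + Real.log C with hb
  have habs : ∀ t : ℝ, -(n : ℝ) ≤ t → t ≤ Real.log C → |t| ≤ b := fun t h1 h2 => by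
    have : (0:ℝ) ≤ n := Nat.cast_nonneg n
    rw [abs_le]; constructor <;> simp only [hb] <;> linarith
  have hwb : ∀ x, |w x| ≤ b := fun x => habs _ (hwn x) (hwC x)
  have hexpI : ∀ v : X → ℝ, Measurable v → (∀ x, |v x| ≤ b) →
      Integrable (fun x => Real.exp (v x) - 1) κ := by
    intro v hvm hvb
    refine Integrable.of_bound (by fun_prop) (Real.exp b + 1) (ae_of_all _ fun x => ?_)
    rw [Real.norm_eq_abs, abs_le]
    have := Real.exp_pos (v x)
    have h3 : Real.exp (v x) ≤ Real.exp b := Real.exp_le_exp.mpr ((le_abs_self _).trans (hvb x))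
    have h4 := Real.exp_pos b
    constructor <;> linarith
  -- value at `w`
  have hval : Phi κ C μ - ε / 2 < dualVal κ μ w := by
    obtain ⟨h1, h2⟩ := integral_decomp hfm hμ hwm hwb
    unfold dualVal
    rw [h1]
    have h3 : ∫ x, w x ∂s = Real.log C * s.real univ := by
      have : ∀ᵐ x ∂s, w x = Real.log C := by
        have : ∀ᵐ x ∂s, x ∈ S := by
          rw [ae_iff]; exact hsS
        filter_upwards [this] with x hx
        simp [hw, hx]
      rw [integral_congr_ae this]
      simp [mul_comm]
    have h4 : ∫ x, uC C (f x).toReal ∂κ - Real.exp (-(n : ℝ)) * κ.real univ ≤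
        ∫ x, w x * (f x).toReal ∂κ - ∫ x, (Real.exp (w x) - 1) ∂κ := by
      rw [← integral_sub h2 (hexpI w hwm hwb)]
      have : Real.exp (-(n : ℝ)) * κ.real univ = ∫ _, Real.exp (-(n : ℝ)) ∂κ := by
        simp [mul_comm]
      rw [this, ← integral_sub (integrable_uC hC hfm hfi) (integrable_const _)]
      refine integral_mono_ae ((integrable_uC hC hfm hfi).sub (integrable_const _))
        (h2.sub (hexpI w hwm hwb)) ?_
      have hnS : ∀ᵐ x ∂κ, x ∉ S := by
        rw [ae_iff]; simpa using hκS
      filter_upwards [hnS] with x hx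
      simp only [hw, hx, if_false, hw0]
      exact clamp_val hC ENNReal.toReal_nonneg n
    unfold Phi
    rw [h3]
    linarith
  -- approximation by continuous functions
  set η : ℝ := ε / (4 * (1 + C)) with hη
  have hη0 : 0 < η := by positivity
  have hwi : Integrable w (μ + κ) :=
    Integrable.of_bound hwm.aestronglyMeasurable b (ae_of_all _ hwb)
  obtain ⟨g, hg, -⟩ := hwi.exists_boundedContinuous_integral_sub_le hη0
  -- clamp
  let v : X →ᵇ ℝ := BoundedContinuousFunction.ofNormedAddCommGroup
    (fun x => max (-(n : ℝ)) (min (g x) (Real.log C))) (by fun_prop) b (by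
      intro x
      rw [Real.norm_eq_abs]
      have : (0:ℝ) ≤ n := Nat.cast_nonneg n
      exact habs _ (le_max_left _ _) (max_le (by linarith) (min_le_right _ _)))
  have hv : ∀ x, v x = max (-(n : ℝ)) (min (g x) (Real.log C)) := fun x => rfl
  have hn0 : (0:ℝ) ≤ n := Nat.cast_nonneg n
  have hvC : ∀ x, v x ≤ Real.log C := fun x => by
    rw [hv]; exact max_le (by linarith) (min_le_right _ _)
  have hvn : ∀ x, -(n : ℝ) ≤ v x := fun x => by rw [hv]; exact le_max_left _ _
  have hvb : ∀ x, |v x| ≤ b := fun x => habs _ (hvn x) (hvC x)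
  have hvw : ∀ x, |v x - w x| ≤ |w x - g x| := fun x => by
    rw [hv, abs_sub_comm (w x) (g x)]
    have h1 := hwn x; have h2 := hwC x
    rcases le_total (g x) (Real.log C) with h3 | h3
    · rw [min_eq_left h3]
      rcases le_total (g x) (-(n:ℝ)) with h4 | h4
      · rw [max_eq_left h4]
        rw [abs_of_nonpos (by linarith), abs_of_nonpos (by linarith)]
        linarith
      · rw [max_eq_right h4]
    · rw [min_eq_right h3, max_eq_right (by linarith)]
      rw [abs_of_nonneg (by linarith), abs_of_nonneg (by linarith)]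
      linarith
  have hvm : Measurable v := v.continuous.measurable
  have hdiff : ∀ (ν : Measure X) [IsFiniteMeasure ν], Integrable (fun x => |v x - w x|) ν := by
    intro ν _
    have h5 : Integrable (fun x => v x - w x) ν :=
      (Integrable.of_bound hvm.aestronglyMeasurable b (ae_of_all _ hvb)).sub
        (Integrable.of_bound hwm.aestronglyMeasurable b (ae_of_all _ hwb))
    exact h5.abs
  have hsum : ∫ x, |v x - w x| ∂μ + ∫ x, |v x - w x| ∂κ ≤ η := by
    rw [← integral_add_measure (hdiff μ) (hdiff κ)]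
    refine le_trans ?_ hg
    refine integral_mono (hdiff _) ?_ (fun x => ?_)
    · exact (hwi.sub (g.integrable _)).norm
    · simp only [Real.norm_eq_abs]; exact hvw x
  have hI1 : 0 ≤ ∫ x, |v x - w x| ∂μ := integral_nonneg fun x => abs_nonneg _
  have hI2 : 0 ≤ ∫ x, |v x - w x| ∂κ := integral_nonneg fun x => abs_nonneg _
  refine ⟨v, hvC, ?_⟩
  have hd1 : ∫ x, w x ∂μ - ∫ x, |v x - w x| ∂μ ≤ ∫ x, v x ∂μ := by
    have hwI : Integrable w μ := Integrable.of_bound hwm.aestronglyMeasurable b (ae_of_all _ hwb)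
    have hvI : Integrable v μ := Integrable.of_bound hvm.aestronglyMeasurable b (ae_of_all _ hvb)
    rw [← integral_sub hwI (hdiff μ)]
    refine integral_mono (hwI.sub (hdiff μ)) hvI (fun x => ?_)
    have := neg_abs_le (v x - w x)
    simp only; linarith
  have hd2 : ∫ x, (Real.exp (v x) - 1) ∂κ ≤
      ∫ x, (Real.exp (w x) - 1) ∂κ + C * ∫ x, |v x - w x| ∂κ := by
    rw [← integral_const_mul, ← integral_add (hexpI w hwm hwb) ((hdiff κ).const_mul C)]
    refine integral_mono (hexpI v hvm hvb) ((hexpI w hwm hwb).add ((hdiff κ).const_mul C))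
      (fun x => ?_)
    have := (le_abs_self _).trans (exp_sub_le hC0 (hvC x) (hwC x))
    simp only; linarith
  unfold dualVal at hval ⊢
  have hfin : (1 + C) * η = ε / 4 := by
    rw [hη]; field_simp
  have h7 : ∫ x, |v x - w x| ∂μ + C * ∫ x, |v x - w x| ∂κ ≤ (1 + C) * η := by
    nlinarith
  linarith

/-- the dual functional is weakly continuous. -/
lemma continuous_dualVal (κ : Measure X) (v : X →ᵇ ℝ) :
    Continuous (fun μ : ProbabilityMeasure X => dualVal κ (μ : Measure X) v) := by
  unfold dualVal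
  refine Continuous.sub ?_ continuous_const
  exact continuous_iff_continuousAt.mpr fun μ =>
    (ProbabilityMeasure.tendsto_iff_forall_integral_tendsto.mp tendsto_id) v

/-- lower semicontinuity of `Φ_C`. -/
lemma lowerSemicontinuous_Phi (κ : Measure X) [IsFiniteMeasure κ] {C : ℝ} (hC : 1 ≤ C) :
    LowerSemicontinuous (fun μ : ProbabilityMeasure X => Phi κ C (μ : Measure X)) := by
  intro μ y hy
  obtain ⟨v, hvC, hv⟩ := exists_dualVal_gt (κ := κ) (μ := (μ : Measure X)) hC
    (sub_pos.mpr hy)
  have hv' : y < dualVal κ (μ : Measure X) v := by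
    have : Phi κ C (μ : Measure X) - (Phi κ C (μ : Measure X) - y) = y := by ring
    rw [this] at hv; exact hv
  have := ((continuous_dualVal κ v).tendsto μ).eventually (lt_mem_nhds hv')
  filter_upwards [this] with μ' hμ'
  refine lt_of_lt_of_le hμ' ?_
  exact dualVal_le_Phi hC v.continuous.measurable (b := ‖v‖) (fun x => v.norm_coe_le_norm x) hvC

end Topological

end Crest.Agent.R242
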