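import Crest.Agent.R242.Defs

/-!
# Weak sequential compactness in `L²` (row 242, for S8)
-/

set_option autoImplicit false

open MeasureTheory Filter Set
open scoped ENNReal NNReal Topology
open Crest.GeometryTopology.SyntheticRicci

namespace Crest.Agent.R242

theorem exists_weak_subseq {H : Type*} [NormedAddCommGroup H] [InnerProductSpace ℝ H]
    [CompleteSpace H] [TopologicalSpace.SeparableSpace H] {u : ℕ → H} {C : ℝ}
    (hu : ∀ n, ‖u n‖ ≤ C) :
    ∃ (v : H) (φ : ℕ → ℕ), StrictMono φ ∧ ‖v‖ ≤ C ∧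
      ∀ w : H, Tendsto (fun n => inner ℝ (u (φ n)) w) atTop (𝓝 (inner ℝ v w)) := by
  have hs := WeakDual.isSeqCompact_closedBall ℝ H (0 : StrongDual ℝ H) C
  let x : ℕ → WeakDual ℝ H := fun n =>
    StrongDual.toWeakDual (InnerProductSpace.toDual ℝ H (u n))
  have hx : ∀ n, x n ∈ WeakDual.toStrongDual ⁻¹' Metric.closedBall (0 : StrongDual ℝ H) C := by
    intro n
    simp only [mem_preimage, Metric.mem_closedBall, dist_zero_right]
    calc ‖WeakDual.toStrongDual (x n)‖ = ‖InnerProductSpace.toDual ℝ H (u n)‖ := rfl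
      _ = ‖u n‖ := (InnerProductSpace.toDual ℝ H).norm_map (u n)
      _ ≤ C := hu n
  obtain ⟨a, ha, φ, hφ, hlim⟩ := hs hx
  refine ⟨(InnerProductSpace.toDual ℝ H).symm (WeakDual.toStrongDual a), φ, hφ, ?_, ?_⟩
  · rw [LinearIsometryEquiv.norm_map]
    simpa using ha
  · intro w
    have h1 : Tendsto (fun n => (x (φ n)) w) atTop (𝓝 (a w)) :=
      ((WeakDual.eval_continuous w).tendsto a).comp hlim
    have h2 : inner ℝ ((InnerProductSpace.toDual ℝ H).symm (WeakDual.toStrongDual a)) w = a w := by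
      rw [InnerProductSpace.toDual_symm_apply]
      rfl
    rw [h2]
    exact h1

section L2

variable {X : Type*} [MeasurableSpace X] {μ : Measure X}

theorem exists_weak_limit_L2 [MeasurableSpace.CountablyGenerated X] [SFinite μ] {D : ℕ → X → ℝ}
    (hD : ∀ n, MemLp (D n) 2 μ) {C : ℝ≥0} (hC : ∀ n, eLpNorm (D n) 2 μ ≤ C) :
    ∃ (D' : X → ℝ) (φ : ℕ → ℕ), StrictMono φ ∧ Measurable D' ∧ MemLp D' 2 μ ∧
      eLpNorm D' 2 μ ≤ C ∧ ∀ h : X → ℝ, MemLp h 2 μ → Tendsto (fun n => ∫ x, D (φ n) x * h x ∂μ) atTop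
        (𝓝 (∫ x, D' x * h x ∂μ)) := by
  have : Fact ((2 : ℝ≥0∞) ≠ ⊤) := ⟨by simp⟩
  have hu : ∀ n, ‖(hD n).toLp (D n)‖ ≤ (C : ℝ) := by
    intro n
    rw [Lp.norm_toLp]
    exact ENNReal.toReal_le_coe_of_le_coe (hC n)
  obtain ⟨v, φ, hφ, hv, hlim⟩ := exists_weak_subseq hu
  refine ⟨v, φ, hφ, (Lp.stronglyMeasurable v).measurable, Lp.memLp v, ?_, ?_⟩
  · rw [Lp.norm_def] at hv
    have hne : eLpNorm (v : X → ℝ) 2 μ ≠ ⊤ := (Lp.memLp v).2.ne
    rw [← ENNReal.ofReal_toReal hne]
    calc ENNReal.ofReal (eLpNorm (v : X → ℝ) 2 μ).toReal ≤ ENNReal.ofReal C :=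
          ENNReal.ofReal_le_ofReal hv
      _ = C := ENNReal.ofReal_coe_nnreal
  · intro h hh
    have h1 := hlim (hh.toLp h)
    have e : ∀ (f : Lp ℝ 2 μ) (g : X → ℝ), f =ᵐ[μ] g →
        inner ℝ f (hh.toLp h) = ∫ x, g x * h x ∂μ := by
      intro f g hfg
      rw [L2.inner_def]
      apply integral_congr_ae
      filter_upwards [hfg, hh.coeFn_toLp] with x h1 h2
      rw [h1, h2]
      simp [mul_comm]
    rw [e v v (ae_eq_refl _)] at h1
    refine h1.congr fun n => ?_
    exact e _ _ (hD (φ n)).coeFn_toLp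

theorem eLpNorm_two_eq (f : X → ℝ) (μ : Measure X) :
    eLpNorm f 2 μ = (∫⁻ x, ENNReal.ofReal (f x ^ 2) ∂μ) ^ (1 / 2 : ℝ) := by
  rw [eLpNorm_eq_lintegral_rpow_enorm_toReal (by simp) (by simp)]
  simp only [ENNReal.toReal_ofNat, ENNReal.rpow_ofNat]
  congr 1
  refine lintegral_congr fun x => ?_
  rw [← sq_abs (f x), ENNReal.ofReal_pow (abs_nonneg _), ← Real.enorm_eq_ofReal_abs]

theorem memLp_two_iff {f : X → ℝ} {μ : Measure X} : MemLp f 2 μ ↔
    AEStronglyMeasurable f μ ∧ ∫⁻ x, ENNReal.ofReal (f x ^ 2) ∂μ < ⊤ := by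
  unfold MemLp
  rw [eLpNorm_two_eq]
  refine and_congr_right fun _ => ?_
  rw [ENNReal.rpow_lt_top_iff_of_pos (by norm_num)]

end L2

section Local

variable {X : Type*} [MetricSpace X] [ProperSpace X] [MeasurableSpace X] [BorelSpace X]
  {m : Measure X}

theorem locallyFinite_of_finiteOnBalls (hfin : IsFiniteOnBalls m) : IsLocallyFiniteMeasure m :=
  ⟨fun x => ⟨Metric.ball x 1, Metric.ball_mem_nhds x one_pos, hfin x 1⟩⟩

theorem aesm_of_isL2OnBalls {f : X → ℝ} (hf : IsL2OnBalls m f) : AEStronglyMeasurable f m := by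
  rcases isEmpty_or_nonempty X with hX | ⟨⟨o⟩⟩
  · exact (measurable_of_empty f).aestronglyMeasurable
  have h : AEStronglyMeasurable f (m.restrict (⋃ n : ℕ, Metric.ball o (n : ℝ))) := by
    rw [aestronglyMeasurable_iUnion_iff]
    exact fun n => (hf o n).1
  rwa [Metric.iUnion_ball_nat, Measure.restrict_univ] at h

/-- A positive weight making a family, uniformly bounded in `L²` on balls, bounded in `L²`. -/
theorem exists_weight (o : X) {D : ℕ → X → ℝ} (hD : ∀ n, IsL2OnBalls m (D n))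
    (hbd : ∀ (o : X) (R : ℝ), ∃ C : ℝ≥0, ∀ n,
      ∫⁻ x in Metric.ball o R, ENNReal.ofReal (D n x ^ 2) ∂m ≤ C) :
    ∃ w : X → ℝ≥0∞, Measurable w ∧ (∀ x, w x ≤ 1) ∧
      (∀ R : ℝ, ∃ c : ℝ≥0∞, c ≠ 0 ∧ ∀ x ∈ Metric.ball o R, c ≤ w x) ∧
      ∀ n, ∫⁻ x, ENNReal.ofReal (D n x ^ 2) * w x ∂m ≤ 1 := by
  choose C hC using fun j : ℕ => hbd o ((j : ℝ) + 1)
  set b : ℕ → ℝ≥0∞ := fun j => 2⁻¹ ^ (j + 1) / (C j + 1) with hb
  have hb1 : ∀ j, b j ≤ 2⁻¹ ^ (j + 1) := by
    intro j
    refine ENNReal.div_le_of_le_mul ?_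
    exact le_mul_of_one_le_right (by positivity) (by simp)
  have hb2 : ∀ j, b j * C j ≤ 2⁻¹ ^ (j + 1) := by
    intro j
    rw [hb]
    simp only
    rw [ENNReal.div_eq_inv_mul, mul_assoc, mul_comm, mul_assoc]
    refine (mul_le_mul_right (b := (C j : ℝ≥0∞) * (C j + 1 : ℝ≥0∞)⁻¹) (c := 1) ?_ _).trans ?_
    · rw [← div_eq_mul_inv]
      refine ENNReal.div_le_of_le_mul ?_
      rw [one_mul]
      exact le_self_add
    · rw [mul_one]
  have hb0 : ∀ j, b j ≠ 0 := by
    intro j
    rw [hb]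
    simp only
    refine ENNReal.div_ne_zero.2 ⟨?_, ?_⟩
    · exact pow_ne_zero _ (by simp)
    · exact ENNReal.add_ne_top.2 ⟨ENNReal.coe_ne_top, ENNReal.one_ne_top⟩
  have hsum : ∑' j : ℕ, (2⁻¹ : ℝ≥0∞) ^ (j + 1) = 1 := ENNReal.tsum_geometric_add_one _ |>.trans (by
    rw [ENNReal.one_sub_inv_two, inv_inv]
    exact ENNReal.inv_mul_cancel (by simp) (by simp))
  refine ⟨fun x => ∑' j : ℕ, (Metric.ball o ((j : ℝ) + 1)).indicator (fun _ => b j) x, ?_, ?_, ?_, ?_⟩
  · exact Measurable.tsum fun j => measurable_const.indicator Metric.isOpen_ball.measurableSet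
  · intro x
    rw [← hsum]
    refine ENNReal.tsum_le_tsum fun j => ?_
    exact (indicator_le_self' (fun _ _ => zero_le) x).trans (hb1 j)
  · intro R
    obtain ⟨j, hj⟩ := exists_nat_gt R
    refine ⟨b j, hb0 j, fun x hx => ?_⟩
    refine le_trans ?_ (ENNReal.le_tsum j)
    rw [indicator_of_mem]
    rw [Metric.mem_ball] at hx ⊢
    linarith
  · intro n
    have hmeas : AEMeasurable (fun x => ENNReal.ofReal (D n x ^ 2)) m :=
      ((aesm_of_isL2OnBalls (hD n)).aemeasurable.pow_const 2).ennreal_ofReal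
    calc ∫⁻ x, ENNReal.ofReal (D n x ^ 2) *
          ∑' j : ℕ, (Metric.ball o ((j : ℝ) + 1)).indicator (fun _ => b j) x ∂m
        = ∫⁻ x, ∑' j : ℕ, ENNReal.ofReal (D n x ^ 2) *
          (Metric.ball o ((j : ℝ) + 1)).indicator (fun _ => b j) x ∂m := by
          simp_rw [ENNReal.tsum_mul_left]
      _ = ∑' j : ℕ, ∫⁻ x, ENNReal.ofReal (D n x ^ 2) *
          (Metric.ball o ((j : ℝ) + 1)).indicator (fun _ => b j) x ∂m := by
          rw [lintegral_tsum]
          intro j
          exact hmeas.mul (measurable_const.indicator Metric.isOpen_ball.measurableSet).aemeasurable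
      _ ≤ ∑' j : ℕ, (2⁻¹ : ℝ≥0∞) ^ (j + 1) := by
          refine ENNReal.tsum_le_tsum fun j => ?_
          have e : (fun x => ENNReal.ofReal (D n x ^ 2) *
              (Metric.ball o ((j : ℝ) + 1)).indicator (fun _ => b j) x) =
              (Metric.ball o ((j : ℝ) + 1)).indicator
                (fun x => b j * ENNReal.ofReal (D n x ^ 2)) := by
            funext x
            by_cases hx : x ∈ Metric.ball o ((j : ℝ) + 1)
            · simp only [indicator_of_mem hx]; ring
            · simp only [indicator_of_notMem hx, mul_zero]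
          rw [e, lintegral_indicator Metric.isOpen_ball.measurableSet,
            lintegral_const_mul' _ _ ((hb1 j).trans_lt (by
              exact ENNReal.pow_lt_top (by simp))).ne]
          exact (mul_le_mul_right (hC j n) _).trans (hb2 j)
      _ = 1 := hsum

/-- Weak limits of families bounded in `L²` on balls. -/
theorem exists_weak_limit_ball (hfin : IsFiniteOnBalls m) {D : ℕ → X → ℝ}
    (hD : ∀ n, IsL2OnBalls m (D n)) (hD0 : ∀ n, ∀ᵐ x ∂m, 0 ≤ D n x)
    (hbd : ∀ (o : X) (R : ℝ), ∃ C : ℝ≥0, ∀ n,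
      ∫⁻ x in Metric.ball o R, ENNReal.ofReal (D n x ^ 2) ∂m ≤ C) :
    ∃ (D' : X → ℝ) (φ : ℕ → ℕ), StrictMono φ ∧ IsL2OnBalls m D' ∧ (∀ᵐ x ∂m, 0 ≤ D' x) ∧
      ∀ (h : X → ℝ) (o : X) (R : ℝ), MemLp h 2 m → (∀ x, x ∉ Metric.ball o R → h x = 0) →
        Tendsto (fun n => ∫ x, D (φ n) x * h x ∂m) atTop (𝓝 (∫ x, D' x * h x ∂m)) := by
  have hlf := locallyFinite_of_finiteOnBalls hfin
  rcases isEmpty_or_nonempty X with hX | ⟨⟨o⟩⟩
  · refine ⟨0, id, strictMono_id, fun o => (hX.false o).elim, ?_, fun _ o => (hX.false o).elim⟩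
    exact Eventually.of_forall fun x => (hX.false x).elim
  obtain ⟨w, hwm, hw1, hwc, hwD⟩ := exists_weight o hD hbd
  have hw0 : ∀ x, w x ≠ 0 := by
    intro x
    obtain ⟨c, hc, h⟩ := hwc (dist x o + 1)
    have := h x (by rw [Metric.mem_ball]; linarith)
    intro h0
    rw [h0] at this
    exact hc (le_antisymm this zero_le)
  have hwt : ∀ x, w x ≠ ⊤ := fun x => ((hw1 x).trans_lt ENNReal.one_lt_top).ne
  set μ := m.withDensity w with hμ
  have hac : μ ≪ m := withDensity_absolutelyContinuous m w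
  have hac' : m ≪ μ := withDensity_absolutelyContinuous' hwm.aemeasurable
    (Eventually.of_forall hw0)
  have hlin : ∀ f : X → ℝ, AEStronglyMeasurable f m →
      ∫⁻ x, ENNReal.ofReal (f x ^ 2) ∂μ = ∫⁻ x, ENNReal.ofReal (f x ^ 2) * w x ∂m := by
    intro f hf
    rw [hμ, lintegral_withDensity_eq_lintegral_mul₀ hwm.aemeasurable
      (hf.aemeasurable.pow_const 2).ennreal_ofReal]
    simp_rw [Pi.mul_apply, mul_comm]
  have hDm : ∀ n, AEStronglyMeasurable (D n) m := fun n => aesm_of_isL2OnBalls (hD n)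
  have h1 : ∀ n, ∫⁻ x, ENNReal.ofReal (D n x ^ 2) ∂μ ≤ 1 := by
    intro n; rw [hlin _ (hDm n)]; exact hwD n
  have h2 : ∀ n, MemLp (D n) 2 μ := fun n =>
    memLp_two_iff.2 ⟨(hDm n).mono_ac hac, (h1 n).trans_lt ENNReal.one_lt_top⟩
  obtain ⟨D', φ, hφ, hD'm, hD'L, hD'C, hlim⟩ := exists_weak_limit_L2 h2 (C := 1) (by
    intro n
    rw [eLpNorm_two_eq]
    calc (∫⁻ x, ENNReal.ofReal (D n x ^ 2) ∂μ) ^ (1 / 2 : ℝ) ≤ 1 ^ (1 / 2 : ℝ) := by
          gcongr; exact h1 n
      _ = ((1 : ℝ≥0) : ℝ≥0∞) := by simp)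
  -- `D'` is in `L²` on balls
  have hD'ball : IsL2OnBalls m D' := by
    intro o' R'
    rw [memLp_two_iff]
    refine ⟨hD'm.aestronglyMeasurable, ?_⟩
    obtain ⟨c, hc, h⟩ := hwc (R' + dist o' o)
    have h3 : ∫⁻ x, ENNReal.ofReal (D' x ^ 2) * w x ∂m < ⊤ := by
      rw [← hlin _ hD'm.aestronglyMeasurable]; exact (memLp_two_iff.1 hD'L).2
    have h4 : c * ∫⁻ x in Metric.ball o' R', ENNReal.ofReal (D' x ^ 2) ∂m ≤
        ∫⁻ x, ENNReal.ofReal (D' x ^ 2) * w x ∂m := by
      rw [← lintegral_const_mul c ((hD'm.pow_const 2).ennreal_ofReal)]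
      refine le_trans ?_ (setLIntegral_le_lintegral (Metric.ball o' R') _)
      refine setLIntegral_mono' Metric.isOpen_ball.measurableSet fun x hx => ?_
      rw [mul_comm]
      have hxo : x ∈ Metric.ball o (R' + dist o' o) := by
        rw [Metric.mem_ball] at hx ⊢
        have := dist_triangle x o' o
        linarith
      exact mul_le_mul_right (h x hxo) _
    by_contra hcon
    rw [not_lt, top_le_iff] at hcon
    rw [hcon, ENNReal.mul_top hc] at h4
    exact absurd (top_le_iff.1 h4) h3.ne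
  -- convergence
  have hconv : ∀ (h : X → ℝ) (o : X) (R : ℝ), MemLp h 2 m →
      (∀ x, x ∉ Metric.ball o R → h x = 0) →
        Tendsto (fun n => ∫ x, D (φ n) x * h x ∂m) atTop (𝓝 (∫ x, D' x * h x ∂m)) := by
    intro h o' R' hh hh0
    obtain ⟨c, hc, hcw⟩ := hwc (R' + dist o' o)
    have hct : c ≠ ⊤ ∨ ∀ x, h x = 0 := by
      by_cases hx : ∃ x, x ∈ Metric.ball o (R' + dist o' o)
      · obtain ⟨x, hx⟩ := hx
        left
        exact ne_top_of_le_ne_top (hwt x) (hcw x hx)
      · right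
        intro x
        apply hh0
        intro hx'
        apply hx
        refine ⟨x, ?_⟩
        rw [Metric.mem_ball] at hx' ⊢
        have := dist_triangle x o' o
        linarith
    rcases hct with hct | hct
    swap
    · simp [hct]
    have hh' : MemLp (fun x => h x / (w x).toReal) 2 μ := by
      rw [memLp_two_iff]
      have hm1 : AEStronglyMeasurable (fun x => h x / (w x).toReal) m :=
        (hh.1.aemeasurable.div (hwm.ennreal_toReal.aemeasurable)).aestronglyMeasurable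
      refine ⟨hm1.mono_ac hac, ?_⟩
      rw [hlin _ hm1]
      refine lt_of_le_of_lt ?_ (ENNReal.mul_lt_top (a := c⁻¹)
        (by exact lt_top_iff_ne_top.2 (ENNReal.inv_ne_top.2 hc)) (memLp_two_iff.1 hh).2)
      rw [← lintegral_const_mul' _ _ (ENNReal.inv_ne_top.2 hc)]
      refine lintegral_mono fun x => ?_
      by_cases hx : x ∈ Metric.ball o' R'
      · have hxo : x ∈ Metric.ball o (R' + dist o' o) := by
          rw [Metric.mem_ball] at hx ⊢
          have := dist_triangle x o' o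
          linarith
        have hcx := hcw x hxo
        have hwpos : 0 < (w x).toReal := ENNReal.toReal_pos (hw0 x) (hwt x)
        have e : ENNReal.ofReal ((h x / (w x).toReal) ^ 2) * w x =
            (w x)⁻¹ * ENNReal.ofReal (h x ^ 2) := by
          nth_rewrite 2 [← ENNReal.ofReal_toReal (hwt x)]
          nth_rewrite 3 [← ENNReal.ofReal_toReal (hwt x)]
          rw [← ENNReal.ofReal_inv_of_pos hwpos, ← ENNReal.ofReal_mul (by positivity),
            ← ENNReal.ofReal_mul (by positivity)]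
          congr 1
          field_simp
        simp only
        rw [e]
        gcongr
      · simp [hh0 x hx]
    have h5 := hlim _ hh'
    have e : ∀ f : X → ℝ, ∫ x, f x * (h x / (w x).toReal) ∂μ = ∫ x, f x * h x ∂m := by
      intro f
      rw [hμ, integral_withDensity_eq_integral_toReal_smul hwm
        (Eventually.of_forall fun x => lt_top_iff_ne_top.2 (hwt x))]
      refine integral_congr_ae (Eventually.of_forall fun x => ?_)
      have hwpos : 0 < (w x).toReal := ENNReal.toReal_pos (hw0 x) (hwt x)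
      simp only [smul_eq_mul]
      field_simp
    simp_rw [e] at h5
    exact h5
  refine ⟨D', φ, hφ, hD'ball, ?_, hconv⟩
  -- nonnegativity
  have hj : ∀ j : ℕ, ∀ᵐ x ∂m, x ∈ Metric.ball o (j : ℝ) → 0 ≤ D' x := by
    intro j
    set S : Set X := {x | D' x < 0} ∩ Metric.ball o (j : ℝ) with hS
    have hSm : MeasurableSet S :=
      (measurableSet_lt hD'm measurable_const).inter Metric.isOpen_ball.measurableSet
    have hSfin : m S ≠ ⊤ := ((measure_mono inter_subset_right).trans_lt (hfin o j)).ne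
    have hh : MemLp (S.indicator (fun _ => (1 : ℝ))) 2 m := memLp_indicator_const 2 hSm 1 (Or.inr hSfin)
    have hzero : ∀ x, x ∉ Metric.ball o (j : ℝ) → S.indicator (fun _ => (1 : ℝ)) x = 0 := by
      intro x hx
      rw [indicator_of_notMem]
      exact fun h => hx h.2
    have h6 := hconv _ o j hh hzero
    have h7 : 0 ≤ ∫ x, D' x * S.indicator (fun _ => (1 : ℝ)) x ∂m := by
      refine ge_of_tendsto' h6 fun n => ?_
      refine integral_nonneg_of_ae ?_
      filter_upwards [hD0 (φ n)] with x hx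
      exact mul_nonneg hx (indicator_nonneg (fun _ _ => zero_le_one) x)
    have h8 : ∀ x, D' x * S.indicator (fun _ => (1 : ℝ)) x ≤ 0 := by
      intro x
      by_cases hx : x ∈ S
      · rw [indicator_of_mem hx, mul_one]; exact le_of_lt hx.1
      · rw [indicator_of_notMem hx, mul_zero]
    have hint : Integrable (fun x => D' x * S.indicator (fun _ => (1 : ℝ)) x) m := by
      have h9 : MemLp D' 2 (m.restrict (Metric.ball o (j : ℝ))) := hD'ball o j
      have h10 : IntegrableOn D' (Metric.ball o (j : ℝ)) m := by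
        have : IsFiniteMeasure (m.restrict (Metric.ball o (j : ℝ))) :=
          ⟨by rw [Measure.restrict_apply_univ]; exact hfin o j⟩
        exact h9.integrable (by norm_num)
      have h11 : IntegrableOn D' S m := h10.mono_set inter_subset_right
      rw [← integrable_indicator_iff hSm] at h11
      refine h11.congr (Eventually.of_forall fun x => ?_)
      by_cases hx : x ∈ S
      · simp [indicator_of_mem hx]
      · simp [indicator_of_notMem hx]
    have h12 : (fun x => -(D' x * S.indicator (fun _ => (1 : ℝ)) x)) =ᵐ[m] 0 := by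
      have hint' : Integrable (fun x => -(D' x * S.indicator (fun _ => (1 : ℝ)) x)) m := hint.neg
      rw [← integral_eq_zero_iff_of_nonneg (fun x => by
        have := h8 x
        simp only [Pi.zero_apply]; linarith) hint']
      rw [integral_neg]
      have h13 : ∫ x, D' x * S.indicator (fun _ => (1 : ℝ)) x ∂m ≤ 0 :=
        integral_nonpos h8
      linarith
    filter_upwards [h12] with x hx hxb
    by_contra hneg
    push Not at hneg
    have hxS : x ∈ S := ⟨hneg, hxb⟩
    simp only [Pi.zero_apply, indicator_of_mem hxS, mul_one, neg_eq_zero] at hx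
    linarith
  have hall : ∀ᵐ x ∂m, ∀ j : ℕ, x ∈ Metric.ball o (j : ℝ) → 0 ≤ D' x := ae_all_iff.2 hj
  filter_upwards [hall] with x hx
  obtain ⟨j, hj'⟩ := exists_nat_gt (dist x o)
  exact hx j hj'

end Local

end Crest.Agent.R242
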