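import Crest.Agent.R242.Curve
import Crest.Agent.R242.WeakL2

/-!
# The density of the length functional of a test plan (row 242, for S8)

For a test plan `P` with bounded tracks there is `h ∈ L²(m)`, `h ≥ 0`, with bounded support and
`∫∫ g(γ_t) |γ'_t| dt dP = ∫ g h dm`.
-/

set_option autoImplicit false

open MeasureTheory Filter Set
open scoped ENNReal NNReal Topology
open Crest.GeometryTopology.SyntheticRicci

namespace Crest.Agent.R242

variable {X : Type*} [MetricSpace X] [ProperSpace X] [MeasurableSpace X] [BorelSpace X]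
  {m : Measure X} {P : Measure (UCurve X)}

/-- the length measure of a plan: `ν(A) = ∫∫ 1_A(γ_t) |γ'_t| dt dP`. -/
noncomputable def lenMeasure (P : Measure (UCurve X)) : Measure X :=
  ((P.prod (volume.restrict (Icc (0 : ℝ) 1))).withDensity
    (fun p => upperSpeed p.1 p.2)).map (fun p => p.1.ext p.2)

theorem lintegral_lenMeasure [SFinite P] {g : X → ℝ≥0∞} (hg : Measurable g) :
    ∫⁻ x, g x ∂(lenMeasure P) =
      ∫⁻ γ, (∫⁻ t in Icc (0 : ℝ) 1, g (γ.ext t) * upperSpeed γ t) ∂P := by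
  unfold lenMeasure
  have hext : Measurable (fun p : UCurve X × ℝ => p.1.ext p.2) := measurable_evalExt
  have hus : Measurable (fun p : UCurve X × ℝ => upperSpeed p.1 p.2) := measurable_upperSpeed
  rw [lintegral_map hg hext]
  refine Eq.trans (lintegral_withDensity_eq_lintegral_mul
    (P.prod (volume.restrict (Icc (0 : ℝ) 1))) hus (hg.comp hext)) ?_
  rw [lintegral_prod]
  · refine lintegral_congr fun γ => lintegral_congr fun t => ?_
    simp only [Pi.mul_apply]
    rw [mul_comm]
  · exact (hus.mul (hg.comp hext)).aemeasurable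

theorem exists_plan_density (hfin : IsFiniteOnBalls m) (hP : IsTestPlan2 m P)
    (hb : HasBoundedTracks P) :
    ∃ (h : X → ℝ) (o : X) (R : ℝ), Measurable h ∧ (∀ x, 0 ≤ h x) ∧ MemLp h 2 m ∧
      (∀ x, x ∉ Metric.ball o R → h x = 0) ∧
      ∀ g : X → ℝ≥0∞, AEMeasurable g m →
        (∫⁻ γ, (∫⁻ t in Icc (0 : ℝ) 1, g (γ.ext t) * upperSpeed γ t) ∂P) =
          ∫⁻ x, g x * ENNReal.ofReal (h x) ∂m := by
  have hlf := locallyFinite_of_finiteOnBalls hfin
  obtain ⟨hprob, ⟨C, hC⟩, hspeed, hE⟩ := hP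
  obtain ⟨o, R, hR⟩ := hb
  set E : ℝ≥0∞ := ∫⁻ γ, (∫⁻ t in Icc (0 : ℝ) 1, upperSpeed γ t ^ 2) ∂P with hEdef
  set K : Set X := Metric.closedBall o R with hK
  have hKm : MeasurableSet K := Metric.isClosed_closedBall.measurableSet
  have hKfin : m K < ⊤ := by
    refine lt_of_le_of_lt (measure_mono ?_) (hfin o (R + 1))
    intro x hx
    rw [hK, Metric.mem_closedBall] at hx
    rw [Metric.mem_ball]; linarith
  set ν := lenMeasure P with hν
  set K0 : ℝ≥0∞ := (C : ℝ≥0∞) ^ (1 / 2 : ℝ) * E ^ (1 / 2 : ℝ) with hK0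
  have hK0t : K0 < ⊤ := by
    refine ENNReal.mul_lt_top ?_ ?_
    · exact ENNReal.rpow_lt_top_of_nonneg (by norm_num) ENNReal.coe_ne_top
    · exact ENNReal.rpow_lt_top_of_nonneg (by norm_num) hE.ne
  -- the basic estimate
  have hest : ∀ g : X → ℝ≥0∞, Measurable g →
      ∫⁻ x, g x ∂ν ≤ K0 * (∫⁻ x in K, g x ^ 2 ∂m) ^ (1 / 2 : ℝ) := by
    intro g hg
    rw [hν, lintegral_lenMeasure hg]
    refine (lintegral_mul_upperSpeed_le hC hR hg.aemeasurable).trans ?_
    rw [ENNReal.mul_rpow_of_nonneg _ _ (by norm_num), hK0]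
    apply le_of_eq
    ring
  have hac : ν ≪ m := by
    refine Measure.AbsolutelyContinuous.mk fun s hs hs0 => ?_
    have h1 := hest (s.indicator 1) (measurable_one.indicator hs)
    rw [lintegral_indicator_one hs] at h1
    have h2 : ∫⁻ x in K, (s.indicator (1 : X → ℝ≥0∞) x) ^ 2 ∂m = 0 := by
      rw [lintegral_eq_zero_iff ((measurable_one.indicator hs).pow_const 2)]
      have h3 : ∀ᵐ x ∂m, x ∉ s := by
        rw [ae_iff]; simpa using hs0
      filter_upwards [ae_restrict_of_ae h3] with x hx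
      simp [indicator_of_notMem hx]
    rw [h2, ENNReal.zero_rpow_of_pos (by norm_num), mul_zero] at h1
    exact le_antisymm h1 zero_le
  have hνfin : ν univ < ⊤ := by
    have h1 := hest (fun _ => 1) measurable_const
    rw [lintegral_const, one_mul] at h1
    refine lt_of_le_of_lt h1 (ENNReal.mul_lt_top hK0t ?_)
    refine ENNReal.rpow_lt_top_of_nonneg (by norm_num) ?_
    simp [hKfin.ne]
  have hνf : IsFiniteMeasure ν := ⟨hνfin⟩
  have hνK : ν Kᶜ = 0 := by
    have h1 := hest (Kᶜ.indicator 1) (measurable_one.indicator hKm.compl)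
    rw [lintegral_indicator_one hKm.compl] at h1
    have h2 : ∫⁻ x in K, (Kᶜ.indicator (1 : X → ℝ≥0∞) x) ^ 2 ∂m = 0 := by
      rw [setLIntegral_congr_fun hKm (g := fun _ => 0)]
      · simp
      · intro x hx
        simp [indicator_of_notMem (show x ∉ Kᶜ from fun h => h hx)]
    rw [h2, ENNReal.zero_rpow_of_pos (by norm_num), mul_zero] at h1
    exact le_antisymm h1 zero_le
  set ρ := ν.rnDeriv m with hρ
  have hρm : Measurable ρ := Measure.measurable_rnDeriv ν m
  have hρint : ∀ g : X → ℝ≥0∞, Measurable g → ∫⁻ x, g x ∂ν = ∫⁻ x, g x * ρ x ∂m := by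
    intro g hg
    have h1 : m.withDensity ρ = ν := Measure.withDensity_rnDeriv_eq ν m hac
    rw [← h1, lintegral_withDensity_eq_lintegral_mul _ hρm hg]
    refine lintegral_congr fun x => ?_
    simp only [Pi.mul_apply]; rw [mul_comm]
  have hρtop : ∀ᵐ x ∂m, ρ x < ⊤ := Measure.rnDeriv_lt_top ν m
  have hρK : ∀ᵐ x ∂m, x ∉ K → ρ x = 0 := by
    have h1 := hρint (Kᶜ.indicator 1) (measurable_one.indicator hKm.compl)
    rw [lintegral_indicator_one hKm.compl, hνK, eq_comm,
      lintegral_eq_zero_iff (f := fun x => Kᶜ.indicator 1 x * ρ x)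
      ((measurable_one.indicator hKm.compl).mul hρm)] at h1
    filter_upwards [h1] with x hx hxK
    simpa [indicator_of_mem (show x ∈ Kᶜ from hxK)] using hx
  -- the `L²` bound
  have hL2j : ∀ j : ℕ, ∫⁻ x in K, (min (ρ x) j) ^ 2 ∂m ≤ K0 ^ 2 := by
    intro j
    set a := ∫⁻ x in K, (min (ρ x) j) ^ 2 ∂m with ha
    have hgm : Measurable (fun x => min (ρ x) (j : ℝ≥0∞)) := hρm.min measurable_const
    have hafin : a < ⊤ := by
      refine lt_of_le_of_lt (lintegral_mono (g := fun _ => (j : ℝ≥0∞) ^ 2) fun x => ?_) ?_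
      · simp only
        gcongr
        exact min_le_right _ _
      · rw [lintegral_const, Measure.restrict_apply_univ]
        exact ENNReal.mul_lt_top (ENNReal.pow_lt_top (ENNReal.natCast_lt_top j)) hKfin
    have h1 : a ≤ K0 * a ^ (1 / 2 : ℝ) := by
      refine le_trans ?_ (hest _ hgm)
      rw [hρint _ hgm]
      refine le_trans ?_ (setLIntegral_le_lintegral K _)
      refine lintegral_mono fun x => ?_
      simp only
      rw [sq]
      gcongr
      exact min_le_left _ _
    rcases eq_or_ne a 0 with h0 | h0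
    · rw [h0]; exact zero_le
    · have h2 : a ^ (1 / 2 : ℝ) ≠ 0 := by
        rw [Ne, ENNReal.rpow_eq_zero_iff]
        push Not
        constructor
        · intro h; exact absurd h h0
        · intro h; exact absurd h hafin.ne
      have h3 : a ^ (1 / 2 : ℝ) ≠ ⊤ := (ENNReal.rpow_lt_top_of_nonneg (by norm_num) hafin.ne).ne
      have h4 : a = a ^ (1 / 2 : ℝ) * a ^ (1 / 2 : ℝ) := by
        rw [← ENNReal.rpow_add_of_nonneg _ _ (by norm_num) (by norm_num)]
        norm_num
      have h5 : a ^ (1 / 2 : ℝ) ≤ K0 := by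
        have h6 : a ^ (1 / 2 : ℝ) * a ^ (1 / 2 : ℝ) ≤ K0 * a ^ (1 / 2 : ℝ) := by
          rw [← h4]; exact h1
        exact (ENNReal.mul_le_mul_iff_left h2 h3).1 h6
      calc a = (a ^ (1 / 2 : ℝ)) ^ 2 := by rw [sq]; exact h4
        _ ≤ K0 ^ 2 := by gcongr
  have hL2 : ∫⁻ x in K, ρ x ^ 2 ∂m ≤ K0 ^ 2 := by
    have h1 : ∀ᵐ x ∂(m.restrict K), ρ x ^ 2 = ⨆ j : ℕ, (min (ρ x) (j : ℝ≥0∞)) ^ 2 := by
      filter_upwards [ae_restrict_of_ae hρtop] with x hx
      apply le_antisymm
      · obtain ⟨j, hj⟩ := ENNReal.exists_nat_gt hx.ne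
        refine le_iSup_of_le j ?_
        rw [min_eq_left hj.le]
      · refine iSup_le fun j => ?_
        gcongr
        exact min_le_left _ _
    rw [lintegral_congr_ae h1, lintegral_iSup]
    · exact iSup_le hL2j
    · intro j; exact (hρm.min measurable_const).pow_const 2
    · intro i j hij x
      simp only
      gcongr
  refine ⟨K.indicator (fun x => (ρ x).toReal), o, R + 1, ?_, ?_, ?_, ?_, ?_⟩
  · exact hρm.ennreal_toReal.indicator hKm
  · exact fun x => indicator_nonneg (fun _ _ => ENNReal.toReal_nonneg) x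
  · rw [memLp_two_iff]
    refine ⟨(hρm.ennreal_toReal.indicator hKm).aestronglyMeasurable, ?_⟩
    have h1 : (fun x => ENNReal.ofReal ((K.indicator (fun x => (ρ x).toReal) x) ^ 2)) =ᵐ[m]
        K.indicator (fun x => ρ x ^ 2) := by
      filter_upwards [hρtop] with x hx
      by_cases hxK : x ∈ K
      · rw [indicator_of_mem hxK, indicator_of_mem hxK, ENNReal.ofReal_pow ENNReal.toReal_nonneg,
          ENNReal.ofReal_toReal hx.ne]
      · rw [indicator_of_notMem hxK, indicator_of_notMem hxK]; simp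
    rw [lintegral_congr_ae h1, lintegral_indicator hKm]
    exact lt_of_le_of_lt hL2 (ENNReal.pow_lt_top hK0t)
  · intro x hx
    rw [indicator_of_notMem]
    intro hxK
    apply hx
    rw [hK, Metric.mem_closedBall] at hxK
    rw [Metric.mem_ball]; linarith
  · intro g hg
    have hae : ∀ᵐ x ∂m, g x = hg.mk g x := hg.ae_eq_mk
    have h1 : (∫⁻ γ, (∫⁻ t in Icc (0 : ℝ) 1, g (γ.ext t) * upperSpeed γ t) ∂P) =
        ∫⁻ γ, (∫⁻ t in Icc (0 : ℝ) 1, hg.mk g (γ.ext t) * upperSpeed γ t) ∂P := by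
      refine lintegral_congr_ae ?_
      filter_upwards [ae_ae_ext_of_ae hC hae] with γ hγ
      refine lintegral_congr_ae ?_
      filter_upwards [hγ] with t ht
      rw [ht]
    rw [h1, ← lintegral_lenMeasure hg.measurable_mk, ← hν, hρint _ hg.measurable_mk]
    refine lintegral_congr_ae ?_
    filter_upwards [hae, hρtop, hρK] with x hx1 hx2 hx3
    rw [hx1]
    congr 1
    by_cases hxK : x ∈ K
    · rw [indicator_of_mem hxK, ENNReal.ofReal_toReal hx2.ne]
    · rw [indicator_of_notMem hxK, hx3 hxK]; simp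

end Crest.Agent.R242
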