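import Crest.Agent.R242.Fin2
import Crest.Agent.R242.HopfLax
import Crest.Agent.R242.Res

/-!
Row 242, part F: instantiation of `Fin.PtFam` by `pt s = J m δ (hopfLax (cone o d) s)`.
-/

set_option autoImplicit false
set_option linter.unusedSectionVars false
set_option linter.unusedVariables false

open MeasureTheory Filter Set
open scoped ENNReal NNReal Topology
open Crest.GeometryTopology.SyntheticRicci

noncomputable section

namespace Crest.Agent.R242
namespace Fin

variable {X : Type*} [MetricSpace X] [ProperSpace X] [MeasurableSpace X] [BorelSpace X]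
  {m : Measure X} [IsLocallyFiniteMeasure m] [m.IsOpenPosMeasure]
  {k N h₀ δ d : ℝ} {o : X}

theorem pt_bddLip_zero : BddLip (fun _ : X => (0 : ℝ)) :=
  ⟨⟨0, by simp⟩, 0, LipschitzWith.const 0⟩

/-! ### properties of `ψ s = hopfLax (cone o d) s` -/

theorem psi_bdd (hd : 0 ≤ d) (s : ℝ) (x : X) : |hopfLax (cone o d) s x| ≤ d ^ 2 / 2 :=
  abs_hopfLax_le (abs_cone_le hd) s x

theorem psi_lip (hd : 0 ≤ d) {s : ℝ} (hs : 0 ≤ s) :
    LipschitzWith (Real.toNNReal (3 * d)) (hopfLax (cone o d) s) := by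
  have h := hopfLax_lipschitz (L := ⟨d, hd⟩) (cone_lipschitz hd) hs (abs_cone_le (o := o) hd)
  refine LipschitzWith.of_dist_le_mul fun x y => ?_
  rw [Real.coe_toNNReal _ (by positivity)]
  exact h.dist_le_mul x y

theorem psi_time (hd : 0 ≤ d) (x : X) {s t : ℝ} (hs : 0 ≤ s) (ht : 0 ≤ t) :
    |hopfLax (cone o d) t x - hopfLax (cone o d) s x| ≤ 4 * d ^ 2 * |t - s| :=
  hopfLax_time_lipschitz (L := ⟨d, hd⟩) (cone_lipschitz hd) (abs_cone_le hd) x ht hs

theorem psi_zero (hd : 0 ≤ d) {s : ℝ} (hs : 0 ≤ s) (hs1 : s ≤ 1) {x : X}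
    (hx : x ∉ Metric.closedBall o (5 * d / 2)) : hopfLax (cone o d) s x = 0 := by
  refine hopfLax_cone_eq_zero hd hs ?_
  rw [Metric.mem_closedBall, not_le] at hx
  nlinarith

theorem psi_continuous (hd : 0 ≤ d) :
    Continuous fun q : ℝ × X => hopfLax (cone o d) q.1 q.2 :=
  hopfLax_continuous (L := ⟨d, hd⟩) (cone_lipschitz hd) (abs_cone_le hd)

theorem psi_hcs (hd : 0 ≤ d) {s : ℝ} (hs : 0 ≤ s) (hs1 : s ≤ 1) :
    HasCompactSupport (hopfLax (cone o d) s : X → ℝ) :=
  HasCompactSupport.of_support_subset_isCompact (isCompact_closedBall o (5 * d / 2))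
    (fun x hx => by
      by_contra hc
      exact hx (psi_zero hd hs hs1 hc))

/-- bounded measurable functions vanishing off the ball are in `L²` -/
theorem memLp_of_ball {g : X → ℝ} (hg : Measurable g) {C : ℝ} (hC : ∀ x, |g x| ≤ C) {R : ℝ}
    (h0 : ∀ x, x ∉ Metric.closedBall o R → g x = 0) : MemLp g 2 m := by
  have h1 : MemLp ((Metric.closedBall o R).indicator (fun _ : X => C)) 2 m :=
    memLp_indicator_const 2 measurableSet_closedBall C (Or.inr measure_closedBall_lt_top.ne)
  refine h1.of_le hg.aestronglyMeasurable (Eventually.of_forall fun x => ?_)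
  by_cases hx : x ∈ Metric.closedBall o R
  · rw [indicator_of_mem hx, Real.norm_eq_abs]
    exact (hC x).trans (le_abs_self _)
  · rw [h0 x hx, indicator_of_notMem hx]

theorem psi_memLp (hd : 0 ≤ d) {s : ℝ} (hs : 0 ≤ s) (hs1 : s ≤ 1) :
    MemLp (hopfLax (cone o d) s : X → ℝ) 2 m :=
  memLp_of_ball (psi_lip hd hs).continuous.measurable (psi_bdd hd s)
    (fun x hx => psi_zero hd hs hs1 hx)

/-! ### `J` on `L²` -/

theorem J_sub_ae (H : Hyp m k N) (hδ : 0 < δ) {f g : X → ℝ} (hf : MemLp f 2 m)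
    (hg : MemLp g 2 m) :
    J m δ (fun x => f x - g x) =ᵐ[m] fun x => J m δ f x - J m δ g x :=
  Jr_sub H pt_bddLip_zero hδ hf hg

theorem J_l2_le (H : Hyp m k N) (hδ : 0 < δ) {f : X → ℝ} (hf : MemLp f 2 m) :
    ∫ x, J m δ f x ^ 2 ∂m ≤ ∫ x, f x ^ 2 ∂m := by
  have h1 := Jr_l2 H pt_bddLip_zero hδ hf
  have h2 := En_nonneg H pt_bddLip_zero (Jr_sob H pt_bddLip_zero hδ hf)
  rw [wm_zero] at h1
  have h3 : 0 ≤ 2 * δ * En m (fun _ => 0) (Jr m (fun _ => 0) δ f) (Jr m (fun _ => 0) δ f) :=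
    mul_nonneg (by positivity) h2
  exact le_trans (by unfold J; linarith) h1

/-! ### the time derivative -/

theorem psi_sob (H : Hyp m k N) (hd : 0 ≤ d) {s : ℝ} (hs : 0 ≤ s) (hs1 : s ≤ 1) :
    IsSobolev m (hopfLax (cone o d) s : X → ℝ) :=
  sob_of_sobLoc_bddSupp H (sobLoc_of_lipschitz H (psi_lip hd hs))
    ⟨o, 5 * d / 2, Eventually.of_forall fun x hx => psi_zero hd hs hs1 hx⟩

/-- for a.e. time, `ψ` is differentiable in time at a.e. point, with the Hamilton-Jacobi
inequality -/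
theorem psi_deriv_ae (H : Hyp m k N) (hd : 0 ≤ d)
    (hslope : ∀ (f : X → ℝ) (L : ℝ≥0), LipschitzWith L f →
      ∀ᵐ x ∂m, ENNReal.ofReal (minWeakGrad m f x) ≤ descSlope f x)
    [SFinite m] :
    ∀ᵐ s ∂(volume.restrict (Ioo (0 : ℝ) 1)), ∀ᵐ x ∂m,
      HasDerivAt (fun r => hopfLax (cone o d) r x) (deriv (fun r => hopfLax (cone o d) r x) s) s ∧
      deriv (fun r => hopfLax (cone o d) r x) s ≤
        -(1 / 2) * minWeakGrad m (hopfLax (cone o d) s) x ^ 2 := by
  have hc := psi_continuous (o := o) hd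
  have hSm : MeasurableSet {q : ℝ × X |
      DifferentiableAt ℝ (fun r => hopfLax (cone o d) r q.2) q.1} := by
    have h1 : Continuous (Function.uncurry fun (x : X) (r : ℝ) => hopfLax (cone o d) r x) :=
      hc.comp continuous_swap
    have h2 := measurableSet_of_differentiableAt_with_param (𝕜 := ℝ) h1
    exact measurable_swap h2
  have hkey : ∀ᵐ s ∂(volume.restrict (Ioo (0 : ℝ) 1)), ∀ᵐ x ∂m,
      DifferentiableAt ℝ (fun r => hopfLax (cone o d) r x) s := by
    rw [Measure.ae_ae_comm (p := fun (s : ℝ) (x : X) =>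
      DifferentiableAt ℝ (fun r => hopfLax (cone o d) r x) s) hSm]
    refine Eventually.of_forall fun x => ?_
    have hmono : Monotone fun r => -hopfLax (cone o d) r x := fun a b hab =>
      neg_le_neg (hopfLax_antitone (abs_cone_le hd) x hab)
    refine ae_restrict_of_ae ?_
    filter_upwards [hmono.ae_differentiableAt] with r hr
    have := hr.neg
    simpa using this
  filter_upwards [hkey, ae_restrict_mem measurableSet_Ioo] with s h1 hs
  filter_upwards [h1, hslope _ _ (psi_lip (o := o) hd hs.1.le),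
    Fin.wg_nonneg (psi_sob (o := o) H hd hs.1.le hs.2.le)] with x hx1 hx2 hx3
  refine ⟨hx1.hasDerivAt, ?_⟩
  have h2 := descSlope_sq_le (abs_cone_le hd) hs.1.le x hx1.hasDerivAt
  have h3 : ENNReal.ofReal (minWeakGrad m (hopfLax (cone o d) s) x ^ 2) ≤
      ENNReal.ofReal (2 * (-deriv (fun r => hopfLax (cone o d) r x) s)) := by
    rw [ENNReal.ofReal_pow hx3]
    exact (pow_le_pow_left' hx2 2).trans h2
  have h4 : 0 ≤ 2 * (-deriv (fun r => hopfLax (cone o d) r x) s) := by
    have hanti : Antitone fun r => hopfLax (cone o d) r x := hopfLax_antitone (abs_cone_le hd) x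
    have := hanti.deriv_nonpos (x := s)
    linarith
  have h5 := (ENNReal.ofReal_le_ofReal_iff h4).mp h3
  linarith

theorem psi_deriv_bdd (hd : 0 ≤ d) {s : ℝ} (hs : 0 < s) (x : X) :
    |deriv (fun r => hopfLax (cone o d) r x) s| ≤ 4 * d ^ 2 := by
  have h := norm_deriv_le_of_lip' (f := fun r => hopfLax (cone o d) r x) (x₀ := s)
    (C := 4 * d ^ 2) (by positivity) (by
      filter_upwards [Ioi_mem_nhds hs] with r hr
      rw [Real.norm_eq_abs, Real.norm_eq_abs]
      exact psi_time hd x hs.le (le_of_lt hr))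
  rwa [Real.norm_eq_abs] at h

theorem psi_deriv_zero (hd : 0 ≤ d) {s : ℝ} (hs : s ∈ Ioo (0 : ℝ) 1) {x : X}
    (hx : x ∉ Metric.closedBall o (5 * d / 2)) :
    deriv (fun r => hopfLax (cone o d) r x) s = 0 := by
  have h : (fun r => hopfLax (cone o d) r x) =ᶠ[𝓝 s] fun _ => 0 := by
    filter_upwards [Ioo_mem_nhds hs.1 hs.2] with r hr
    exact psi_zero hd hr.1.le hr.2.le hx
  rw [h.deriv_eq, deriv_const]

theorem measurable_deriv_aux (f : X → ℝ → ℝ) (h1 : Continuous (Function.uncurry f)) (s : ℝ) :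
    Measurable fun x : X => deriv (f x) s := by
  have h2 : Measurable fun p : X × ℝ => deriv (f p.1) p.2 :=
    measurable_deriv_with_param (𝕜 := ℝ) h1
  have h3 : Measurable fun x : X => ((x, s) : X × ℝ) := measurable_id.prodMk measurable_const
  exact h2.comp h3

theorem psi_deriv_measurable (hd : 0 ≤ d) (s : ℝ) :
    Measurable fun x : X => deriv (fun r => hopfLax (cone o d) r x) s :=
  measurable_deriv_aux (fun x r => hopfLax (cone o d) r x)
    ((psi_continuous (o := o) hd).comp continuous_swap) s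

theorem psi_deriv_memLp (hd : 0 ≤ d) {s : ℝ} (hs : s ∈ Ioo (0 : ℝ) 1) :
    MemLp (fun x : X => deriv (fun r => hopfLax (cone o d) r x) s) 2 m :=
  memLp_of_ball (psi_deriv_measurable hd s) (psi_deriv_bdd hd hs.1)
    (fun x hx => psi_deriv_zero hd hs hx)

/-- `L²` convergence of the difference quotients -/
theorem psi_quot_tendsto (hd : 0 ≤ d) {s : ℝ} (hs : s ∈ Ioo (0 : ℝ) 1)
    (hder : ∀ᵐ x ∂m, HasDerivAt (fun r => hopfLax (cone o d) r x)
      (deriv (fun r => hopfLax (cone o d) r x) s) s)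
    {h : ℕ → ℝ} (hh : ∀ n, 0 < h n ∧ s + h n ≤ 1) (hh0 : Tendsto h atTop (𝓝 0)) :
    Tendsto (fun n => ∫ x, ((h n)⁻¹ * (hopfLax (cone o d) (s + h n) x - hopfLax (cone o d) s x)
      - deriv (fun r => hopfLax (cone o d) r x) s) ^ 2 ∂m) atTop (𝓝 0) := by
  have h0 : ∫ x : X, (0 : ℝ) ∂m = 0 := integral_zero _ _
  rw [← h0]
  refine tendsto_integral_of_dominated_convergence
    ((Metric.closedBall o (5 * d / 2)).indicator (fun _ : X => (8 * d ^ 2) ^ 2)) ?_ ?_ ?_ ?_
  · intro n
    have hc1 : Measurable fun x : X => hopfLax (cone o d) (s + h n) x :=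
      (psi_lip hd (by have := hh n; have := hs.1; linarith)).continuous.measurable
    have hc2 : Measurable fun x : X => hopfLax (cone o d) s x :=
      (psi_lip hd hs.1.le).continuous.measurable
    exact ((((hc1.sub hc2).const_mul _).sub (psi_deriv_measurable hd s)).pow_const 2).aestronglyMeasurable
  · exact (integrable_indicator_iff measurableSet_closedBall).mpr
      (integrableOn_const (by exact measure_closedBall_lt_top.ne))
  · intro n
    refine Eventually.of_forall fun x => ?_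
    obtain ⟨hn, hn1⟩ := hh n
    by_cases hx : x ∈ Metric.closedBall o (5 * d / 2)
    · rw [indicator_of_mem hx, Real.norm_of_nonneg (sq_nonneg _), ← sq_abs]
      refine pow_le_pow_left₀ (abs_nonneg _) ?_ 2
      have e1 : |(h n)⁻¹ * (hopfLax (cone o d) (s + h n) x - hopfLax (cone o d) s x)| ≤
          4 * d ^ 2 := by
        rw [abs_mul, abs_of_pos (inv_pos.mpr hn), inv_mul_le_iff₀ hn]
        have := psi_time (o := o) hd x (s := s) (t := s + h n) hs.1.le (by linarith [hs.1])
        rw [add_sub_cancel_left, abs_of_pos hn] at this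
        linarith
      have e2 := psi_deriv_bdd (o := o) hd hs.1 x
      have e3 := abs_sub ((h n)⁻¹ * (hopfLax (cone o d) (s + h n) x - hopfLax (cone o d) s x))
        (deriv (fun r => hopfLax (cone o d) r x) s)
      linarith
    · rw [indicator_of_notMem hx, psi_zero hd (by linarith [hs.1]) hn1 hx,
        psi_zero hd hs.1.le hs.2.le hx, psi_deriv_zero hd hs hx]
      simp
  · filter_upwards [hder] with x hx
    have hsn : Tendsto (fun n => s + h n) atTop (𝓝[≠] s) := by
      rw [tendsto_nhdsWithin_iff]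
      refine ⟨by simpa using hh0.const_add s, Eventually.of_forall fun n => ?_⟩
      rw [mem_compl_iff, mem_singleton_iff]
      have := (hh n).1
      intro hc; linarith
    have h1 := (hasDerivAt_iff_tendsto_slope.mp hx).comp hsn
    have h2 := (h1.sub_const (deriv (fun r => hopfLax (cone o d) r x) s)).pow 2
    rw [sub_self, zero_pow two_ne_zero] at h2
    refine h2.congr fun n => ?_
    simp only [Function.comp_def, slope, vsub_eq_sub, smul_eq_mul]
    rw [add_sub_cancel_left]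

/-! ### the family -/

/-- `pt s = J_δ (ψ s)` -/
def ptf (m : Measure X) (δ d : ℝ) (o : X) (s : ℝ) : X → ℝ := J m δ (hopfLax (cone o d) s)

/-- its Laplacian -/
def lpf (m : Measure X) (δ d : ℝ) (o : X) (s : ℝ) : X → ℝ :=
  fun x => (J m δ (hopfLax (cone o d) s) x - hopfLax (cone o d) s x) / δ

theorem ptFam_cone (H : Hyp m k N) (hδ : 0 < δ) (hδk : 4 * δ * k ≤ 1) (hd : 0 ≤ d) [SFinite m]
    (hslope : ∀ (f : X → ℝ) (L : ℝ≥0), LipschitzWith L f →
      ∀ᵐ x ∂m, ENNReal.ofReal (minWeakGrad m f x) ≤ descSlope f x)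
    (hbe : ∀ f : X → ℝ, IsSobolev m f → MemLp (fun x => minWeakGrad m f x ^ 2) 2 m →
      ∀ᵐ x ∂m, minWeakGrad m (J m δ f) x ^ 2 ≤
        (1 - 2 * δ * k)⁻¹ * J m δ (fun x => minWeakGrad m f x ^ 2) x) :
    PtFam m (d ^ 2 / 2) (5 * d) (d ^ 2 / δ) (4 * d ^ 2) (1 - 2 * δ * k)
      (ptf m δ d o) (lpf m δ d o) := by
  have hk0 : 0 < k := H.kpos
  have hc : (1 : ℝ) / 2 ≤ 1 - 2 * δ * k := by linarith
  have hc0 : 0 < 1 - 2 * δ * k := by linarith
  have hinv : (1 - 2 * δ * k)⁻¹ ≤ 2 := by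
    rw [inv_le_comm₀ hc0 (by norm_num)]
    linarith
  have hwgL : ∀ s : ℝ, 0 ≤ s → ∀ᵐ x ∂m, minWeakGrad m (hopfLax (cone o d) s) x ≤ 3 * d := by
    intro s hs
    filter_upwards [hslope _ _ (psi_lip (o := o) hd hs)] with x hx
    have h1 := hx.trans (descSlope_le_of_lipschitz (psi_lip (o := o) hd hs) x)
    have h2 : ENNReal.ofReal (minWeakGrad m (hopfLax (cone o d) s) x) ≤
        ENNReal.ofReal (3 * d) := by
      exact h1
    exact (ENNReal.ofReal_le_ofReal_iff (by positivity)).mp h2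
  have hsob : ∀ s ∈ Icc (0 : ℝ) 1, IsSobolev m (hopfLax (cone o d) s : X → ℝ) :=
    fun s hs => psi_sob H hd hs.1 hs.2
  have hB2 : ∀ s ∈ Icc (0 : ℝ) 1,
      B2 m (fun x => minWeakGrad m (hopfLax (cone o d) s) x ^ 2) := fun s hs =>
    Fin.B2_wg_sq (hsob s hs) (hwgL s hs.1)
  refine ⟨?_, ?_, ?_, ?_, ?_, ?_⟩
  · intro s hs
    exact Jr_abs_le H pt_bddLip_zero hδ (psi_memLp hd hs.1 hs.2)
      (Eventually.of_forall (psi_bdd hd s))
  · intro s hs
    have h1 := hbe _ (hsob s hs) (hB2 s hs).1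
    have h2 : ∀ᵐ x ∂m, J m δ (fun x => minWeakGrad m (hopfLax (cone o d) s) x ^ 2) x ≤
        (3 * d) ^ 2 := by
      refine Jr_le_const H pt_bddLip_zero hδ (hB2 s hs).1 (by positivity) ?_
      filter_upwards [hwgL s hs.1, Fin.wg_nonneg (hsob s hs)] with x hx1 hx2
      exact pow_le_pow_left₀ hx2 hx1 2
    filter_upwards [h1, h2] with x hx1 hx2
    refine le_of_sq_le_sq ?_ (by positivity)
    calc minWeakGrad m (ptf m δ d o s) x ^ 2 ≤ _ := hx1
      _ ≤ 2 * (3 * d) ^ 2 := by
          refine (mul_le_mul_of_nonneg_left hx2 (by positivity)).trans ?_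
          exact mul_le_mul_of_nonneg_right hinv (by positivity)
      _ ≤ (5 * d) ^ 2 := by nlinarith [sq_nonneg d]
  · intro s hs
    exact isWLap_zero_iff.mp (Jr_isWLap H pt_bddLip_zero hδ (psi_memLp hd hs.1 hs.2))
  · intro s hs
    filter_upwards [Jr_abs_le H pt_bddLip_zero hδ (psi_memLp (o := o) (m := m) hd hs.1 hs.2)
      (Eventually.of_forall (psi_bdd hd s))] with x hx
    unfold lpf
    rw [abs_div, abs_of_pos hδ, div_le_div_iff_of_pos_right hδ]
    have h1 := psi_bdd (o := o) hd s x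
    have h2 := abs_sub (J m δ (hopfLax (cone o d) s) x) (hopfLax (cone o d) s x)
    have h3 : |J m δ (hopfLax (cone o d) s) x| ≤ d ^ 2 / 2 := hx
    linarith
  · intro s hs t ht
    have h1 := J_sub_ae H hδ (psi_memLp (o := o) (m := m) hd ht.1 ht.2)
      (psi_memLp (o := o) (m := m) hd hs.1 hs.2)
    have h2 := Jr_abs_le H pt_bddLip_zero hδ ((psi_memLp (o := o) (m := m) hd ht.1 ht.2).sub
      (psi_memLp (o := o) (m := m) hd hs.1 hs.2)) (c := 4 * d ^ 2 * |t - s|)
      (Eventually.of_forall fun x => psi_time hd x hs.1 ht.1)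
    filter_upwards [h1, h2] with x hx1 hx2
    unfold ptf
    rw [← hx1]
    exact hx2
  · filter_upwards [psi_deriv_ae (o := o) H hd hslope, ae_restrict_mem measurableSet_Ioo]
      with s h1 hs
    have hsI : s ∈ Icc (0 : ℝ) 1 := Ioo_subset_Icc_self hs
    set D0 : X → ℝ := fun x => deriv (fun r => hopfLax (cone o d) r x) s with hD0
    have hD0m : MemLp D0 2 m := psi_deriv_memLp hd hs
    refine ⟨J m δ D0, Jr_memLp H pt_bddLip_zero hδ hD0m,
      Jr_abs_le H pt_bddLip_zero hδ hD0m (Eventually.of_forall (psi_deriv_bdd hd hs.1)), ?_, ?_⟩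
    · have h2 : J m δ D0 ≤ᵐ[m] J m δ (fun x => (-(1 / 2)) *
          minWeakGrad m (hopfLax (cone o d) s) x ^ 2) := by
        refine Jr_mono H pt_bddLip_zero hδ hD0m ((hB2 s hsI).1.const_mul _) ?_
        filter_upwards [h1] with x hx
        exact hx.2
      have h3 := Jr_smul H pt_bddLip_zero hδ (-(1 / 2)) (hB2 s hsI).1
      have h4 := hbe _ (hsob s hsI) (hB2 s hsI).1
      filter_upwards [h2, h3, h4] with x hx2 hx3 hx4
      refine hx2.trans ?_
      have hx3' : J m δ (fun x => (-(1 / 2)) * minWeakGrad m (hopfLax (cone o d) s) x ^ 2) x =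
          (-(1 / 2)) * J m δ (fun x => minWeakGrad m (hopfLax (cone o d) s) x ^ 2) x := hx3
      rw [hx3']
      have h5 : (1 - 2 * δ * k) * minWeakGrad m (ptf m δ d o s) x ^ 2 ≤
          J m δ (fun x => minWeakGrad m (hopfLax (cone o d) s) x ^ 2) x := by
        have h6 := mul_le_mul_of_nonneg_left hx4 hc0.le
        rw [← mul_assoc, mul_inv_cancel₀ hc0.ne', one_mul] at h6
        exact h6
      linarith
    · intro h hh hh0
      have hlim := psi_quot_tendsto (m := m) (o := o) hd hs (h1.mono fun x hx => hx.1) hh hh0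
      refine squeeze_zero (fun n => integral_nonneg fun x => sq_nonneg _) (fun n => ?_) hlim
      have hn := hh n
      have hmem : s + h n ∈ Icc (0 : ℝ) 1 := ⟨by linarith [hs.1, hn.1], hn.2⟩
      have m1 := psi_memLp (o := o) (m := m) hd hmem.1 hmem.2
      have m2 := psi_memLp (o := o) (m := m) hd hsI.1 hsI.2
      have m12 : MemLp (fun x : X => hopfLax (cone o d) (s + h n) x - hopfLax (cone o d) s x) 2 m :=
        m1.sub m2
      have m3 : MemLp (fun x : X => (h n)⁻¹ * (hopfLax (cone o d) (s + h n) x -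
        hopfLax (cone o d) s x)) 2 m := m12.const_mul _
      have e1 := J_sub_ae H hδ m1 m2
      have e2 := Jr_smul H pt_bddLip_zero hδ (h n)⁻¹ m12
      have e3 := J_sub_ae H hδ m3 hD0m
      have e4 : ∫ x, ((h n)⁻¹ * (ptf m δ d o (s + h n) x - ptf m δ d o s x) - J m δ D0 x) ^ 2 ∂m
          = ∫ x, J m δ (fun x => (h n)⁻¹ * (hopfLax (cone o d) (s + h n) x -
              hopfLax (cone o d) s x) - D0 x) x ^ 2 ∂m := by
        refine integral_congr_ae ?_
        filter_upwards [e1, e2, e3] with x hx1 hx2 hx3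
        have hx2' : J m δ (fun x => (h n)⁻¹ * (hopfLax (cone o d) (s + h n) x -
              hopfLax (cone o d) s x)) x = (h n)⁻¹ * J m δ (fun x =>
              hopfLax (cone o d) (s + h n) x - hopfLax (cone o d) s x) x := hx2
        show ((h n)⁻¹ * (ptf m δ d o (s + h n) x - ptf m δ d o s x) - J m δ D0 x) ^ 2 = _
        rw [show J m δ (fun x => (h n)⁻¹ * (hopfLax (cone o d) (s + h n) x -
              hopfLax (cone o d) s x) - D0 x) x = _ from hx3, hx2', hx1]
        rfl
      rw [e4]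
      exact J_l2_le H hδ (m3.sub hD0m)

end Fin
end Crest.Agent.R242
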