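import Mathlib
import Crest.Prelude.Def_SyntheticRicci
import Crest.Agent.R242.SDefs

/-!
Row 242, PART S: INTERFACE (statements only, bodies `sorry`; do not import in final proofs; the
proved versions live in `Crest/Agent/R242/Sob*.lean` with the SAME names and namespace, so that
replacing the import is enough).  All functions are genuine functions `X → ℝ`.
-/

set_option autoImplicit false

open MeasureTheory Filter Set
open Crest.GeometryTopology.SyntheticRicci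
open scoped ENNReal NNReal Topology

namespace Crest.Agent.R242

variable {X : Type*} [MetricSpace X] [ProperSpace X] [MeasurableSpace X] [BorelSpace X]
variable {m : Measure X}

/-! ### S1, S9: curvewise characterisation (helper877) -/

theorem isWUGLoc_iff_curveUG (hfin : IsFiniteOnBalls m) {f D : X → ℝ} (hf : IsL2OnBalls m f) :
    IsWUGLoc m f D ↔ IsL2OnBalls m D ∧ (∀ᵐ x ∂m, 0 ≤ D x) ∧
      ∀ P : Measure (UCurve X), IsTestPlan2 m P → HasBoundedTracks P → ∀ᵐ γ ∂P, CurveUG f D γ := by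
  sorry

/-- no bounded tracks needed -/
theorem IsWUGLoc.ae_curveUG (hfin : IsFiniteOnBalls m) {f D : X → ℝ} (hf : IsL2OnBalls m f)
    (h : IsWUGLoc m f D) {P : Measure (UCurve X)} (hP : IsTestPlan2 m P) :
    ∀ᵐ γ ∂P, CurveUG f D γ := by
  sorry

/-- no bounded tracks needed -/
theorem IsWUGLoc.lintegral_le (hfin : IsFiniteOnBalls m) {f D : X → ℝ} (hf : IsL2OnBalls m f)
    (h : IsWUGLoc m f D) {P : Measure (UCurve X)} (hP : IsTestPlan2 m P) :
    (∫⁻ γ, ENNReal.ofReal |f (γ.toMap 1) - f (γ.toMap 0)| ∂P) ≤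
      ∫⁻ γ, (∫⁻ t in Set.Icc (0 : ℝ) 1, ENNReal.ofReal (D (γ.ext t)) * upperSpeed γ t) ∂P := by
  sorry

/-- Young form of the previous one -/
theorem IsWUGLoc.lintegral_le_young (hfin : IsFiniteOnBalls m) {f D : X → ℝ} (hf : IsL2OnBalls m f)
    (h : IsWUGLoc m f D) {P : Measure (UCurve X)} (hP : IsTestPlan2 m P) {a : ℝ} (ha : 0 < a) :
    (∫⁻ γ, ENNReal.ofReal |f (γ.toMap 1) - f (γ.toMap 0)| ∂P) ≤
      ENNReal.ofReal (a / 2) *
        (∫⁻ γ, (∫⁻ t in Set.Icc (0 : ℝ) 1, ENNReal.ofReal (D (γ.ext t) ^ 2)) ∂P) +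
      ENNReal.ofReal (1 / (2 * a)) *
        (∫⁻ γ, (∫⁻ t in Set.Icc (0 : ℝ) 1, upperSpeed γ t ^ 2) ∂P) := by
  sorry

/-! ### S2: minimal weak upper gradients exist (helper877) -/

theorem IsWUGLoc.min (hfin : IsFiniteOnBalls m) {f D D' : X → ℝ} (hf : IsL2OnBalls m f)
    (h : IsWUGLoc m f D) (h' : IsWUGLoc m f D') : IsWUGLoc m f (fun x => min (D x) (D' x)) := by
  sorry

theorem exists_isMinWUGLoc (hfin : IsFiniteOnBalls m) {f D : X → ℝ} (hf : IsL2OnBalls m f)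
    (hD : IsWUGLoc m f D) : ∃ D₀ : X → ℝ, IsMinWUGLoc m f D₀ := by
  sorry

theorem isSobolevLoc_iff (hfin : IsFiniteOnBalls m) {f : X → ℝ} :
    IsSobolevLoc m f ↔ IsL2OnBalls m f ∧ ∃ D : X → ℝ, IsWUGLoc m f D := by
  sorry

theorem isSobolev_iff (hfin : IsFiniteOnBalls m) {f : X → ℝ} :
    IsSobolev m f ↔ MemLp f 2 m ∧ ∃ D : X → ℝ, IsWUGLoc m f D ∧ MemLp D 2 m := by
  sorry

theorem IsSobolevLoc.isMin {f : X → ℝ} (hf : IsSobolevLoc m f) :
    IsMinWUGLoc m f (minWeakGrad m f) := by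
  sorry

theorem IsSobolevLoc.isWUG {f : X → ℝ} (hf : IsSobolevLoc m f) :
    IsWUGLoc m f (minWeakGrad m f) := by
  sorry

theorem minWeakGrad_le_of_isWUGLoc (hfin : IsFiniteOnBalls m) {f D : X → ℝ}
    (hf : IsL2OnBalls m f) (hD : IsWUGLoc m f D) : ∀ᵐ x ∂m, minWeakGrad m f x ≤ D x := by
  sorry

theorem minWeakGrad_nonneg (f : X → ℝ) : ∀ᵐ x ∂m, 0 ≤ minWeakGrad m f x := by
  sorry

theorem minWeakGrad_isL2OnBalls (f : X → ℝ) : IsL2OnBalls m (minWeakGrad m f) := by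
  sorry

theorem minWeakGrad_aestronglyMeasurable (hfin : IsFiniteOnBalls m) (f : X → ℝ) :
    AEStronglyMeasurable (minWeakGrad m f) m := by
  sorry

/-! ### S3: almost everywhere invariance and the vector space structure (helper877) -/

theorem IsWUGLoc.congr {f g D D' : X → ℝ} (hfg : f =ᵐ[m] g) (hD : D =ᵐ[m] D')
    (h : IsWUGLoc m f D) : IsWUGLoc m g D' := by
  sorry

theorem minWeakGrad_congr {f g : X → ℝ} (hfg : f =ᵐ[m] g) :
    minWeakGrad m f =ᵐ[m] minWeakGrad m g := by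
  sorry

theorem IsSobolevLoc.congr {f g : X → ℝ} (hfg : f =ᵐ[m] g) (hf : IsSobolevLoc m f) :
    IsSobolevLoc m g := by
  sorry

theorem IsSobolev.congr {f g : X → ℝ} (hfg : f =ᵐ[m] g) (hf : IsSobolev m f) :
    IsSobolev m g := by
  sorry

theorem IsSobolevLoc.add (hfin : IsFiniteOnBalls m) {f g : X → ℝ} (hf : IsSobolevLoc m f)
    (hg : IsSobolevLoc m g) : IsSobolevLoc m (fun x => f x + g x) := by
  sorry

theorem IsSobolevLoc.sub (hfin : IsFiniteOnBalls m) {f g : X → ℝ} (hf : IsSobolevLoc m f)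
    (hg : IsSobolevLoc m g) : IsSobolevLoc m (fun x => f x - g x) := by
  sorry

theorem IsSobolevLoc.const_mul (hfin : IsFiniteOnBalls m) (c : ℝ) {f : X → ℝ}
    (hf : IsSobolevLoc m f) : IsSobolevLoc m (fun x => c * f x) := by
  sorry

theorem IsSobolevLoc.neg (hfin : IsFiniteOnBalls m) {f : X → ℝ} (hf : IsSobolevLoc m f) :
    IsSobolevLoc m (fun x => - f x) := by
  sorry

theorem isSobolevLoc_const (hfin : IsFiniteOnBalls m) (c : ℝ) :
    IsSobolevLoc m (fun _ => c) := by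
  sorry

theorem minWeakGrad_add_le (hfin : IsFiniteOnBalls m) {f g : X → ℝ} (hf : IsSobolevLoc m f)
    (hg : IsSobolevLoc m g) :
    ∀ᵐ x ∂m, minWeakGrad m (fun y => f y + g y) x ≤ minWeakGrad m f x + minWeakGrad m g x := by
  sorry

theorem minWeakGrad_sub_le (hfin : IsFiniteOnBalls m) {f g : X → ℝ} (hf : IsSobolevLoc m f)
    (hg : IsSobolevLoc m g) :
    ∀ᵐ x ∂m, minWeakGrad m (fun y => f y - g y) x ≤ minWeakGrad m f x + minWeakGrad m g x := by
  sorry

theorem minWeakGrad_const_mul (hfin : IsFiniteOnBalls m) (c : ℝ) {f : X → ℝ}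
    (hf : IsSobolevLoc m f) :
    ∀ᵐ x ∂m, minWeakGrad m (fun y => c * f y) x = |c| * minWeakGrad m f x := by
  sorry

theorem minWeakGrad_neg (f : X → ℝ) :
    ∀ᵐ x ∂m, minWeakGrad m (fun y => - f y) x = minWeakGrad m f x := by
  sorry

theorem minWeakGrad_const (hfin : IsFiniteOnBalls m) (c : ℝ) :
    ∀ᵐ x ∂m, minWeakGrad m (fun _ => c) x = 0 := by
  sorry

theorem minWeakGrad_add_const (c : ℝ) (f : X → ℝ) (hfin : IsFiniteOnBalls m) :
    ∀ᵐ x ∂m, minWeakGrad m (fun y => f y + c) x = minWeakGrad m f x := by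
  sorry

theorem IsSobolev.add (hfin : IsFiniteOnBalls m) {f g : X → ℝ} (hf : IsSobolev m f)
    (hg : IsSobolev m g) : IsSobolev m (fun x => f x + g x) := by
  sorry

theorem IsSobolev.sub (hfin : IsFiniteOnBalls m) {f g : X → ℝ} (hf : IsSobolev m f)
    (hg : IsSobolev m g) : IsSobolev m (fun x => f x - g x) := by
  sorry

theorem IsSobolev.const_mul (hfin : IsFiniteOnBalls m) (c : ℝ) {f : X → ℝ}
    (hf : IsSobolev m f) : IsSobolev m (fun x => c * f x) := by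
  sorry

/-! ### S4: locality (helper877) -/

theorem minWeakGrad_ae_eq_of_eq (hfin : IsFiniteOnBalls m) {f g : X → ℝ}
    (hf : IsSobolevLoc m f) (hg : IsSobolevLoc m g) :
    ∀ᵐ x ∂m, f x = g x → minWeakGrad m f x = minWeakGrad m g x := by
  sorry

theorem minWeakGrad_ae_eq_zero_of_mem (hfin : IsFiniteOnBalls m) {f : X → ℝ}
    (hf : IsSobolevLoc m f) {N : Set ℝ} (hN : N.Countable) :
    ∀ᵐ x ∂m, f x ∈ N → minWeakGrad m f x = 0 := by
  sorry

/-- A function that coincides on every ball with some local Sobolev function is local Sobolev. -/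
theorem isSobolevLoc_of_forall_ball (hfin : IsFiniteOnBalls m) {f : X → ℝ}
    (h : ∀ (o : X) (R : ℝ), ∃ g : X → ℝ, IsSobolevLoc m g ∧
      ∀ᵐ x ∂(m.restrict (Metric.ball o R)), f x = g x) : IsSobolevLoc m f := by
  sorry

/-! ### S5: chain rule (helper877) -/

theorem IsSobolevLoc.comp_lipschitz (hfin : IsFiniteOnBalls m) {f : X → ℝ}
    (hf : IsSobolevLoc m f) {φ : ℝ → ℝ} {L : ℝ≥0} (hφ : LipschitzWith L φ) :
    IsSobolevLoc m (fun x => φ (f x)) := by
  sorry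

theorem minWeakGrad_comp_le (hfin : IsFiniteOnBalls m) {f : X → ℝ}
    (hf : IsSobolevLoc m f) {φ : ℝ → ℝ} {L : ℝ≥0} (hφ : LipschitzWith L φ) :
    ∀ᵐ x ∂m, minWeakGrad m (fun y => φ (f y)) x ≤ L * minWeakGrad m f x := by
  sorry

/-- chain rule for a Lipschitz `φ` differentiable outside a countable set -/
theorem minWeakGrad_comp (hfin : IsFiniteOnBalls m) {f : X → ℝ}
    (hf : IsSobolevLoc m f) {φ ψ : ℝ → ℝ} {L : ℝ≥0} (hφ : LipschitzWith L φ)
    {N : Set ℝ} (hN : N.Countable) (hd : ∀ t ∉ N, HasDerivAt φ (ψ t) t) :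
    ∀ᵐ x ∂m, minWeakGrad m (fun y => φ (f y)) x = |ψ (f x)| * minWeakGrad m f x := by
  sorry

/-- chain rule for a `C¹` function of a locally bounded local Sobolev function -/
theorem IsSobolevLoc.comp_contDiff (hfin : IsFiniteOnBalls m) {f : X → ℝ}
    (hf : IsSobolevLoc m f) (hb : LocBdd m f) {φ : ℝ → ℝ} (hφ : ContDiff ℝ 1 φ) :
    IsSobolevLoc m (fun x => φ (f x)) := by
  sorry

theorem minWeakGrad_comp_contDiff (hfin : IsFiniteOnBalls m) {f : X → ℝ}
    (hf : IsSobolevLoc m f) (hb : LocBdd m f) {φ : ℝ → ℝ} (hφ : ContDiff ℝ 1 φ) :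
    ∀ᵐ x ∂m, minWeakGrad m (fun y => φ (f y)) x = |deriv φ (f x)| * minWeakGrad m f x := by
  sorry

/-! ### S6: Leibniz rule (helper877) -/

theorem IsSobolevLoc.mul (hfin : IsFiniteOnBalls m) {f g : X → ℝ} (hf : IsSobolevLoc m f)
    (hg : IsSobolevLoc m g) (hfb : LocBdd m f) (hgb : LocBdd m g) :
    IsSobolevLoc m (fun x => f x * g x) := by
  sorry

theorem minWeakGrad_mul_le (hfin : IsFiniteOnBalls m) {f g : X → ℝ} (hf : IsSobolevLoc m f)
    (hg : IsSobolevLoc m g) (hfb : LocBdd m f) (hgb : LocBdd m g) :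
    ∀ᵐ x ∂m, minWeakGrad m (fun y => f y * g y) x ≤
      |f x| * minWeakGrad m g x + |g x| * minWeakGrad m f x := by
  sorry

/-- general form: only the products need to be locally square integrable -/
theorem IsSobolevLoc.mul_of_isL2OnBalls (hfin : IsFiniteOnBalls m) {f g : X → ℝ}
    (hf : IsSobolevLoc m f) (hg : IsSobolevLoc m g) (hfg : IsL2OnBalls m (fun x => f x * g x))
    (hD : IsL2OnBalls m (fun x => |f x| * minWeakGrad m g x + |g x| * minWeakGrad m f x)) :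
    IsSobolevLoc m (fun x => f x * g x) ∧
      ∀ᵐ x ∂m, minWeakGrad m (fun y => f y * g y) x ≤
        |f x| * minWeakGrad m g x + |g x| * minWeakGrad m f x := by
  sorry

/-- `f` local Sobolev (maybe unbounded), `g` Lipschitz on balls -/
theorem IsSobolevLoc.mul_lipOnBalls (hfin : IsFiniteOnBalls m) {f g : X → ℝ}
    (hf : IsSobolevLoc m f) (hg : LipOnBalls g) :
    IsSobolevLoc m (fun x => f x * g x) ∧
      ∀ᵐ x ∂m, minWeakGrad m (fun y => f y * g y) x ≤
        |f x| * minWeakGrad m g x + |g x| * minWeakGrad m f x := by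
  sorry

/-! ### S7: Lipschitz functions (helper877); slope version in `SobSlope.lean` -/

theorem LipOnBalls.isSobolevLoc (hfin : IsFiniteOnBalls m) {f : X → ℝ} (hf : LipOnBalls f) :
    IsSobolevLoc m f := by
  sorry

theorem LipOnBalls.locBdd {f : X → ℝ} (hf : LipOnBalls f) : LocBdd m f := by
  sorry

theorem minWeakGrad_le_of_lipschitzOnWith (hfin : IsFiniteOnBalls m) {f : X → ℝ}
    (hf : LipOnBalls f) {U : Set X} (hU : IsOpen U) {L : ℝ≥0} (hL : LipschitzOnWith L f U) :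
    ∀ᵐ x ∂m, x ∈ U → minWeakGrad m f x ≤ L := by
  sorry

theorem isSobolev_of_lipschitz_hasCompactSupport (hfin : IsFiniteOnBalls m) {f : X → ℝ}
    {L : ℝ≥0} (hf : LipschitzWith L f) (hc : HasCompactSupport f) : IsSobolev m f := by
  sorry

/-- Lipschitz cut-off: `1` on `closedBall o R`, supported in `closedBall o (R + r)` -/
theorem exists_cutoff (o : X) {R r : ℝ} (hR : 0 ≤ R) (hr : 0 < r) :
    ∃ χ : X → ℝ, LipschitzWith (Real.toNNReal (1 / r)) χ ∧ HasCompactSupport χ ∧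
      (∀ x, 0 ≤ χ x ∧ χ x ≤ 1) ∧ (∀ x ∈ Metric.closedBall o R, χ x = 1) ∧
      (∀ x, x ∉ Metric.closedBall o (R + r) → χ x = 0) := by
  sorry

/-- lattice operations -/
theorem IsSobolevLoc.max (hfin : IsFiniteOnBalls m) {f g : X → ℝ} (hf : IsSobolevLoc m f)
    (hg : IsSobolevLoc m g) : IsSobolevLoc m (fun x => max (f x) (g x)) := by
  sorry

theorem IsSobolevLoc.min (hfin : IsFiniteOnBalls m) {f g : X → ℝ} (hf : IsSobolevLoc m f)
    (hg : IsSobolevLoc m g) : IsSobolevLoc m (fun x => min (f x) (g x)) := by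
  sorry

/-! ### S10: weak upper gradients from a quadratic inequality (helper877) -/

theorem isWUGLoc_of_quadratic (hfin : IsFiniteOnBalls m) {g D : X → ℝ} (hg : IsL2OnBalls m g)
    (hD : IsL2OnBalls m D) (hD0 : ∀ᵐ x ∂m, 0 ≤ D x)
    (h : ∀ P : Measure (UCurve X), IsTestPlan2 m P → HasBoundedTracks P → ∀ a : ℝ, 0 < a →
      (∫ γ, (g (γ.toMap 1) - g (γ.toMap 0)) ∂P) ≤
        (a / 2) * (∫⁻ γ, (∫⁻ t in Set.Icc (0 : ℝ) 1, ENNReal.ofReal (D (γ.ext t) ^ 2)) ∂P).toReal +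
        (1 / (2 * a)) * (∫⁻ γ, (∫⁻ t in Set.Icc (0 : ℝ) 1, upperSpeed γ t ^ 2) ∂P).toReal) :
    IsWUGLoc m g D := by
  sorry

/-! ### S8: closure and lower semicontinuity (helper282) -/

theorem isSobolevLoc_of_tendsto (hfin : IsFiniteOnBalls m) {f : X → ℝ} {fn : ℕ → X → ℝ}
    (hn : ∀ n, IsSobolevLoc m (fn n)) (hf : IsL2OnBalls m f)
    (hlim : ∀ (o : X) (R : ℝ), Tendsto
      (fun n => ∫⁻ x in Metric.ball o R, ENNReal.ofReal ((fn n x - f x) ^ 2) ∂m) atTop (𝓝 0))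
    (hbd : ∀ (o : X) (R : ℝ), ∃ C : ℝ≥0, ∀ n,
      ∫⁻ x in Metric.ball o R, ENNReal.ofReal (minWeakGrad m (fn n) x ^ 2) ∂m ≤ C) :
    IsSobolevLoc m f := by
  sorry

/-- lower semicontinuity, for any measurable weight -/
theorem lintegral_minWeakGrad_sq_le_liminf (hfin : IsFiniteOnBalls m) {f : X → ℝ}
    {fn : ℕ → X → ℝ} (hn : ∀ n, IsSobolevLoc m (fn n)) (hf : IsL2OnBalls m f)
    (hlim : ∀ (o : X) (R : ℝ), Tendsto
      (fun n => ∫⁻ x in Metric.ball o R, ENNReal.ofReal ((fn n x - f x) ^ 2) ∂m) atTop (𝓝 0))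
    (hbd : ∀ (o : X) (R : ℝ), ∃ C : ℝ≥0, ∀ n,
      ∫⁻ x in Metric.ball o R, ENNReal.ofReal (minWeakGrad m (fn n) x ^ 2) ∂m ≤ C)
    {w : X → ℝ≥0∞} (hw : Measurable w) :
    ∫⁻ x, w x * ENNReal.ofReal (minWeakGrad m f x ^ 2) ∂m ≤
      liminf (fun n => ∫⁻ x, w x * ENNReal.ofReal (minWeakGrad m (fn n) x ^ 2) ∂m) atTop := by
  sorry

/-- `W^{1,2}` is complete -/
theorem exists_isSobolev_limit (hfin : IsFiniteOnBalls m) {fn : ℕ → X → ℝ}
    (hn : ∀ n, IsSobolev m (fn n))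
    (hc : ∀ ε : ℝ, 0 < ε → ∃ n₀ : ℕ, ∀ i j : ℕ, n₀ ≤ i → n₀ ≤ j →
      (∫⁻ x, ENNReal.ofReal ((fn i x - fn j x) ^ 2) ∂m) +
        (∫⁻ x, ENNReal.ofReal (minWeakGrad m (fun y => fn i y - fn j y) x ^ 2) ∂m)
          ≤ ENNReal.ofReal ε) :
    ∃ f : X → ℝ, IsSobolev m f ∧
      Tendsto (fun n => ∫⁻ x, ENNReal.ofReal ((fn n x - f x) ^ 2) ∂m) atTop (𝓝 0) ∧
      Tendsto (fun n => ∫⁻ x, ENNReal.ofReal
        (minWeakGrad m (fun y => fn n y - f y) x ^ 2) ∂m) atTop (𝓝 0) := by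
  sorry

/-! ### S11, S12: infinitesimal Hilbertianity, pointwise (helper749) -/

theorem minWeakGrad_parallelogram (hfin : IsFiniteOnBalls m) (hH : IsInfHilbertian m)
    {f g : X → ℝ} (hf : IsSobolevLoc m f) (hg : IsSobolevLoc m g) :
    ∀ᵐ x ∂m, minWeakGrad m (fun y => f y + g y) x ^ 2 + minWeakGrad m (fun y => f y - g y) x ^ 2 =
      2 * minWeakGrad m f x ^ 2 + 2 * minWeakGrad m g x ^ 2 := by
  sorry

theorem gradPairing_self (hfin : IsFiniteOnBalls m) {f : X → ℝ} (hf : IsSobolevLoc m f) :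
    ∀ᵐ x ∂m, gradPairing m f f x = minWeakGrad m f x ^ 2 := by
  sorry

theorem gradPairing_comm (f g : X → ℝ) :
    ∀ᵐ x ∂m, gradPairing m f g x = gradPairing m g f x := by
  sorry

theorem gradPairing_congr {f f' g g' : X → ℝ} (hf : f =ᵐ[m] f') (hg : g =ᵐ[m] g') :
    gradPairing m f g =ᵐ[m] gradPairing m f' g' := by
  sorry

theorem gradPairing_add_left (hfin : IsFiniteOnBalls m) (hH : IsInfHilbertian m)
    {f f' g : X → ℝ} (hf : IsSobolevLoc m f) (hf' : IsSobolevLoc m f') (hg : IsSobolevLoc m g) :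
    ∀ᵐ x ∂m, gradPairing m (fun y => f y + f' y) g x =
      gradPairing m f g x + gradPairing m f' g x := by
  sorry

theorem gradPairing_sub_left (hfin : IsFiniteOnBalls m) (hH : IsInfHilbertian m)
    {f f' g : X → ℝ} (hf : IsSobolevLoc m f) (hf' : IsSobolevLoc m f') (hg : IsSobolevLoc m g) :
    ∀ᵐ x ∂m, gradPairing m (fun y => f y - f' y) g x =
      gradPairing m f g x - gradPairing m f' g x := by
  sorry

theorem gradPairing_const_mul_left (hfin : IsFiniteOnBalls m) (hH : IsInfHilbertian m) (c : ℝ)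
    {f g : X → ℝ} (hf : IsSobolevLoc m f) (hg : IsSobolevLoc m g) :
    ∀ᵐ x ∂m, gradPairing m (fun y => c * f y) g x = c * gradPairing m f g x := by
  sorry

theorem abs_gradPairing_le (hfin : IsFiniteOnBalls m) (hH : IsInfHilbertian m)
    {f g : X → ℝ} (hf : IsSobolevLoc m f) (hg : IsSobolevLoc m g) :
    ∀ᵐ x ∂m, |gradPairing m f g x| ≤ minWeakGrad m f x * minWeakGrad m g x := by
  sorry

theorem gradPairing_ae_eq_of_eq (hfin : IsFiniteOnBalls m) {f f' g : X → ℝ}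
    (hf : IsSobolevLoc m f) (hf' : IsSobolevLoc m f') (hg : IsSobolevLoc m g)
    (hH : IsInfHilbertian m) :
    ∀ᵐ x ∂m, f x = f' x → gradPairing m f g x = gradPairing m f' g x := by
  sorry

theorem gradPairing_mul_left (hfin : IsFiniteOnBalls m) (hH : IsInfHilbertian m)
    {f h g : X → ℝ} (hf : IsSobolevLoc m f) (hh : IsSobolevLoc m h) (hg : IsSobolevLoc m g)
    (hfh : IsSobolevLoc m (fun x => f x * h x)) :
    ∀ᵐ x ∂m, gradPairing m (fun y => f y * h y) g x =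
      f x * gradPairing m h g x + h x * gradPairing m f g x := by
  sorry

theorem gradPairing_comp_left (hfin : IsFiniteOnBalls m) (hH : IsInfHilbertian m)
    {f g : X → ℝ} (hf : IsSobolevLoc m f) (hg : IsSobolevLoc m g) {φ ψ : ℝ → ℝ} {L : ℝ≥0}
    (hφ : LipschitzWith L φ) {N : Set ℝ} (hN : N.Countable)
    (hd : ∀ t ∉ N, HasDerivAt φ (ψ t) t) :
    ∀ᵐ x ∂m, gradPairing m (fun y => φ (f y)) g x = ψ (f x) * gradPairing m f g x := by
  sorry

end Crest.Agent.R242
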