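import Mathlib

/-!
Row 242, part S: absolutely continuous functions of one real variable.
-/

set_option autoImplicit false

open MeasureTheory Filter Set
open scoped ENNReal NNReal Topology

namespace Crest.Agent.R242

theorem AC_of_dist_le {u v : ℝ → ℝ} {a b : ℝ} (C : ℝ) (hv : AbsolutelyContinuousOnInterval v a b)
    (h : ∀ s ∈ uIcc a b, ∀ t ∈ uIcc a b, |u s - u t| ≤ C * |v s - v t|) :
    AbsolutelyContinuousOnInterval u a b := by
  have h0 := hv.const_mul C
  have hC := h0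
  unfold AbsolutelyContinuousOnInterval at h0 ⊢
  refine squeeze_zero' ?_ ?_ h0
  · filter_upwards with E
    exact Finset.sum_nonneg (fun _ _ => dist_nonneg)
  · have hE : ∀ᶠ E in AbsolutelyContinuousOnInterval.totalLengthFilter ⊓
        𝓟 (AbsolutelyContinuousOnInterval.disjWithin a b),
        E ∈ AbsolutelyContinuousOnInterval.disjWithin a b :=
      eventually_inf_principal.mpr (by simp)
    filter_upwards [hE] with E hE
    refine Finset.sum_le_sum fun i hi => ?_
    obtain ⟨h1, h2⟩ := hE.1 i hi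
    rw [Real.dist_eq, Real.dist_eq, ← mul_sub, abs_mul]
    exact (h _ h1 _ h2).trans (mul_le_mul_of_nonneg_right (le_abs_self C) (abs_nonneg _))

theorem AC_comp_lipschitz {u : ℝ → ℝ} {a b : ℝ} (hu : AbsolutelyContinuousOnInterval u a b)
    {φ : ℝ → ℝ} {L : ℝ≥0} (hφ : LipschitzWith L φ) :
    AbsolutelyContinuousOnInterval (fun t => φ (u t)) a b := by
  refine AC_of_dist_le (L : ℝ) hu fun s _ t _ => ?_
  have := hφ.dist_le_mul (u s) (u t)
  simpa [Real.dist_eq] using this

/-- almost every point of a level set is an accumulation point of it, so the derivative vanishes -/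
theorem ae_hasDerivAt_eq_zero_of_eq (u : ℝ → ℝ) (c : ℝ) :
    ∀ᵐ t : ℝ, u t = c → ∀ d : ℝ, HasDerivAt u d t → d = 0 := by
  have hc : ({ x ∈ {t : ℝ | u t = c} | 𝓝[{t : ℝ | u t = c} ∩ Ioi x] x = ⊥ }).Countable :=
    countable_setOfPred_isolated_right_within
  have h0 := hc.ae_notMem (volume : Measure ℝ)
  filter_upwards [h0] with t ht htc d hd
  have hne : (𝓝[{t : ℝ | u t = c} ∩ Ioi t] t).NeBot := by
    rw [neBot_iff]
    intro hbot
    exact ht ⟨htc, hbot⟩
  have hslope : Tendsto (slope u t) (𝓝[≠] t) (𝓝 d) := hasDerivAt_iff_tendsto_slope.mp hd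
  have hle : 𝓝[{t : ℝ | u t = c} ∩ Ioi t] t ≤ 𝓝[≠] t := by
    apply nhdsWithin_mono
    rintro y ⟨_, hy⟩
    exact (ne_of_gt hy)
  have h1 : Tendsto (slope u t) (𝓝[{t : ℝ | u t = c} ∩ Ioi t] t) (𝓝 d) := hslope.mono_left hle
  have h2 : Tendsto (slope u t) (𝓝[{t : ℝ | u t = c} ∩ Ioi t] t) (𝓝 0) := by
    refine Tendsto.congr' ?_ tendsto_const_nhds
    filter_upwards [self_mem_nhdsWithin] with y hy
    have : u y = u t := by rw [htc]; exact hy.1
    simp [slope, this]
  exact tendsto_nhds_unique h1 h2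

theorem ae_hasDerivAt_eq_zero_of_mem (u : ℝ → ℝ) {N : Set ℝ} (hN : N.Countable) :
    ∀ᵐ t : ℝ, u t ∈ N → ∀ d : ℝ, HasDerivAt u d t → d = 0 := by
  have : ∀ᵐ t : ℝ, ∀ c ∈ N, u t = c → ∀ d : ℝ, HasDerivAt u d t → d = 0 := by
    rw [ae_ball_iff hN]
    intro c _
    exact ae_hasDerivAt_eq_zero_of_eq u c
  filter_upwards [this] with t ht h
  exact ht (u t) h rfl

theorem AC_ae_differentiableAt {u : ℝ → ℝ} (hu : AbsolutelyContinuousOnInterval u 0 1) :
    ∀ᵐ t ∂(volume.restrict (Icc (0 : ℝ) 1)), DifferentiableAt ℝ u t := by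
  rw [ae_restrict_iff' measurableSet_Icc]
  have := hu.ae_differentiableAt
  rwa [uIcc_of_le zero_le_one] at this

theorem AC_ofReal_abs_sub_le {u : ℝ → ℝ} (hu : AbsolutelyContinuousOnInterval u 0 1) {a b : ℝ}
    (ha : 0 ≤ a) (hab : a ≤ b) (hb : b ≤ 1) :
    ENNReal.ofReal |u b - u a| ≤ ∫⁻ t in Icc a b, ENNReal.ofReal |deriv u t| := by
  have hsub : uIcc a b ⊆ uIcc (0 : ℝ) 1 := by
    rw [uIcc_of_le hab, uIcc_of_le zero_le_one]
    exact Icc_subset_Icc ha hb
  have hu' := hu.mono hsub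
  have h1 := hu'.integral_deriv_eq_sub
  rw [← h1]
  rw [intervalIntegral.integral_of_le hab]
  have h2 : ENNReal.ofReal |∫ t in Ioc a b, deriv u t| = ‖∫ t in Ioc a b, deriv u t‖ₑ := by
    rw [← Real.norm_eq_abs, ofReal_norm]
  rw [h2]
  refine (enorm_integral_le_lintegral_enorm _).trans ?_
  rw [setLIntegral_congr (Ioc_ae_eq_Icc (μ := (volume : Measure ℝ)))]
  refine lintegral_mono fun t => ?_
  rw [← Real.norm_eq_abs, ofReal_norm]

/-- Extension of a function given on a subset of `[0,1]` whose increments are bounded by an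
integral. -/
theorem exists_AC_of_lintegral_bound {ρ : ℝ → ℝ≥0∞}
    (hρm : AEMeasurable ρ (volume.restrict (Icc (0 : ℝ) 1)))
    (hρ : ∫⁻ t in Icc (0 : ℝ) 1, ρ t ≠ ⊤) {S : Set ℝ} (hS : S ⊆ Icc 0 1) {g : ℝ → ℝ}
    (hg : ∀ s ∈ S, ∀ t ∈ S, s ≤ t → ENNReal.ofReal |g t - g s| ≤ ∫⁻ r in Icc s t, ρ r) :
    ∃ u : ℝ → ℝ, AbsolutelyContinuousOnInterval u 0 1 ∧ (∀ s ∈ S, u s = g s) ∧
      (∀ᵐ t ∂(volume.restrict (Icc (0 : ℝ) 1)), ENNReal.ofReal |deriv u t| ≤ ρ t) := by
  classical
  set r : ℝ → ℝ := fun t => (ρ t).toReal with hr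
  have hfin : ∀ᵐ t ∂(volume.restrict (Icc (0 : ℝ) 1)), ρ t < ⊤ := ae_lt_top' hρm hρ
  have hrint : IntegrableOn r (Icc 0 1) := integrable_toReal_of_lintegral_ne_top hρm hρ
  have hrii : IntervalIntegrable r volume 0 1 := by
    rw [intervalIntegrable_iff_integrableOn_Icc_of_le zero_le_one]
    exact hrint
  set G : ℝ → ℝ := fun x => ∫ v in (0 : ℝ)..x, r v with hG
  have hGAC : AbsolutelyContinuousOnInterval G 0 1 :=
    hrii.absolutelyContinuousOnInterval_intervalIntegral (by simp)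
  have hsubint : ∀ s t : ℝ, 0 ≤ s → s ≤ t → t ≤ 1 → IntervalIntegrable r volume s t := by
    intro s t hs hst ht
    rw [intervalIntegrable_iff_integrableOn_Icc_of_le hst]
    exact hrint.mono_set (Icc_subset_Icc hs ht)
  have hGdiff : ∀ s t : ℝ, 0 ≤ s → s ≤ t → t ≤ 1 →
      ENNReal.ofReal (G t - G s) = ∫⁻ r in Icc s t, ρ r := by
    intro s t hs hst ht
    have h1 : G t - G s = ∫ v in s..t, r v := by
      rw [hG]
      exact intervalIntegral.integral_interval_sub_left (hsubint 0 t le_rfl (hs.trans hst) ht)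
        (hsubint 0 s le_rfl hs (hst.trans ht))
    rw [h1, intervalIntegral.integral_of_le hst, ← integral_Icc_eq_integral_Ioc]
    have hsub : Icc s t ⊆ Icc (0 : ℝ) 1 := Icc_subset_Icc hs ht
    rw [hr]
    have hfin' : ∀ᵐ t ∂(volume.restrict (Icc s t)), ρ t < ⊤ :=
      ae_restrict_of_ae_restrict_of_subset hsub hfin
    rw [integral_toReal (hρm.mono_set hsub) hfin', ENNReal.ofReal_toReal]
    exact ((lintegral_mono_set hsub).trans_lt (lt_top_iff_ne_top.mpr hρ)).ne
  have hGmono : ∀ s t : ℝ, 0 ≤ s → s ≤ t → t ≤ 1 → 0 ≤ G t - G s := by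
    intro s t hs hst ht
    have h1 : G t - G s = ∫ v in s..t, r v := by
      rw [hG]
      exact intervalIntegral.integral_interval_sub_left (hsubint 0 t le_rfl (hs.trans hst) ht)
        (hsubint 0 s le_rfl hs (hst.trans ht))
    rw [h1]
    exact intervalIntegral.integral_nonneg hst (fun _ _ => ENNReal.toReal_nonneg)
  -- increments of g in terms of G
  have hgG : ∀ s ∈ S, ∀ t ∈ S, |g t - g s| ≤ |G t - G s| := by
    have key : ∀ s ∈ S, ∀ t ∈ S, s ≤ t → |g t - g s| ≤ |G t - G s| := by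
      intro s hs t ht hst
      have h1 := hg s hs t ht hst
      rw [← hGdiff s t (hS hs).1 hst (hS ht).2] at h1
      have h2 := hGmono s t (hS hs).1 hst (hS ht).2
      rw [ENNReal.ofReal_le_ofReal_iff h2] at h1
      rwa [abs_of_nonneg h2]
    intro s hs t ht
    rcases le_total s t with h | h
    · exact key s hs t ht h
    · rw [abs_sub_comm, abs_sub_comm (G t)]
      exact key t ht s hs h
  -- transport to a Lipschitz function of G
  let sec : ℝ → ℝ := fun y => if h : ∃ s ∈ S, G s = y then Classical.choose h else 0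
  have hsec : ∀ y ∈ G '' S, sec y ∈ S ∧ G (sec y) = y := by
    rintro y ⟨s, hs, rfl⟩
    have h : ∃ s' ∈ S, G s' = G s := ⟨s, hs, rfl⟩
    simp only [sec, dif_pos h]
    exact Classical.choose_spec h
  have hLip : LipschitzOnWith 1 (fun y => g (sec y)) (G '' S) := by
    refine LipschitzOnWith.of_dist_le_mul fun x hx y hy => ?_
    have h1 := hgG _ (hsec y hy).1 _ (hsec x hx).1
    rw [(hsec x hx).2, (hsec y hy).2] at h1
    simpa [Real.dist_eq] using h1
  obtain ⟨k, hk, hkeq⟩ := hLip.extend_real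
  refine ⟨fun t => k (G t), AC_comp_lipschitz hGAC hk, ?_, ?_⟩
  · intro s hs
    have h1 : G s ∈ G '' S := ⟨s, hs, rfl⟩
    have h2 : k (G s) = g (sec (G s)) := (hkeq h1).symm
    have h3 := hgG _ (hsec _ h1).1 _ hs
    rw [(hsec _ h1).2, sub_self, abs_zero] at h3
    have h4 : g s - g (sec (G s)) = 0 := abs_eq_zero.mp (le_antisymm h3 (abs_nonneg _))
    simp only
    rw [h2]
    linarith
  · have hLDT := hrii.ae_hasDerivAt_integral
    rw [uIcc_of_le zero_le_one] at hLDT
    have hLDT' : ∀ᵐ t ∂(volume.restrict (Icc (0 : ℝ) 1)), HasDerivAt G (r t) t := by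
      rw [ae_restrict_iff' measurableSet_Icc]
      filter_upwards [hLDT] with t ht htm
      exact ht htm 0 (by simp)
    have hdiff := AC_ae_differentiableAt (AC_comp_lipschitz hGAC hk)
    filter_upwards [hLDT', hdiff, hfin] with t ht hd htop
    have hslope1 := hasDerivAt_iff_tendsto_slope.mp hd.hasDerivAt
    have hslope2 := hasDerivAt_iff_tendsto_slope.mp ht
    have hle : |deriv (fun t => k (G t)) t| ≤ |r t| := by
      refine le_of_tendsto_of_tendsto hslope1.abs hslope2.abs ?_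
      filter_upwards [self_mem_nhdsWithin] with y hy
      simp only [slope, vsub_eq_sub, smul_eq_mul, abs_mul]
      refine mul_le_mul_of_nonneg_left ?_ (abs_nonneg _)
      have := hk.dist_le_mul (G y) (G t)
      simpa [Real.dist_eq] using this
    calc ENNReal.ofReal |deriv (fun t => k (G t)) t| ≤ ENNReal.ofReal |r t| :=
          ENNReal.ofReal_le_ofReal hle
      _ = ρ t := by
          rw [hr, abs_of_nonneg ENNReal.toReal_nonneg, ENNReal.ofReal_toReal htop.ne]

/-- If the increments of `u` on `[0,1]` are bounded by the integral of `ρ` then `u` is absolutely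
continuous with `|u'| ≤ ρ`. -/
theorem AC_of_lintegral_bound {ρ : ℝ → ℝ≥0∞}
    (hρm : AEMeasurable ρ (volume.restrict (Icc (0 : ℝ) 1)))
    (hρ : ∫⁻ t in Icc (0 : ℝ) 1, ρ t ≠ ⊤) {u : ℝ → ℝ}
    (hu : ∀ s t : ℝ, 0 ≤ s → s ≤ t → t ≤ 1 →
      ENNReal.ofReal |u t - u s| ≤ ∫⁻ r in Icc s t, ρ r) :
    AbsolutelyContinuousOnInterval u 0 1 ∧
      (∀ᵐ t ∂(volume.restrict (Icc (0 : ℝ) 1)), ENNReal.ofReal |deriv u t| ≤ ρ t) := by
  obtain ⟨v, hv, hvu, hvd⟩ := exists_AC_of_lintegral_bound hρm hρ (S := Icc 0 1) le_rfl (g := u)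
    (fun s hs t ht hst => hu s t hs.1 hst ht.2)
  constructor
  · refine AC_of_dist_le 1 hv fun s hs t ht => ?_
    rw [uIcc_of_le zero_le_one] at hs ht
    rw [hvu s hs, hvu t ht, one_mul]
  · have h01 : ∀ᵐ t ∂(volume.restrict (Icc (0 : ℝ) 1)), t ∈ Ioo (0 : ℝ) 1 := by
      rw [← restrict_Ioo_eq_restrict_Icc]
      exact ae_restrict_mem measurableSet_Ioo
    filter_upwards [hvd, h01] with t ht ht01
    have heq : u =ᶠ[𝓝 t] v := by
      filter_upwards [Icc_mem_nhds ht01.1 ht01.2] with y hy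
      exact (hvu y hy).symm
    rwa [heq.deriv_eq]

/-- the derivative of a composition with a Lipschitz function differentiable outside a countable
set -/
theorem AC_ae_abs_deriv_comp {u : ℝ → ℝ} (hu : AbsolutelyContinuousOnInterval u 0 1)
    {φ ψ : ℝ → ℝ} {L : ℝ≥0} (hφ : LipschitzWith L φ) {N : Set ℝ} (hN : N.Countable)
    (hd : ∀ t ∉ N, HasDerivAt φ (ψ t) t) :
    ∀ᵐ t ∂(volume.restrict (Icc (0 : ℝ) 1)),
      |deriv (fun s => φ (u s)) t| = |ψ (u t)| * |deriv u t| := by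
  have h1 := ae_restrict_of_ae (s := Icc (0 : ℝ) 1) (ae_hasDerivAt_eq_zero_of_mem u hN)
  filter_upwards [AC_ae_differentiableAt hu, h1] with t ht h1
  by_cases hmem : u t ∈ N
  · have hu0 : deriv u t = 0 := h1 hmem _ ht.hasDerivAt
    have hder : HasDerivAt u 0 t := by rw [← hu0]; exact ht.hasDerivAt
    have hcomp : HasDerivAt (fun s => φ (u s)) 0 t := by
      rw [hasDerivAt_iff_isLittleO] at hder ⊢
      simp only [smul_zero, sub_zero] at hder ⊢
      refine Asymptotics.IsBigO.trans_isLittleO ?_ hder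
      refine Asymptotics.IsBigO.of_bound (L : ℝ) (Eventually.of_forall fun s => ?_)
      have := hφ.dist_le_mul (u s) (u t)
      simpa [Real.dist_eq] using this
    rw [hcomp.deriv, hu0]
    simp
  · have := (hd _ hmem).comp t ht.hasDerivAt
    have h2 : HasDerivAt (fun s => φ (u s)) (ψ (u t) * deriv u t) t := this
    rw [h2.deriv, abs_mul]

theorem AC_ae_abs_deriv_comp_le {u : ℝ → ℝ} (hu : AbsolutelyContinuousOnInterval u 0 1)
    {φ : ℝ → ℝ} {L : ℝ≥0} (hφ : LipschitzWith L φ) :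
    ∀ᵐ t ∂(volume.restrict (Icc (0 : ℝ) 1)),
      |deriv (fun s => φ (u s)) t| ≤ L * |deriv u t| := by
  filter_upwards [AC_ae_differentiableAt hu, AC_ae_differentiableAt (AC_comp_lipschitz hu hφ)]
    with t ht1 ht2
  have hslope1 := hasDerivAt_iff_tendsto_slope.mp ht2.hasDerivAt
  have hslope2 := hasDerivAt_iff_tendsto_slope.mp ht1.hasDerivAt
  refine le_of_tendsto_of_tendsto hslope1.abs (hslope2.abs.const_mul (L : ℝ)) ?_
  filter_upwards [self_mem_nhdsWithin] with y hy
  simp only [slope, vsub_eq_sub, smul_eq_mul, abs_mul]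
  have := hφ.dist_le_mul (u y) (u t)
  rw [Real.dist_eq, Real.dist_eq] at this
  calc |(y - t)⁻¹| * |φ (u y) - φ (u t)| ≤ |(y - t)⁻¹| * (L * |u y - u t|) :=
        mul_le_mul_of_nonneg_left this (abs_nonneg _)
    _ = L * (|(y - t)⁻¹| * |u y - u t|) := by ring

/-- two a.e. equal absolutely continuous functions on `[0,1]` agree, with their derivatives -/
theorem AC_eqOn_of_ae_eq {u v : ℝ → ℝ} (hu : AbsolutelyContinuousOnInterval u 0 1)
    (hv : AbsolutelyContinuousOnInterval v 0 1)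
    (h : ∀ᵐ t ∂(volume.restrict (Icc (0 : ℝ) 1)), u t = v t) :
    EqOn u v (Icc 0 1) ∧
      ∀ᵐ t ∂(volume.restrict (Icc (0 : ℝ) 1)), deriv u t = deriv v t := by
  have hcu : ContinuousOn u (Icc 0 1) := by
    have := hu.continuousOn
    rwa [uIcc_of_le zero_le_one] at this
  have hcv : ContinuousOn v (Icc 0 1) := by
    have := hv.continuousOn
    rwa [uIcc_of_le zero_le_one] at this
  have heq : EqOn u v (Icc 0 1) :=
    MeasureTheory.Measure.eqOn_Icc_of_ae_eq volume zero_ne_one h hcu hcv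
  refine ⟨heq, ?_⟩
  have h01 : ∀ᵐ t ∂(volume.restrict (Icc (0 : ℝ) 1)), t ∈ Ioo (0 : ℝ) 1 := by
    rw [← restrict_Ioo_eq_restrict_Icc]
    exact ae_restrict_mem measurableSet_Ioo
  filter_upwards [h01] with t ht
  have : u =ᶠ[𝓝 t] v := by
    filter_upwards [Icc_mem_nhds ht.1 ht.2] with y hy
    exact heq hy
  exact this.deriv_eq

end Crest.Agent.R242
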