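import Crest.Agent.R242.SobRep

/-!
Row 242, part S: S1 (curvewise characterisation), S2 (minimal weak upper gradients exist),
S9 (no bounded tracks), S10 (weak upper gradients from a quadratic inequality).
-/

set_option autoImplicit false

open MeasureTheory Filter Set
open Crest.GeometryTopology.SyntheticRicci
open scoped ENNReal NNReal Topology

namespace Crest.Agent.R242

section Basic

variable {X : Type*} [MetricSpace X] [MeasurableSpace X] [BorelSpace X] {m : Measure X}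

theorem aestronglyMeasurable_of_forall_ball {f : X → ℝ}
    (hf : ∀ (o : X) (R : ℝ), AEStronglyMeasurable f (m.restrict (Metric.ball o R))) :
    AEStronglyMeasurable f m := by
  rcases isEmpty_or_nonempty X with hX | ⟨⟨o⟩⟩
  · have : m = 0 := Measure.eq_zero_of_isEmpty m
    rw [this]
    exact aestronglyMeasurable_zero_measure f
  · have h1 : (⋃ n : ℕ, Metric.ball o (n : ℝ)) = univ := Metric.iUnion_ball_nat o
    rw [← Measure.restrict_univ (μ := m), ← h1]
    rw [aestronglyMeasurable_iUnion_iff]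
    intro n
    exact hf o n

theorem isL2OnBalls_aestronglyMeasurable {f : X → ℝ} (hf : IsL2OnBalls m f) :
    AEStronglyMeasurable f m :=
  aestronglyMeasurable_of_forall_ball fun o R => (hf o R).1

theorem sigmaFinite_of_isFiniteOnBalls (hfin : IsFiniteOnBalls m) : SigmaFinite m := by
  rcases isEmpty_or_nonempty X with hX | ⟨⟨o⟩⟩
  · have : m = 0 := Measure.eq_zero_of_isEmpty m
    rw [this]
    infer_instance
  · refine ⟨⟨⟨fun n => Metric.ball o n, fun _ => trivial, fun n => hfin o n,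
      Metric.iUnion_ball_nat o⟩⟩⟩

theorem isL2OnBalls_congr {f g : X → ℝ} (h : f =ᵐ[m] g) (hf : IsL2OnBalls m f) :
    IsL2OnBalls m g :=
  fun o R => (memLp_congr_ae (ae_restrict_of_ae h)).1 (hf o R)

end Basic

section Main

variable {X : Type*} [MetricSpace X] [SecondCountableTopology X] [MeasurableSpace X] [BorelSpace X]
variable {m : Measure X}

theorem IsWUGLoc.congr {f g D D' : X → ℝ} (hfg : f =ᵐ[m] g) (hD : D =ᵐ[m] D')
    (h : IsWUGLoc m f D) : IsWUGLoc m g D' := by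
  obtain ⟨h1, h2, h3⟩ := h
  refine ⟨isL2OnBalls_congr hD h1, ?_, ?_⟩
  · filter_upwards [h2, hD] with x hx1 hx2
    rwa [← hx2]
  · intro P hP hb
    obtain ⟨hprob, ⟨C, hC⟩, hL2, hE⟩ := hP
    have e0 := ae_toMap_of_ae hC hfg 0
    have e1 := ae_toMap_of_ae hC hfg 1
    have e2 := ae_ae_ext_of_ae hC hD
    have h4 := h3 P ⟨hprob, ⟨C, hC⟩, hL2, hE⟩ hb
    calc (∫⁻ γ, ENNReal.ofReal |g (γ.toMap 1) - g (γ.toMap 0)| ∂P)
        = ∫⁻ γ, ENNReal.ofReal |f (γ.toMap 1) - f (γ.toMap 0)| ∂P := by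
          apply lintegral_congr_ae
          filter_upwards [e0, e1] with γ h0 h1
          rw [h0, h1]
      _ ≤ _ := h4
      _ = _ := by
          apply lintegral_congr_ae
          filter_upwards [e2] with γ h2
          apply lintegral_congr_ae
          filter_upwards [h2] with t ht
          rw [ht]

theorem ae_curveUG_congr {f g D D' : X → ℝ} (hfg : f =ᵐ[m] g) (hD : D =ᵐ[m] D')
    {P : Measure (UCurve X)} (hP : IsTestPlan2 m P) (h : ∀ᵐ γ ∂P, CurveUG f D γ) :
    ∀ᵐ γ ∂P, CurveUG g D' γ := by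
  obtain ⟨hprob, ⟨C, hC⟩, hL2, hE⟩ := hP
  have e0 := ae_toMap_of_ae hC hfg 0
  have e1 := ae_toMap_of_ae hC hfg 1
  have e2 := ae_ae_ext_of_ae hC hD
  have e3 := ae_ae_ext_of_ae hC hfg
  filter_upwards [h, e0, e1, e2, e3] with γ hγ h0 h1 h2 h3
  obtain ⟨u, hu, hu0, hu1, hu2, hu3⟩ := hγ
  refine ⟨u, hu, ?_, ?_, ?_, ?_⟩
  · rw [hu0, h0]
  · rw [hu1, h1]
  · filter_upwards [hu2, h3] with t ht1 ht2
    rw [ht1, ht2]
  · filter_upwards [hu3, h2] with t ht1 ht2
    rwa [← ht2]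

theorem exists_measurable_rep {f : X → ℝ} (hf : AEStronglyMeasurable f m) :
    ∃ g : X → ℝ, Measurable g ∧ f =ᵐ[m] g :=
  ⟨hf.mk f, hf.stronglyMeasurable_mk.measurable, hf.ae_eq_mk⟩

/-- increments of `f` along almost every curve, between two fixed times. -/
theorem ae_increment_le {f D : X → ℝ} (hf : Measurable f) (hD : Measurable D)
    (h : IsWUGLoc m f D) {P : Measure (UCurve X)} (hP : IsTestPlan2 m P)
    (hb : HasBoundedTracks P) {a b : ℝ} (ha : 0 ≤ a) (hab : a ≤ b) (hb1 : b ≤ 1) :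
    ∀ᵐ γ ∂P, ENNReal.ofReal |f (γ.ext b) - f (γ.ext a)| ≤
      ∫⁻ r in Icc a b, ENNReal.ofReal (D (γ.ext r)) * upperSpeed γ r := by
  have : IsProbabilityMeasure P := hP.1
  have haI : a ∈ Icc (0 : ℝ) 1 := ⟨ha, hab.trans hb1⟩
  have hbI : b ∈ Icc (0 : ℝ) 1 := ⟨ha.trans hab, hb1⟩
  have hmeas1 : Measurable (fun γ : UCurve X => ENNReal.ofReal |f (γ.ext b) - f (γ.ext a)|) := by
    have hmb : Measurable (fun γ : UCurve X => γ.ext b) :=
      measurable_evalExt.comp (measurable_id.prodMk measurable_const)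
    have hma : Measurable (fun γ : UCurve X => γ.ext a) :=
      measurable_evalExt.comp (measurable_id.prodMk measurable_const)
    exact ENNReal.measurable_ofReal.comp ((hf.comp hmb).sub (hf.comp hma)).abs
  have hmeas2 : Measurable (fun γ : UCurve X =>
      ∫⁻ r in Icc (0 : ℝ) 1, ENNReal.ofReal (D (γ.ext r)) * upperSpeed γ r) := by
    apply Measurable.lintegral_prod_right'
      (f := fun p : UCurve X × ℝ => ENNReal.ofReal (D (p.1.ext p.2)) * upperSpeed p.1 p.2)
    exact (ENNReal.measurable_ofReal.comp (hD.comp measurable_evalExt)).mul measurable_upperSpeed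
  refine ae_le_of_forall_setLIntegral_le_of_sigmaFinite₀ hmeas1.aemeasurable ?_
  intro A hA _
  by_cases hPA : P A = 0
  · rw [Measure.restrict_eq_zero.mpr hPA]; simp
  have hPAtop : P A ≠ ⊤ := measure_ne_top P A
  have hcs : Measurable (subCurve a b : UCurve X → UCurve X) := (cu_continuous_subCurve a b).measurable
  have hQ := isTestPlan2_map_subCurve (isTestPlan2_cond hP hPA) a b haI hbI
  have hQb := hasBoundedTracks_map_subCurve (hasBoundedTracks_cond hb A (P A)⁻¹) a b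
  have h1 := h.2.2 _ hQ hQb
  have hmeas1' : Measurable (fun γ : UCurve X =>
      ENNReal.ofReal |f (γ.toMap 1) - f (γ.toMap 0)|) :=
    ENNReal.measurable_ofReal.comp
      ((hf.comp (measurable_eval 1)).sub (hf.comp (measurable_eval 0))).abs
  rw [lintegral_map hmeas1' hcs, lintegral_map hmeas2 hcs,
    lintegral_smul_measure, lintegral_smul_measure] at h1
  have h2 : ∀ γ : UCurve X, ENNReal.ofReal |f ((subCurve a b γ).toMap 1) -
      f ((subCurve a b γ).toMap 0)| = ENNReal.ofReal |f (γ.ext b) - f (γ.ext a)| := by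
    intro γ
    rw [subCurve_toMap, subCurve_toMap]
    congr 4 <;> simp
  have h3 : ∀ γ : UCurve X, (∫⁻ r in Icc (0 : ℝ) 1, ENNReal.ofReal (D ((subCurve a b γ).ext r)) *
      upperSpeed (subCurve a b γ) r) =
      ∫⁻ r in Icc a b, ENNReal.ofReal (D (γ.ext r)) * upperSpeed γ r := by
    intro γ
    rw [lintegral_subCurve_mul a b haI hbI γ (fun x => ENNReal.ofReal (D x)), uIcc_of_le hab]
  simp only [h2, h3, smul_eq_mul] at h1
  have hinv0 : (P A)⁻¹ ≠ 0 := ENNReal.inv_ne_zero.mpr hPAtop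
  have hinvtop : (P A)⁻¹ ≠ ⊤ := ENNReal.inv_ne_top.mpr hPA
  exact (ENNReal.mul_le_mul_iff_right hinv0 hinvtop).mp h1

/-- S1, direct half, for Borel functions -/
theorem ae_curveUG_of_measurable {f D : X → ℝ} (hf : Measurable f) (hD : Measurable D)
    (h : IsWUGLoc m f D) {P : Measure (UCurve X)} (hP : IsTestPlan2 m P)
    (hb : HasBoundedTracks P) : ∀ᵐ γ ∂P, CurveUG f D γ := by
  have : IsProbabilityMeasure P := hP.1
  have hG : Measurable (fun p : UCurve X × ℝ =>
      ENNReal.ofReal (D (p.1.ext p.2)) * upperSpeed p.1 p.2) :=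
    (ENNReal.measurable_ofReal.comp (hD.comp measurable_evalExt)).mul measurable_upperSpeed
  have key := ae_exists_AC_rep (ι := Unit) (P := P) hf
    (G := fun _ p => ENNReal.ofReal (D (p.1.ext p.2)) * upperSpeed p.1 p.2) (fun _ => hG)
    (fun _ => ae_lintegral_mul_upperSpeed_lt_top hP hb h.1)
    (fun _ s t hs hst ht => ae_increment_le hf hD h hP hb hs hst ht)
  filter_upwards [key] with γ hγ
  obtain ⟨u, hu, hu0, hu1, hu2, hu3⟩ := hγ
  exact ⟨u, hu, hu0, hu1, hu2, hu3 ()⟩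

theorem ae_curveUG_of_boundedTracks {f D : X → ℝ} (hf : AEStronglyMeasurable f m)
    (h : IsWUGLoc m f D) {P : Measure (UCurve X)} (hP : IsTestPlan2 m P)
    (hb : HasBoundedTracks P) : ∀ᵐ γ ∂P, CurveUG f D γ := by
  obtain ⟨f', hf'm, hff'⟩ := exists_measurable_rep hf
  obtain ⟨D', hD'm, hDD'⟩ := exists_measurable_rep (isL2OnBalls_aestronglyMeasurable h.1)
  have h' : IsWUGLoc m f' D' := IsWUGLoc.congr hff' hDD' h
  exact ae_curveUG_congr hff'.symm hDD'.symm hP (ae_curveUG_of_measurable hf'm hD'm h' hP hb)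

theorem CurveUG.ofReal_abs_sub_le {f D : X → ℝ} {γ : UCurve X} (h : CurveUG f D γ) :
    ENNReal.ofReal |f (γ.toMap 1) - f (γ.toMap 0)| ≤
      ∫⁻ t in Icc (0 : ℝ) 1, ENNReal.ofReal (D (γ.ext t)) * upperSpeed γ t := by
  obtain ⟨u, hu, hu0, hu1, -, hu3⟩ := h
  rw [← hu0, ← hu1]
  exact (AC_ofReal_abs_sub_le hu le_rfl zero_le_one le_rfl).trans (lintegral_mono_ae hu3)

/-- **S1** -/
theorem isWUGLoc_iff_curveUG' {f D : X → ℝ} (hf : AEStronglyMeasurable f m) :
    IsWUGLoc m f D ↔ IsL2OnBalls m D ∧ (∀ᵐ x ∂m, 0 ≤ D x) ∧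
      ∀ P : Measure (UCurve X), IsTestPlan2 m P → HasBoundedTracks P → ∀ᵐ γ ∂P, CurveUG f D γ := by
  constructor
  · intro h
    exact ⟨h.1, h.2.1, fun P hP hb => ae_curveUG_of_boundedTracks hf h hP hb⟩
  · rintro ⟨h1, h2, h3⟩
    refine ⟨h1, h2, fun P hP hb => ?_⟩
    apply lintegral_mono_ae
    filter_upwards [h3 P hP hb] with γ hγ
    exact hγ.ofReal_abs_sub_le

/-! ### S9 -/

theorem measurableSet_tracks (o : X) (R : ℝ) :
    MeasurableSet {γ : UCurve X | ∀ t : unitInterval, γ.toMap t ∈ Metric.closedBall o R} := by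
  have : {γ : UCurve X | ∀ t : unitInterval, γ.toMap t ∈ Metric.closedBall o R} =
      ⋂ t : unitInterval, (fun γ : UCurve X => γ.toMap t) ⁻¹' Metric.closedBall o R := by
    ext γ; simp
  rw [this]
  apply IsClosed.measurableSet
  exact isClosed_iInter fun t => Metric.isClosed_closedBall.preimage (continuous_eval_left t)

/-- S9: no bounded tracks -/
theorem ae_curveUG_of_testPlan {f D : X → ℝ} (hf : AEStronglyMeasurable f m)
    (h : IsWUGLoc m f D) {P : Measure (UCurve X)} (hP : IsTestPlan2 m P) :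
    ∀ᵐ γ ∂P, CurveUG f D γ := by
  have : IsProbabilityMeasure P := hP.1
  rcases isEmpty_or_nonempty (UCurve X) with hE | ⟨⟨γ₀⟩⟩
  · exact Eventually.of_forall fun γ => (hE.false γ).elim
  set o : X := γ₀.toMap 0
  set A : ℕ → Set (UCurve X) := fun n =>
    {γ : UCurve X | ∀ t : unitInterval, γ.toMap t ∈ Metric.closedBall o n} with hA
  have h1 : ∀ n : ℕ, ∀ᵐ γ ∂P, γ ∈ A n → CurveUG f D γ := by
    intro n
    by_cases hPA : P (A n) = 0
    · have : ∀ᵐ γ ∂P, γ ∉ A n := measure_eq_zero_iff_ae_notMem.mp hPA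
      filter_upwards [this] with γ hγ hγ'
      exact absurd hγ' hγ
    · have hQ := isTestPlan2_cond hP hPA
      have hmem : ∀ᵐ γ ∂((P (A n))⁻¹ • P.restrict (A n)), ∀ t : unitInterval,
          γ.toMap t ∈ Metric.closedBall o n := by
        apply Measure.ae_smul_measure
        exact ae_restrict_mem (measurableSet_tracks o n)
      have h2 := ae_curveUG_of_boundedTracks hf h hQ ⟨o, n, hmem⟩
      have hinv0 : (P (A n))⁻¹ ≠ 0 := ENNReal.inv_ne_zero.mpr (measure_ne_top P _)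
      rw [Measure.ae_ennreal_smul_measure_iff hinv0] at h2
      rwa [ae_restrict_iff' (measurableSet_tracks o n)] at h2
  have h2 := ae_all_iff.mpr h1
  filter_upwards [h2] with γ hγ
  have hcomp : IsCompact (range γ.toMap) := isCompact_range γ.toMap.continuous
  obtain ⟨R, hR⟩ := hcomp.isBounded.subset_closedBall o
  obtain ⟨n, hn⟩ := exists_nat_ge R
  refine hγ n fun t => ?_
  exact Metric.closedBall_subset_closedBall hn (hR (mem_range_self t))

/-- **S1**, interface form -/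
theorem isWUGLoc_iff_curveUG (_hfin : IsFiniteOnBalls m) {f D : X → ℝ} (hf : IsL2OnBalls m f) :
    IsWUGLoc m f D ↔ IsL2OnBalls m D ∧ (∀ᵐ x ∂m, 0 ≤ D x) ∧
      ∀ P : Measure (UCurve X), IsTestPlan2 m P → HasBoundedTracks P → ∀ᵐ γ ∂P, CurveUG f D γ :=
  isWUGLoc_iff_curveUG' (isL2OnBalls_aestronglyMeasurable hf)

/-- **S9**, interface form -/
theorem IsWUGLoc.ae_curveUG (_hfin : IsFiniteOnBalls m) {f D : X → ℝ} (hf : IsL2OnBalls m f)
    (h : IsWUGLoc m f D) {P : Measure (UCurve X)} (hP : IsTestPlan2 m P) :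
    ∀ᵐ γ ∂P, CurveUG f D γ :=
  ae_curveUG_of_testPlan (isL2OnBalls_aestronglyMeasurable hf) h hP

theorem IsWUGLoc.lintegral_le (hfin : IsFiniteOnBalls m) {f D : X → ℝ} (hf : IsL2OnBalls m f)
    (h : IsWUGLoc m f D) {P : Measure (UCurve X)} (hP : IsTestPlan2 m P) :
    (∫⁻ γ, ENNReal.ofReal |f (γ.toMap 1) - f (γ.toMap 0)| ∂P) ≤
      ∫⁻ γ, (∫⁻ t in Set.Icc (0 : ℝ) 1, ENNReal.ofReal (D (γ.ext t)) * upperSpeed γ t) ∂P := by
  apply lintegral_mono_ae
  filter_upwards [IsWUGLoc.ae_curveUG hfin hf h hP] with γ hγ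
  exact hγ.ofReal_abs_sub_le

theorem ofReal_mul_le_young {a : ℝ} (ha : 0 < a) {d : ℝ} (hd : 0 ≤ d) (s : ℝ≥0∞) :
    ENNReal.ofReal d * s ≤
      ENNReal.ofReal (a / 2) * ENNReal.ofReal (d ^ 2) + ENNReal.ofReal (1 / (2 * a)) * s ^ 2 := by
  rcases eq_or_ne s ⊤ with h | h
  · subst h
    have h1 : ENNReal.ofReal (1 / (2 * a)) * (⊤ : ℝ≥0∞) ^ 2 = ⊤ := by
      rw [ENNReal.top_pow (by norm_num), ENNReal.mul_top]
      exact (ENNReal.ofReal_pos.mpr (by positivity)).ne'
    rw [h1]; simp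
  · obtain ⟨r, hr⟩ : ∃ r : ℝ≥0, s = r := ⟨s.toNNReal, (ENNReal.coe_toNNReal h).symm⟩
    subst hr
    have hr0 : (0 : ℝ) ≤ r := r.2
    have e1 : (r : ℝ≥0∞) = ENNReal.ofReal (r : ℝ) := (ENNReal.ofReal_coe_nnreal).symm
    rw [e1, ← ENNReal.ofReal_pow hr0, ← ENNReal.ofReal_mul hd,
      ← ENNReal.ofReal_mul (by positivity), ← ENNReal.ofReal_mul (by positivity),
      ← ENNReal.ofReal_add (by positivity) (by positivity)]
    apply ENNReal.ofReal_le_ofReal
    have h2 : a / 2 * d ^ 2 + 1 / (2 * a) * (r : ℝ) ^ 2 - d * r =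
        (a * d - r) ^ 2 / (2 * a) := by
      field_simp
      ring
    have h3 : 0 ≤ (a * d - r) ^ 2 / (2 * a) := by positivity
    linarith

theorem IsWUGLoc.lintegral_le_young (hfin : IsFiniteOnBalls m) {f D : X → ℝ} (hf : IsL2OnBalls m f)
    (h : IsWUGLoc m f D) {P : Measure (UCurve X)} (hP : IsTestPlan2 m P) {a : ℝ} (ha : 0 < a) :
    (∫⁻ γ, ENNReal.ofReal |f (γ.toMap 1) - f (γ.toMap 0)| ∂P) ≤
      ENNReal.ofReal (a / 2) *
        (∫⁻ γ, (∫⁻ t in Set.Icc (0 : ℝ) 1, ENNReal.ofReal (D (γ.ext t) ^ 2)) ∂P) +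
      ENNReal.ofReal (1 / (2 * a)) *
        (∫⁻ γ, (∫⁻ t in Set.Icc (0 : ℝ) 1, upperSpeed γ t ^ 2) ∂P) := by
  have hprob : IsProbabilityMeasure P := hP.1
  refine (IsWUGLoc.lintegral_le hfin hf h hP).trans ?_
  obtain ⟨C, hC⟩ := hP.2.1
  have hnn := ae_ae_ext_of_ae hC h.2.1
  have hsp : Measurable (fun γ : UCurve X => ∫⁻ t in Icc (0 : ℝ) 1, upperSpeed γ t ^ 2) := by
    apply Measurable.lintegral_prod_right' (f := fun p : UCurve X × ℝ => upperSpeed p.1 p.2 ^ 2)
    exact measurable_upperSpeed.pow_const 2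
  have h1 : ∀ᵐ γ ∂P, (∫⁻ t in Set.Icc (0 : ℝ) 1, ENNReal.ofReal (D (γ.ext t)) * upperSpeed γ t) ≤
      ENNReal.ofReal (a / 2) * (∫⁻ t in Set.Icc (0 : ℝ) 1, ENNReal.ofReal (D (γ.ext t) ^ 2)) +
        ENNReal.ofReal (1 / (2 * a)) * (∫⁻ t in Set.Icc (0 : ℝ) 1, upperSpeed γ t ^ 2) := by
    filter_upwards [hnn] with γ hγ
    have hm : Measurable (fun t => ENNReal.ofReal (1 / (2 * a)) * upperSpeed γ t ^ 2) :=
      ((measurable_upperSpeed_right γ).pow_const 2).const_mul _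
    rw [← lintegral_const_mul' _ _ ENNReal.ofReal_ne_top,
      ← lintegral_const_mul' _ _ ENNReal.ofReal_ne_top, ← lintegral_add_right _ hm]
    apply lintegral_mono_ae
    filter_upwards [hγ] with t ht
    exact ofReal_mul_le_young ha ht _
  refine (lintegral_mono_ae h1).trans ?_
  rw [lintegral_add_right _ (hsp.const_mul _), lintegral_const_mul' _ _ ENNReal.ofReal_ne_top,
    lintegral_const_mul' _ _ ENNReal.ofReal_ne_top]

end Main

end Crest.Agent.R242
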