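import Crest.Agent.R242.SDefs
import Crest.Agent.R242.SobAC
import Crest.Agent.R242.Curve

/-!
Row 242, part S: construction of the absolutely continuous representative along almost every curve.
-/

set_option autoImplicit false

open MeasureTheory Filter Set
open Crest.GeometryTopology.SyntheticRicci
open scoped ENNReal NNReal Topology

namespace Crest.Agent.R242

section Rep

variable {X : Type*} [MetricSpace X] [SecondCountableTopology X] [MeasurableSpace X] [BorelSpace X]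

theorem lintegral_Icc_add_Icc (ρ : ℝ → ℝ≥0∞) {a p b : ℝ} (h1 : a ≤ p) (h2 : p ≤ b) :
    ∫⁻ r in Icc a b, ρ r = (∫⁻ r in Icc a p, ρ r) + ∫⁻ r in Icc p b, ρ r := by
  rw [← setLIntegral_congr (Ioc_ae_eq_Icc (a := a) (b := b) (μ := (volume : Measure ℝ))),
    ← setLIntegral_congr (Ioc_ae_eq_Icc (a := a) (b := p) (μ := (volume : Measure ℝ))),
    ← setLIntegral_congr (Ioc_ae_eq_Icc (a := p) (b := b) (μ := (volume : Measure ℝ))),
    ← Ioc_union_Ioc_eq_Ioc h1 h2, lintegral_union measurableSet_Ioc]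
  exact Ioc_disjoint_Ioc_of_le le_rfl

theorem measurable_lintegral_uIcc {G : UCurve X × ℝ → ℝ≥0∞} (hG : Measurable G) (p : ℝ) :
    Measurable (fun q : UCurve X × ℝ => ∫⁻ r in uIcc p q.2, G (q.1, r)) := by
  have h : (fun q : UCurve X × ℝ => ∫⁻ r in uIcc p q.2, G (q.1, r)) =
      fun q => ∫⁻ r, (fun z : (UCurve X × ℝ) × ℝ =>
        ({z : (UCurve X × ℝ) × ℝ | z.2 ∈ uIcc p z.1.2}).indicator
          (fun z => G (z.1.1, z.2)) z) (q, r) := by
    ext q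
    rw [← lintegral_indicator measurableSet_uIcc]
    rfl
  rw [h]
  apply Measurable.lintegral_prod_right'
  apply Measurable.indicator
  · exact hG.comp ((measurable_fst.comp measurable_fst).prodMk measurable_snd)
  · have h2 : {z : (UCurve X × ℝ) × ℝ | z.2 ∈ uIcc p z.1.2} =
        {z | min p z.1.2 ≤ z.2} ∩ {z | z.2 ≤ max p z.1.2} := by
      ext z; simp [uIcc, mem_Icc]
    rw [h2]
    apply MeasurableSet.inter
    · exact measurableSet_le (by fun_prop) (by fun_prop)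
    · exact measurableSet_le (by fun_prop) (by fun_prop)

/-- main lemma: absolutely continuous representative along almost every curve -/
theorem ae_exists_AC_rep {ι : Type*} [Countable ι] [Nonempty ι] {P : Measure (UCurve X)}
    [IsFiniteMeasure P] {f : X → ℝ} (hf : Measurable f) {G : ι → UCurve X × ℝ → ℝ≥0∞}
    (hG : ∀ i, Measurable (G i))
    (hfin : ∀ i, ∀ᵐ γ ∂P, ∫⁻ r in Icc (0 : ℝ) 1, G i (γ, r) < ⊤)
    (hb : ∀ i, ∀ s t : ℝ, 0 ≤ s → s ≤ t → t ≤ 1 →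
      ∀ᵐ γ ∂P, ENNReal.ofReal |f (γ.ext t) - f (γ.ext s)| ≤ ∫⁻ r in Icc s t, G i (γ, r)) :
    ∀ᵐ γ ∂P, ∃ u : ℝ → ℝ, AbsolutelyContinuousOnInterval u 0 1 ∧
      u 0 = f (γ.toMap 0) ∧ u 1 = f (γ.toMap 1) ∧
      (∀ᵐ t ∂(volume.restrict (Icc (0 : ℝ) 1)), u t = f (γ.ext t)) ∧
      ∀ i, ∀ᵐ t ∂(volume.restrict (Icc (0 : ℝ) 1)), ENNReal.ofReal |deriv u t| ≤ G i (γ, t) := by
  classical
  set T : Set ℝ := {p | p ∈ range ((↑) : ℚ → ℝ) ∧ 0 ≤ p ∧ p ≤ 1} with hT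
  have hTc : T.Countable := (countable_range _).mono (fun p hp => hp.1)
  have hT0 : (0 : ℝ) ∈ T := ⟨⟨0, by simp⟩, le_rfl, zero_le_one⟩
  have hT1 : (1 : ℝ) ∈ T := ⟨⟨1, by simp⟩, zero_le_one, le_rfl⟩
  have hb' : ∀ i, ∀ s t : ℝ, s ∈ Icc (0 : ℝ) 1 → t ∈ Icc (0 : ℝ) 1 →
      ∀ᵐ γ ∂P, ENNReal.ofReal |f (γ.ext t) - f (γ.ext s)| ≤ ∫⁻ r in uIcc s t, G i (γ, r) := by
    intro i s t hs ht
    rcases le_total s t with h | h
    · rw [uIcc_of_le h]
      exact hb i s t hs.1 h ht.2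
    · rw [uIcc_of_ge h]
      filter_upwards [hb i t s ht.1 h hs.2] with γ hγ
      rwa [abs_sub_comm] at hγ
  -- pairs in T
  have h1 : ∀ᵐ γ ∂P, ∀ i, ∀ p ∈ T, ∀ q ∈ T,
      ENNReal.ofReal |f (γ.ext q) - f (γ.ext p)| ≤ ∫⁻ r in uIcc p q, G i (γ, r) := by
    rw [ae_all_iff]; intro i
    rw [ae_ball_iff hTc]; intro p hp
    rw [ae_ball_iff hTc]; intro q hq
    exact hb' i p q hp.2 hq.2
  -- one time in T, the other arbitrary
  have h2 : ∀ᵐ γ ∂P, ∀ᵐ t ∂(volume.restrict (Icc (0 : ℝ) 1)), ∀ i, ∀ p ∈ T,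
      ENNReal.ofReal |f (γ.ext t) - f (γ.ext p)| ≤ ∫⁻ r in uIcc p t, G i (γ, r) := by
    have h3 : ∀ i, ∀ p ∈ T, ∀ᵐ γ ∂P, ∀ᵐ t ∂(volume.restrict (Icc (0 : ℝ) 1)),
        ENNReal.ofReal |f (γ.ext t) - f (γ.ext p)| ≤ ∫⁻ r in uIcc p t, G i (γ, r) := by
      intro i p hp
      rw [Measure.ae_ae_comm]
      · filter_upwards [ae_restrict_mem measurableSet_Icc] with t ht
        exact hb' i p t hp.2 ht
      · apply measurableSet_le
        · apply ENNReal.measurable_ofReal.comp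
          have hm1 : Measurable (fun x : UCurve X × ℝ => f (x.1.ext x.2)) :=
            hf.comp measurable_evalExt
          have hm2 : Measurable (fun x : UCurve X × ℝ => f (x.1.ext p)) := by
            have : Measurable (fun x : UCurve X × ℝ => (x.1, p)) :=
              measurable_fst.prodMk measurable_const
            exact hf.comp (measurable_evalExt.comp this)
          exact (hm1.sub hm2).abs
        · exact measurable_lintegral_uIcc (hG i) p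
    have h4 : ∀ᵐ γ ∂P, ∀ i, ∀ p ∈ T, ∀ᵐ t ∂(volume.restrict (Icc (0 : ℝ) 1)),
        ENNReal.ofReal |f (γ.ext t) - f (γ.ext p)| ≤ ∫⁻ r in uIcc p t, G i (γ, r) := by
      rw [ae_all_iff]; intro i
      rw [ae_ball_iff hTc]; intro p hp
      exact h3 i p hp
    filter_upwards [h4] with γ hγ
    rw [ae_all_iff]; intro i
    rw [ae_ball_iff hTc]; intro p hp
    exact hγ i p hp
  have h5 : ∀ᵐ γ ∂P, ∀ i, ∫⁻ r in Icc (0 : ℝ) 1, G i (γ, r) < ⊤ := ae_all_iff.mpr hfin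
  filter_upwards [h1, h2, h5] with γ hγ1 hγ2 hγ3
  -- good times
  set S : Set ℝ := {t | t ∈ Icc (0 : ℝ) 1 ∧ ∀ i, ∀ p ∈ T,
    ENNReal.ofReal |f (γ.ext t) - f (γ.ext p)| ≤ ∫⁻ r in uIcc p t, G i (γ, r)} with hS
  have hSsub : S ⊆ Icc 0 1 := fun t ht => ht.1
  have hTS : T ⊆ S := by
    intro t ht
    refine ⟨ht.2, fun i p hp => hγ1 i p hp t ht⟩
  have hSae : ∀ᵐ t ∂(volume.restrict (Icc (0 : ℝ) 1)), t ∈ S := by
    filter_upwards [hγ2, ae_restrict_mem measurableSet_Icc] with t ht htI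
    exact ⟨htI, ht⟩
  have hinc : ∀ i, ∀ s ∈ S, ∀ t ∈ S, s ≤ t →
      ENNReal.ofReal |f (γ.ext t) - f (γ.ext s)| ≤ ∫⁻ r in Icc s t, G i (γ, r) := by
    intro i s hs t ht hst
    rcases eq_or_lt_of_le hst with h | h
    · subst h; simp
    obtain ⟨q, hq1, hq2⟩ := exists_rat_btwn h
    have hqT : (q : ℝ) ∈ T := ⟨⟨q, rfl⟩, hs.1.1.trans hq1.le, hq2.le.trans ht.1.2⟩
    have e1 := hs.2 i q hqT
    have e2 := ht.2 i q hqT
    rw [uIcc_of_ge hq1.le] at e1
    rw [uIcc_of_le hq2.le] at e2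
    rw [lintegral_Icc_add_Icc _ hq1.le hq2.le]
    calc ENNReal.ofReal |f (γ.ext t) - f (γ.ext s)|
        ≤ ENNReal.ofReal (|f (γ.ext s) - f (γ.ext q)| + |f (γ.ext t) - f (γ.ext q)|) := by
          apply ENNReal.ofReal_le_ofReal
          have : f (γ.ext t) - f (γ.ext s) =
              (f (γ.ext t) - f (γ.ext q)) - (f (γ.ext s) - f (γ.ext q)) := by ring
          rw [this]
          exact (abs_sub _ _).trans (by rw [add_comm])
      _ = ENNReal.ofReal |f (γ.ext s) - f (γ.ext q)| +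
          ENNReal.ofReal |f (γ.ext t) - f (γ.ext q)| :=
          ENNReal.ofReal_add (abs_nonneg _) (abs_nonneg _)
      _ ≤ _ := add_le_add e1 e2
  have hex : ∀ i, ∃ u : ℝ → ℝ, AbsolutelyContinuousOnInterval u 0 1 ∧
      (∀ s ∈ S, u s = f (γ.ext s)) ∧
      (∀ᵐ t ∂(volume.restrict (Icc (0 : ℝ) 1)), ENNReal.ofReal |deriv u t| ≤ G i (γ, t)) := by
    intro i
    have hm : Measurable (fun t : ℝ => G i (γ, t)) := (hG i).comp measurable_prodMk_left
    exact exists_AC_of_lintegral_bound hm.aemeasurable (hγ3 i).ne hSsub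
      (g := fun t => f (γ.ext t)) (hinc i)
  choose u hu1 hu2 hu3 using hex
  obtain ⟨i₀⟩ := (inferInstance : Nonempty ι)
  refine ⟨u i₀, hu1 i₀, ?_, ?_, ?_, fun i => ?_⟩
  · rw [hu2 i₀ 0 (hTS hT0), ext_zero]
  · rw [hu2 i₀ 1 (hTS hT1), ext_one]
  · filter_upwards [hSae] with t ht
    exact hu2 i₀ t ht
  · have heq : ∀ᵐ t ∂(volume.restrict (Icc (0 : ℝ) 1)), u i₀ t = u i t := by
      filter_upwards [hSae] with t ht
      rw [hu2 i₀ t ht, hu2 i t ht]
    obtain ⟨_, hd⟩ := AC_eqOn_of_ae_eq (hu1 i₀) (hu1 i) heq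
    filter_upwards [hd, hu3 i] with t ht1 ht2
    rw [ht1]; exact ht2

end Rep

end Crest.Agent.R242
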